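import Crest.Agent.R068.Per

/-! Row 68: the averaging lemma, auxiliary part (abstract `T T*` argument). -/

set_option autoImplicit false
open MeasureTheory Set Filter Topology
open scoped ENNReal
open Crest.AnalysisR.VecCalc3 Crest.AnalysisR.PDE.Boltzmann

namespace Crest.Agent.R068

section abstract
variable {α β : Type*} [MeasurableSpace α] [MeasurableSpace β]

lemma avg_int {μ : Measure α} [IsFiniteMeasure μ] {f : α → ℝ} (hf : Measurable f) {K : ℝ}
    (hK : ∀ x, |f x| ≤ K) : Integrable f μ :=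
  Integrable.of_bound hf.aestronglyMeasurable K (ae_of_all _ hK)

lemma avg_meas {f : α → β → ℝ} (hf : Measurable fun p : α × β => f p.1 p.2) (ν : Measure β)
    [SFinite ν] : Measurable fun a => ∫ b, f a b ∂ν :=
  (StronglyMeasurable.integral_prod_right (f := f) hf.stronglyMeasurable).measurable

lemma avg_bd (μ : Measure α) [IsFiniteMeasure μ] {f : α → ℝ} {K : ℝ} (hK : ∀ x, |f x| ≤ K) :
    |∫ x, f x ∂μ| ≤ K * μ.real univ :=
  norm_integral_le_of_norm_le_const (f := f) (ae_of_all μ hK)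

lemma avg_mul_bd {a b A B : ℝ} (ha : |a| ≤ A) (hb : |b| ≤ B) : |a * b| ≤ A * B := by
  rw [abs_mul]
  exact mul_le_mul ha hb (abs_nonneg _) ((abs_nonneg _).trans ha)

lemma avg_dct {μ : Measure α} [IsFiniteMeasure μ] {f : ℕ → α → ℝ} (hf : ∀ n, Measurable (f n))
    {K : ℝ} (hK : ∀ n x, |f n x| ≤ K) (h : ∀ᵐ x ∂μ, Tendsto (fun n => f n x) atTop (𝓝 0)) :
    Tendsto (fun n => ∫ x, f n x ∂μ) atTop (𝓝 0) := by
  simpa using tendsto_integral_of_dominated_convergence (fun _ => K)
    (fun n => (hf n).aestronglyMeasurable) (integrable_const K) (fun n => ae_of_all _ (hK n)) h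

lemma avg_swap (μ : Measure α) (ν : Measure β) [IsFiniteMeasure μ] [IsFiniteMeasure ν]
    {f : α → β → ℝ} (hf : Measurable fun p : α × β => f p.1 p.2) {K : ℝ} (hK : ∀ a b, |f a b| ≤ K) :
    ∫ a, ∫ b, f a b ∂ν ∂μ = ∫ b, ∫ a, f a b ∂μ ∂ν :=
  integral_integral_swap (avg_int (μ := μ.prod ν) hf fun p => hK p.1 p.2)

lemma avg_L1 {μ : Measure α} [IsFiniteMeasure μ] {f : ℕ → α → ℝ} (hf : ∀ n, Measurable (f n))
    {K : ℝ} (hK : ∀ n x, |f n x| ≤ K) (h : Tendsto (fun n => ∫ x, f n x * f n x ∂μ) atTop (𝓝 0)) :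
    Tendsto (fun n => ∫ x, |f n x| ∂μ) atTop (𝓝 0) := by
  rw [Metric.tendsto_nhds]
  intro ε hε
  set M := μ.real univ with hM
  have hM0 : 0 ≤ M := measureReal_nonneg
  set δ := ε / (M + 2) with hδ
  have hδ0 : 0 < δ := by positivity
  filter_upwards [(tendsto_order.1 h).2 (δ ^ 2) (by positivity)] with n hn
  have i1 : Integrable (fun x => f n x * f n x) μ :=
    avg_int ((hf n).mul (hf n)) fun x => avg_mul_bd (hK n x) (hK n x)
  have h1 : ∫ x, |f n x| ∂μ ≤ ∫ x, (δ + δ⁻¹ * (f n x * f n x)) ∂μ := by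
    refine integral_mono (avg_int (hf n) (hK n)).abs ((integrable_const _).add (i1.const_mul _))
      fun x => ?_
    have e : δ + δ⁻¹ * (f n x * f n x) - |f n x| = ((|f n x| - δ / 2) ^ 2 + 3 / 4 * δ ^ 2) / δ := by
      rw [← abs_mul_abs_self (f n x)]; field_simp; ring
    have : 0 ≤ ((|f n x| - δ / 2) ^ 2 + 3 / 4 * δ ^ 2) / δ := by positivity
    simp only
    linarith
  rw [integral_add (integrable_const _) (i1.const_mul _), integral_const, integral_const_mul,
    smul_eq_mul, ← hM] at h1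
  have h2 : δ⁻¹ * ∫ x, f n x * f n x ∂μ ≤ δ := by
    rw [inv_mul_le_iff₀ hδ0]; nlinarith
  have h3 : δ * (M + 2) = ε := by rw [hδ]; field_simp
  rw [Real.dist_eq, sub_zero, abs_of_nonneg (integral_nonneg fun x => abs_nonneg _)]
  nlinarith

/-- asymptotically orthogonal families have small time averages -/
lemma avg_orth {μ : Measure α} [IsFiniteMeasure μ] (τ : Measure ℝ) [IsFiniteMeasure τ] [NullSingletonClass τ]
    {a : ℕ → ℝ → α → ℝ} (ha : ∀ n, Measurable fun p : ℝ × α => a n p.1 p.2) {K : ℝ}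
    (hK : ∀ n t q, |a n t q| ≤ K)
    (h : ∀ t t', t' ≠ t → Tendsto (fun n => ∫ q, a n t q * a n t' q ∂μ) atTop (𝓝 0)) :
    Tendsto (fun n => ∫ q, |∫ t, a n t q ∂τ| ∂μ) atTop (𝓝 0) := by
  have m0 : ∀ n, Measurable fun p : α × ℝ => a n p.2 p.1 := fun n => (ha n).comp measurable_swap
  have m1 : ∀ n {γ : Type _} [MeasurableSpace γ] {t : γ → ℝ} {q : γ → α}, Measurable t →
      Measurable q → Measurable fun c => a n (t c) (q c) := fun n _ _ _ _ ht hq =>
    (ha n).comp (ht.prodMk hq)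
  refine avg_L1 (fun n => avg_meas (f := fun q t => a n t q) (m0 n) τ)
    (fun n q => avg_bd τ fun t => hK n t q) ?_
  have e : ∀ n, ∫ q, (∫ t, a n t q ∂τ) * (∫ t, a n t q ∂τ) ∂μ =
      ∫ r : ℝ × ℝ, ∫ q, a n r.1 q * a n r.2 q ∂μ ∂(τ.prod τ) := by
    intro n
    rw [avg_swap (τ.prod τ) μ (f := fun r q => a n r.1 q * a n r.2 q)
      ((m1 n (by fun_prop) (by fun_prop)).mul (m1 n (by fun_prop) (by fun_prop)))
      fun r q => avg_mul_bd (hK n _ _) (hK n _ _)]
    refine integral_congr_ae (ae_of_all _ fun q => ?_)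
    exact (integral_prod_mul (μ := τ) (ν := τ) (fun t => a n t q) (fun t => a n t q)).symm
  simp only [e]
  refine avg_dct (fun n => avg_meas (f := fun (r : ℝ × ℝ) q => a n r.1 q * a n r.2 q)
    ((m1 n (by fun_prop) (by fun_prop)).mul (m1 n (by fun_prop) (by fun_prop))) μ)
    (fun n r => avg_bd μ fun q => avg_mul_bd (hK n _ _) (hK n _ _)) ?_
  have : ∀ᵐ r : ℝ × ℝ ∂(τ.prod τ), r.2 ≠ r.1 := by
    rw [Measure.ae_prod_iff_ae_ae]
    · exact ae_of_all _ fun t => by simp [ae_iff]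
    · exact (measurableSet_eq_fun measurable_snd measurable_fst).compl
  filter_upwards [this] with r hr using h _ _ hr

/-- the abstract `T T*` lemma -/
lemma avg_tt {μ : Measure α} [IsFiniteMeasure μ] (τ : Measure ℝ) [IsFiniteMeasure τ] [NullSingletonClass τ]
    {a G : ℕ → ℝ → α → ℝ} (ha : ∀ n, Measurable fun p : ℝ × α => a n p.1 p.2) {K L : ℝ}
    (hK : ∀ n t q, |a n t q| ≤ K) (hG : ∀ n, Measurable fun p : ℝ × α => G n p.1 p.2)
    (hL : ∀ n t q, |G n t q| ≤ L) {χ : ℝ → ℝ → ℝ} (hχ : Measurable fun p : ℝ × ℝ => χ p.1 p.2)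
    (hχ1 : ∀ s t, |χ s t| ≤ 1)
    (h : ∀ t t', t' ≠ t → Tendsto (fun n => ∫ q, a n t q * a n t' q ∂μ) atTop (𝓝 0)) :
    Tendsto (fun n => ∫ t, ∫ q, a n t q * ∫ s, χ s t * G n s q ∂τ ∂μ ∂τ) atTop (𝓝 0) := by
  have m1 : ∀ n {γ : Type _} [MeasurableSpace γ] {t : γ → ℝ} {q : γ → α}, Measurable t →
      Measurable q → Measurable fun c => a n (t c) (q c) := fun n _ _ _ _ ht hq =>
    (ha n).comp (ht.prodMk hq)
  have m2 : ∀ n {γ : Type _} [MeasurableSpace γ] {t : γ → ℝ} {q : γ → α}, Measurable t →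
      Measurable q → Measurable fun c => G n (t c) (q c) := fun n _ _ _ _ ht hq =>
    (hG n).comp (ht.prodMk hq)
  have m3 : ∀ {γ : Type _} [MeasurableSpace γ] {s t : γ → ℝ}, Measurable s →
      Measurable t → Measurable fun c => χ (s c) (t c) := fun hs ht => hχ.comp (hs.prodMk ht)
  set F : ℕ → ℝ → α → ℝ → ℝ := fun n t q s => χ s t * a n t q * G n s q with hF
  have mF : ∀ n {γ : Type _} [MeasurableSpace γ] {t s : γ → ℝ} {q : γ → α}, Measurable t →
      Measurable q → Measurable s → Measurable fun c => F n (t c) (q c) (s c) :=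
    fun n _ _ _ _ _ ht hq hs => ((m3 hs ht).mul (m1 n ht hq)).mul (m2 n hs hq)
  have bF : ∀ n t q s, |F n t q s| ≤ 1 * K * L := fun n t q s =>
    avg_mul_bd (avg_mul_bd (hχ1 _ _) (hK _ _ _)) (hL _ _ _)
  have e : ∀ n, ∫ t, ∫ q, a n t q * ∫ s, χ s t * G n s q ∂τ ∂μ ∂τ =
      ∫ s, ∫ q, (∫ t, χ s t * a n t q ∂τ) * G n s q ∂μ ∂τ := by
    intro n
    have e1 : ∀ t q, a n t q * ∫ s, χ s t * G n s q ∂τ = ∫ s, F n t q s ∂τ := by
      intro t q
      rw [← integral_const_mul]
      exact integral_congr_ae (ae_of_all _ fun s => by simp only [hF]; ring)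
    have e2 : ∀ s q, (∫ t, χ s t * a n t q ∂τ) * G n s q = ∫ t, F n t q s ∂τ := by
      intro s q
      rw [← integral_mul_const]
    simp only [e1, e2]
    have e3 : ∀ t, ∫ q, ∫ s, F n t q s ∂τ ∂μ = ∫ s, ∫ q, F n t q s ∂μ ∂τ := fun t =>
      avg_swap μ τ (mF n (by fun_prop) (by fun_prop) (by fun_prop)) fun _ _ => bF _ _ _ _
    have e4 : ∀ s, ∫ q, ∫ t, F n t q s ∂τ ∂μ = ∫ t, ∫ q, F n t q s ∂μ ∂τ := fun s =>
      avg_swap μ τ (f := fun q t => F n t q s) (mF n (by fun_prop) (by fun_prop) (by fun_prop))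
        fun _ _ => bF _ _ _ _
    simp only [e3, e4]
    exact avg_swap τ τ (f := fun t s => ∫ q, F n t q s ∂μ)
      (avg_meas (f := fun (r : ℝ × ℝ) q => F n r.1 q r.2)
        (mF n (by fun_prop) (by fun_prop) (by fun_prop)) μ) fun t s => avg_bd μ fun q => bF _ _ _ _
  simp only [e]
  have m4 : ∀ n, Measurable fun p : ℝ × α => ∫ t, χ p.1 t * a n t p.2 ∂τ := fun n =>
    avg_meas (f := fun (p : ℝ × α) t => χ p.1 t * a n t p.2)
      ((m3 (by fun_prop) (by fun_prop)).mul (m1 n (by fun_prop) (by fun_prop))) τ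
  have b4 : ∀ n s q, |∫ t, χ s t * a n t q ∂τ| ≤ 1 * K * τ.real univ := fun n s q =>
    avg_bd τ fun t => avg_mul_bd (hχ1 _ _) (hK _ _ _)
  refine avg_dct (fun n => avg_meas (f := fun s q => (∫ t, χ s t * a n t q ∂τ) * G n s q)
    ((m4 n).mul (hG n)) μ) (fun n s => avg_bd μ fun q => avg_mul_bd (b4 n s q) (hL n s q))
    (ae_of_all _ fun s => ?_)
  have h5 := avg_orth (μ := μ) τ (a := fun n t q => χ s t * a n t q)
    (fun n => (m3 (by fun_prop) (by fun_prop)).mul (ha n))
    (fun n t q => avg_mul_bd (hχ1 _ _) (hK _ _ _)) (fun t t' htt => by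
      have := (h t t' htt).const_mul (χ s t * χ s t')
      rw [mul_zero] at this
      refine this.congr fun n => ?_
      rw [← integral_const_mul]
      exact integral_congr_ae (ae_of_all _ fun q => by simp only; ring))
  have h6 := h5.mul_const L
  rw [zero_mul] at h6
  refine squeeze_zero_norm (fun n => ?_) h6
  rw [← integral_mul_const]
  refine norm_integral_le_of_norm_le
    ((avg_int ((m4 n).comp (measurable_const.prodMk measurable_id)) (b4 n s)).abs.mul_const L)
    (ae_of_all _ fun q => ?_)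
  exact avg_mul_bd le_rfl (hL _ _ _)

end abstract

instance avg_cell_finite : IsFiniteMeasure ((volume : Measure R3).restrict cell) :=
  isFiniteMeasure_restrict.2 (by rw [volume_cell]; exact ENNReal.one_ne_top)

instance avg_ball_finite (ρ : ℝ) :
    IsFiniteMeasure ((volume : Measure R3).restrict (Metric.closedBall 0 ρ)) :=
  isFiniteMeasure_restrict.2 measure_closedBall_lt_top.ne

lemma avg_shift (ν : Measure R3) [IsFiniteMeasure ν] {f : R3 → R3 → ℝ} (hf : MeasP f) (hp : PerP f)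
    {K : ℝ} (hK : ∀ x v, |f x v| ≤ K) (t : ℝ) :
    ∫ q, f (q.1 + t • q.2) q.2 ∂((volume.restrict cell).prod ν) = ∫ x in cell, ∫ v, f x v ∂ν := by
  have m : Measurable fun q : R3 × R3 => f (q.1 + t • q.2) q.2 :=
    Measurable.comp (g := fun q : R3 × R3 => f q.1 q.2) (f := fun q : R3 × R3 => (q.1 + t • q.2, q.2))
      hf (by fun_prop)
  rw [integral_prod_symm _ (avg_int m fun q => hK _ _), avg_swap _ ν hf hK]
  refine integral_congr_ae (ae_of_all _ fun v => ?_)
  exact integral_cell_shift (f := fun x => f x v) (hf.comp (measurable_id.prodMk measurable_const))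
    (hp v) (t • v)

lemma avg_scale {B : Set R3} (hB : MeasurableSet B) {c : ℝ} (hc : c ≠ 0) (a : R3) (g : R3 → ℝ) :
    ∫ w in B, g (a + c • w) =
      ∫ y, g y * (|(c ^ 3)⁻¹| * B.indicator (fun _ => (1:ℝ)) (c⁻¹ • (y - a))) := by
  set H : R3 → ℝ := fun y => g y * B.indicator (fun _ => (1:ℝ)) (c⁻¹ • (y - a)) with hH
  have h1 : ∫ w in B, g (a + c • w) = ∫ w, H (a + c • w) := by
    rw [← integral_indicator hB]
    refine integral_congr_ae (ae_of_all _ fun w => ?_)
    simp only [hH, add_sub_cancel_left, smul_smul, inv_mul_cancel₀ hc, one_smul]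
    by_cases hw : w ∈ B <;> simp [hw]
  rw [h1, Measure.integral_comp_smul volume (fun y => H (a + y)) c, integral_add_left_eq_self H a,
    finrank_euclideanSpace_fin, smul_eq_mul, ← integral_const_mul]
  exact integral_congr_ae (ae_of_all _ fun y => by simp only [hH]; ring)

lemma avg_ind_bd {α : Type*} (B : Set α) (x : α) : |B.indicator (fun _ => (1:ℝ)) x| ≤ 1 := by
  by_cases h : x ∈ B <;> simp [h]

/-- the average, with cut-offs that make it globally bounded -/
noncomputable def avgU (g : ℝ → R3 → R3 → ℝ) (φ : R3 → ℝ) (ρ T t : ℝ) (x : R3) : ℝ :=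
  ∫ v in Metric.closedBall 0 ρ, ∫ s in Ioo 0 T,
    (Iio t).indicator (fun _ => (1:ℝ)) s * (φ v * g s (x - (t - s) • v) v)

lemma avg_chi_meas {γ : Type*} [MeasurableSpace γ] {s t : γ → ℝ} (hs : Measurable s)
    (ht : Measurable t) : Measurable fun c => (Iio (t c)).indicator (fun _ => (1:ℝ)) (s c) := by
  simp only [indicator, mem_Iio]
  exact Measurable.ite (measurableSet_lt hs ht) measurable_const measurable_const

section concrete
variable {g : ℝ → R3 → R3 → ℝ} {φ : R3 → ℝ} {L C ρ T : ℝ}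

lemma avg_ker_meas (hm : MeasT g) (hφ : Measurable φ) {γ : Type} [MeasurableSpace γ]
    {s t : γ → ℝ} {x v : γ → R3} (hs : Measurable s) (ht : Measurable t) (hx : Measurable x)
    (hv : Measurable v) : Measurable fun c =>
      (Iio (t c)).indicator (fun _ => (1:ℝ)) (s c) * (φ (v c) * g (s c) (x c) (v c)) :=
  (avg_chi_meas hs ht).mul ((hφ.comp hv).mul (hm.comp hs hx hv))

lemma avg_ker_bd (hb : ∀ t x v, |g t x v| ≤ L) (hφb : ∀ v, |φ v| ≤ C) (s t : ℝ) (x v : R3) :
    |(Iio t).indicator (fun _ => (1:ℝ)) s * (φ v * g s x v)| ≤ 1 * (C * L) :=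
  avg_mul_bd (avg_ind_bd _ _) (avg_mul_bd (hφb _) (hb _ _ _))

lemma avgU_meas (hm : MeasT g) (hφ : Measurable φ) {γ : Type} [MeasurableSpace γ]
    {t : γ → ℝ} {x : γ → R3} (ht : Measurable t) (hx : Measurable x) :
    Measurable fun c => avgU g φ ρ T (t c) (x c) :=
  avg_meas (avg_meas (f := fun (p : γ × R3) s => (Iio (t p.1)).indicator (fun _ => (1:ℝ)) s *
    (φ p.2 * g s (x p.1 - (t p.1 - s) • p.2) p.2))
    (avg_ker_meas hm hφ (by fun_prop) (by fun_prop) (by fun_prop) (by fun_prop)) _) _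

lemma avgU_bd (hb : ∀ t x v, |g t x v| ≤ L) (hφb : ∀ v, |φ v| ≤ C) (t : ℝ) (x : R3) :
    |avgU g φ ρ T t x| ≤ 1 * (C * L) * (volume.restrict (Ioo 0 T)).real univ *
      ((volume : Measure R3).restrict (Metric.closedBall 0 ρ)).real univ :=
  avg_bd _ fun _ => avg_bd _ fun _ => avg_ker_bd hb hφb _ _ _ _

lemma avgU_per (hp : PerT g) (t : ℝ) : IsPeriodic3 (avgU g φ ρ T t) := by
  intro x i
  unfold avgU
  simp only [add_sub_right_comm x, (hp _ _ _ i : g _ (_ + _) _ = _)]

lemma avgU_eq (hφs : ∀ v, φ v ≠ 0 → ‖v‖ ≤ ρ) {t : ℝ} (ht : t ≤ T) (x : R3) :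
    avgU g φ ρ T t x = ∫ v, φ v * ∫ s in Ioo (0:ℝ) t, g s (x - (t - s) • v) v := by
  unfold avgU
  refine Eq.trans ?_ (setIntegral_eq_integral_of_forall_compl_eq_zero
    (s := Metric.closedBall (0:R3) ρ) ?_)
  · refine integral_congr_ae (ae_of_all _ fun v => ?_)
    have e : Iio t ∩ Ioo 0 T = Ioo 0 t := by
      ext s; simp only [mem_inter_iff, mem_Iio, mem_Ioo]
      exact ⟨fun h => ⟨h.2.1, h.1⟩, fun h => ⟨h.2, h.1, h.2.trans_le ht⟩⟩
    simp only
    rw [← integral_const_mul (φ v), ← e, ← Measure.restrict_restrict measurableSet_Iio,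
      ← integral_indicator measurableSet_Iio]
    refine integral_congr_ae (ae_of_all _ fun s => ?_)
    by_cases h : s ∈ Iio t <;> simp [h]
  · intro v hv
    rw [of_not_not fun h => hv (mem_closedBall_zero_iff.2 (hφs v h)), zero_mul]

/-- the test function that represents a local mean of `avgU` -/
noncomputable def avgPsi (φ : R3 → ℝ) (ρ T t c : ℝ) (x : R3) (p : ℝ × R3 × R3) : ℝ :=
  (Ioo 0 T).indicator (fun _ => (1:ℝ)) p.1 *
    ((Metric.closedBall (0:R3) ρ).indicator (fun _ => (1:ℝ)) p.2.2 *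
      ((Iio t).indicator (fun _ => (1:ℝ)) p.1 * φ p.2.2 * (|(c ^ 3)⁻¹| *
        (Metric.closedBall (0:R3) ρ).indicator (fun _ => (1:ℝ))
          (c⁻¹ • (p.2.1 - (x - (t - p.1) • p.2.2))))))

lemma avgPsi_int (hφ : Measurable φ) (hφb : ∀ v, |φ v| ≤ C) (t : ℝ) {c : ℝ} (hc : c ≠ 0) (x : R3) :
    Integrable (avgPsi φ ρ T t c x) := by
  have mB : Measurable ((Metric.closedBall (0:R3) ρ).indicator fun _ => (1:ℝ)) :=
    measurable_const.indicator measurableSet_closedBall
  have mI : Measurable ((Ioo 0 T).indicator fun _ => (1:ℝ)) :=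
    measurable_const.indicator measurableSet_Ioo
  have m : Measurable (avgPsi φ ρ T t c x) :=
    (mI.comp measurable_fst).mul ((mB.comp (by fun_prop)).mul
      (((avg_chi_meas measurable_fst measurable_const).mul (hφ.comp (by fun_prop))).mul
        (measurable_const.mul (mB.comp (by fun_prop)))))
  set S : Set (ℝ × R3 × R3) := Ioo 0 T ×ˢ (Metric.closedBall 0 (‖x‖ + (|t| + T) * ρ + |c| * ρ) ×ˢ
    Metric.closedBall 0 ρ) with hS
  have hSb : Bornology.IsBounded S :=
    (Metric.isBounded_Ioo _ _).prod (Metric.isBounded_closedBall.prod Metric.isBounded_closedBall)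
  rw [← integrableOn_iff_integrable_of_support_subset (s := S)]
  · exact Measure.integrableOn_of_bounded hSb.measure_lt_top.ne m.aestronglyMeasurable
      (ae_of_all _ fun p => avg_mul_bd (avg_ind_bd _ _) (avg_mul_bd (avg_ind_bd _ _)
        (avg_mul_bd (avg_mul_bd (avg_ind_bd _ _) (hφb _)) (avg_mul_bd le_rfl (avg_ind_bd _ _)))))
  · rintro ⟨s, y, v⟩ hp
    simp only [Function.mem_support, avgPsi, ne_eq, mul_eq_zero, not_or, indicator_apply_eq_zero,
      one_ne_zero, imp_false, not_not] at hp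
    obtain ⟨h1, h2, -, -, h3⟩ := hp
    refine ⟨h1, ?_, h2⟩
    rw [mem_closedBall_zero_iff] at h2 h3 ⊢
    have e : y = x - (t - s) • v + c • c⁻¹ • (y - (x - (t - s) • v)) := by
      rw [smul_smul, mul_inv_cancel₀ hc, one_smul]; abel
    have h4 : ‖(t - s) • v‖ ≤ (|t| + T) * ρ := by
      rw [norm_smul]
      refine mul_le_mul ((abs_sub _ _).trans ?_) h2 (norm_nonneg _)
        (add_nonneg (abs_nonneg _) (h1.1.trans h1.2).le)
      rw [abs_of_pos h1.1]; linarith [h1.2]
    have h5 : ‖c • c⁻¹ • (y - (x - (t - s) • v))‖ ≤ |c| * ρ := by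
      rw [norm_smul]; exact mul_le_mul_of_nonneg_left h3 (abs_nonneg _)
    simp only
    rw [e]
    exact (norm_add_le _ _).trans (add_le_add ((norm_sub_le _ _).trans (by linarith)) h5)

lemma avgU_mean (hm : MeasT g) (hb : ∀ t x v, |g t x v| ≤ L) (hφ : Measurable φ)
    (hφb : ∀ v, |φ v| ≤ C) (t : ℝ) {c : ℝ} (hc : c ≠ 0) (x : R3) :
    ∫ w in Metric.closedBall 0 ρ, avgU g φ ρ T t (x + c • w) =
      ∫ p : ℝ × R3 × R3, g p.1 p.2.1 p.2.2 * avgPsi φ ρ T t c x p := by
  have hi : Integrable fun p : ℝ × R3 × R3 => g p.1 p.2.1 p.2.2 * avgPsi φ ρ T t c x p :=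
    (avgPsi_int hφ hφb t hc x).bdd_mul (Measurable.aestronglyMeasurable hm)
      (ae_of_all _ fun p => hb _ _ _)
  set F : R3 → R3 → ℝ → ℝ := fun w v s =>
    (Iio t).indicator (fun _ => (1:ℝ)) s * (φ v * g s (x + c • w - (t - s) • v) v) with hF
  have mF : ∀ {γ : Type} [MeasurableSpace γ] {s : γ → ℝ} {w v : γ → R3}, Measurable w →
      Measurable v → Measurable s → Measurable fun a => F (w a) (v a) (s a) :=
    fun hw hv hs => avg_ker_meas hm hφ hs measurable_const (by fun_prop) hv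
  have bF : ∀ w v s, |F w v s| ≤ 1 * (C * L) := fun w v s => avg_ker_bd hb hφb _ _ _ _
  have e1 : ∫ w in Metric.closedBall 0 ρ, avgU g φ ρ T t (x + c • w) =
      ∫ s in Ioo 0 T, ∫ v in Metric.closedBall 0 ρ, ∫ w in Metric.closedBall 0 ρ, F w v s := by
    change ∫ w in Metric.closedBall 0 ρ, ∫ v in Metric.closedBall 0 ρ, ∫ s in Ioo 0 T, F w v s = _
    rw [avg_swap _ _ (f := fun w v => ∫ s in Ioo 0 T, F w v s)
      (avg_meas (f := fun (p : R3 × R3) s => F p.1 p.2 s)
        (mF (by fun_prop) (by fun_prop) (by fun_prop)) _) fun w v => avg_bd _ fun s => bF _ _ _,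
      avg_swap _ _ (f := fun s v => ∫ w in Metric.closedBall 0 ρ, F w v s)
      (avg_meas (f := fun (p : ℝ × R3) w => F w p.2 p.1)
        (mF (by fun_prop) (by fun_prop) (by fun_prop)) _) fun s v => avg_bd _ fun w => bF _ _ _]
    refine integral_congr_ae (ae_of_all _ fun v => ?_)
    exact avg_swap _ _ (f := fun w s => F w v s) (mF (by fun_prop) (by fun_prop) (by fun_prop))
      fun w s => bF _ _ _
  rw [e1, Measure.volume_eq_prod, integral_prod _ hi, ← integral_indicator measurableSet_Ioo]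
  refine integral_congr_ae ?_
  filter_upwards [hi.prod_right_ae] with s hs
  rw [Measure.volume_eq_prod, integral_prod_symm _ hs]
  by_cases h1 : s ∈ Ioo 0 T
  swap
  · simp only [avgPsi, indicator_of_notMem h1, zero_mul, mul_zero, integral_zero]
  rw [indicator_of_mem h1, ← integral_indicator measurableSet_closedBall]
  refine integral_congr_ae (ae_of_all _ fun v => ?_)
  by_cases h2 : v ∈ Metric.closedBall (0:R3) ρ
  swap
  · simp only [avgPsi, indicator_of_notMem h2, zero_mul, mul_zero, integral_zero]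
  simp only [avgPsi, indicator_of_mem h1, indicator_of_mem h2, hF, add_sub_right_comm x]
  rw [integral_const_mul, integral_const_mul,
    avg_scale measurableSet_closedBall hc _ (fun y => g s y v), ← integral_const_mul,
    ← integral_const_mul]
  exact integral_congr_ae (ae_of_all _ fun y => by simp only; ring)

end concrete

theorem avg_main {g : ℕ → ℝ → R3 → R3 → ℝ} (hm : ∀ n, MeasT (g n)) (hp : ∀ n, PerT (g n)) {L : ℝ}
    (hb : ∀ n t x v, |g n t x v| ≤ L)
    (hw : ∀ ψ : ℝ × R3 × R3 → ℝ, Integrable ψ →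
      Tendsto (fun n => ∫ p : ℝ × R3 × R3, g n p.1 p.2.1 p.2.2 * ψ p) atTop (𝓝 0))
    {φ : R3 → ℝ} (hφ : Measurable φ) {C ρ : ℝ} (hφb : ∀ v, |φ v| ≤ C) (hφs : ∀ v, φ v ≠ 0 → ‖v‖ ≤ ρ)
    (T : ℝ) :
    Tendsto (fun n => ∫⁻ p in Ioo (0:ℝ) T ×ˢ cell,
      ‖∫ v, φ v * ∫ s in Ioo (0:ℝ) p.1, g n s (p.2 - (p.1 - s) • v) v‖ₑ ∂(volume : Measure (ℝ × R3)))
      atTop (𝓝 0) := by
  set ν : Measure R3 := volume.restrict (Metric.closedBall 0 ρ) with hν
  set τ : Measure ℝ := volume.restrict (Ioo 0 T) with hτ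
  set κ : Measure R3 := volume.restrict cell with hκ
  set U : ℕ → ℝ → R3 → ℝ := fun n => avgU (g n) φ ρ T with hU
  have mU : ∀ n {γ : Type} [MeasurableSpace γ] {t : γ → ℝ} {x : γ → R3}, Measurable t →
      Measurable x → Measurable fun c => U n (t c) (x c) :=
    fun n _ _ _ _ ht hx => avgU_meas (hm n) hφ ht hx
  have bU := fun n => avgU_bd (ρ := ρ) (T := T) (hb n) hφb
  have pU : ∀ n t, IsPeriodic3 (U n t) := fun n t => avgU_per (hp n) t
  have h1 := avg_tt (μ := κ.prod ν) τ (a := fun n t q => U n t (q.1 + t • q.2))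
    (G := fun n s q => φ q.2 * g n s (q.1 + s • q.2) q.2)
    (fun n => mU n (by fun_prop) (by fun_prop)) (fun n t q => bU n _ _)
    (fun n => (hφ.comp (by fun_prop)).mul ((hm n).comp (by fun_prop) (by fun_prop) (by fun_prop)))
    (fun n s q => avg_mul_bd (hφb _) (hb _ _ _ _))
    (χ := fun s t => (Iio t).indicator (fun _ => (1:ℝ)) s) (avg_chi_meas measurable_fst measurable_snd)
    (fun s t => avg_ind_bd _ _) (fun t t' htt => by
      have e : ∀ n, ∫ q, U n t (q.1 + t • q.2) * U n t' (q.1 + t' • q.2) ∂(κ.prod ν) =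
          ∫ x, U n t x * ∫ w, U n t' (x + (t' - t) • w) ∂ν ∂κ := by
        intro n
        simp only [← integral_const_mul]
        rw [← avg_shift ν (f := fun x w => U n t x * U n t' (x + (t' - t) • w))
          ((mU n (by fun_prop) (by fun_prop)).mul (mU n (by fun_prop) (by fun_prop)))
          (fun v x i => by
            simp only [add_right_comm x (EuclideanSpace.single i 1), pU n _ _ i])
          (fun x v => avg_mul_bd (bU n _ _) (bU n _ _)) t]
        refine integral_congr_ae (ae_of_all _ fun q => ?_)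
        simp only [add_assoc, ← add_smul, add_sub_cancel]
      simp only [e]
      refine avg_dct (fun n => (mU n (by fun_prop) (by fun_prop)).mul
        (avg_meas (f := fun x w => U n t' (x + (t' - t) • w)) (mU n (by fun_prop) (by fun_prop)) ν))
        (fun n x => avg_mul_bd (bU n _ _) (avg_bd ν fun w => bU n _ _)) (ae_of_all _ fun x => ?_)
      have h2 := hw _ (avgPsi_int (ρ := ρ) (T := T) hφ hφb t' (sub_ne_zero.2 htt) x)
      replace h2 := h2.congr fun n => (avgU_mean (hm n) (hb n) hφ hφb t' (sub_ne_zero.2 htt) x).symm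
      have h3 := h2.abs.const_mul (1 * (C * L) * τ.real univ * ν.real univ)
      rw [abs_zero, mul_zero] at h3
      exact squeeze_zero_norm (fun n => avg_mul_bd (bU n _ _) le_rfl) h3)
  have e2 : ∀ n, ∫ t, ∫ q, U n t (q.1 + t • q.2) * ∫ s, (Iio t).indicator (fun _ => (1:ℝ)) s *
      (φ q.2 * g n s (q.1 + s • q.2) q.2) ∂τ ∂(κ.prod ν) ∂τ =
      ∫ p, U n p.1 p.2 * U n p.1 p.2 ∂(τ.prod κ) := by
    intro n
    rw [integral_prod _ (avg_int (f := fun p : ℝ × R3 => U n p.1 p.2 * U n p.1 p.2) ((mU n (by fun_prop) (by fun_prop)).mul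
      (mU n (by fun_prop) (by fun_prop))) fun p => avg_mul_bd (bU n _ _) (bU n _ _))]
    refine integral_congr_ae (ae_of_all _ fun t => ?_)
    have e3 := avg_shift ν (f := fun x v => U n t x * ∫ s, (Iio t).indicator (fun _ => (1:ℝ)) s *
      (φ v * g n s (x - (t - s) • v) v) ∂τ)
      ((mU n (by fun_prop) (by fun_prop)).mul (avg_meas (f := fun (q : R3 × R3) s =>
        (Iio t).indicator (fun _ => (1:ℝ)) s * (φ q.2 * g n s (q.1 - (t - s) • q.2) q.2))
        (avg_ker_meas (hm n) hφ (by fun_prop) (by fun_prop) (by fun_prop) (by fun_prop)) τ))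
      (fun v x i => by
        simp only [add_sub_right_comm x, pU n _ _ i, (hp n _ _ _ i : g n _ (_ + _) _ = _)])
      (fun x v => avg_mul_bd (bU n _ _) (avg_bd τ fun s => avg_ker_bd (hb n) hφb _ _ _ _)) t
    simp only [integral_const_mul, add_sub_assoc, ← sub_smul, sub_sub_cancel] at e3
    exact e3
  simp only [e2] at h1
  have h4 := avg_L1 (f := fun n (p : ℝ × R3) => U n p.1 p.2) (fun n => mU n (by fun_prop) (by fun_prop))
    (fun n p => bU n _ _) h1
  have h5 := ENNReal.tendsto_ofReal h4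
  rw [ENNReal.ofReal_zero] at h5
  refine h5.congr fun n => ?_
  rw [Measure.volume_eq_prod, ← Measure.prod_restrict]
  refine (ofReal_integral_norm_eq_lintegral_enorm (avg_int (μ := τ.prod κ)
    (f := fun p : ℝ × R3 => U n p.1 p.2) (mU n (by fun_prop) (by fun_prop)) fun p => bU n _ _)).trans ?_
  refine lintegral_congr_ae ?_
  rw [hτ, hκ, Measure.prod_restrict]
  filter_upwards [ae_restrict_mem (measurableSet_Ioo.prod measurableSet_cell)] with p hp
  rw [← avgU_eq hφs hp.1.2.le]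

end Crest.Agent.R068
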