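import Crest.Agent.R068.Basic

/-! Row 68: weak-* sequential compactness of the unit ball of `L^∞` (auxiliary to `Avg`). -/

set_option autoImplicit false
open MeasureTheory Set Filter Topology
open scoped ENNReal
open Crest.AnalysisR.VecCalc3 Crest.AnalysisR.PDE.Boltzmann

namespace Crest.Agent.R068

/-- bounded sequences of a separable Hilbert space have weakly convergent subsequences -/
lemma wk_hilbert {H : Type} [NormedAddCommGroup H] [InnerProductSpace ℝ H] [CompleteSpace H]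
    [TopologicalSpace.SeparableSpace H] {u : ℕ → H} {C : ℝ} (hu : ∀ n, ‖u n‖ ≤ C) :
    ∃ (φ : ℕ → ℕ) (w : H), StrictMono φ ∧
      ∀ y, Tendsto (fun n => inner ℝ (u (φ n)) y) atTop (𝓝 (inner ℝ w y)) := by
  have h := WeakDual.isSeqCompact_closedBall ℝ H (0 : StrongDual ℝ H) C
  obtain ⟨a, -, φ, hφ, hlim⟩ := h
    (x := fun n => StrongDual.toWeakDual (InnerProductSpace.toDual ℝ H (u n))) (fun n => by
      simpa using hu n)
  refine ⟨φ, (InnerProductSpace.toDual ℝ H).symm (WeakDual.toStrongDual a), hφ, fun y => ?_⟩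
  have h2 := ((WeakDual.eval_continuous y).tendsto a).comp hlim
  rw [InnerProductSpace.toDual_symm_apply]
  exact h2

lemma wk_integrable_mul {X : Type} [MeasurableSpace X] {μ : Measure X} {f ψ : X → ℝ}
    (hf : Measurable f) (hb : ∀ x, |f x| ≤ 1) (hψ : Integrable ψ μ) :
    Integrable (fun x => f x * ψ x) μ :=
  hψ.bdd_mul (c := 1) hf.aestronglyMeasurable (Eventually.of_forall fun x => by simpa using hb x)

lemma wk_abs_integral_le {X : Type} [MeasurableSpace X] {μ : Measure X} {f ψ : X → ℝ}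
    (hb : ∀ x, |f x| ≤ 1) (hψ : Integrable ψ μ) : |∫ x, f x * ψ x ∂μ| ≤ ∫ x, ‖ψ x‖ ∂μ := by
  rw [← Real.norm_eq_abs]
  refine norm_integral_le_of_norm_le hψ.norm (Eventually.of_forall fun x => ?_)
  rw [norm_mul]
  exact mul_le_of_le_one_left (norm_nonneg _) (hb x)

lemma wk_finite {X : Type} [MeasurableSpace X] [MeasurableSpace.CountablyGenerated X]
    (ν : Measure X) [IsFiniteMeasure ν] {f : ℕ → X → ℝ} (hm : ∀ n, Measurable (f n))
    (hb : ∀ n x, |f n x| ≤ 1) :
    ∃ (φ : ℕ → ℕ) (G : X → ℝ), StrictMono φ ∧ Measurable G ∧ (∀ x, |G x| ≤ 1) ∧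
      ∀ ψ : X → ℝ, Integrable ψ ν →
        Tendsto (fun n => ∫ x, f (φ n) x * ψ x ∂ν) atTop (𝓝 (∫ x, G x * ψ x ∂ν)) := by
  have hL : ∀ n, MemLp (f n) 2 ν := fun n =>
    MemLp.of_bound (hm n).aestronglyMeasurable 1 (Eventually.of_forall fun x => hb n x)
  have : Fact ((2 : ℝ≥0∞) ≠ ∞) := ⟨by simp⟩
  obtain ⟨φ, w, hφ, hw⟩ := wk_hilbert (H := Lp ℝ 2 ν) (u := fun n => (hL n).toLp (f n))
    (C := measureUnivNNReal ν ^ (2 : ℝ≥0∞).toReal⁻¹ * 1) (fun n =>
      Lp.norm_le_of_ae_bound zero_le_one (by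
        filter_upwards [(hL n).coeFn_toLp] with x hx
        rw [hx]; exact hb n x))
  have h2 : ∀ ψ : X → ℝ, MemLp ψ 2 ν →
      Tendsto (fun n => ∫ x, f (φ n) x * ψ x ∂ν) atTop (𝓝 (∫ x, w x * ψ x ∂ν)) := fun ψ hψ => by
    have h := hw (hψ.toLp ψ)
    have e1 : ∀ n, inner ℝ ((hL n).toLp (f n)) (hψ.toLp ψ) = ∫ x, f n x * ψ x ∂ν := fun n => by
      rw [L2.inner_def]
      refine integral_congr_ae ?_
      filter_upwards [(hL n).coeFn_toLp, hψ.coeFn_toLp] with x h1 h2
      rw [h1, h2]; simp [mul_comm]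
    have e2 : inner ℝ w (hψ.toLp ψ) = ∫ x, w x * ψ x ∂ν := by
      rw [L2.inner_def]
      refine integral_congr_ae ?_
      filter_upwards [hψ.coeFn_toLp] with x h2
      rw [h2]; simp [mul_comm]
    simpa only [e1, e2] using h
  have hwi : Integrable w ν := (Lp.memLp w).integrable one_le_two
  have hset : ∀ s, MeasurableSet s → |∫ x in s, w x ∂ν| ≤ ∫ _ in s, (1 : ℝ) ∂ν := fun s hs => by
    have hψ : MemLp (s.indicator fun _ => (1 : ℝ)) 2 ν := (memLp_const 1).indicator hs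
    have h := (h2 _ hψ).abs
    have e : ∫ x, w x * s.indicator (fun _ => (1 : ℝ)) x ∂ν = ∫ x in s, w x ∂ν := by
      rw [← integral_indicator hs]
      refine integral_congr_ae (Eventually.of_forall fun x => ?_)
      by_cases hx : x ∈ s <;> simp [hx]
    rw [e] at h
    refine le_of_tendsto' h fun n => (wk_abs_integral_le (hb _) (hψ.integrable one_le_two)).trans
      (le_of_eq ?_)
    rw [← integral_indicator hs]
    refine integral_congr_ae (Eventually.of_forall fun x => ?_)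
    by_cases hx : x ∈ s <;> simp [hx]
  have hle : w ≤ᵐ[ν] fun _ => (1 : ℝ) :=
    ae_le_of_forall_setIntegral_le hwi (integrable_const 1) fun s hs _ =>
      (le_abs_self _).trans (hset s hs)
  have hge : (fun _ => (-1 : ℝ)) ≤ᵐ[ν] w :=
    ae_le_of_forall_setIntegral_le (integrable_const (-1)) hwi fun s hs _ => by
      rw [integral_neg]
      exact (abs_le.1 (hset s hs)).1
  set G : X → ℝ := fun x => max (-1) (min 1 (w x)) with hG
  have hGm : Measurable G :=
    measurable_const.max (measurable_const.min (Lp.stronglyMeasurable w).measurable)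
  have hGb : ∀ x, |G x| ≤ 1 := fun x =>
    abs_le.2 ⟨le_max_left _ _, max_le (by norm_num) (min_le_left _ _)⟩
  have hGw : G =ᵐ[ν] w := by
    filter_upwards [hle, hge] with x h1 h2
    simp only [hG]
    rw [min_eq_right h1, max_eq_right h2]
  refine ⟨φ, G, hφ, hGm, hGb, fun ψ hψ => ?_⟩
  rw [Metric.tendsto_atTop]
  intro ε hε
  obtain ⟨χ, hχ, -⟩ := (memLp_one_iff_integrable.2 hψ).exists_simpleFunc_eLpNorm_sub_lt
    ENNReal.one_ne_top (ε := ENNReal.ofReal (ε / 3)) (by simpa using hε)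
  have hχ2 : MemLp χ 2 ν := χ.memLp_of_isFiniteMeasure 2 ν
  have hχ1 : Integrable χ ν := hχ2.integrable one_le_two
  have hd : ∫ x, ‖(ψ - ⇑χ) x‖ ∂ν < ε / 3 := by
    rw [eLpNorm_one_eq_lintegral_enorm, ← ofReal_integral_norm_eq_lintegral_enorm (hψ.sub hχ1),
      ENNReal.ofReal_lt_ofReal_iff (by positivity)] at hχ
    exact hχ
  have hsplit : ∀ g : X → ℝ, Measurable g → (∀ x, |g x| ≤ 1) →
      |∫ x, g x * ψ x ∂ν - ∫ x, g x * χ x ∂ν| < ε / 3 := fun g hg hgb => by
    rw [← integral_sub (wk_integrable_mul hg hgb hψ) (wk_integrable_mul hg hgb hχ1)]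
    refine lt_of_le_of_lt (le_of_eq_of_le ?_ (wk_abs_integral_le hgb (hψ.sub hχ1))) hd
    simp only [Pi.sub_apply, mul_sub]
  have h3 := h2 χ hχ2
  have e : ∫ x, w x * χ x ∂ν = ∫ x, G x * χ x ∂ν := by
    refine integral_congr_ae ?_
    filter_upwards [hGw] with x hx
    rw [hx]
  rw [e, Metric.tendsto_atTop] at h3
  obtain ⟨N, hN⟩ := h3 (ε / 3) (by positivity)
  refine ⟨N, fun n hn => ?_⟩
  have a1 := abs_lt.1 (hsplit _ (hm (φ n)) (hb (φ n)))
  have a2 := abs_lt.1 (hsplit _ hGm hGb)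
  have a3 := hN n hn
  rw [Real.dist_eq] at a3 ⊢
  have a4 := abs_lt.1 a3
  rw [abs_lt]
  constructor <;> linarith [a1.1, a1.2, a2.1, a2.2, a4.1, a4.2]

lemma wk_sigmaFinite {X : Type} [MeasurableSpace X] [MeasurableSpace.CountablyGenerated X]
    (μ : Measure X) [SigmaFinite μ] {f : ℕ → X → ℝ} (hm : ∀ n, Measurable (f n))
    (hb : ∀ n x, |f n x| ≤ 1) :
    ∃ (φ : ℕ → ℕ) (G : X → ℝ), StrictMono φ ∧ Measurable G ∧ (∀ x, |G x| ≤ 1) ∧
      ∀ ψ : X → ℝ, Integrable ψ μ →
        Tendsto (fun n => ∫ x, f (φ n) x * ψ x ∂μ) atTop (𝓝 (∫ x, G x * ψ x ∂μ)) := by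
  obtain ⟨φ, G, hφ, hG, hGb, h⟩ := wk_finite μ.toFinite hm hb
  have hac : μ ≪ μ.toFinite := absolutelyContinuous_toFinite μ
  refine ⟨φ, G, hφ, hG, hGb, fun ψ hψ => ?_⟩
  have h1 := h _ ((integrable_toReal_rnDeriv_mul_iff hac).2 hψ)
  have e : ∀ g : X → ℝ, ∫ x, g x * ((μ.rnDeriv μ.toFinite x).toReal * ψ x) ∂μ.toFinite =
      ∫ x, g x * ψ x ∂μ := fun g => by
    rw [← integral_toReal_rnDeriv_mul hac]
    simp only [mul_left_comm]
  simpa only [e] using h1

/-- translation in the position variable -/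
lemma wk_shift (a : R3) :
    MeasurePreserving (fun p : ℝ × R3 × R3 => (p.1, p.2.1 + a, p.2.2)) volume volume := by
  exact (MeasurePreserving.id (volume : Measure ℝ)).prod
    ((measurePreserving_add_right (volume : Measure R3) a).prod
      (MeasurePreserving.id (volume : Measure R3)))

lemma wk_shift_emb (a : R3) :
    MeasurableEmbedding (fun p : ℝ × R3 × R3 => (p.1, p.2.1 + a, p.2.2)) := by
  have h := measurableEmbedding_addRight ((0 : ℝ), a, (0 : R3))
  convert h using 1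
  funext p
  ext <;> simp

theorem weak_subseq_aux {g : ℕ → ℝ → R3 → R3 → ℝ} (hm : ∀ n, MeasT (g n)) (hp : ∀ n, PerT (g n))
    (hb : ∀ n t x v, |g n t x v| ≤ 1) :
    ∃ (φ : ℕ → ℕ) (G : ℝ → R3 → R3 → ℝ), StrictMono φ ∧ MeasT G ∧ PerT G ∧ (∀ t x v, |G t x v| ≤ 1) ∧
      ∀ ψ : ℝ × R3 × R3 → ℝ, Integrable ψ →
        Tendsto (fun n => ∫ p : ℝ × R3 × R3, g (φ n) p.1 p.2.1 p.2.2 * ψ p) atTop
          (𝓝 (∫ p : ℝ × R3 × R3, G p.1 p.2.1 p.2.2 * ψ p)) := by
  obtain ⟨φ, G, hφ, hG, hGb, h⟩ := wk_sigmaFinite (volume : Measure (ℝ × R3 × R3))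
    (f := fun n p => g n p.1 p.2.1 p.2.2) hm (fun n p => hb n _ _ _)
  have hint : ∀ (F ψ : ℝ × R3 × R3 → ℝ) (a : R3),
      ∫ p, F p * ψ (p.1, p.2.1 + -a, p.2.2) = ∫ p : ℝ × R3 × R3, F (p.1, p.2.1 + a, p.2.2) * ψ p :=
    fun F ψ a => by
      have h1 := (wk_shift a).integral_comp (wk_shift_emb a)
        (fun p => F p * ψ (p.1, p.2.1 + -a, p.2.2))
      rw [← h1]
      refine integral_congr_ae (Eventually.of_forall fun p => ?_)
      obtain ⟨t, x, v⟩ := p
      simp
  have hinv : ∀ k : Fin 3 → ℤ,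
      (fun p : ℝ × R3 × R3 => G (p.1, p.2.1 + lat k, p.2.2)) =ᵐ[volume] G := fun k => by
    have hGk : Measurable fun p : ℝ × R3 × R3 => G (p.1, p.2.1 + lat k, p.2.2) :=
      hG.comp (wk_shift (lat k)).measurable
    have key : ∀ ψ : ℝ × R3 × R3 → ℝ, Integrable ψ →
        ∫ p : ℝ × R3 × R3, G (p.1, p.2.1 + lat k, p.2.2) * ψ p = ∫ p, G p * ψ p := fun ψ hψ => by
      have h1 := h _ ((wk_shift (-lat k)).integrable_comp_of_integrable hψ)
      have h2 := h ψ hψ
      simp only [Function.comp_apply] at h1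
      rw [hint G ψ] at h1
      refine tendsto_nhds_unique (h1.congr fun n => ?_) h2
      rw [hint (fun p => g (φ n) p.1 p.2.1 p.2.2) ψ]
      refine integral_congr_ae (Eventually.of_forall fun p => ?_)
      have := per_add_lat (hp (φ n) p.1 p.2.2) p.2.1 k
      simp only at this ⊢
      rw [this]
    have hio : ∀ F : ℝ × R3 × R3 → ℝ, Measurable F → (∀ p, |F p| ≤ 1) → ∀ s, volume s < ∞ →
        IntegrableOn F s := fun F hF hFb s hs =>
      Measure.integrableOn_of_bounded (M := 1) hs.ne hF.aestronglyMeasurable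
        (Eventually.of_forall hFb)
    refine ae_eq_of_forall_setIntegral_eq_of_sigmaFinite
      (fun s _ hs => hio _ hGk (fun _ => hGb _) s hs) (fun s _ hs => hio _ hG hGb s hs)
      fun s hs hs' => ?_
    have e : ∀ F : ℝ × R3 × R3 → ℝ, ∫ p in s, F p = ∫ p, F p * s.indicator (fun _ => (1 : ℝ)) p :=
      fun F => by
        rw [← integral_indicator hs]
        refine integral_congr_ae (Eventually.of_forall fun x => ?_)
        by_cases hx : x ∈ s <;> simp [hx]
    rw [e, e]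
    exact key _ ((integrableOn_const hs'.ne).integrable_indicator hs)
  have hfl : Measurable fun x : R3 => lat (fun i => -⌊x i⌋) := by
    refine (measurable_of_countable lat).comp (measurable_pi_lambda _ fun i => ?_)
    exact (Measurable.floor (by fun_prop)).neg
  refine ⟨φ, fun t x v => G (t, x + lat (fun i => -⌊x i⌋), v), hφ, ?_, ?_, fun _ _ _ => hGb _,
    fun ψ hψ => ?_⟩
  · exact hG.comp (measurable_fst.prodMk ((measurable_snd.fst.add
      (hfl.comp measurable_snd.fst)).prodMk measurable_snd.snd))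
  · intro t v x i
    have e : x + EuclideanSpace.single i (1 : ℝ) +
        lat (fun j => -⌊(x + EuclideanSpace.single i (1 : ℝ) : R3) j⌋) =
        x + lat (fun j => -⌊x j⌋) := by
      ext j
      by_cases hj : j = i
      · subst hj
        simp [lat]
      · simp [lat, hj]
    simp only [e]
  · convert h ψ hψ using 2
    refine integral_congr_ae ?_
    filter_upwards [ae_all_iff.2 hinv] with p hp
    rw [hp]

end Crest.Agent.R068
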