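import Crest.Agent.R068.Sphere

/-! Row 68: Gaussian integrals and Newton potentials (auxiliary file for `Gauss.lean`). -/

set_option autoImplicit false
open MeasureTheory Set Filter Topology
open scoped ENNReal
open Crest.AnalysisR.VecCalc3 Crest.AnalysisR.PDE.Boltzmann

namespace Crest.Agent.R068

lemma gaussA_lintegral_gs {a : ℝ} (ha : 0 < a) (b : R3) :
    ∫⁻ u, gs a (u - b) = ENNReal.ofReal ((Real.pi / a) ^ (3 / 2 : ℝ)) := by
  rw [lintegral_sub_right_eq_self (fun u => gs a u) b]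
  have h := GaussianFourier.integral_rexp_neg_mul_sq_norm (V := R3) ha
  have h3 : ((Module.finrank ℝ R3 : ℝ) / 2) = 3 / 2 := by simp
  rw [h3] at h
  have hpos : 0 < (Real.pi / a) ^ (3 / 2 : ℝ) := Real.rpow_pos_of_pos (div_pos Real.pi_pos ha) _
  have hint : Integrable (fun v : R3 => Real.exp (-a * ‖v‖ ^ 2)) :=
    Integrable.of_integral_ne_zero (by rw [h]; exact hpos.ne')
  rw [← h, ofReal_integral_eq_lintegral_ofReal hint (Eventually.of_forall fun v => (Real.exp_pos _).le)]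
  refine lintegral_congr fun v => ?_
  simp only [gs, neg_mul]

lemma gaussA_lintegral_gs0 {a : ℝ} (ha : 0 < a) :
    ∫⁻ u, gs a u = ENNReal.ofReal ((Real.pi / a) ^ (3 / 2 : ℝ)) := by
  simpa using gaussA_lintegral_gs ha 0

lemma gaussA_lintegral_mu : ∫⁻ u, mu u = 1 := by
  simp_rw [mu_eq]
  rw [lintegral_const_mul _ (measurable_gs _), gaussA_lintegral_gs0 (by norm_num),
    ← ENNReal.ofReal_mul (by positivity)]
  have : Real.pi / (1 / 2) = 2 * Real.pi := by ring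
  rw [this, ← Real.rpow_add (by positivity)]
  simp

lemma gaussA_moment_gs {a : ℝ} (ha : 0 < a) (k : ℕ) :
    (∫⁻ u, ENNReal.ofReal ((1 + ‖u‖) ^ k) * gs a u) < ⊤ := by
  have hb : ∀ u : R3, ENNReal.ofReal ((1 + ‖u‖) ^ k) * gs a u ≤
      ENNReal.ofReal (Real.exp ((k:ℝ) ^ 2 / (2 * a))) * gs (a / 2) u := by
    intro u
    simp only [gs]
    rw [← ENNReal.ofReal_mul (by positivity), ← ENNReal.ofReal_mul (by positivity)]
    refine ENNReal.ofReal_le_ofReal ?_
    have h1 : (1 + ‖u‖) ^ k ≤ Real.exp ((k:ℝ) * ‖u‖) := by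
      rw [Real.exp_nat_mul]
      refine pow_le_pow_left₀ (by positivity) ?_ k
      have := Real.add_one_le_exp ‖u‖
      linarith
    calc (1 + ‖u‖) ^ k * Real.exp (-(a * ‖u‖ ^ 2))
        ≤ Real.exp ((k:ℝ) * ‖u‖) * Real.exp (-(a * ‖u‖ ^ 2)) := by gcongr
      _ ≤ _ := by
        rw [← Real.exp_add, ← Real.exp_add]
        refine Real.exp_le_exp.2 ?_
        have h2 : (k:ℝ) * ‖u‖ ≤ (k:ℝ) ^ 2 / (2 * a) + a / 2 * ‖u‖ ^ 2 := by
          have h3 : (k:ℝ) ^ 2 / (2 * a) + a / 2 * ‖u‖ ^ 2 - (k:ℝ) * ‖u‖ =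
              ((k:ℝ) - a * ‖u‖) ^ 2 / (2 * a) := by
            field_simp
            ring
          have h4 : 0 ≤ ((k:ℝ) - a * ‖u‖) ^ 2 / (2 * a) := by positivity
          linarith
        linarith
  refine lt_of_le_of_lt (lintegral_mono hb) ?_
  rw [lintegral_const_mul _ (measurable_gs _), gaussA_lintegral_gs0 (by positivity)]
  exact ENNReal.mul_lt_top ENNReal.ofReal_lt_top ENNReal.ofReal_lt_top

lemma gaussA_rpow_le {x c : ℝ} (hx : 0 ≤ x) (hc : 0 ≤ c) (h : x ^ 3 ≤ c ^ 2) :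
    x ^ (3 / 2 : ℝ) ≤ c := by
  have h1 : (x ^ (3 / 2 : ℝ)) ^ 2 = x ^ 3 := by
    rw [← Real.rpow_natCast, ← Real.rpow_mul hx, ← Real.rpow_natCast]
    norm_num
  exact (pow_le_pow_iff_left₀ (Real.rpow_nonneg hx _) hc two_ne_zero).1 (h1 ▸ h)

lemma gaussA_pi_cube : Real.pi ^ 3 ≤ 36 := by
  have h := Real.pi_lt_d2
  have h0 := Real.pi_pos
  calc Real.pi ^ 3 ≤ (3.15:ℝ) ^ 3 := by gcongr
    _ ≤ 36 := by norm_num

lemma gaussA_gs_scaled {η : ℝ} (hη : 0 < η) (b : R3) :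
    ∫⁻ u, gs (η ^ 2)⁻¹ (u - b) ≤ ENNReal.ofReal (6 * η ^ 3) := by
  rw [gaussA_lintegral_gs (by positivity)]
  refine ENNReal.ofReal_le_ofReal (gaussA_rpow_le (by positivity) (by positivity) ?_)
  rw [div_inv_eq_mul, mul_pow, mul_pow]
  have h := gaussA_pi_cube
  calc Real.pi ^ 3 * (η ^ 2) ^ 3 ≤ 36 * (η ^ 2) ^ 3 := by gcongr
    _ = _ := by ring

lemma gaussA_norm_gs_scaled {η : ℝ} (hη : 0 < η) (b : R3) :
    ∫⁻ u, ENNReal.ofReal ‖u - b‖ * gs (η ^ 2)⁻¹ (u - b) ≤ ENNReal.ofReal (20 * η ^ 4) := by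
  have hb : ∀ u : R3, ENNReal.ofReal ‖u - b‖ * gs (η ^ 2)⁻¹ (u - b) ≤
      ENNReal.ofReal η * gs (2 * η ^ 2)⁻¹ (u - b) := by
    intro u
    simp only [gs]
    rw [← ENNReal.ofReal_mul (by positivity), ← ENNReal.ofReal_mul (by positivity)]
    refine ENNReal.ofReal_le_ofReal ?_
    set r := ‖u - b‖ with hr
    have hr0 : 0 ≤ r := norm_nonneg _
    have h1 : r ≤ η * Real.exp ((2 * η ^ 2)⁻¹ * r ^ 2) := by
      have h2 := Real.add_one_le_exp ((2 * η ^ 2)⁻¹ * r ^ 2)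
      have h3 : r ≤ η * ((2 * η ^ 2)⁻¹ * r ^ 2 + 1) := by
        have h4 : η * ((2 * η ^ 2)⁻¹ * r ^ 2 + 1) - r = ((r - η) ^ 2 + η ^ 2) / (2 * η) := by
          field_simp
          ring
        have h5 : 0 ≤ ((r - η) ^ 2 + η ^ 2) / (2 * η) := by positivity
        linarith
      calc r ≤ _ := h3
        _ ≤ _ := by gcongr
    calc r * Real.exp (-((η ^ 2)⁻¹ * r ^ 2))
        ≤ (η * Real.exp ((2 * η ^ 2)⁻¹ * r ^ 2)) * Real.exp (-((η ^ 2)⁻¹ * r ^ 2)) := by gcongr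
      _ = _ := by
        rw [mul_assoc, ← Real.exp_add]
        congr 2
        field_simp
        ring
  refine le_trans (lintegral_mono hb) ?_
  have hm : Measurable fun u : R3 => gs (2 * η ^ 2)⁻¹ (u - b) :=
    (measurable_gs _).comp (measurable_id.sub_const b)
  rw [lintegral_const_mul _ hm,
    gaussA_lintegral_gs (by positivity), ← ENNReal.ofReal_mul hη.le]
  refine ENNReal.ofReal_le_ofReal ?_
  have h6 : (Real.pi / (2 * η ^ 2)⁻¹) ^ (3 / 2 : ℝ) ≤ 20 * η ^ 3 := by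
    refine gaussA_rpow_le (by positivity) (by positivity) ?_
    rw [div_inv_eq_mul, mul_pow, mul_pow]
    have h := gaussA_pi_cube
    calc Real.pi ^ 3 * (2 ^ 3 * (η ^ 2) ^ 3) ≤ 36 * (2 ^ 3 * (η ^ 2) ^ 3) := by gcongr
      _ = 288 * η ^ 6 := by ring
      _ ≤ 400 * η ^ 6 := by gcongr; norm_num
      _ = _ := by ring
  calc η * (Real.pi / (2 * η ^ 2)⁻¹) ^ (3 / 2 : ℝ) ≤ η * (20 * η ^ 3) := by gcongr
    _ = _ := by ring

/-- radial integrals -/
lemma gaussA_radial {ψ : ℝ → ℝ≥0∞} (hψ : Measurable ψ) (b : R3) :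
    ∫⁻ u : R3, ψ ‖u - b‖ =
      ENNReal.ofReal (4 * Real.pi) * ∫⁻ r in Ioi (0:ℝ), ENNReal.ofReal (r ^ 2) * ψ r := by
  have hm : Measurable fun u : R3 => ψ ‖u‖ := hψ.comp measurable_norm
  rw [lintegral_sub_right_eq_self (fun u : R3 => ψ ‖u‖) b, lintegral_polar hm]
  have h : ∀ᵐ w ∂sphereMeasure, (∫⁻ r in Ioi (0:ℝ), ENNReal.ofReal (r ^ 2) * ψ ‖r • w‖) =
      ∫⁻ r in Ioi (0:ℝ), ENNReal.ofReal (r ^ 2) * ψ r := by
    filter_upwards [sphere_ae_unit] with w hw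
    refine setLIntegral_congr_fun measurableSet_Ioi fun r hr => ?_
    have hr' : (0:ℝ) < r := hr
    simp only [norm_smul, hw, mul_one, Real.norm_eq_abs, abs_of_pos hr']
  rw [lintegral_congr_ae h, lintegral_const, sphereMeasure_univ, mul_comm]

lemma gaussA_ball_radial {ψ : ℝ → ℝ≥0∞} (hψ : Measurable ψ) (b : R3) (ρ : ℝ) :
    ∫⁻ u in Metric.closedBall b ρ, ψ ‖u - b‖ =
      ENNReal.ofReal (4 * Real.pi) * ∫⁻ r in Ioc (0:ℝ) ρ, ENNReal.ofReal (r ^ 2) * ψ r := by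
  rw [← lintegral_indicator Metric.isClosed_closedBall.measurableSet]
  have h1 : (Metric.closedBall b ρ).indicator (fun u : R3 => ψ ‖u - b‖) =
      fun u : R3 => (Iic ρ).indicator ψ ‖u - b‖ := by
    funext u
    simp only [indicator, Metric.mem_closedBall, dist_eq_norm, mem_Iic]
  rw [h1, gaussA_radial (hψ.indicator measurableSet_Iic) b]
  congr 1
  have h2 : Ioc (0:ℝ) ρ = Iic ρ ∩ Ioi 0 := by
    ext r; simp [and_comm]
  rw [h2, ← Measure.restrict_restrict measurableSet_Iic, ← lintegral_indicator measurableSet_Iic]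
  refine lintegral_congr fun r => ?_
  simp only [indicator]
  split_ifs <;> simp

lemma gaussA_inv_ball (b : R3) {ρ : ℝ} (hρ : 0 ≤ ρ) :
    ∫⁻ u in Metric.closedBall b ρ, (ENNReal.ofReal ‖u - b‖)⁻¹ ≤ ENNReal.ofReal (13 * ρ ^ 2) := by
  rw [gaussA_ball_radial (ψ := fun r => (ENNReal.ofReal r)⁻¹) (by fun_prop) b ρ]
  have h1 : ∫⁻ r in Ioc (0:ℝ) ρ, ENNReal.ofReal (r ^ 2) * (ENNReal.ofReal r)⁻¹ ≤
      ∫⁻ r in Ioc (0:ℝ) ρ, ENNReal.ofReal ρ := by
    refine setLIntegral_mono' measurableSet_Ioc fun r hr => ?_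
    rw [← ENNReal.ofReal_inv_of_pos hr.1, ← ENNReal.ofReal_mul (by positivity)]
    refine ENNReal.ofReal_le_ofReal ?_
    have : r ^ 2 * r⁻¹ = r := by
      have := hr.1.ne'
      field_simp
    rw [this]; exact hr.2
  rw [setLIntegral_const, Real.volume_Ioc, sub_zero, ← ENNReal.ofReal_mul hρ] at h1
  calc _ ≤ ENNReal.ofReal (4 * Real.pi) * ENNReal.ofReal (ρ * ρ) := by gcongr
    _ ≤ _ := by
      rw [← ENNReal.ofReal_mul (by positivity)]
      refine ENNReal.ofReal_le_ofReal ?_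
      have h := Real.pi_lt_d2
      have h2 : 0 ≤ ρ * ρ := mul_nonneg hρ hρ
      nlinarith

lemma gaussA_inv_ball' (b : R3) {ρ : ℝ} (hρ : 0 ≤ ρ) :
    ∫⁻ u in Metric.closedBall b ρ, (ENNReal.ofReal ‖u - b‖)⁻¹ ≤ ENNReal.ofReal (20 * ρ ^ 2) :=
  (gaussA_inv_ball b hρ).trans (ENNReal.ofReal_le_ofReal (by nlinarith [sq_nonneg ρ]))

lemma gaussA_inv_sq_ball (b : R3) {ρ : ℝ} (hρ : 0 ≤ ρ) :
    ∫⁻ u in Metric.closedBall b ρ, (ENNReal.ofReal ‖u - b‖)⁻¹ ^ 2 ≤ ENNReal.ofReal (20 * ρ) := by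
  rw [gaussA_ball_radial (ψ := fun r => (ENNReal.ofReal r)⁻¹ ^ 2) (by fun_prop) b ρ]
  have h1 : ∫⁻ r in Ioc (0:ℝ) ρ, ENNReal.ofReal (r ^ 2) * (ENNReal.ofReal r)⁻¹ ^ 2 ≤
      ∫⁻ r in Ioc (0:ℝ) ρ, 1 := by
    refine setLIntegral_mono' measurableSet_Ioc fun r hr => ?_
    rw [← ENNReal.ofReal_inv_of_pos hr.1, ← ENNReal.ofReal_pow (inv_pos.2 hr.1).le,
      ← ENNReal.ofReal_mul (by positivity), ← ENNReal.ofReal_one]
    refine ENNReal.ofReal_le_ofReal ?_
    have : r ^ 2 * r⁻¹ ^ 2 = 1 := by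
      have := hr.1.ne'
      field_simp
    rw [this]
  rw [setLIntegral_const, Real.volume_Ioc, sub_zero, one_mul] at h1
  calc _ ≤ ENNReal.ofReal (4 * Real.pi) * ENNReal.ofReal ρ := by gcongr
    _ ≤ _ := by
      rw [← ENNReal.ofReal_mul (by positivity)]
      refine ENNReal.ofReal_le_ofReal ?_
      have h := Real.pi_lt_d2
      nlinarith

lemma gaussA_pot_far {f : R3 → ℝ≥0∞} (hf : Measurable f) {v : R3} {d : ℝ} (hd : 0 < d)
    (h : ∀ u, f u ≠ 0 → d ≤ ‖v - u‖) : pot f v ≤ ENNReal.ofReal d⁻¹ * ∫⁻ u, f u := by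
  rw [← lintegral_const_mul _ hf]
  refine lintegral_mono fun u => ?_
  by_cases hu : f u = 0
  · simp [hu]
  · have := h u hu
    gcongr

/-- splitting a potential at radius `ρ`, with a bound that is only needed on the ball -/
lemma gaussA_pot_split {f : R3 → ℝ≥0∞} (hf : Measurable f) {C : ℝ≥0∞} (v : R3)
    {ρ : ℝ} (hρ : 0 < ρ) (hC : ∀ u, ‖u - v‖ ≤ ρ → f u ≤ C) :
    pot f v ≤ C * ENNReal.ofReal (13 * ρ ^ 2) + ENNReal.ofReal ρ⁻¹ * ∫⁻ u, f u := by
  have hm : Measurable fun u : R3 => (ENNReal.ofReal ‖u - v‖)⁻¹ := by fun_prop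
  have hb : ∀ u : R3, ENNReal.ofReal (‖v - u‖⁻¹) * f u ≤
      (Metric.closedBall v ρ).indicator (fun u => C * (ENNReal.ofReal ‖u - v‖)⁻¹) u +
        ENNReal.ofReal ρ⁻¹ * f u := by
    intro u
    by_cases hu : ‖u - v‖ ≤ ρ
    · have hu' : u ∈ Metric.closedBall v ρ := by simpa [dist_eq_norm] using hu
      rw [indicator_of_mem hu', mul_comm C, norm_sub_rev v u]
      refine le_trans ?_ le_self_add
      exact mul_le_mul' ENNReal.ofReal_inv_le (hC u hu)
    · refine le_trans ?_ le_add_self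
      rw [norm_sub_rev v u]
      have := (not_le.1 hu).le
      gcongr
  refine le_trans (lintegral_mono hb) ?_
  rw [lintegral_add_right _ (hf.const_mul _), lintegral_const_mul _ hf,
    lintegral_indicator Metric.isClosed_closedBall.measurableSet, lintegral_const_mul _ hm]
  gcongr
  exact gaussA_inv_ball v hρ.le

lemma gaussA_pot_split' {f : R3 → ℝ≥0∞} (hf : Measurable f) {C : ℝ≥0∞} (hC : ∀ u, f u ≤ C) (v : R3)
    {ρ : ℝ} (hρ : 0 < ρ) :
    pot f v ≤ C * ENNReal.ofReal (20 * ρ ^ 2) + ENNReal.ofReal ρ⁻¹ * ∫⁻ u, f u := by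
  refine (gaussA_pot_split hf v hρ fun u _ => hC u).trans ?_
  gcongr
  norm_num

lemma gaussA_pot_ball (b v : R3) {ρ : ℝ} (hρ : 0 ≤ ρ) :
    pot (fun u => if ‖u - b‖ ≤ ρ then (1:ℝ≥0∞) else 0) v ≤ ENNReal.ofReal (20 * ρ ^ 2) := by
  have hind : (fun u : R3 => if ‖u - b‖ ≤ ρ then (1:ℝ≥0∞) else 0) =
      (Metric.closedBall b ρ).indicator 1 := by
    funext u
    simp only [indicator, Metric.mem_closedBall, dist_eq_norm, Pi.one_apply]
  have hmeas : MeasurableSet (Metric.closedBall b ρ) := Metric.isClosed_closedBall.measurableSet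
  rcases hρ.eq_or_lt with h0 | hρ'
  · subst h0
    have : pot (fun u => if ‖u - b‖ ≤ 0 then (1:ℝ≥0∞) else 0) v = 0 := by
      unfold pot
      refine lintegral_eq_zero_of_ae_eq_zero ?_
      have : ∀ᵐ u : R3, u ≠ b := by
        rw [ae_iff]; simp
      filter_upwards [this] with u hu
      have : ¬ ‖u - b‖ ≤ 0 := by
        rw [norm_le_zero_iff, sub_eq_zero]; exact hu
      simp only [this, if_false, mul_zero, Pi.zero_apply]
    rw [this]; exact zero_le
  · rw [hind]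
    refine (gaussA_pot_split (C := 1) (measurable_one.indicator hmeas) v hρ' fun u _ =>
      indicator_apply_le' (fun _ => le_rfl) (fun _ => zero_le)).trans ?_
    rw [lintegral_indicator_one hmeas, EuclideanSpace.volume_closedBall_fin_three, one_mul,
      ← ENNReal.ofReal_pow hρ, ← ENNReal.ofReal_mul (by positivity),
      ← ENNReal.ofReal_mul (by positivity), ← ENNReal.ofReal_add (by positivity) (by positivity)]
    refine ENNReal.ofReal_le_ofReal ?_
    have h1 : ρ⁻¹ * (ρ ^ 3 * (Real.pi * 4 / 3)) = ρ ^ 2 * (Real.pi * 4 / 3) := by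
      field_simp
    rw [h1]
    have h := Real.pi_lt_d2
    have h2 : 0 ≤ ρ ^ 2 := sq_nonneg ρ
    nlinarith

lemma gaussA_pot_gs_scaled {η : ℝ} (hη : 0 < η) (b v : R3) :
    pot (fun u => gs (η ^ 2)⁻¹ (u - b)) v ≤
      ENNReal.ofReal (1000 * η ^ 3 / max ‖v - b‖ η) := by
  have hm : Measurable fun u : R3 => gs (η ^ 2)⁻¹ (u - b) :=
    (measurable_gs _).comp (measurable_id.sub_const b)
  rcases le_total ‖v - b‖ η with hd | hd
  · rw [max_eq_right hd]
    refine (gaussA_pot_split' (C := 1) hm (fun u => gs_le_one (by positivity) _) v hη).trans ?_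
    calc _ ≤ 1 * ENNReal.ofReal (20 * η ^ 2) + ENNReal.ofReal η⁻¹ * ENNReal.ofReal (6 * η ^ 3) := by
          gcongr
          exact gaussA_gs_scaled hη b
      _ ≤ _ := by
        rw [one_mul, ← ENNReal.ofReal_mul (by positivity),
          ← ENNReal.ofReal_add (by positivity) (by positivity)]
        refine ENNReal.ofReal_le_ofReal ?_
        have h1 : η⁻¹ * (6 * η ^ 3) = 6 * η ^ 2 := by field_simp
        have h2 : 1000 * η ^ 3 / η = 1000 * η ^ 2 := by field_simp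
        rw [h1, h2]
        nlinarith [sq_nonneg η]
  · rw [max_eq_left hd]
    set d := ‖v - b‖ with hdd
    have hd0 : 0 < d := hη.trans_le hd
    have hC : ∀ u : R3, ‖u - v‖ ≤ d / 2 →
        gs (η ^ 2)⁻¹ (u - b) ≤ ENNReal.ofReal (32 * η ^ 4 / d ^ 4) := by
      intro u hu
      simp only [gs]
      refine ENNReal.ofReal_le_ofReal ?_
      have h1 : d / 2 ≤ ‖u - b‖ := by
        have h2 : d ≤ ‖u - b‖ + ‖u - v‖ := by
          have : v - b = (u - b) - (u - v) := by abel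
          rw [hdd, this]
          exact norm_sub_le _ _
        linarith
      have h3 : (η ^ 2)⁻¹ * (d / 2) ^ 2 ≤ (η ^ 2)⁻¹ * ‖u - b‖ ^ 2 := by gcongr
      set y := (η ^ 2)⁻¹ * (d / 2) ^ 2 with hy
      have hy0 : 0 < y := by positivity
      have h4 : y ^ 2 / 2 ≤ Real.exp y := by
        have := Real.quadratic_le_exp_of_nonneg hy0.le
        linarith
      calc Real.exp (-((η ^ 2)⁻¹ * ‖u - b‖ ^ 2)) ≤ Real.exp (-y) :=
            Real.exp_le_exp.2 (by linarith)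
        _ = (Real.exp y)⁻¹ := Real.exp_neg y
        _ ≤ (y ^ 2 / 2)⁻¹ := inv_anti₀ (by positivity) h4
        _ = _ := by
          rw [hy]
          field_simp
          ring
    refine (gaussA_pot_split hm v (by positivity : 0 < d / 2) hC).trans ?_
    calc _ ≤ ENNReal.ofReal (32 * η ^ 4 / d ^ 4) * ENNReal.ofReal (13 * (d / 2) ^ 2) +
          ENNReal.ofReal (d / 2)⁻¹ * ENNReal.ofReal (6 * η ^ 3) := by
          gcongr
          exact gaussA_gs_scaled hη b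
      _ ≤ _ := by
        rw [← ENNReal.ofReal_mul (by positivity), ← ENNReal.ofReal_mul (by positivity),
          ← ENNReal.ofReal_add (by positivity) (by positivity)]
        refine ENNReal.ofReal_le_ofReal ?_
        have h1 : 32 * η ^ 4 / d ^ 4 * (13 * (d / 2) ^ 2) = 104 * (η ^ 3 / d) * (η / d) := by
          field_simp
          ring
        have h2 : (d / 2)⁻¹ * (6 * η ^ 3) = 12 * (η ^ 3 / d) := by
          field_simp
          ring
        have h3 : η / d ≤ 1 := (div_le_one hd0).2 hd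
        have h4 : 0 ≤ η ^ 3 / d := by positivity
        rw [h1, h2, mul_div_assoc]
        nlinarith

lemma gaussA_pot_gs_le {a : ℝ} (ha : 1 / 100 ≤ a) (v : R3) : pot (gs a) v ≤ 10000 := by
  have ha0 : 0 ≤ a := le_trans (by norm_num) ha
  refine (gaussA_pot_split' (C := 1) (measurable_gs a) (fun u => gs_le_one ha0 _) v one_pos).trans ?_
  have h1 : ∫⁻ u, gs a u ≤ ENNReal.ofReal (6 * (10:ℝ) ^ 3) := by
    refine le_trans (lintegral_mono fun u => ?_) (gaussA_gs_scaled (η := 10) (by norm_num) 0)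
    rw [sub_zero]
    exact gs_anti (le_trans (by norm_num) ha) u
  calc _ ≤ 1 * ENNReal.ofReal (20 * (1:ℝ) ^ 2) +
        ENNReal.ofReal (1:ℝ)⁻¹ * ENNReal.ofReal (6 * (10:ℝ) ^ 3) := by gcongr
    _ ≤ ENNReal.ofReal 10000 := by
      rw [one_mul, ← ENNReal.ofReal_mul (by positivity),
        ← ENNReal.ofReal_add (by positivity) (by positivity)]
      exact ENNReal.ofReal_le_ofReal (by norm_num)
    _ = 10000 := by simp

end Crest.Agent.R068
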