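import Crest.Agent.R068.Sphere

/-! Row 68: pre-post collisional change of variables. -/

set_option autoImplicit false
open MeasureTheory Set Filter Topology
open scoped ENNReal
open Crest.AnalysisR.VecCalc3 Crest.AnalysisR.PDE.Boltzmann

namespace Crest.Agent.R068

lemma inner_post {v vs w : R3} (hw : ‖w‖ = 1) :
    inner ℝ (postVel v vs w - postVelStar v vs w) w = -inner ℝ (v - vs) w := by
  have h : postVel v vs w - postVelStar v vs w = (v - vs) - (2 * inner ℝ (v - vs) w) • w := by
    rw [postVel, postVelStar]; module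
  rw [h, inner_sub_left (v - vs), real_inner_smul_left, real_inner_self_eq_norm_sq, hw]
  ring
lemma postVel_post {v vs w : R3} (hw : ‖w‖ = 1) :
    postVel (postVel v vs w) (postVelStar v vs w) w = v := by
  conv_lhs => rw [postVel, inner_post hw, postVel]
  module
lemma postVelStar_post {v vs w : R3} (hw : ‖w‖ = 1) :
    postVelStar (postVel v vs w) (postVelStar v vs w) w = vs := by
  conv_lhs => rw [postVelStar, inner_post hw, postVelStar]
  module
lemma postVel_swap (v vs w : R3) : postVel vs v w = postVelStar v vs w := by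
  rw [postVel, postVelStar, ← neg_sub v vs, inner_neg_left]
  module
lemma postVelStar_swap (v vs w : R3) : postVelStar vs v w = postVel v vs w := by
  rw [postVel, postVelStar, ← neg_sub v vs, inner_neg_left]
  module
lemma post_momentum (v vs w : R3) : postVel v vs w + postVelStar v vs w = v + vs := by
  rw [postVel, postVelStar]
  module
/-- conservation of energy in every frame -/
lemma post_energy {v vs w : R3} (hw : ‖w‖ = 1) (b : R3) :
    ‖postVel v vs w - b‖ ^ 2 + ‖postVelStar v vs w - b‖ ^ 2 = ‖v - b‖ ^ 2 + ‖vs - b‖ ^ 2 := by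
  have h1 : postVel v vs w - b = (v - b) - (inner ℝ (v - vs) w) • w := by rw [postVel]; module
  have h2 : postVelStar v vs w - b = (vs - b) + (inner ℝ (v - vs) w) • w := by rw [postVelStar]; module
  have h3 : inner ℝ (v - vs) w = inner ℝ (v - b) w - inner ℝ (vs - b) w := by
    rw [← inner_sub_left]; congr 1; module
  rw [h1, h2, norm_sub_sq_real (v - b), norm_add_sq_real (vs - b), real_inner_smul_right, real_inner_smul_right,
    norm_smul, hw, mul_one, Real.norm_eq_abs, sq_abs, h3]
  ring
lemma maxwellian_post {v vs w : R3} (hw : ‖w‖ = 1) :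
    maxwellian (postVel v vs w) * maxwellian (postVelStar v vs w) = maxwellian v * maxwellian vs := by
  have h := post_energy (v := v) (vs := vs) hw 0
  simp only [sub_zero] at h
  have h2 : Real.exp (-‖postVel v vs w‖ ^ 2 / 2) * Real.exp (-‖postVelStar v vs w‖ ^ 2 / 2) =
      Real.exp (-‖v‖ ^ 2 / 2) * Real.exp (-‖vs‖ ^ 2 / 2) := by
    rw [← Real.exp_add, ← Real.exp_add]
    congr 1
    linarith
  simp only [maxwellian]
  linear_combination ((2 * Real.pi) ^ (-(3 / 2 : ℝ))) ^ 2 * h2
/-- for a fixed unit `w` the collision map preserves Lebesgue measure on `ℝ³ × ℝ³` -/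
lemma measurePreserving_post {w : R3} (hw : ‖w‖ = 1) :
    MeasurePreserving (fun q : R3 × R3 => (postVel q.1 q.2 w, postVelStar q.1 q.2 w)) volume volume := by
  let L : (R3 × R3) →ₗ[ℝ] (R3 × R3) :=
    { toFun := fun q => (postVel q.1 q.2 w, postVelStar q.1 q.2 w)
      map_add' := fun q q' => by
        have h : q.1 + q'.1 - (q.2 + q'.2) = (q.1 - q.2) + (q'.1 - q'.2) := by abel
        refine Prod.ext ?_ ?_
        · simp only [postVel, Prod.fst_add, Prod.snd_add, h, inner_add_left]
          module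
        · simp only [postVelStar, Prod.fst_add, Prod.snd_add, h, inner_add_left]
          module
      map_smul' := fun c q => by
        refine Prod.ext ?_ ?_
        · simp only [postVel, Prod.smul_fst, Prod.smul_snd, ← smul_sub, real_inner_smul_left, RingHom.id_apply]
          module
        · simp only [postVelStar, Prod.smul_fst, Prod.smul_snd, ← smul_sub, real_inner_smul_left,
            RingHom.id_apply]
          module }
  have hLL : L ∘ₗ L = LinearMap.id :=
    LinearMap.ext fun q => Prod.ext (postVel_post hw) (postVelStar_post hw)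
  have hdet : LinearMap.det L * LinearMap.det L = 1 := by
    rw [← LinearMap.det_comp, hLL, LinearMap.det_id]
  have hne : LinearMap.det L ≠ 0 := left_ne_zero_of_mul_eq_one hdet
  have habs : |(LinearMap.det L)⁻¹| = 1 := by
    rcases mul_self_eq_one_iff.1 hdet with h | h <;> simp [h]
  refine ⟨L.continuous_of_finiteDimensional.measurable, ?_⟩
  have h := Measure.map_linearMap_addHaar_eq_smul_addHaar ((volume : Measure R3).prod (volume : Measure R3)) hne
  rw [habs, ENNReal.ofReal_one, one_smul] at h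
  exact h
lemma prepost_triple {Φ : R3 × R3 × R3 → ℝ≥0∞} (hΦ : Measurable Φ) :
    ∫⁻ p, Φ p ∂((volume : Measure R3).prod ((volume : Measure R3).prod sphereMeasure)) =
      ∫⁻ v, ∫⁻ vs, ∫⁻ w, Φ (v, vs, w) ∂sphereMeasure := by
  rw [lintegral_prod _ hΦ.aemeasurable]
  exact lintegral_congr fun v => lintegral_prod _ (hΦ.comp measurable_prodMk_left).aemeasurable
lemma prepost_mp :
    MeasurePreserving (fun p : R3 × R3 × R3 => (postVel p.1 p.2.1 p.2.2, postVelStar p.1 p.2.1 p.2.2, p.2.2))
      ((volume : Measure R3).prod ((volume : Measure R3).prod sphereMeasure))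
      ((volume : Measure R3).prod ((volume : Measure R3).prod sphereMeasure)) := by
  have h1 := (measurePreserving_prodAssoc (volume : Measure R3) (volume : Measure R3) sphereMeasure)
  have hc : Continuous fun p : R3 × R3 × R3 => (p.2.1, p.2.2, p.1) := by fun_prop
  have h2 := (MeasurePreserving.id sphereMeasure).skew_product
    (g := fun (w : R3) (q : R3 × R3) => (postVel q.1 q.2 w, postVelStar q.1 q.2 w))
    (μc := (volume : Measure R3).prod (volume : Measure R3)) (μd := (volume : Measure R3).prod (volume : Measure R3))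
    ((continuous_postVel.comp hc).prodMk (continuous_postVelStar.comp hc)).measurable
    (sphere_ae_unit.mono fun w hw => (measurePreserving_post hw).map_eq)
  exact h1.comp (Measure.measurePreserving_swap.comp (h2.comp (Measure.measurePreserving_swap.comp h1.symm)))
lemma prepost_meas_ker :
    Measurable fun p : R3 × R3 × R3 => ENNReal.ofReal |inner ℝ (p.1 - p.2.1) p.2.2| := by
  have : Continuous fun p : R3 × R3 × R3 => |inner ℝ (p.1 - p.2.1) p.2.2| := by fun_prop
  exact this.measurable.ennreal_ofReal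
lemma lintegral_prepost {Φ : R3 × R3 × R3 → ℝ≥0∞} (hΦ : Measurable Φ) :
    ∫⁻ v, ∫⁻ vs, ∫⁻ w, Φ (postVel v vs w, postVelStar v vs w, w) ∂sphereMeasure =
      ∫⁻ v, ∫⁻ vs, ∫⁻ w, Φ (v, vs, w) ∂sphereMeasure := by
  rw [← prepost_triple hΦ, ← prepost_mp.lintegral_comp hΦ]
  exact (prepost_triple (hΦ.comp prepost_mp.measurable)).symm
/-- the same as a measure-preserving map of the triple product -/
lemma measurePreserving_prepost :
    MeasurePreserving (fun p : R3 × R3 × R3 => (postVel p.1 p.2.1 p.2.2, postVelStar p.1 p.2.1 p.2.2, p.2.2))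
      ((volume : Measure R3).prod ((volume : Measure R3).prod sphereMeasure))
      ((volume : Measure R3).prod ((volume : Measure R3).prod sphereMeasure)) := by
  exact prepost_mp
lemma measurePreserving_swap12 :
    MeasurePreserving (fun p : R3 × R3 × R3 => (p.2.1, p.1, p.2.2))
      ((volume : Measure R3).prod ((volume : Measure R3).prod sphereMeasure))
      ((volume : Measure R3).prod ((volume : Measure R3).prod sphereMeasure)) := by
  have h1 := (measurePreserving_prodAssoc (volume : Measure R3) (volume : Measure R3) sphereMeasure)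
  have h2 := (Measure.measurePreserving_swap (μ := (volume : Measure R3)) (ν := (volume : Measure R3))).prod
    (MeasurePreserving.id sphereMeasure)
  exact h1.comp (h2.comp h1.symm)
/-- weak form of the gain -/
lemma lintegral_gain_mul {f g ψ : R3 → ℝ≥0∞} (hf : Measurable f) (hg : Measurable g)
    (hψ : Measurable ψ) :
    ∫⁻ v, gain f g v * ψ v = ∫⁻ v, ∫⁻ vs, f v * g vs *
      ∫⁻ w, ENNReal.ofReal |inner ℝ (v - vs) w| * ψ (postVel v vs w) ∂sphereMeasure := by
  have hΦ : Measurable fun p : R3 × R3 × R3 => f p.1 * g p.2.1 *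
      (ENNReal.ofReal |inner ℝ (p.1 - p.2.1) p.2.2| * ψ (postVel p.1 p.2.1 p.2.2)) :=
    ((hf.comp measurable_fst).mul (hg.comp measurable_snd.fst)).mul
      (prepost_meas_ker.mul (hψ.comp continuous_postVel.measurable))
  have hK : Measurable fun p : R3 × R3 × R3 => ENNReal.ofReal |inner ℝ (p.1 - p.2.1) p.2.2| *
      f (postVel p.1 p.2.1 p.2.2) * g (postVelStar p.1 p.2.1 p.2.2) :=
    (prepost_meas_ker.mul (hf.comp continuous_postVel.measurable)).mul
      (hg.comp continuous_postVelStar.measurable)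
  have h := lintegral_prepost hΦ
  simp only at h
  calc ∫⁻ v, gain f g v * ψ v
      = ∫⁻ v, ∫⁻ vs, ∫⁻ w, f (postVel v vs w) * g (postVelStar v vs w) *
          (ENNReal.ofReal |inner ℝ (postVel v vs w - postVelStar v vs w) w| *
            ψ (postVel (postVel v vs w) (postVelStar v vs w) w)) ∂sphereMeasure := by
        refine lintegral_congr fun v => ?_
        have hKv : Measurable fun q : R3 × R3 => ENNReal.ofReal |inner ℝ (v - q.1) q.2| *
            f (postVel v q.1 q.2) * g (postVelStar v q.1 q.2) := by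
          simpa only [Function.comp_def] using hK.comp (measurable_prodMk_left (x := v))
        have hKv' : Measurable fun vs : R3 => ∫⁻ w, ENNReal.ofReal |inner ℝ (v - vs) w| *
            f (postVel v vs w) * g (postVelStar v vs w) ∂sphereMeasure := hKv.lintegral_prod_right'
        rw [gain, ← lintegral_mul_const _ hKv']
        refine lintegral_congr fun vs => ?_
        have hKw : Measurable fun w : R3 => ENNReal.ofReal |inner ℝ (v - vs) w| *
            f (postVel v vs w) * g (postVelStar v vs w) := by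
          simpa only [Function.comp_def] using hKv.comp (measurable_prodMk_left (x := vs))
        rw [← lintegral_mul_const _ hKw]
        refine lintegral_congr_ae ?_
        filter_upwards [sphere_ae_unit] with w hw
        rw [inner_post hw, postVel_post hw, abs_neg]
        ring
    _ = _ := by
        rw [h]
        refine lintegral_congr fun v => lintegral_congr fun vs => ?_
        refine lintegral_const_mul _ ?_
        simpa only [Function.comp_def, Pi.mul_def] using
          (prepost_meas_ker.mul (hψ.comp continuous_postVel.measurable)).comp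
            ((measurable_prodMk_left (x := v)).comp (measurable_prodMk_left (x := vs)))
lemma lintegral_gain {f g : R3 → ℝ≥0∞} (hf : Measurable f) (hg : Measurable g) :
    ∫⁻ v, gain f g v = ∫⁻ v, f v * freq g v := by
  have h := lintegral_gain_mul hf hg (ψ := fun _ => 1) measurable_const
  simp only [mul_one, lintegral_abs_inner] at h
  rw [h]
  refine lintegral_congr fun v => ?_
  have hm : Measurable fun vs : R3 => ENNReal.ofReal (2 * Real.pi * ‖v - vs‖) * g vs :=
    Measurable.mul (by fun_prop) hg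
  rw [freq, ← lintegral_const_mul _ hm]
  refine lintegral_congr fun vs => ?_
  ring
/-- polynomial moments of gain and loss -/
lemma lintegral_gain_moment {f g : R3 → ℝ≥0∞} (hf : Measurable f) (hg : Measurable g) (k : ℕ) :
    ∫⁻ v, ENNReal.ofReal ((1 + ‖v‖) ^ k) * (gain f g v + f v * freq g v) ≤
      ENNReal.ofReal (4 * Real.pi * 2 ^ k) * ((∫⁻ v, ENNReal.ofReal ((1 + ‖v‖) ^ (k + 1)) * f v) *
        ∫⁻ v, ENNReal.ofReal ((1 + ‖v‖) ^ (k + 1)) * g v) := by
  set F : R3 → ℝ≥0∞ := fun v => ENNReal.ofReal ((1 + ‖v‖) ^ (k + 1)) * f v with hF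
  set G : R3 → ℝ≥0∞ := fun v => ENNReal.ofReal ((1 + ‖v‖) ^ (k + 1)) * g v with hG
  have mF : Measurable F := Measurable.mul (by fun_prop) hf
  have mG : Measurable G := Measurable.mul (by fun_prop) hg
  have mψ : Measurable fun v : R3 => ENNReal.ofReal ((1 + ‖v‖) ^ k) := by fun_prop
  have mgain : Measurable (gain f g) :=
    measurable_gain (f := fun _ => f) (g := fun _ => g) (v := fun v : R3 => v) (hf.comp measurable_snd)
      (hg.comp measurable_snd) measurable_id
  have hprod : ∫⁻ v, ∫⁻ vs, ENNReal.ofReal (2 * Real.pi) * (F v * G vs) =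
      ENNReal.ofReal (2 * Real.pi) * ((∫⁻ v, F v) * ∫⁻ v, G v) := by
    rw [← lintegral_mul_const _ mF, ← lintegral_const_mul _ (mF.mul_const _)]
    refine lintegral_congr fun v => ?_
    rw [← lintegral_const_mul _ mG, ← lintegral_const_mul _ (mG.const_mul _)]
  have hbd : ∀ v vs : R3, f v * g vs * (ENNReal.ofReal (2 * Real.pi * ‖v - vs‖) *
      ENNReal.ofReal ((1 + ‖v‖) ^ k * (1 + ‖vs‖) ^ k)) ≤ ENNReal.ofReal (2 * Real.pi) * (F v * G vs) := by
    intro v vs
    have e1 : ‖v - vs‖ ≤ (1 + ‖v‖) * (1 + ‖vs‖) := by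
      nlinarith [norm_sub_le v vs, norm_nonneg v, norm_nonneg vs, mul_nonneg (norm_nonneg v) (norm_nonneg vs)]
    have e2 : ENNReal.ofReal (2 * Real.pi * ‖v - vs‖) * ENNReal.ofReal ((1 + ‖v‖) ^ k * (1 + ‖vs‖) ^ k) ≤
        ENNReal.ofReal (2 * Real.pi) * (ENNReal.ofReal ((1 + ‖v‖) ^ (k + 1)) *
          ENNReal.ofReal ((1 + ‖vs‖) ^ (k + 1))) := by
      rw [← ENNReal.ofReal_mul (by positivity), ← ENNReal.ofReal_mul (by positivity),
        ← ENNReal.ofReal_mul (by positivity)]
      refine ENNReal.ofReal_le_ofReal ?_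
      calc 2 * Real.pi * ‖v - vs‖ * ((1 + ‖v‖) ^ k * (1 + ‖vs‖) ^ k)
          ≤ 2 * Real.pi * ((1 + ‖v‖) * (1 + ‖vs‖)) * ((1 + ‖v‖) ^ k * (1 + ‖vs‖) ^ k) := by gcongr
        _ = _ := by ring
    calc _ ≤ f v * g vs * (ENNReal.ofReal (2 * Real.pi) * (ENNReal.ofReal ((1 + ‖v‖) ^ (k + 1)) *
          ENNReal.ofReal ((1 + ‖vs‖) ^ (k + 1)))) := by gcongr
      _ = _ := by simp only [hF, hG]; ring
  have h1 : ∫⁻ v, gain f g v * ENNReal.ofReal ((1 + ‖v‖) ^ k) ≤
      ENNReal.ofReal (2 * Real.pi) * ((∫⁻ v, F v) * ∫⁻ v, G v) := by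
    rw [lintegral_gain_mul hf hg mψ, ← hprod]
    refine lintegral_mono fun v => lintegral_mono fun vs => le_trans ?_ (hbd v vs)
    gcongr
    rw [← lintegral_abs_inner, ← lintegral_mul_const' _ _ ENNReal.ofReal_ne_top]
    refine lintegral_mono_ae ?_
    filter_upwards [sphere_ae_unit] with w hw
    have e1 := post_energy (v := v) (vs := vs) hw 0
    simp only [sub_zero] at e1
    have e2 : ‖postVel v vs w‖ ≤ ‖v‖ + ‖vs‖ := by
      refine abs_le_of_sq_le_sq' ?_ (by positivity) |>.2
      nlinarith [sq_nonneg ‖postVelStar v vs w‖, mul_nonneg (norm_nonneg v) (norm_nonneg vs)]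
    have e3 : 1 + ‖postVel v vs w‖ ≤ (1 + ‖v‖) * (1 + ‖vs‖) := by
      nlinarith [mul_nonneg (norm_nonneg v) (norm_nonneg vs)]
    rw [← mul_pow]
    gcongr
  have h2 : ∫⁻ v, ENNReal.ofReal ((1 + ‖v‖) ^ k) * (f v * freq g v) ≤
      ENNReal.ofReal (2 * Real.pi) * ((∫⁻ v, F v) * ∫⁻ v, G v) := by
    rw [← hprod]
    refine lintegral_mono fun v => ?_
    have hm : Measurable fun vs : R3 => ENNReal.ofReal (2 * Real.pi * ‖v - vs‖) * g vs :=
      Measurable.mul (by fun_prop) hg
    rw [freq, ← mul_assoc, ← lintegral_const_mul _ hm]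
    refine lintegral_mono fun vs => le_trans ?_ (hbd v vs)
    have e1 : ENNReal.ofReal ((1 + ‖v‖) ^ k) ≤ ENNReal.ofReal ((1 + ‖v‖) ^ k * (1 + ‖vs‖) ^ k) :=
      ENNReal.ofReal_le_ofReal (le_mul_of_one_le_right (by positivity)
        (one_le_pow₀ (by linarith [norm_nonneg vs])))
    calc _ = f v * g vs * (ENNReal.ofReal (2 * Real.pi * ‖v - vs‖) * ENNReal.ofReal ((1 + ‖v‖) ^ k)) := by
          ring
      _ ≤ _ := by gcongr
  calc _ = ∫⁻ v, gain f g v * ENNReal.ofReal ((1 + ‖v‖) ^ k) +
        ENNReal.ofReal ((1 + ‖v‖) ^ k) * (f v * freq g v) := lintegral_congr fun v => by ring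
    _ = _ := lintegral_add_left (mgain.mul mψ) _
    _ ≤ ENNReal.ofReal (2 * Real.pi) * ((∫⁻ v, F v) * ∫⁻ v, G v) +
        ENNReal.ofReal (2 * Real.pi) * ((∫⁻ v, F v) * ∫⁻ v, G v) := add_le_add h1 h2
    _ ≤ _ := by
      rw [← add_mul, ← ENNReal.ofReal_add (by positivity) (by positivity)]
      gcongr
      have : (1 : ℝ) ≤ 2 ^ k := one_le_pow₀ (by norm_num)
      nlinarith [Real.pi_pos]
/-- `gain` only depends on a.e. classes, for a.e. `v` -/
lemma gain_mono_ae {f f' g g' : R3 → ℝ≥0∞} (hf : Measurable f) (hf' : Measurable f')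
    (hg : Measurable g) (hg' : Measurable g') (h1 : ∀ᵐ v, f v ≤ f' v) (h2 : ∀ᵐ v, g v ≤ g' v) :
    ∀ᵐ v, gain f g v ≤ gain f' g' v := by
  have a1 : ∀ᵐ p ∂((volume : Measure R3).prod ((volume : Measure R3).prod sphereMeasure)),
      f p.1 ≤ f' p.1 := Measure.quasiMeasurePreserving_fst.ae h1
  have a2 : ∀ᵐ p ∂((volume : Measure R3).prod ((volume : Measure R3).prod sphereMeasure)),
      g p.2.1 ≤ g' p.2.1 :=
    (Measure.quasiMeasurePreserving_fst.comp Measure.quasiMeasurePreserving_snd).ae h2
  have a3 := prepost_mp.quasiMeasurePreserving.ae (a1.and a2)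
  filter_upwards [Measure.ae_ae_of_ae_prod a3] with v hv
  refine lintegral_mono_ae ?_
  filter_upwards [Measure.ae_ae_of_ae_prod hv] with vs hvs
  refine lintegral_mono_ae ?_
  filter_upwards [hvs] with w hw
  exact mul_le_mul' (mul_le_mul' le_rfl hw.1) hw.2
lemma prepost_gain_eq {f g : R3 → ℝ≥0∞} (hf : ∀ u, f u ≠ ⊤) (hg : ∀ u, g u ≠ ⊤) (v : R3)
    (h : ∀ vs w, ‖w‖ = 1 → f (postVel v vs w) * g (postVelStar v vs w) = f v * g vs) :
    gain f g v = f v * freq g v := by
  rw [gain, freq, ← lintegral_const_mul' _ _ (hf v)]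
  refine lintegral_congr fun vs => ?_
  calc _ = ∫⁻ w, ENNReal.ofReal |inner ℝ (v - vs) w| * (f v * g vs) ∂sphereMeasure := by
        refine lintegral_congr_ae ?_
        filter_upwards [sphere_ae_unit] with w hw
        rw [mul_assoc, h vs w hw]
    _ = _ := by
        rw [lintegral_mul_const' _ _ (ENNReal.mul_ne_top (hf v) (hg vs)), lintegral_abs_inner]
        ring
/-- shifted Gaussians with the same exponent: gain = loss -/
lemma gain_gs_shift (a : ℝ) (b v : R3) :
    gain (fun u => gs a (u - b)) (fun u => gs a (u - b)) v =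
      gs a (v - b) * freq (fun u => gs a (u - b)) v := by
  refine prepost_gain_eq (fun u => gs_ne_top _ _) (fun u => gs_ne_top _ _) v fun vs w hw => ?_
  simp only [gs]
  rw [← ENNReal.ofReal_mul (Real.exp_pos _).le, ← ENNReal.ofReal_mul (Real.exp_pos _).le, ← Real.exp_add,
    ← Real.exp_add]
  congr 2
  linear_combination (-a) * post_energy (v := v) (vs := vs) hw b
lemma gain_gs_gs (a : ℝ) (v : R3) : gain (gs a) (gs a) v = gs a v * freq (gs a) v := by
  simpa only [sub_zero] using gain_gs_shift a 0 v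
lemma gain_mu_mu (v : R3) : gain mu mu v = mu v * freq mu v := by
  refine prepost_gain_eq mu_ne_top mu_ne_top v fun vs w hw => ?_
  simp only [mu]
  rw [← ENNReal.ofReal_mul (maxwellian_pos _).le, ← ENNReal.ofReal_mul (maxwellian_pos _).le,
    maxwellian_post hw]
/-- supports: if both inputs live in the ball `B(b,D)`, the output lives in `B(b, √2 D)` -/
lemma gain_eq_zero_of_supp {f g : R3 → ℝ≥0∞} {b v : R3} {D : ℝ} (hf : ∀ u, f u ≠ 0 → ‖u - b‖ ≤ D)
    (hg : ∀ u, g u ≠ 0 → ‖u - b‖ ≤ D) (hv : 2 * D ^ 2 < ‖v - b‖ ^ 2) : gain f g v = 0 := by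
  have h : ∀ vs, ∫⁻ w, ENNReal.ofReal |inner ℝ (v - vs) w| * f (postVel v vs w) * g (postVelStar v vs w)
      ∂sphereMeasure = 0 := by
    intro vs
    refine (lintegral_congr_ae (g := fun _ => 0) ?_).trans lintegral_zero
    filter_upwards [sphere_ae_unit] with w hw
    by_contra hne
    have h1 := hf _ (right_ne_zero_of_mul (left_ne_zero_of_mul hne))
    have h2 := hg _ (right_ne_zero_of_mul hne)
    have h3 := post_energy (v := v) (vs := vs) hw b
    have h4 := pow_le_pow_left₀ (norm_nonneg _) h1 2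
    have h5 := pow_le_pow_left₀ (norm_nonneg _) h2 2
    nlinarith [sq_nonneg ‖vs - b‖]
  simp only [gain, h, lintegral_zero]

end Crest.Agent.R068
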