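import Crest.Agent.R068.Sphere

/-! Row 68: the sigma representation and its consequences. -/

set_option autoImplicit false
open MeasureTheory Set Filter Topology
open scoped ENNReal
open Crest.AnalysisR.VecCalc3 Crest.AnalysisR.PDE.Boltzmann

namespace Crest.Agent.R068

lemma sigma_neg {φ : R3 → ℝ≥0∞} (hφ : Measurable φ) :
    ∫⁻ w, φ (-w) ∂sphereMeasure = ∫⁻ w, φ w ∂sphereMeasure :=
  lintegral_sphere_isometry (LinearIsometryEquiv.neg ℝ) hφ

lemma sigma_image : (fun z : ℝ => 1 - 2 * z ^ 2) '' Ioo (-1) 0 = Ioo (-1) 1 := by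
  ext y
  constructor
  · rintro ⟨z, ⟨h1, h2⟩, rfl⟩
    constructor <;> nlinarith
  · rintro ⟨h1, h2⟩
    have h3 : 0 < (1 - y) / 2 := by linarith
    refine ⟨-Real.sqrt ((1 - y) / 2), ⟨?_, ?_⟩, ?_⟩
    · rw [neg_lt_neg_iff, Real.sqrt_lt' one_pos]; linarith
    · exact neg_neg_of_pos (Real.sqrt_pos.mpr h3)
    · simp only [neg_sq, Real.sq_sqrt h3.le]; ring

lemma sigma_slab {n : R3} (hn : ‖n‖ = 1) (a b : ℝ) :
    ∫⁻ w, (Ioo a b).indicator (1 : ℝ → ℝ≥0∞) (inner ℝ n w) ∂sphereMeasure ≤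
      ENNReal.ofReal (2 * Real.pi * (b - a)) := by
  rw [lintegral_hatbox hn (measurable_one.indicator measurableSet_Ioo),
    ENNReal.ofReal_mul (p := 2 * Real.pi) (by positivity)]
  gcongr
  refine (lintegral_mono' Measure.restrict_le_self le_rfl).trans ?_
  rw [lintegral_indicator_one measurableSet_Ioo, Real.volume_Ioo]

lemma sigma_post (v vs w : R3) : postVel v vs w =
    (1 / 2 : ℝ) • (v + vs) + (1 / 2 : ℝ) • ((v - vs) - (2 * inner ℝ (v - vs) w) • w) := by
  rw [postVel]; module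

lemma sigma_postStar (v vs w : R3) : postVelStar v vs w =
    (1 / 2 : ℝ) • (v + vs) - (1 / 2 : ℝ) • ((v - vs) - (2 * inner ℝ (v - vs) w) • w) := by
  rw [postVelStar]; module

/-- the sigma representation: the reflected relative velocity is uniformly distributed -/
lemma lintegral_sigma (u : R3) {Φ : R3 → ℝ≥0∞} (hΦ : Measurable Φ) :
    ∫⁻ w, ENNReal.ofReal |inner ℝ u w| * Φ (u - (2 * inner ℝ u w) • w) ∂sphereMeasure =
      ENNReal.ofReal (‖u‖ / 2) * ∫⁻ σ, Φ (‖u‖ • σ) ∂sphereMeasure := by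
  rcases eq_or_ne u 0 with rfl | hu
  · simp
  have hρ : 0 < ‖u‖ := norm_pos_iff.mpr hu
  obtain ⟨e, he⟩ := exists_onb (n := ‖u‖⁻¹ • u) (by rw [norm_smul, norm_inv, norm_norm, inv_mul_cancel₀ hρ.ne'])
  set ρ := ‖u‖ with hρd
  have hue : u = ρ • e 0 := by rw [he, smul_smul, mul_inv_cancel₀ hρ.ne', one_smul]
  let F : R3 → ℝ≥0∞ := fun w => ENNReal.ofReal (-inner ℝ u w) * Φ (u - (2 * inner ℝ u w) • w)
  have hF : Measurable F := by
    refine Measurable.mul (Continuous.measurable ?_) (hΦ.comp (Continuous.measurable ?_))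
    · exact ENNReal.continuous_ofReal.comp (by fun_prop)
    · fun_prop
  have h1 : ∀ w, ENNReal.ofReal |inner ℝ u w| * Φ (u - (2 * inner ℝ u w) • w) = F w + F (-w) := fun w => by
    simp only [F, inner_neg_right, neg_neg, mul_neg, smul_neg, neg_smul, ← add_mul]
    congr 1
    rcases le_total (inner ℝ u w) 0 with h | h
    · rw [abs_of_nonpos h, ENNReal.ofReal_of_nonpos h, add_zero]
    · rw [abs_of_nonneg h, ENNReal.ofReal_of_nonpos (neg_nonpos.mpr h), zero_add]
  simp only [h1]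
  rw [lintegral_add_left hF, sigma_neg hF, lintegral_sphere_coords e hF,
    lintegral_sphere_coords e (φ := fun σ => Φ (ρ • σ)) (hΦ.comp (by fun_prop))]
  set G : ℝ → ℝ≥0∞ := fun z => ∫⁻ θ in Ioo (-Real.pi) Real.pi, Φ (ρ • (z • e 0 +
    (Real.sqrt (1 - z ^ 2) * Real.cos θ) • e 1 + (Real.sqrt (1 - z ^ 2) * Real.sin θ) • e 2)) with hG
  have hin : ∀ z s t : ℝ, inner ℝ u (z • e 0 + s • e 1 + t • e 2) = ρ * z := fun z s t => by
    rw [hue]
    simp [inner_add_right, inner_smul_left, inner_smul_right, e.inner_eq_ite, mul_comm]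
  have h2 : ∫⁻ z in Ioo (-1:ℝ) 1, ∫⁻ θ in Ioo (-Real.pi) Real.pi, F (z • e 0 +
      (Real.sqrt (1 - z ^ 2) * Real.cos θ) • e 1 + (Real.sqrt (1 - z ^ 2) * Real.sin θ) • e 2) =
      ENNReal.ofReal (ρ / 4) * ∫⁻ z in Ioo (-1:ℝ) 1, G z := by
    have hd : Disjoint (Ioo (-1 : ℝ) 0) (Ico 0 1) := Set.disjoint_left.mpr fun z h h' => h.2.not_ge h'.1
    conv_lhs => rw [← Ioo_union_Ico_eq_Ioo (b := 0) (by norm_num) (by norm_num)]
    rw [lintegral_union measurableSet_Ico hd, setLIntegral_congr_fun (s := Ico 0 1) measurableSet_Ico (g := fun _ => 0)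
      fun z hz => by
        simp only [F, hin, ENNReal.ofReal_of_nonpos (neg_nonpos.mpr (mul_nonneg hρ.le hz.1)), zero_mul,
          lintegral_zero], lintegral_zero, add_zero]
    rw [← sigma_image, lintegral_image_eq_lintegral_abs_deriv_mul measurableSet_Ioo (f' := fun z => -(4 * z))
      (fun z _ => by
        have := ((hasDerivAt_pow 2 z).const_mul 2).const_sub 1
        refine (this.congr_deriv ?_).hasDerivWithinAt
        simp; ring)
      (fun a ha b hb h => by
        have h' : (a - b) * (a + b) = 0 := by linarith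
        rcases mul_eq_zero.mp h' with h' | h' <;> linarith [ha.2, hb.2]),
      ← lintegral_const_mul' _ _ ENNReal.ofReal_ne_top]
    refine setLIntegral_congr_fun measurableSet_Ioo fun z hz => ?_
    simp only [F, hin, hG]
    rw [lintegral_const_mul' _ _ ENNReal.ofReal_ne_top, ← mul_assoc (ENNReal.ofReal (ρ / 4)),
      ← ENNReal.ofReal_mul (by positivity),
      abs_of_pos (by linarith [hz.2])]
    have hs : Real.sqrt (1 - (1 - 2 * z ^ 2) ^ 2) = -(2 * z) * Real.sqrt (1 - z ^ 2) := by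
      rw [show 1 - (1 - 2 * z ^ 2) ^ 2 = (-(2 * z)) ^ 2 * (1 - z ^ 2) by ring, Real.sqrt_mul (sq_nonneg _),
        Real.sqrt_sq (by linarith [hz.2])]
    congr 1
    · congr 1; ring
    · refine lintegral_congr fun θ => ?_
      rw [hs]
      congr 1
      nth_rewrite 1 [hue]
      module
  rw [h2, ← add_mul, ← ENNReal.ofReal_add (by positivity) (by positivity)]
  congr 2
  ring
/-- exchanging the two outgoing particles -/
lemma lintegral_swap_out (v vs : R3) {Φ : R3 × R3 → ℝ≥0∞} (hΦ : Measurable Φ) :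
    ∫⁻ w, ENNReal.ofReal |inner ℝ (v - vs) w| * Φ (postVel v vs w, postVelStar v vs w) ∂sphereMeasure =
    ∫⁻ w, ENNReal.ofReal |inner ℝ (v - vs) w| * Φ (postVelStar v vs w, postVel v vs w) ∂sphereMeasure := by
  have hm : Measurable fun y : R3 =>
      Φ ((1 / 2 : ℝ) • (v + vs) + (1 / 2 : ℝ) • y, (1 / 2 : ℝ) • (v + vs) - (1 / 2 : ℝ) • y) :=
    hΦ.comp (by fun_prop)
  have hm' : Measurable fun y : R3 =>
      Φ ((1 / 2 : ℝ) • (v + vs) - (1 / 2 : ℝ) • y, (1 / 2 : ℝ) • (v + vs) + (1 / 2 : ℝ) • y) :=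
    hΦ.comp (by fun_prop)
  simp only [sigma_post, sigma_postStar]
  have h := sigma_neg (hm.comp (f := fun σ : R3 => ‖v - vs‖ • σ) (by fun_prop))
  simp only [Function.comp, smul_neg, sub_neg_eq_add, ← sub_eq_add_neg] at h
  rw [lintegral_sigma (v - vs) hm, lintegral_sigma (v - vs) hm', h]
lemma gain_comm {f g : R3 → ℝ≥0∞} (hf : Measurable f) (hg : Measurable g) (v : R3) :
    gain f g v = gain g f v := by
  refine lintegral_congr fun vs => ?_
  simp only [mul_assoc]
  rw [lintegral_swap_out v vs (Φ := fun p => f p.1 * g p.2) (by fun_prop)]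
  simp only [mul_comm (f _)]
/-- outgoing velocities rarely lie in a thin slab -/
lemma thin_out {n : R3} (hn : ‖n‖ = 1) (v vs : R3) {δ : ℝ} (hδ : 0 ≤ δ) :
    ∫⁻ w, ENNReal.ofReal |inner ℝ (v - vs) w| *
      (if |inner ℝ n (postVel v vs w)| < δ then (1:ℝ≥0∞) else 0) ∂sphereMeasure ≤
      ENNReal.ofReal (4 * Real.pi * δ) := by
  rcases eq_or_ne (v - vs) 0 with h0 | h0
  · simp [h0]
  have hρ : 0 < ‖v - vs‖ := norm_pos_iff.mpr h0
  have hm : Measurable fun y : R3 =>
      if |inner ℝ n ((1 / 2 : ℝ) • (v + vs) + (1 / 2 : ℝ) • y)| < δ then (1:ℝ≥0∞) else 0 :=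
    Measurable.ite (measurableSet_lt (Continuous.measurable (by fun_prop)) measurable_const) measurable_const
      measurable_const
  simp only [sigma_post]
  rw [lintegral_sigma (v - vs) hm]
  set ρ := ‖v - vs‖
  set c := inner ℝ n ((1 / 2 : ℝ) • (v + vs))
  have h1 : ∀ σ : R3, (if |inner ℝ n ((1 / 2 : ℝ) • (v + vs) + (1 / 2 : ℝ) • ρ • σ)| < δ then (1:ℝ≥0∞) else 0) ≤
      (Ioo ((-δ - c) / (ρ / 2)) ((δ - c) / (ρ / 2))).indicator (1 : ℝ → ℝ≥0∞) (inner ℝ n σ) := fun σ => by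
    split_ifs with h
    · rw [inner_add_right, inner_smul_right n (ρ • σ), inner_smul_right n σ, abs_lt] at h
      rw [indicator_of_mem, Pi.one_apply]
      constructor
      · rw [div_lt_iff₀ (by positivity)]; linarith [h.1]
      · rw [lt_div_iff₀ (by positivity)]; linarith [h.2]
    · exact zero_le
  refine (mul_le_mul_right ((lintegral_mono h1).trans (sigma_slab hn _ _)) _).trans (le_of_eq ?_)
  rw [← ENNReal.ofReal_mul (by positivity)]
  congr 1
  field_simp
  ring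
/-- outgoing velocities rarely exceed `V` when the target is slow -/
lemma fast_out {v vs : R3} {V : ℝ} (hV : 100 ≤ V) (hv : ‖v‖ ≤ V) (hvs : ‖vs‖ ≤ 2) :
    ∫⁻ w, ENNReal.ofReal |inner ℝ (v - vs) w| *
      (if V < ‖postVel v vs w‖ then (1:ℝ≥0∞) else 0) ∂sphereMeasure ≤
      ENNReal.ofReal (2 * Real.pi * ‖v - vs‖ / 20) := by
  have key : ∀ w : R3, ‖w‖ = 1 → V < ‖postVel v vs w‖ → |inner ℝ (v - vs) w| < 4 ∧ 97 ≤ ‖v - vs‖ := by
    intro w hw h
    have h1 : ‖postVel v vs w‖ ^ 2 = ‖v‖ ^ 2 - inner ℝ v w ^ 2 + inner ℝ vs w ^ 2 := by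
      rw [postVel, norm_sub_sq_real, inner_smul_right, norm_smul, hw, Real.norm_eq_abs, mul_one, sq_abs,
        inner_sub_left]
      ring
    have h2 : |inner ℝ vs w| ≤ 2 := (abs_real_inner_le_norm _ _).trans (by rw [hw, mul_one]; exact hvs)
    have h3 : V ^ 2 < ‖postVel v vs w‖ ^ 2 := pow_lt_pow_left₀ h (by linarith) two_ne_zero
    have h4 : ‖v‖ ^ 2 ≤ V ^ 2 := pow_le_pow_left₀ (norm_nonneg _) hv 2
    have h5 : inner ℝ vs w ^ 2 ≤ 2 ^ 2 := by rw [← sq_abs]; exact pow_le_pow_left₀ (abs_nonneg _) h2 2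
    have h6 : |inner ℝ v w| < 2 := abs_lt_of_sq_lt_sq (by linarith) zero_le_two
    constructor
    · rw [inner_sub_left]
      linarith [abs_sub (inner ℝ v w) (inner ℝ vs w)]
    · have h7 : 99 ≤ ‖v‖ := by
        by_contra h7
        have := norm_nonneg v
        nlinarith [sq_nonneg (inner ℝ v w)]
      linarith [norm_sub_norm_le v vs]
  rcases lt_or_ge ‖v - vs‖ 97 with hρ | hρ
  · rw [lintegral_congr_ae (g := fun _ => 0), lintegral_zero]
    · exact zero_le
    · filter_upwards [sphere_ae_unit] with w hw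
      rw [if_neg fun h => (key w hw h).2.not_gt hρ, mul_zero]
  set ρ := ‖v - vs‖ with hρd
  have hρ0 : 0 < ρ := by linarith
  have hn : ‖ρ⁻¹ • (v - vs)‖ = 1 := by rw [norm_smul, norm_inv, norm_norm, inv_mul_cancel₀ hρ0.ne']
  refine (lintegral_mono_ae (g := fun w => ENNReal.ofReal 4 * (Ioo (-(4 / ρ)) (4 / ρ)).indicator (1 : ℝ → ℝ≥0∞)
    (inner ℝ (ρ⁻¹ • (v - vs)) w)) ?_).trans ?_
  · filter_upwards [sphere_ae_unit] with w hw
    split_ifs with h
    · have h1 := (key w hw h).1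
      rw [indicator_of_mem, Pi.one_apply]
      · gcongr
      · rw [mem_Ioo, ← abs_lt, real_inner_smul_left, abs_mul, abs_of_pos (inv_pos.mpr hρ0), inv_mul_eq_div]
        gcongr
    · simp
  · rw [lintegral_const_mul' _ _ ENNReal.ofReal_ne_top]
    refine (mul_le_mul_right (sigma_slab hn _ _) _).trans ?_
    rw [← ENNReal.ofReal_mul (by norm_num)]
    refine ENNReal.ofReal_le_ofReal ?_
    have h1 : 4 / ρ ≤ ρ / 160 := by
      rw [div_le_div_iff₀ hρ0 (by norm_num)]; nlinarith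
    nlinarith [Real.pi_pos]
/-- quadratic expansion of the gain -/
lemma gain_add_add {f g : R3 → ℝ≥0∞} (hf : Measurable f) (hg : Measurable g) (v : R3) :
    gain (fun u => f u + g u) (fun u => f u + g u) v = gain f f v + 2 * gain f g v + gain g g v := by
  rw [gain_add_left (g := fun u => f u + g u) hf hg (hf.add hg), gain_add_right hf hf hg, gain_add_right hg hf hg, gain_comm hg hf]
  ring

end Crest.Agent.R068
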