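import Crest.Agent.R068.Plane
import Crest.Agent.R068.PrePost
import Crest.Agent.R068.Sigma
import Crest.Agent.R068.GaussAuxA

/-! Row 68: Gaussian and potential estimates. -/

set_option autoImplicit false
open MeasureTheory Set Filter Topology
open scoped ENNReal
open Crest.AnalysisR.VecCalc3 Crest.AnalysisR.PDE.Boltzmann

namespace Crest.Agent.R068

lemma lintegral_gs {a : ℝ} (ha : 0 < a) (b : R3) :
    ∫⁻ u, gs a (u - b) = ENNReal.ofReal ((Real.pi / a) ^ (3 / 2 : ℝ)) :=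
  gaussA_lintegral_gs ha b
lemma lintegral_mu : ∫⁻ u, mu u = 1 :=
  gaussA_lintegral_mu
lemma lintegral_moment_gs {a : ℝ} (ha : 0 < a) (k : ℕ) :
    (∫⁻ u, ENNReal.ofReal ((1 + ‖u‖) ^ k) * gs a u) < ⊤ :=
  gaussA_moment_gs ha k
/-- scaled first moment -/
lemma lintegral_norm_gs_scaled {η : ℝ} (hη : 0 < η) (b : R3) :
    ∫⁻ u, ENNReal.ofReal ‖u - b‖ * gs (η ^ 2)⁻¹ (u - b) ≤ ENNReal.ofReal (20 * η ^ 4) :=
  gaussA_norm_gs_scaled hη b
lemma lintegral_gs_scaled {η : ℝ} (hη : 0 < η) (b : R3) :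
    ∫⁻ u, gs (η ^ 2)⁻¹ (u - b) ≤ ENNReal.ofReal (6 * η ^ 3) :=
  gaussA_gs_scaled hη b
lemma pot_ball (b v : R3) {ρ : ℝ} (hρ : 0 ≤ ρ) :
    pot (fun u => if ‖u - b‖ ≤ ρ then (1:ℝ≥0∞) else 0) v ≤ ENNReal.ofReal (20 * ρ ^ 2) :=
  gaussA_pot_ball b v hρ
lemma lintegral_inv_ball (b : R3) {ρ : ℝ} (hρ : 0 ≤ ρ) :
    ∫⁻ u in Metric.closedBall b ρ, (ENNReal.ofReal ‖u - b‖)⁻¹ ≤ ENNReal.ofReal (20 * ρ ^ 2) :=
  gaussA_inv_ball' b hρ
lemma lintegral_inv_sq_ball (b : R3) {ρ : ℝ} (hρ : 0 ≤ ρ) :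
    ∫⁻ u in Metric.closedBall b ρ, (ENNReal.ofReal ‖u - b‖)⁻¹ ^ 2 ≤ ENNReal.ofReal (20 * ρ) :=
  gaussA_inv_sq_ball b hρ
/-- potential of a function living far from `v` -/
lemma pot_le_of_far {f : R3 → ℝ≥0∞} (hf : Measurable f) {v : R3} {d : ℝ} (hd : 0 < d)
    (h : ∀ u, f u ≠ 0 → d ≤ ‖v - u‖) : pot f v ≤ ENNReal.ofReal d⁻¹ * ∫⁻ u, f u :=
  gaussA_pot_far hf hd h
/-- splitting a potential at radius `ρ` -/
lemma pot_le_split {f : R3 → ℝ≥0∞} (hf : Measurable f) {C : ℝ≥0∞} (hC : ∀ u, f u ≤ C) (v : R3)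
    {ρ : ℝ} (hρ : 0 < ρ) :
    pot f v ≤ C * ENNReal.ofReal (20 * ρ ^ 2) + ENNReal.ofReal ρ⁻¹ * ∫⁻ u, f u :=
  gaussA_pot_split' hf hC v hρ
/-- potential of a narrow Gaussian -/
lemma pot_gs_scaled {η : ℝ} (hη : 0 < η) (b v : R3) :
    pot (fun u => gs (η ^ 2)⁻¹ (u - b)) v ≤ ENNReal.ofReal (1000 * η ^ 3 / max ‖v - b‖ η) :=
  gaussA_pot_gs_scaled hη b v
lemma pot_gs_le {a : ℝ} (ha : 1 / 100 ≤ a) (v : R3) : pot (gs a) v ≤ 10000 :=
  gaussA_pot_gs_le ha v
lemma gb_absorb {a b c : ℝ} (hc : 0 ≤ c) (h : ∀ r : ℝ, 0 ≤ r → 1 + r ≤ c * (1 + (a - b) * r ^ 2))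
    (v : R3) : ENNReal.ofReal (1 + ‖v‖) * gs a v ≤ ENNReal.ofReal c * gs b v := by
  unfold gs
  rw [← ENNReal.ofReal_mul (by positivity), ← ENNReal.ofReal_mul hc]
  refine ENNReal.ofReal_le_ofReal ?_
  have e1 : Real.exp (-(b * ‖v‖ ^ 2)) = Real.exp ((a - b) * ‖v‖ ^ 2) * Real.exp (-(a * ‖v‖ ^ 2)) := by
    rw [← Real.exp_add]; congr 1; ring
  rw [e1, ← mul_assoc]
  refine mul_le_mul_of_nonneg_right ((h _ (norm_nonneg v)).trans ?_) (Real.exp_pos _).le
  exact mul_le_mul_of_nonneg_left (by linarith [Real.add_one_le_exp ((a - b) * ‖v‖ ^ 2)]) hc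

lemma gb_absorb8 {a : ℝ} (ha : 1 / 100 ≤ a) (v : R3) :
    ENNReal.ofReal (1 + ‖v‖) * gs a v ≤ ENNReal.ofReal 8 * gs ((14 : ℝ) ^ 2)⁻¹ v := by
  refine gb_absorb (by norm_num) (fun r hr => ?_) v
  have h1 : (1 / 100 - ((14 : ℝ) ^ 2)⁻¹) * r ^ 2 ≤ (a - ((14 : ℝ) ^ 2)⁻¹) * r ^ 2 :=
    mul_le_mul_of_nonneg_right (by linarith) (sq_nonneg r)
  nlinarith [sq_nonneg (r - 13)]

lemma gb_int_gs {a : ℝ} (ha : 1 / 100 ≤ a) : ∫⁻ u, gs a u ≤ ENNReal.ofReal 6000 := by
  have h := lintegral_gs_scaled (η := 10) (by norm_num) 0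
  simp only [sub_zero] at h
  refine (lintegral_mono fun u => gs_anti ?_ u).trans (h.trans (le_of_eq ?_))
  · norm_num; linarith
  · norm_num

lemma freq_gs_le {a : ℝ} (ha : 1 / 100 ≤ a) (v : R3) :
    freq (gs a) v ≤ ENNReal.ofReal (10 ^ 6 * (1 + ‖v‖)) := by
  refine (freq_le_moment _ (measurable_gs a) v).trans ?_
  have h := lintegral_gs_scaled (η := 14) (by norm_num) 0
  simp only [sub_zero] at h
  have h2 : ∫⁻ u, ENNReal.ofReal (1 + ‖u‖) * gs a u ≤
      ENNReal.ofReal 8 * ENNReal.ofReal (6 * 14 ^ 3) := by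
    refine (lintegral_mono fun u => gb_absorb8 ha u).trans ?_
    rw [lintegral_const_mul _ (measurable_gs _)]
    gcongr
  refine (mul_le_mul_right h2 _).trans ?_
  have hp := Real.pi_pos
  rw [← ENNReal.ofReal_mul (by norm_num), ← ENNReal.ofReal_mul (by positivity)]
  refine ENNReal.ofReal_le_ofReal ?_
  have := Real.pi_lt_d2
  nlinarith [norm_nonneg v]

lemma gb_mu_le (u : R3) : mu u ≤ ENNReal.ofReal (1 / 14) := by
  rw [mu_eq]
  have h1 : (14 : ℝ) ≤ (2 * Real.pi) ^ (3 / 2 : ℝ) := by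
    have hp := Real.pi_gt_three
    have h2 : ((2 * Real.pi) ^ (3 / 2 : ℝ)) ^ 2 = (2 * Real.pi) ^ 3 := by
      rw [← Real.rpow_natCast, ← Real.rpow_mul (by linarith), ← Real.rpow_natCast]
      norm_num
    have h3 : (6 : ℝ) ^ 3 ≤ (2 * Real.pi) ^ 3 := pow_le_pow_left₀ (by norm_num) (by linarith) 3
    refine le_of_sq_le_sq ?_ (Real.rpow_nonneg (by linarith) _)
    rw [h2]; linarith
  have h2 : (2 * Real.pi) ^ (-(3 / 2 : ℝ)) ≤ 1 / 14 := by
    rw [Real.rpow_neg (by positivity), one_div]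
    exact inv_anti₀ (by norm_num) h1
  calc _ ≤ ENNReal.ofReal (1 / 14) * 1 :=
        mul_le_mul' (ENNReal.ofReal_le_ofReal h2) (gs_le_one (by norm_num) u)
    _ = _ := mul_one _

lemma freq_mu_ge (v : R3) : ENNReal.ofReal (2 * (1 + ‖v‖)) ≤ freq mu v := by
  have hp := Real.pi_gt_d2
  have hp' := Real.pi_lt_d2
  have hmu : ∀ u : R3, mu (-u) = mu u := fun u => by simp [mu, maxwellian]
  have h1 : freq mu v = ∫⁻ u, ENNReal.ofReal (2 * Real.pi * ‖v + u‖) * mu u := by
    rw [freq, ← lintegral_neg_eq_self]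
    simp only [sub_neg_eq_add, hmu]
  have hm1 : Measurable fun u : R3 => ENNReal.ofReal (2 * Real.pi * ‖v - u‖) * mu u :=
    (ENNReal.measurable_ofReal.comp (by fun_prop)).mul measurable_mu
  have hm2 : Measurable fun u : R3 => ENNReal.ofReal (2 * Real.pi * ‖v + u‖) * mu u :=
    (ENNReal.measurable_ofReal.comp (by fun_prop)).mul measurable_mu
  have h2 : ENNReal.ofReal (2 * Real.pi * (1 + ‖v‖)) ≤ freq mu v + freq mu v +
      ENNReal.ofReal (2 * Real.pi * (1 / 14)) * volume (Metric.ball (0 : R3) 1) := by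
    calc ENNReal.ofReal (2 * Real.pi * (1 + ‖v‖))
        = ∫⁻ u, ENNReal.ofReal (2 * Real.pi * (1 + ‖v‖)) * mu u := by
          rw [lintegral_const_mul _ measurable_mu, lintegral_mu, mul_one]
      _ ≤ ∫⁻ u, (ENNReal.ofReal (2 * Real.pi * ‖v - u‖) * mu u +
            ENNReal.ofReal (2 * Real.pi * ‖v + u‖) * mu u) +
            (Metric.ball (0 : R3) 1).indicator (fun _ => ENNReal.ofReal (2 * Real.pi * (1 / 14))) u := by
          refine lintegral_mono fun u => ?_
          have e1 : 2 * ‖v‖ ≤ ‖v - u‖ + ‖v + u‖ := by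
            have := norm_add_le (v - u) (v + u)
            rwa [show v - u + (v + u) = (2 : ℝ) • v by rw [two_smul]; abel, norm_smul,
              Real.norm_two] at this
          have e2 : 2 * ‖u‖ ≤ ‖v - u‖ + ‖v + u‖ := by
            have := norm_sub_le (v + u) (v - u)
            rw [show v + u - (v - u) = (2 : ℝ) • u by rw [two_smul]; abel, norm_smul,
              Real.norm_two] at this
            linarith
          rw [← add_mul, ← ENNReal.ofReal_add (by positivity) (by positivity)]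
          by_cases hu : u ∈ Metric.ball (0 : R3) 1
          · rw [indicator_of_mem hu, mul_add, mul_one, ENNReal.ofReal_add (by positivity) (by positivity),
              add_mul, add_comm]
            refine add_le_add (mul_le_mul_left (ENNReal.ofReal_le_ofReal ?_) _) ?_
            · nlinarith [norm_nonneg v]
            · rw [ENNReal.ofReal_mul (p := 2 * Real.pi) (q := 1 / 14) (by positivity)]
              exact mul_le_mul_right (gb_mu_le u) _
          · rw [indicator_of_notMem hu, add_zero]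
            rw [mem_ball_zero_iff, not_lt] at hu
            refine mul_le_mul_left (ENNReal.ofReal_le_ofReal ?_) _
            nlinarith
      _ = _ := by
          rw [lintegral_add_left (hm1.fun_add hm2), lintegral_add_left hm1, ← h1,
            lintegral_indicator_const measurableSet_ball]
          rfl
  rw [EuclideanSpace.volume_ball_fin_three] at h2
  simp only [ENNReal.ofReal_one, one_pow, one_mul] at h2
  rw [← ENNReal.ofReal_mul (by positivity)] at h2
  by_contra hlt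
  push Not at hlt
  have h3 : freq mu v + freq mu v + ENNReal.ofReal (2 * Real.pi * (1 / 14) * (Real.pi * 4 / 3)) <
      ENNReal.ofReal (2 * (1 + ‖v‖)) + ENNReal.ofReal (2 * (1 + ‖v‖)) +
        ENNReal.ofReal (2 * Real.pi * (1 / 14) * (Real.pi * 4 / 3)) :=
    ENNReal.add_lt_add_right ENNReal.ofReal_ne_top (ENNReal.add_lt_add hlt hlt)
  rw [← ENNReal.ofReal_add (by positivity) (by positivity),
    ← ENNReal.ofReal_add (by positivity) (by positivity)] at h3
  have h4 := (ENNReal.ofReal_lt_ofReal_iff (by positivity)).1 (h2.trans_lt h3)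
  nlinarith [norm_nonneg v]

lemma freq_mu_ne_top (v : R3) : freq mu v ≠ ⊤ :=
  ne_top_of_le_ne_top ENNReal.ofReal_ne_top
    ((freq_mono mu_le_gs v).trans (freq_gs_le (by norm_num) v))

/-- no loss of a velocity weight when one Gaussian is narrower -/
lemma gain_gs_gs_le {a b : ℝ} (ha : 1 / 100 ≤ a) (hab : a + 1 / 100 ≤ b) (v : R3) :
    gain (gs b) (gs a) v ≤ 10 ^ 7 * gs a v := by
  have ha0 : 0 < a := by linarith
  refine (gain_gs_le ha0 (measurable_gs b) v).trans ?_
  have h1 : (fun η => gs b η * gs (-a) η) = gs (b + -a) := by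
    funext η; rw [gs_add]
  have h2 : ENNReal.ofReal (2 * Real.pi / a) ≤ 1000 := by
    rw [← ENNReal.ofReal_ofNat]
    refine ENNReal.ofReal_le_ofReal ?_
    rw [div_le_iff₀ ha0]
    have := Real.pi_lt_d2
    linarith
  rw [h1]
  calc _ ≤ 1000 * gs a v * 10000 := by
        gcongr
        exact pot_gs_le (by linarith) v
    _ = _ := by ring

lemma gain_gs_self_le {a : ℝ} (ha : 1 / 100 ≤ a) (v : R3) :
    gain (gs a) (gs a) v ≤ ENNReal.ofReal (10 ^ 6 * (1 + ‖v‖)) * gs a v := by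
  rw [gain_gs_gs, mul_comm]
  exact mul_le_mul_left (freq_gs_le ha v) _

lemma gb_gs_post (a : ℝ) {v vs w : R3} (hw : ‖w‖ = 1) :
    gs a (postVel v vs w) * gs a (postVelStar v vs w) = gs a v * gs a vs := by
  have h := post_energy (v := v) (vs := vs) hw 0
  simp only [sub_zero] at h
  unfold gs
  rw [← ENNReal.ofReal_mul (Real.exp_pos _).le, ← ENNReal.ofReal_mul (Real.exp_pos _).le,
    ← Real.exp_add, ← Real.exp_add]
  congr 2
  linear_combination (-a) * h

/-- thin slabs -/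
lemma gain_thin_le {a : ℝ} (ha : 1 / 100 ≤ a) {n : R3} (hn : ‖n‖ = 1) {κ : ℝ} (hκ : 0 ≤ κ) (v : R3) :
    gain (fun u => if |inner ℝ n u| < κ then gs a u else 0) (gs a) v ≤
      ENNReal.ofReal (10 ^ 5 * κ) * gs a v := by
  have hp := Real.pi_pos
  have h1 : ∀ vs : R3, ∫⁻ w, ENNReal.ofReal |inner ℝ (v - vs) w| *
      (if |inner ℝ n (postVel v vs w)| < κ then gs a (postVel v vs w) else 0) *
        gs a (postVelStar v vs w) ∂sphereMeasure ≤
      (ENNReal.ofReal (4 * Real.pi * κ) * gs a v) * gs a vs := by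
    intro vs
    calc _ = ∫⁻ w, (gs a v * gs a vs) * (ENNReal.ofReal |inner ℝ (v - vs) w| *
          (if |inner ℝ n (postVel v vs w)| < κ then (1 : ℝ≥0∞) else 0)) ∂sphereMeasure := by
          refine lintegral_congr_ae ?_
          filter_upwards [sphere_ae_unit] with w hw
          rw [← gb_gs_post a hw]
          split_ifs <;> ring
      _ = (gs a v * gs a vs) * ∫⁻ w, (ENNReal.ofReal |inner ℝ (v - vs) w| *
          (if |inner ℝ n (postVel v vs w)| < κ then (1 : ℝ≥0∞) else 0)) ∂sphereMeasure :=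
          lintegral_const_mul' _ _ (ENNReal.mul_ne_top (gs_ne_top _ _) (gs_ne_top _ _))
      _ ≤ (gs a v * gs a vs) * ENNReal.ofReal (4 * Real.pi * κ) :=
          mul_le_mul_right (thin_out hn v vs hκ) _
      _ = _ := by ring
  refine (lintegral_mono h1).trans ?_
  rw [lintegral_const_mul _ (measurable_gs a)]
  calc _ ≤ (ENNReal.ofReal (4 * Real.pi * κ) * gs a v) * ENNReal.ofReal 6000 :=
        mul_le_mul_right (gb_int_gs ha) _
    _ = ENNReal.ofReal (4 * Real.pi * κ * 6000) * gs a v := by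
        rw [ENNReal.ofReal_mul (p := 4 * Real.pi * κ) (by positivity)]; ring
    _ ≤ _ := by
        refine mul_le_mul_left (ENNReal.ofReal_le_ofReal ?_) _
        have := Real.pi_lt_d2
        nlinarith

lemma gb_meas_slab (a : ℝ) (n : R3) (κ : ℝ) :
    Measurable (fun u : R3 => if |inner ℝ n u| < κ then gs a u else 0) :=
  Measurable.ite (measurableSet_lt (by fun_prop) measurable_const) (measurable_gs a) measurable_const

lemma gb_int_slab {a : ℝ} (ha : 0 < a) {n : R3} (hn : ‖n‖ = 1) (κ : ℝ) :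
    ∫⁻ u : R3, (if |inner ℝ n u| < κ then gs a u else 0) ≤ ENNReal.ofReal (Real.pi / a * (2 * κ)) := by
  obtain ⟨e, rfl⟩ := exists_onb hn
  have hp := Real.pi_pos
  rw [lintegral_onb e (gb_meas_slab a _ κ)]
  have h0 : ∀ x b c : ℝ, inner ℝ (e 0) (x • e 0 + b • e 1 + c • e 2) = x := by
    intro x b c
    simp [inner_add_right, inner_smul_right, e.inner_eq_ite]
  calc _ ≤ ∫⁻ x : ℝ, (Ioo (-κ) κ).indicator (fun _ => ENNReal.ofReal (Real.pi / a)) x := by
        refine lintegral_mono fun x => ?_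
        simp only [h0]
        by_cases hx : |x| < κ
        · simp only [hx, if_true]
          rw [indicator_of_mem (show x ∈ Ioo (-κ) κ from abs_lt.1 hx)]
          have h1 := plane_eq_coords e (measurable_gs a) (x • e 0)
          have h2 : inner ℝ (x • e 0) (e 0) = x := by simp [inner_smul_left]
          rw [h2, plane_gs ha _ hn] at h1
          rw [← h1]
          refine ENNReal.ofReal_le_ofReal (mul_le_of_le_one_right (by positivity) ?_)
          exact Real.exp_le_one_iff.2 (by simp; positivity)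
        · simp [hx]
    _ = _ := by
        rw [lintegral_indicator_const measurableSet_Ioo, Real.volume_Ioo,
          ← ENNReal.ofReal_mul (by positivity)]
        congr 1; ring

lemma freq_thin_le {a : ℝ} (ha : 1 / 100 ≤ a) {n : R3} (hn : ‖n‖ = 1) {κ : ℝ} (hκ : 0 ≤ κ) (v : R3) :
    freq (fun u => if |inner ℝ n u| < κ then gs a u else 0) v ≤
      ENNReal.ofReal (10 ^ 6 * κ * (1 + ‖v‖)) := by
  refine (freq_le_moment _ (gb_meas_slab a n κ) v).trans ?_
  have hp := Real.pi_pos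
  have h2 : ∫⁻ u : R3, ENNReal.ofReal (1 + ‖u‖) * (if |inner ℝ n u| < κ then gs a u else 0) ≤
      ENNReal.ofReal 8 * ENNReal.ofReal (Real.pi / ((14 : ℝ) ^ 2)⁻¹ * (2 * κ)) := by
    calc _ ≤ ∫⁻ u : R3, ENNReal.ofReal 8 *
          (if |inner ℝ n u| < κ then gs ((14 : ℝ) ^ 2)⁻¹ u else 0) := by
          refine lintegral_mono fun u => ?_
          split_ifs
          · exact gb_absorb8 ha u
          · simp
      _ ≤ _ := by
          rw [lintegral_const_mul _ (gb_meas_slab _ n κ)]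
          exact mul_le_mul_right (gb_int_slab (by norm_num) hn κ) _
  refine (mul_le_mul_right h2 _).trans ?_
  rw [← ENNReal.ofReal_mul (by norm_num), ← ENNReal.ofReal_mul (by positivity)]
  refine ENNReal.ofReal_le_ofReal ?_
  have h3 : Real.pi * Real.pi ≤ 16 := by nlinarith [Real.pi_lt_four]
  have h4 : 0 ≤ κ * (1 + ‖v‖) := by positivity
  calc _ = (Real.pi * Real.pi) * 6272 * (κ * (1 + ‖v‖)) := by norm_num; ring
    _ ≤ 16 * 6272 * (κ * (1 + ‖v‖)) := by gcongr
    _ ≤ _ := by nlinarith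

/-- a slow target: the gain is controlled by the loss for fast particles -/
lemma pot_le_freq {f : R3 → ℝ≥0∞} (hf : Measurable f) {v : R3} (h : ∀ u, f u ≠ 0 → ‖u‖ ≤ 2)
    (hv : 4 ≤ ‖v‖) : pot f v ≤ ENNReal.ofReal ((‖v‖ ^ 2)⁻¹) * freq f v := by
  have _ := hf
  unfold pot freq
  rw [← lintegral_const_mul' _ _ ENNReal.ofReal_ne_top]
  refine lintegral_mono fun u => ?_
  by_cases hu : f u = 0
  · simp [hu]
  · have h1 := h u hu
    have h2 : ‖v‖ - ‖u‖ ≤ ‖v - u‖ := norm_sub_norm_le v u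
    rw [← mul_assoc, ← ENNReal.ofReal_mul (by positivity)]
    refine mul_le_mul_left (ENNReal.ofReal_le_ofReal ?_) _
    have h3 : ‖v‖ ≤ 2 * ‖v - u‖ := by linarith
    have h4 : 0 < ‖v - u‖ := by linarith
    have h5 : ‖v‖ ^ 2 ≤ (2 * ‖v - u‖) ^ 2 := pow_le_pow_left₀ (norm_nonneg _) h3 2
    rw [inv_mul_eq_div, inv_eq_one_div, div_le_div_iff₀ h4 (by positivity)]
    nlinarith [Real.pi_gt_three, sq_nonneg ‖v - u‖]

/-- Gaussian tails -/
lemma gs_tail {a b ρ : ℝ} (hab : b ≤ a) (hρ : 0 ≤ ρ) {v : R3} (hv : ρ ≤ ‖v‖) :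
    gs a v ≤ ENNReal.ofReal (Real.exp (-((a - b) * ρ ^ 2))) * gs b v := by
  unfold gs
  rw [← ENNReal.ofReal_mul (Real.exp_pos _).le, ← Real.exp_add]
  refine ENNReal.ofReal_le_ofReal (Real.exp_le_exp.2 ?_)
  have h1 : ρ ^ 2 ≤ ‖v‖ ^ 2 := pow_le_pow_left₀ hρ hv 2
  nlinarith [mul_le_mul_of_nonneg_left h1 (sub_nonneg.2 hab)]

lemma weight_absorb {a b : ℝ} (hab : b + 1 / 100 ≤ a) (v : R3) :
    ENNReal.ofReal (1 + ‖v‖) * gs a v ≤ 100 * gs b v := by
  rw [← ENNReal.ofReal_ofNat 100]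
  refine gb_absorb (by norm_num) (fun r hr => ?_) v
  have h1 : (1 / 100) * r ^ 2 ≤ (a - b) * r ^ 2 :=
    mul_le_mul_of_nonneg_right (by linarith) (sq_nonneg r)
  nlinarith [sq_nonneg (r - 1)]

lemma gb_exp_int {c : ℝ} (hc : 0 ≤ c) (s t : ℝ) :
    ∫⁻ r in Ioo s t, ENNReal.ofReal (c * Real.exp (-(c * (t - r)))) ≤ 1 := by
  rcases le_or_gt t s with hts | hst
  · simp [Ioo_eq_empty_of_le hts]
  have hcont : Continuous fun r : ℝ => c * Real.exp (-(c * (t - r))) := by fun_prop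
  rw [← ofReal_integral_eq_lintegral_ofReal
    ((hcont.integrableOn_Icc (a := s) (b := t)).mono_set Ioo_subset_Icc_self)
    (Eventually.of_forall fun r => by positivity), ← integral_Ioc_eq_integral_Ioo,
    ← intervalIntegral.integral_of_le hst.le]
  have hd : ∀ r ∈ uIcc s t, HasDerivAt (fun r : ℝ => Real.exp (-(c * (t - r))))
      (c * Real.exp (-(c * (t - r)))) r := by
    intro r _
    have h1 : HasDerivAt (fun r : ℝ => -(c * (t - r))) c r := by
      simpa using (((hasDerivAt_id r).const_sub t).const_mul c).fun_neg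
    simpa [mul_comm] using h1.exp
  rw [intervalIntegral.integral_eq_sub_of_hasDerivAt hd (hcont.intervalIntegrable _ _),
    ← ENNReal.ofReal_one]
  refine ENNReal.ofReal_le_ofReal ?_
  have := Real.exp_pos (-(c * (t - s)))
  simp only [sub_self, mul_zero, neg_zero, Real.exp_zero]
  linarith

/-- time integral of the velocity weight when the exponent decreases at rate `β` -/
lemma lintegral_weight_decay {β s t : ℝ} (hβ : 0 < β) (hst : s ≤ t) (v : R3) :
    ∫⁻ r in Ioo s t, ENNReal.ofReal (1 + ‖v‖) * gs (β * (t - r)) v ≤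
      ENNReal.ofReal ((t - s) + Real.sqrt ((t - s) / β)) := by
  have hτ : 0 ≤ t - s := sub_nonneg.2 hst
  have hle : ∀ r ∈ Ioo s t, gs (β * (t - r)) v ≤ 1 := fun r hr =>
    gs_le_one (mul_nonneg hβ.le (sub_nonneg.2 hr.2.le)) v
  by_cases hc : ‖v‖ ^ 2 * β * (t - s) ≤ 1
  · calc _ ≤ ∫⁻ _ in Ioo s t, ENNReal.ofReal (1 + ‖v‖) := by
          refine setLIntegral_mono' measurableSet_Ioo fun r hr => ?_
          exact mul_le_of_le_one_right' (hle r hr)
      _ = ENNReal.ofReal ((1 + ‖v‖) * (t - s)) := by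
          rw [setLIntegral_const, Real.volume_Ioo, ← ENNReal.ofReal_mul (by positivity)]
      _ ≤ _ := by
          refine ENNReal.ofReal_le_ofReal ?_
          have : ‖v‖ * (t - s) ≤ Real.sqrt ((t - s) / β) := by
            refine Real.le_sqrt_of_sq_le ?_
            rw [le_div_iff₀ hβ]
            nlinarith [mul_le_mul_of_nonneg_right hc hτ]
          linarith
  · push Not at hc
    have hv : 0 < ‖v‖ := by
      rcases (norm_nonneg v).eq_or_lt with h | h
      · rw [← h] at hc; norm_num at hc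
      · exact h
    calc _ ≤ ∫⁻ r in Ioo s t, (1 + ENNReal.ofReal ((β * ‖v‖)⁻¹) *
          ENNReal.ofReal ((β * ‖v‖ ^ 2) * Real.exp (-((β * ‖v‖ ^ 2) * (t - r))))) := by
          refine setLIntegral_mono' measurableSet_Ioo fun r hr => ?_
          rw [ENNReal.ofReal_add zero_le_one hv.le, ENNReal.ofReal_one, add_mul, one_mul]
          refine add_le_add (hle r hr) (le_of_eq ?_)
          unfold gs
          rw [← ENNReal.ofReal_mul hv.le, ← ENNReal.ofReal_mul (by positivity)]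
          congr 1
          rw [show β * (t - r) * ‖v‖ ^ 2 = β * ‖v‖ ^ 2 * (t - r) by ring]
          field_simp
      _ = ENNReal.ofReal (t - s) + ENNReal.ofReal ((β * ‖v‖)⁻¹) * ∫⁻ r in Ioo s t,
          ENNReal.ofReal ((β * ‖v‖ ^ 2) * Real.exp (-((β * ‖v‖ ^ 2) * (t - r)))) := by
          rw [lintegral_add_left measurable_const, setLIntegral_const, Real.volume_Ioo, one_mul,
            lintegral_const_mul' _ _ ENNReal.ofReal_ne_top]
      _ ≤ ENNReal.ofReal (t - s) + ENNReal.ofReal ((β * ‖v‖)⁻¹) * 1 := by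
          gcongr
          exact gb_exp_int (by positivity) s t
      _ ≤ _ := by
          rw [mul_one, ← ENNReal.ofReal_add hτ (by positivity)]
          refine ENNReal.ofReal_le_ofReal (add_le_add_right ?_ _)
          refine Real.le_sqrt_of_sq_le ?_
          rw [inv_pow, le_div_iff₀ hβ, inv_mul_le_iff₀ (by positivity)]
          nlinarith [mul_le_mul_of_nonneg_left hc.le hβ.le]

lemma lintegral_Ed (s t : ℝ) (v : R3) :
    ∫⁻ r in Ioo s t, Ed r t v * ENNReal.ofReal (1 + ‖v‖) ≤ 1 := by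
  refine le_trans (le_of_eq ?_) (gb_exp_int (c := 1 + ‖v‖) (by positivity) s t)
  refine lintegral_congr fun r => ?_
  rw [Ed, ← ENNReal.ofReal_mul (Real.exp_pos _).le, mul_comm]

lemma gb_cell_lt_top : volume cell < ⊤ := by
  refine lt_of_le_of_lt (measure_mono ?_) (measure_closedBall_lt_top (x := (0 : R3)) (r := 2))
  intro x hx
  rw [mem_closedBall_zero_iff, EuclideanSpace.norm_eq]
  refine Real.sqrt_le_iff.2 ⟨by norm_num, ?_⟩
  have h : ∀ i, ‖x i‖ ^ 2 ≤ 1 := fun i => by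
    have := hx i
    rw [Real.norm_eq_abs, sq_abs]
    nlinarith [this.1, this.2]
  rw [Fin.sum_univ_three]
  linarith [h 0, h 1, h 2]

lemma gb_cell_int {h : R3 → ℝ≥0∞} (hh : Measurable h) :
    ∫⁻ q in cell ×ˢ univ, h q.2 ∂(volume : Measure (R3 × R3)) = volume cell * ∫⁻ v, h v := by
  rw [Measure.volume_eq_prod, ← Measure.prod_restrict, Measure.restrict_univ,
    lintegral_prod (fun q : R3 × R3 => h q.2) (hh.comp measurable_snd).aemeasurable]
  simp [mul_comm]

lemma good_gs {C : ℝ≥0∞} (hC : C ≠ ⊤) {a : ℝ} (ha : 0 < a) : Good (fun _ _ v => C * gs a v) := by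
  have hm : ∀ k : ℕ, Measurable fun v : R3 => ENNReal.ofReal ((1 + ‖v‖) ^ k) * gs a v := fun k =>
    (ENNReal.measurable_ofReal.comp (by fun_prop)).mul (measurable_gs a)
  refine ⟨?_, fun _ _ _ _ => rfl, fun T k => ?_, fun T => ?_, fun T => ?_⟩
  · exact measurable_const.mul ((measurable_gs a).comp (measurable_snd.comp measurable_snd))
  · rw [setLIntegral_const, Measure.volume_eq_prod, Measure.prod_prod]
    refine ENNReal.mul_lt_top (ENNReal.pow_lt_top ?_)
      (ENNReal.mul_lt_top (by simp) gb_cell_lt_top)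
    simp only [mul_left_comm _ C]
    rw [lintegral_const_mul _ (hm k)]
    exact ENNReal.mul_lt_top hC.lt_top (lintegral_moment_gs ha k)
  · set M := ∫⁻ u : R3, ENNReal.ofReal (1 + ‖u‖) * gs a u with hM
    have hM' : M < ⊤ := by simpa using lintegral_moment_gs ha 1
    set K := 2 * C * C * ENNReal.ofReal (2 * Real.pi) * M * C ^ (1 / 64 : ℝ) with hK
    have hK' : K ≠ ⊤ := ENNReal.mul_ne_top (ENNReal.mul_ne_top (ENNReal.mul_ne_top
      (ENNReal.mul_ne_top (ENNReal.mul_ne_top (by norm_num) hC) hC) ENNReal.ofReal_ne_top) hM'.ne)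
      (ENNReal.rpow_ne_top_of_nonneg (by norm_num) hC)
    have hb : ∀ v : R3, (gain (fun u => C * gs a u) (fun u => C * gs a u) v +
        C * gs a v * freq (fun u => C * gs a u) v) * (C * gs a v) ^ (1 / 64 : ℝ) ≤
        K * (ENNReal.ofReal ((1 + ‖v‖) ^ 1) * gs a v) := by
      intro v
      rw [gain_const_mul_left (measurable_gs a) (measurable_const.fun_mul (measurable_gs a)),
        gain_const_mul_right (measurable_gs a) (measurable_gs a), gain_gs_gs,
        freq_const_mul (measurable_gs a)]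
      have h1 := freq_le_moment _ (measurable_gs a) v
      rw [← hM, ENNReal.ofReal_mul (by positivity)] at h1
      have h2 : (C * gs a v) ^ (1 / 64 : ℝ) ≤ C ^ (1 / 64 : ℝ) :=
        ENNReal.rpow_le_rpow (mul_le_of_le_one_right' (gs_le_one ha.le v)) (by norm_num)
      calc _ = 2 * C * C * gs a v * freq (gs a) v * (C * gs a v) ^ (1 / 64 : ℝ) := by ring
        _ ≤ 2 * C * C * gs a v * (ENNReal.ofReal (2 * Real.pi) * ENNReal.ofReal (1 + ‖v‖) * M) *
            C ^ (1 / 64 : ℝ) := by gcongr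
        _ = _ := by rw [hK, pow_one]; ring
    refine lt_of_le_of_lt (lintegral_mono fun p => hb p.2.2) ?_
    have hm' : Measurable fun v : R3 => K * (ENNReal.ofReal ((1 + ‖v‖) ^ 1) * gs a v) :=
      measurable_const.mul (hm 1)
    rw [Measure.volume_eq_prod, ← Measure.prod_restrict,
      lintegral_prod (fun p : ℝ × R3 × R3 => K * (ENNReal.ofReal ((1 + ‖p.2.2‖) ^ 1) * gs a p.2.2))
        (hm'.comp (measurable_snd.comp measurable_snd)).aemeasurable]
    simp only []
    rw [setLIntegral_const, gb_cell_int hm', lintegral_const_mul _ (hm 1)]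
    exact ENNReal.mul_lt_top (ENNReal.mul_lt_top gb_cell_lt_top
      (ENNReal.mul_lt_top hK'.lt_top (lintegral_moment_gs ha 1))) (by simp)
  · set K := C + C ^ (65 / 64 : ℝ) with hK
    have hK' : K ≠ ⊤ := ENNReal.add_ne_top.2 ⟨hC, ENNReal.rpow_ne_top_of_nonneg (by norm_num) hC⟩
    have hm' : Measurable fun v : R3 => K * (ENNReal.ofReal ((1 + ‖v‖) ^ 3) * gs a v) :=
      measurable_const.mul (hm 3)
    refine ⟨volume cell * (K * ∫⁻ v : R3, ENNReal.ofReal ((1 + ‖v‖) ^ 3) * gs a v),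
      ENNReal.mul_lt_top gb_cell_lt_top
        (ENNReal.mul_lt_top hK'.lt_top (lintegral_moment_gs ha 3)), fun t _ => ?_⟩
    rw [← lintegral_const_mul _ (hm 3), ← gb_cell_int hm']
    refine lintegral_mono fun q => ?_
    have h1 : gs a q.2 ^ (65 / 64 : ℝ) ≤ gs a q.2 := by
      have := ENNReal.rpow_le_rpow_of_exponent_ge (gs_le_one ha.le q.2)
        (show (1 : ℝ) ≤ 65 / 64 by norm_num)
      rwa [ENNReal.rpow_one] at this
    rw [ENNReal.mul_rpow_of_nonneg _ _ (by norm_num)]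
    calc _ ≤ ENNReal.ofReal ((1 + ‖q.2‖) ^ 3) * (C * gs a q.2 + C ^ (65 / 64 : ℝ) * gs a q.2) := by
          gcongr
      _ = _ := by rw [hK]; ring

end Crest.Agent.R068
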