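import Crest.Agent.R068.Per
import Crest.Agent.R068.Gauss
import Crest.Agent.R068.AvgAux
import Crest.Agent.R068.AvgAuxWeak

/-! Row 68: weak compactness and the averaging lemma. -/

set_option autoImplicit false
open MeasureTheory Set Filter Topology
open scoped ENNReal
open Crest.AnalysisR.VecCalc3 Crest.AnalysisR.PDE.Boltzmann

namespace Crest.Agent.R068

/-- weak-* sequential compactness for functions bounded by one, with periodic limit -/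
theorem weak_subseq {g : ℕ → ℝ → R3 → R3 → ℝ} (hm : ∀ n, MeasT (g n)) (hp : ∀ n, PerT (g n))
    (hb : ∀ n t x v, |g n t x v| ≤ 1) :
    ∃ (φ : ℕ → ℕ) (G : ℝ → R3 → R3 → ℝ), StrictMono φ ∧ MeasT G ∧ PerT G ∧ (∀ t x v, |G t x v| ≤ 1) ∧
      ∀ ψ : ℝ × R3 × R3 → ℝ, Integrable ψ →
        Tendsto (fun n => ∫ p : ℝ × R3 × R3, g (φ n) p.1 p.2.1 p.2.2 * ψ p) atTop
          (𝓝 (∫ p : ℝ × R3 × R3, G p.1 p.2.1 p.2.2 * ψ p)) :=
  weak_subseq_aux hm hp hb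
/-- the averaging lemma (real-space `T T*` argument) -/
theorem averaging {g : ℕ → ℝ → R3 → R3 → ℝ} (hm : ∀ n, MeasT (g n)) (hp : ∀ n, PerT (g n)) {L : ℝ}
    (hb : ∀ n t x v, |g n t x v| ≤ L)
    (hw : ∀ ψ : ℝ × R3 × R3 → ℝ, Integrable ψ →
      Tendsto (fun n => ∫ p : ℝ × R3 × R3, g n p.1 p.2.1 p.2.2 * ψ p) atTop (𝓝 0))
    {φ : R3 → ℝ} (hφ : Measurable φ) {C ρ : ℝ} (hφb : ∀ v, |φ v| ≤ C) (hφs : ∀ v, φ v ≠ 0 → ‖v‖ ≤ ρ)
    (T : ℝ) :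
    Tendsto (fun n => ∫⁻ p in Ioo (0:ℝ) T ×ˢ cell,
      ‖∫ v, φ v * ∫ s in Ioo (0:ℝ) p.1, g n s (p.2 - (p.1 - s) • v) v‖ₑ ∂(volume : Measure (ℝ × R3)))
      atTop (𝓝 0) := avg_main hm hp hb hw hφ hφb hφs T

end Crest.Agent.R068
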