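import Crest.Agent.R068.Avg

/-! Row 68: averaging lemma for dominated sequences. -/

set_option autoImplicit false
open MeasureTheory Set Filter Topology
open scoped ENNReal
open Crest.AnalysisR.VecCalc3 Crest.AnalysisR.PDE.Boltzmann

namespace Crest.Agent.R068

/-- splitting off a remainder -/
lemma avgd_split {a b : R3 → ℝ → ℝ} (ha : Measurable fun p : R3 × ℝ => a p.1 p.2)
    (hb : Measurable fun p : R3 × ℝ => b p.1 p.2) {K : ℝ} (hK : ∀ v s, |a v s| ≤ K)
    {φ : R3 → ℝ} (hφ : Measurable φ) {C ρ : ℝ} (hφb : ∀ v, |φ v| ≤ C) (hφs : ∀ v, φ v ≠ 0 → ‖v‖ ≤ ρ)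
    (τ : Measure ℝ) [IsFiniteMeasure τ] :
    ‖∫ v, φ v * ∫ s, (a v s + b v s) ∂τ‖ₑ ≤
      ‖∫ v, φ v * ∫ s, a v s ∂τ‖ₑ + ENNReal.ofReal (C + 1) * ∫⁻ v, ∫⁻ s, ‖b v s‖ₑ ∂τ := by
  have hC : 0 ≤ C := (abs_nonneg _).trans (hφb 0)
  by_cases htop : ∫⁻ v, ∫⁻ s, ‖b v s‖ₑ ∂τ = ⊤
  · rw [htop, ENNReal.mul_top (by simp; linarith)]; simp
  have ib : Integrable (fun p : R3 × ℝ => b p.1 p.2) (volume.prod τ) := by
    refine ⟨hb.aestronglyMeasurable, ?_⟩
    rw [hasFiniteIntegral_iff_enorm, lintegral_prod _ hb.enorm.aemeasurable]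
    exact lt_top_iff_ne_top.2 htop
  have iφ : Integrable φ := by
    rw [← integrableOn_iff_integrable_of_support_subset (s := Metric.closedBall 0 ρ)
      fun v hv => mem_closedBall_zero_iff.2 (hφs v hv)]
    exact avg_int hφ hφb
  have i1 : Integrable fun v => φ v * ∫ s, a v s ∂τ :=
    iφ.mul_bdd (avg_meas ha τ).aestronglyMeasurable (ae_of_all _ fun v => avg_bd τ (hK v))
  have i2 : Integrable fun v => φ v * ∫ s, b v s ∂τ :=
    ib.integral_prod_left.bdd_mul hφ.aestronglyMeasurable (ae_of_all _ hφb)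
  have e : ∫ v, φ v * ∫ s, (a v s + b v s) ∂τ =
      (∫ v, φ v * ∫ s, a v s ∂τ) + ∫ v, φ v * ∫ s, b v s ∂τ := by
    rw [← integral_add i1 i2]
    refine integral_congr_ae ?_
    filter_upwards [ib.prod_right_ae] with v hv
    rw [integral_add (avg_int (f := a v) (ha.comp (measurable_const.prodMk measurable_id)) (hK v)) hv, mul_add]
  rw [e]
  refine (enorm_add_le _ _).trans (add_le_add le_rfl ?_)
  refine (enorm_integral_le_lintegral_enorm _).trans ?_
  rw [← lintegral_const_mul' _ _ ENNReal.ofReal_ne_top]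
  refine lintegral_mono fun v => ?_
  rw [enorm_mul]
  refine mul_le_mul' ?_ (enorm_integral_le_lintegral_enorm _)
  rw [← ofReal_norm]
  exact ENNReal.ofReal_le_ofReal ((hφb v).trans (by linarith))

/-- the remainder integrated along characteristics -/
lemma avgd_rest {r : ℝ → R3 → R3 → ℝ≥0∞} (hm : MeasT r) (hp : PerT r) (T : ℝ) :
    ∫⁻ p in Ioo (0:ℝ) T ×ˢ cell, ∫⁻ v, ∫⁻ s in Ioo (0:ℝ) T, r s (p.2 - (p.1 - s) • v) v
        ∂volume ∂volume ∂(volume : Measure (ℝ × R3)) =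
      ENNReal.ofReal T * ∫⁻ p in Ioo (0:ℝ) T ×ˢ (cell ×ˢ univ), r p.1 p.2.1 p.2.2
        ∂(volume : Measure (ℝ × R3 × R3)) := by
  have m1 : Measurable fun p : (ℝ × R3) × R3 =>
      ∫⁻ s in Ioo (0:ℝ) T, r s (p.1.2 - (p.1.1 - s) • p.2) p.2 :=
    Measurable.lintegral_prod_right (f := fun (p : (ℝ × R3) × R3) (s : ℝ) =>
      r s (p.1.2 - (p.1.1 - s) • p.2) p.2) (hm.comp (by fun_prop) (by fun_prop) (by fun_prop))
  rw [Measure.volume_eq_prod, ← Measure.prod_restrict, lintegral_prod _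
    (Measurable.lintegral_prod_right (f := fun (p : ℝ × R3) (v : R3) =>
      ∫⁻ s in Ioo (0:ℝ) T, r s (p.2 - (p.1 - s) • v) v) m1).aemeasurable]
  have e : ∀ t : ℝ, ∫⁻ x in cell, ∫⁻ v, ∫⁻ s in Ioo (0:ℝ) T, r s (x - (t - s) • v) v =
      ∫⁻ p in Ioo (0:ℝ) T ×ˢ (cell ×ˢ univ), r p.1 p.2.1 p.2.2 ∂(volume : Measure (ℝ × R3 × R3)) := by
    intro t
    rw [Measure.volume_eq_prod, ← Measure.prod_restrict,
      lintegral_prod _ (Measurable.aemeasurable hm)]
    have e1 : ∀ s : ℝ, ∫⁻ q in cell ×ˢ univ, r s q.1 q.2 ∂(volume : Measure (R3 × R3)) =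
        ∫⁻ q, r s (q.1 - (t - s) • q.2) q.2 ∂((volume.restrict cell).prod (volume : Measure R3)) := by
      intro s
      rw [← lintegral_phase_shift (f := r s) (hm.comp measurable_const measurable_fst measurable_snd)
        (hp s) (s - t), Measure.volume_eq_prod, ← Measure.prod_restrict, Measure.restrict_univ]
      simp only [sub_eq_add_neg _ ((t - s) • _), ← neg_smul, neg_sub]
    simp only [e1]
    rw [lintegral_lintegral_swap (f := fun (s : ℝ) (q : R3 × R3) => r s (q.1 - (t - s) • q.2) q.2)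
      (Measurable.aemeasurable (hm.comp (by fun_prop) (by fun_prop) (by fun_prop))),
      lintegral_prod]
    exact (m1.comp (f := fun q : R3 × R3 => ((t, q.1), q.2)) (by fun_prop)).aemeasurable
  simp only [e]
  rw [setLIntegral_const, Real.volume_Ioo, sub_zero, mul_comm]

/-- averaging lemma with an integrable weight (truncate the weight, then use `averaging`) -/
theorem averaging_dom {g : ℕ → ℝ → R3 → R3 → ℝ} (hm : ∀ n, MeasT (g n)) (hp : ∀ n, PerT (g n))
    (hb : ∀ n t x v, |g n t x v| ≤ 2)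
    (hw : ∀ ψ : ℝ × R3 × R3 → ℝ, Integrable ψ →
      Tendsto (fun n => ∫ p : ℝ × R3 × R3, g n p.1 p.2.1 p.2.2 * ψ p) atTop (𝓝 0))
    {ω : ℝ → R3 → R3 → ℝ} (hωm : MeasT ω) (hωp : PerT ω) (T : ℝ)
    (hωi : (∫⁻ p in Ioo (0:ℝ) T ×ˢ (cell ×ˢ univ), ‖ω p.1 p.2.1 p.2.2‖ₑ
      ∂(volume : Measure (ℝ × R3 × R3))) < ⊤)
    {φ : R3 → ℝ} (hφ : Measurable φ) {C ρ : ℝ} (hφb : ∀ v, |φ v| ≤ C) (hφs : ∀ v, φ v ≠ 0 → ‖v‖ ≤ ρ) :
    Tendsto (fun n => ∫⁻ p in Ioo (0:ℝ) T ×ˢ cell,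
      ‖∫ v, φ v * ∫ s in Ioo (0:ℝ) p.1, g n s (p.2 - (p.1 - s) • v) v * ω s (p.2 - (p.1 - s) • v) v‖ₑ
        ∂(volume : Measure (ℝ × R3))) atTop (𝓝 0) := by
  set A : ℕ → ℝ → R3 → R3 → ℝ := fun M s x v => if |ω s x v| ≤ M then ω s x v else 0 with hA
  set B : ℕ → ℝ → R3 → R3 → ℝ := fun M s x v => if |ω s x v| ≤ M then 0 else ω s x v with hB
  have hs : ∀ M : ℕ, MeasurableSet {p : ℝ × R3 × R3 | |ω p.1 p.2.1 p.2.2| ≤ M} := fun M =>
    measurableSet_le (Measurable.abs hωm) measurable_const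
  have mA : ∀ M, MeasT (A M) := fun M => Measurable.ite (hs M) hωm measurable_const
  have mB : ∀ M, MeasT (B M) := fun M => Measurable.ite (hs M) measurable_const hωm
  have pA : ∀ M, PerT (A M) := fun M t v x i => by
    simp only [hA, (hωp t v x i : ω _ (_ + _) _ = _)]
  have pB : ∀ M, PerT (B M) := fun M t v x i => by
    simp only [hB, (hωp t v x i : ω _ (_ + _) _ = _)]
  have bA : ∀ M s x v, |A M s x v| ≤ M := fun M s x v => by
    simp only [hA]; split_ifs with h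
    · exact h
    · simp
  have hAB : ∀ M s x v, ω s x v = A M s x v + B M s x v := fun M s x v => by
    simp only [hA, hB]; split_ifs <;> simp
  set J : ℕ → ℝ≥0∞ := fun M => ∫⁻ p in Ioo (0:ℝ) T ×ˢ (cell ×ˢ univ), ‖B M p.1 p.2.1 p.2.2‖ₑ
      ∂(volume : Measure (ℝ × R3 × R3)) with hJ
  have hJ0 : Tendsto J atTop (𝓝 0) := by
    have := tendsto_lintegral_of_dominated_convergence
      (μ := (volume : Measure (ℝ × R3 × R3)).restrict (Ioo (0:ℝ) T ×ˢ (cell ×ˢ univ)))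
      (F := fun M p => ‖B M p.1 p.2.1 p.2.2‖ₑ) (f := fun _ => 0) (fun p => ‖ω p.1 p.2.1 p.2.2‖ₑ)
      (fun M => Measurable.enorm (mB M)) (fun M => ae_of_all _ fun p => by
        simp only [hB]; split_ifs <;> simp) hωi.ne (ae_of_all _ fun p => by
        refine tendsto_const_nhds.congr' ?_
        filter_upwards [tendsto_natCast_atTop_atTop.eventually_ge_atTop |ω p.1 p.2.1 p.2.2|] with M hM
        simp [hB, hM])
    simpa using this
  set D : ℝ≥0∞ := ENNReal.ofReal (C + 1) * 2 * ENNReal.ofReal T with hD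
  have hDt : D ≠ ⊤ := by rw [hD]; finiteness
  have hJ1 := ENNReal.Tendsto.const_mul hJ0 (Or.inr hDt)
  rw [mul_zero] at hJ1
  rw [ENNReal.tendsto_nhds_zero]
  intro ε hε
  have hε2 : 0 < ε / 2 := ENNReal.half_pos hε.ne'
  obtain ⟨M, hM⟩ := (ENNReal.tendsto_nhds_zero.1 hJ1 _ hε2).exists
  have h1 := averaging (g := fun n s x v => g n s x v * A M s x v) (fun n => (hm n).mul (mA M))
    (fun n t v x i => by
      simp only [(hp n t v x i : g n _ (_ + _) _ = _), (pA M t v x i : A M _ (_ + _) _ = _)])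
    (fun n t x v => avg_mul_bd (hb n t x v) (bA M t x v))
    (fun ψ hψ => by
      simpa only [mul_assoc] using hw _ (hψ.bdd_mul (Measurable.aestronglyMeasurable (mA M))
        (ae_of_all _ fun p => bA M _ _ _))) hφ hφb hφs T
  filter_upwards [ENNReal.tendsto_nhds_zero.1 h1 _ hε2] with n hn
  have mR : MeasT fun s x v => ‖B M s x v‖ₑ := Measurable.enorm (mB M)
  have h2 := avgd_rest mR (fun t v x i => by
    simp only [(pB M t v x i : B M _ (_ + _) _ = _)]) T
  rw [← ENNReal.add_halves ε]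
  refine le_trans ?_ (add_le_add hn hM)
  rw [hD, mul_assoc _ _ (J M), ← h2, ← lintegral_const_mul' _ _ (by finiteness),
    ← lintegral_add_right]
  swap
  · exact (Measurable.lintegral_prod_right (f := fun (p : ℝ × R3) (v : R3) =>
      ∫⁻ s in Ioo (0:ℝ) T, ‖B M s (p.2 - (p.1 - s) • v) v‖ₑ)
      (Measurable.lintegral_prod_right (f := fun (p : (ℝ × R3) × R3) (s : ℝ) =>
        ‖B M s (p.1.2 - (p.1.1 - s) • p.2) p.2‖ₑ)
        (mR.comp (by fun_prop) (by fun_prop) (by fun_prop)))).const_mul _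
  refine setLIntegral_mono' (measurableSet_Ioo.prod measurableSet_cell) fun p hp => ?_
  simp only [hAB M, mul_add]
  refine (avgd_split (a := fun v s => g n s (p.2 - (p.1 - s) • v) v * A M s (p.2 - (p.1 - s) • v) v)
    (b := fun v s => g n s (p.2 - (p.1 - s) • v) v * B M s (p.2 - (p.1 - s) • v) v)
    (((hm n).comp (by fun_prop) (by fun_prop) (by fun_prop)).mul
      ((mA M).comp (by fun_prop) (by fun_prop) (by fun_prop)))
    (((hm n).comp (by fun_prop) (by fun_prop) (by fun_prop)).mul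
      ((mB M).comp (by fun_prop) (by fun_prop) (by fun_prop)))
    (fun v s => avg_mul_bd (hb n _ _ _) (bA M _ _ _)) hφ hφb hφs _).trans (add_le_add le_rfl ?_)
  rw [mul_assoc, ← lintegral_const_mul' 2 _ (by finiteness)]
  refine mul_le_mul' le_rfl (lintegral_mono fun v => ?_)
  rw [← lintegral_const_mul' 2 _ (by finiteness)]
  refine (lintegral_mono fun s => ?_).trans (lintegral_mono_set (Ioo_subset_Ioo_right hp.1.2.le))
  rw [enorm_mul]
  refine mul_le_mul' ?_ le_rfl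
  rw [← ofReal_norm]
  exact (ENNReal.ofReal_le_ofReal (hb n _ _ _)).trans_eq (ENNReal.ofReal_ofNat 2)

end Crest.Agent.R068
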