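import Crest.Agent.R068.Defs

/-! Row 68: elementary API (monotonicity, bilinearity, measurability). -/

set_option autoImplicit false
open MeasureTheory Set Filter Topology
open scoped ENNReal
open Crest.AnalysisR.VecCalc3 Crest.AnalysisR.PDE.Boltzmann

namespace Crest.Agent.R068

/-! ### `eneg` -/
lemma eneg_le_one (y : ℝ≥0∞) : eneg y ≤ 1 := by
  unfold eneg
  split_ifs
  · exact zero_le_one
  · rw [ENNReal.ofReal_le_one, Real.exp_le_one_iff]
    exact neg_nonpos.2 ENNReal.toReal_nonneg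
lemma eneg_zero : eneg 0 = 1 := by
  simp [eneg]
lemma eneg_anti {y z : ℝ≥0∞} (h : y ≤ z) : eneg z ≤ eneg y := by
  unfold eneg
  by_cases hz : z = ⊤
  · rw [if_pos hz]; exact zero_le
  · have hy : y ≠ ⊤ := ne_top_of_le_ne_top hz h
    rw [if_neg hz, if_neg hy]
    exact ENNReal.ofReal_le_ofReal (Real.exp_le_exp.2 (neg_le_neg (ENNReal.toReal_mono hz h)))
lemma eneg_add (y z : ℝ≥0∞) : eneg (y + z) = eneg y * eneg z := by
  unfold eneg
  by_cases hy : y = ⊤
  · simp [hy]
  by_cases hz : z = ⊤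
  · simp [hz]
  rw [if_neg hy, if_neg hz, if_neg (ENNReal.add_ne_top.2 ⟨hy, hz⟩), ENNReal.toReal_add hy hz,
    neg_add, Real.exp_add, ENNReal.ofReal_mul (Real.exp_pos _).le]
lemma eneg_ofReal {r : ℝ} (hr : 0 ≤ r) : eneg (ENNReal.ofReal r) = ENNReal.ofReal (Real.exp (-r)) := by
  unfold eneg
  rw [if_neg ENNReal.ofReal_ne_top, ENNReal.toReal_ofReal hr]
lemma measurable_eneg : Measurable eneg := by
  unfold eneg
  refine Measurable.ite (measurableSet_singleton ⊤) measurable_const ?_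
  exact (ENNReal.measurable_toReal.neg.exp).ennreal_ofReal
/-- `1 - y ≤ e^{-y}` -/
lemma one_le_eneg_add (y : ℝ≥0∞) : 1 ≤ eneg y + y := by
  by_cases hy : y = ⊤
  · simp [hy]
  unfold eneg
  rw [if_neg hy]
  conv_rhs => rw [← ENNReal.ofReal_toReal hy]
  rw [ENNReal.toReal_ofReal ENNReal.toReal_nonneg,
    ← ENNReal.ofReal_add (Real.exp_pos _).le ENNReal.toReal_nonneg, ENNReal.one_le_ofReal]
  linarith [Real.add_one_le_exp (-y.toReal)]
lemma half_le_eneg {y : ℝ≥0∞} (hy : y ≤ 1 / 2) : 1 / 2 ≤ eneg y := by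
  have h1 : (1 / 2 : ℝ≥0∞) + 1 / 2 ≤ eneg y + 1 / 2 := by
    rw [ENNReal.add_halves]
    exact (one_le_eneg_add y).trans (add_le_add_right hy _)
  exact ENNReal.le_of_add_le_add_right (by simp) h1

/-! ### Gaussians -/
lemma measurable_gs (a : ℝ) : Measurable (gs a) := by
  unfold gs
  fun_prop
lemma measurable_gs' : Measurable (fun p : ℝ × R3 => gs p.1 p.2) := by
  unfold gs
  fun_prop
lemma measurable_mu : Measurable mu := by
  unfold mu maxwellian
  fun_prop
lemma gs_ne_top (a : ℝ) (v : R3) : gs a v ≠ ⊤ := by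
  exact ENNReal.ofReal_ne_top
lemma gs_pos (a : ℝ) (v : R3) : 0 < gs a v := by
  exact ENNReal.ofReal_pos.2 (Real.exp_pos _)
lemma gs_le_one {a : ℝ} (ha : 0 ≤ a) (v : R3) : gs a v ≤ 1 := by
  unfold gs
  rw [ENNReal.ofReal_le_one, Real.exp_le_one_iff]
  exact neg_nonpos.2 (by positivity)
lemma gs_anti {a b : ℝ} (h : a ≤ b) (v : R3) : gs b v ≤ gs a v := by
  exact ENNReal.ofReal_le_ofReal (Real.exp_le_exp.2
    (neg_le_neg (mul_le_mul_of_nonneg_right h (sq_nonneg _))))
lemma gs_add (a b : ℝ) (v : R3) : gs (a + b) v = gs a v * gs b v := by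
  unfold gs
  rw [← ENNReal.ofReal_mul (Real.exp_pos _).le, ← Real.exp_add]
  congr 2
  ring
lemma maxwellian_pos (v : R3) : 0 < maxwellian v := by
  unfold maxwellian
  have := Real.pi_pos
  positivity
lemma mu_ne_top (v : R3) : mu v ≠ ⊤ := by
  exact ENNReal.ofReal_ne_top
lemma mu_eq (v : R3) : mu v = ENNReal.ofReal ((2 * Real.pi) ^ (-(3 / 2 : ℝ))) * gs (1 / 2) v := by
  unfold mu gs maxwellian
  have := Real.pi_pos
  rw [ENNReal.ofReal_mul (by positivity)]
  congr 3
  ring
lemma mu_le_gs (v : R3) : mu v ≤ gs (1 / 2) v := by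
  rw [mu_eq]
  refine mul_le_of_le_one_left zero_le ?_
  rw [ENNReal.ofReal_le_one]
  exact Real.rpow_le_one_of_one_le_of_nonpos (by linarith [Real.pi_gt_three]) (by norm_num)

/-! ### collision maps -/
lemma continuous_postVel : Continuous (fun p : R3 × R3 × R3 => postVel p.1 p.2.1 p.2.2) := by
  unfold postVel
  fun_prop
lemma continuous_postVelStar : Continuous (fun p : R3 × R3 × R3 => postVelStar p.1 p.2.1 p.2.2) := by
  unfold postVelStar
  fun_prop
instance sphereMeasure_finite : IsFiniteMeasure sphereMeasure := by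
  unfold sphereMeasure
  infer_instance
lemma sphere_ae_unit : ∀ᵐ w ∂sphereMeasure, ‖w‖ = 1 := by
  unfold sphereMeasure
  refine (ae_map_iff measurable_subtype_coe.aemeasurable ?_).2 (Eventually.of_forall fun w => ?_)
  · exact measurableSet_eq_fun measurable_norm measurable_const
  · simp

/-! ### monotonicity and bilinearity -/
lemma b2_meas_ker :
    Measurable (fun p : R3 × R3 × R3 => ENNReal.ofReal |inner ℝ (p.1 - p.2.1) p.2.2|) := by
  fun_prop
lemma b2_meas_pair {f g : R3 → ℝ≥0∞} (hf : Measurable f) (hg : Measurable g) (v : R3) :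
    Measurable (fun q : R3 × R3 => ENNReal.ofReal |inner ℝ (v - q.1) q.2| * f (postVel v q.1 q.2) *
      g (postVelStar v q.1 q.2)) := by
  have hq : Measurable (fun q : R3 × R3 => (v, q.1, q.2)) := by fun_prop
  exact ((b2_meas_ker.comp hq).mul (hf.comp (continuous_postVel.measurable.comp hq))).mul
    (hg.comp (continuous_postVelStar.measurable.comp hq))
lemma b2_meas_w {f g : R3 → ℝ≥0∞} (hf : Measurable f) (hg : Measurable g) (v vs : R3) :
    Measurable (fun w : R3 => ENNReal.ofReal |inner ℝ (v - vs) w| * f (postVel v vs w) *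
      g (postVelStar v vs w)) :=
  (b2_meas_pair hf hg v).of_uncurry_left (f := fun vs w : R3 =>
    ENNReal.ofReal |inner ℝ (v - vs) w| * f (postVel v vs w) * g (postVelStar v vs w))
lemma b2_meas_inner {f g : R3 → ℝ≥0∞} (hf : Measurable f) (hg : Measurable g) (v : R3) :
    Measurable (fun vs : R3 => ∫⁻ w, ENNReal.ofReal |inner ℝ (v - vs) w| * f (postVel v vs w) *
      g (postVelStar v vs w) ∂sphereMeasure) :=
  (b2_meas_pair hf hg v).lintegral_prod_right'
lemma b2_meas_proj (v w : R3) : Measurable (fun ξ : R3 => ξ - (inner ℝ (ξ - v) w : ℝ) • w) := by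
  fun_prop
lemma gain_mono {f f' g g' : R3 → ℝ≥0∞} (hf : ∀ v, f v ≤ f' v) (hg : ∀ v, g v ≤ g' v) (v : R3) :
    gain f g v ≤ gain f' g' v := by
  unfold gain
  refine lintegral_mono fun vs => lintegral_mono fun w => ?_
  exact mul_le_mul' (mul_le_mul' le_rfl (hf _)) (hg _)
lemma freq_mono {g g' : R3 → ℝ≥0∞} (hg : ∀ v, g v ≤ g' v) (v : R3) : freq g v ≤ freq g' v :=
  lintegral_mono fun _ => mul_le_mul' le_rfl (hg _)
lemma pot_mono {g g' : R3 → ℝ≥0∞} (hg : ∀ v, g v ≤ g' v) (v : R3) : pot g v ≤ pot g' v :=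
  lintegral_mono fun _ => mul_le_mul' le_rfl (hg _)
lemma plane_mono {g g' : R3 → ℝ≥0∞} (hg : ∀ v, g v ≤ g' v) (v w : R3) :
    plane g v w ≤ plane g' v w := lintegral_mono fun _ => hg _
lemma freq_mono_ae {g g' : R3 → ℝ≥0∞} (hg : ∀ᵐ v, g v ≤ g' v) (v : R3) : freq g v ≤ freq g' v :=
  lintegral_mono_ae (hg.mono fun _ h => mul_le_mul' le_rfl h)
lemma gain_zero_left (g : R3 → ℝ≥0∞) (v : R3) : gain (fun _ => 0) g v = 0 := by simp [gain]
lemma gain_zero_right (f : R3 → ℝ≥0∞) (v : R3) : gain f (fun _ => 0) v = 0 := by simp [gain]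
lemma gain_add_left {f f' g : R3 → ℝ≥0∞} (hf : Measurable f) (hf' : Measurable f') (hg : Measurable g)
    (v : R3) : gain (fun u => f u + f' u) g v = gain f g v + gain f' g v := by
  unfold gain
  rw [← lintegral_add_left (b2_meas_inner hf hg v)]
  refine lintegral_congr fun vs => ?_
  rw [← lintegral_add_left (b2_meas_w hf hg v vs)]
  refine lintegral_congr fun w => ?_
  ring
lemma gain_add_right {f g g' : R3 → ℝ≥0∞} (hf : Measurable f) (hg : Measurable g) (hg' : Measurable g')
    (v : R3) : gain f (fun u => g u + g' u) v = gain f g v + gain f g' v := by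
  unfold gain
  rw [← lintegral_add_left (b2_meas_inner hf hg v)]
  refine lintegral_congr fun vs => ?_
  rw [← lintegral_add_left (b2_meas_w hf hg v vs)]
  refine lintegral_congr fun w => ?_
  ring
lemma gain_const_mul_left {f g : R3 → ℝ≥0∞} (hf : Measurable f) (hg : Measurable g) (c : ℝ≥0∞)
    (v : R3) : gain (fun u => c * f u) g v = c * gain f g v := by
  unfold gain
  rw [← lintegral_const_mul _ (b2_meas_inner hf hg v)]
  refine lintegral_congr fun vs => ?_
  rw [← lintegral_const_mul _ (b2_meas_w hf hg v vs)]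
  refine lintegral_congr fun w => ?_
  ring
lemma gain_const_mul_right {f g : R3 → ℝ≥0∞} (hf : Measurable f) (hg : Measurable g) (c : ℝ≥0∞)
    (v : R3) : gain f (fun u => c * g u) v = c * gain f g v := by
  unfold gain
  rw [← lintegral_const_mul _ (b2_meas_inner hf hg v)]
  refine lintegral_congr fun vs => ?_
  rw [← lintegral_const_mul _ (b2_meas_w hf hg v vs)]
  refine lintegral_congr fun w => ?_
  ring
lemma freq_add {g g' : R3 → ℝ≥0∞} (hg : Measurable g) (hg' : Measurable g') (v : R3) :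
    freq (fun u => g u + g' u) v = freq g v + freq g' v := by
  unfold freq
  rw [← lintegral_add_left (by fun_prop)]
  refine lintegral_congr fun vs => ?_
  ring
lemma freq_const_mul {g : R3 → ℝ≥0∞} (hg : Measurable g) (c : ℝ≥0∞) (v : R3) :
    freq (fun u => c * g u) v = c * freq g v := by
  unfold freq
  rw [← lintegral_const_mul _ (by fun_prop)]
  refine lintegral_congr fun vs => ?_
  ring
lemma pot_add {g g' : R3 → ℝ≥0∞} (hg : Measurable g) (hg' : Measurable g') (v : R3) :
    pot (fun u => g u + g' u) v = pot g v + pot g' v := by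
  unfold pot
  rw [← lintegral_add_left (by fun_prop)]
  refine lintegral_congr fun vs => ?_
  ring
lemma pot_const_mul {g : R3 → ℝ≥0∞} (hg : Measurable g) (c : ℝ≥0∞) (v : R3) :
    pot (fun u => c * g u) v = c * pot g v := by
  unfold pot
  rw [← lintegral_const_mul _ (by fun_prop)]
  refine lintegral_congr fun vs => ?_
  ring
lemma plane_add {g g' : R3 → ℝ≥0∞} (hg : Measurable g) (hg' : Measurable g') (v w : R3) :
    plane (fun u => g u + g' u) v w = plane g v w + plane g' v w := by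
  unfold plane
  exact lintegral_add_left (f := fun ξ => g (ξ - (inner ℝ (ξ - v) w : ℝ) • w))
    (hg.comp (b2_meas_proj v w)) _
lemma plane_const_mul {g : R3 → ℝ≥0∞} (hg : Measurable g) (c : ℝ≥0∞) (v w : R3) :
    plane (fun u => c * g u) v w = c * plane g v w := by
  unfold plane
  exact lintegral_const_mul (f := fun ξ => g (ξ - (inner ℝ (ξ - v) w : ℝ) • w)) c
    (hg.comp (b2_meas_proj v w))
lemma plane_tsum {ι : Type} [Countable ι] {g : ι → R3 → ℝ≥0∞} (hg : ∀ i, Measurable (g i))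
    (v w : R3) : plane (fun u => ∑' i, g i u) v w = ∑' i, plane (g i) v w := by
  unfold plane
  exact lintegral_tsum fun i => ((hg i).comp (b2_meas_proj v w)).aemeasurable
/-- only the values of `g` on the plane matter -/
lemma plane_mono_on {g g' : R3 → ℝ≥0∞} {v w : R3} (hw : ‖w‖ = 1)
    (hg : ∀ ξ, inner ℝ (ξ - v) w = (0:ℝ) → g ξ ≤ g' ξ) : plane g v w ≤ plane g' v w := by
  unfold plane
  refine lintegral_mono fun ξ => hg _ ?_
  have h : ξ - (inner ℝ (ξ - v) w) • w - v = (ξ - v) - (inner ℝ (ξ - v) w) • w := by abel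
  rw [h, inner_sub_left (ξ - v), real_inner_smul_left, real_inner_self_eq_norm_sq, hw]
  ring
/-- `|v - v⁎| ≤ (1+|v|)(1+|v⁎|)` -/
lemma freq_le_moment (g : R3 → ℝ≥0∞) (hg : Measurable g) (v : R3) :
    freq g v ≤ ENNReal.ofReal (2 * Real.pi * (1 + ‖v‖)) * ∫⁻ u, ENNReal.ofReal (1 + ‖u‖) * g u := by
  unfold freq
  rw [← lintegral_const_mul _ (by fun_prop)]
  refine lintegral_mono fun u => ?_
  rw [← mul_assoc, ← ENNReal.ofReal_mul (by positivity)]
  refine mul_le_mul' (ENNReal.ofReal_le_ofReal ?_) le_rfl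
  have h1 : ‖v - u‖ ≤ (1 + ‖v‖) * (1 + ‖u‖) := by
    have := norm_sub_le v u
    nlinarith [norm_nonneg v, norm_nonneg u, mul_nonneg (norm_nonneg v) (norm_nonneg u)]
  calc 2 * Real.pi * ‖v - u‖ ≤ 2 * Real.pi * ((1 + ‖v‖) * (1 + ‖u‖)) := by gcongr
    _ = _ := by ring

/-! ### parametrised measurability -/
lemma measurable_gain {α : Type} [MeasurableSpace α] {f g : α → R3 → ℝ≥0∞} {v : α → R3}
    (hf : Measurable (fun p : α × R3 => f p.1 p.2)) (hg : Measurable (fun p : α × R3 => g p.1 p.2))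
    (hv : Measurable v) : Measurable (fun a => gain (f a) (g a) (v a)) := by
  unfold gain
  refine Measurable.lintegral_prod_right' (f := fun p : α × R3 => ∫⁻ w,
    ENNReal.ofReal |inner ℝ (v p.1 - p.2) w| * f p.1 (postVel (v p.1) p.2 w) *
      g p.1 (postVelStar (v p.1) p.2 w) ∂sphereMeasure) ?_
  refine Measurable.lintegral_prod_right' (f := fun q : (α × R3) × R3 =>
    ENNReal.ofReal |inner ℝ (v q.1.1 - q.1.2) q.2| * f q.1.1 (postVel (v q.1.1) q.1.2 q.2) *
      g q.1.1 (postVelStar (v q.1.1) q.1.2 q.2)) ?_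
  have hq : Measurable (fun q : (α × R3) × R3 => (v q.1.1, q.1.2, q.2)) := by fun_prop
  have h1 : Measurable (fun q : (α × R3) × R3 => (q.1.1, postVel (v q.1.1) q.1.2 q.2)) :=
    (measurable_fst.comp measurable_fst).prodMk (continuous_postVel.measurable.comp hq)
  have h2 : Measurable (fun q : (α × R3) × R3 => (q.1.1, postVelStar (v q.1.1) q.1.2 q.2)) :=
    (measurable_fst.comp measurable_fst).prodMk (continuous_postVelStar.measurable.comp hq)
  exact ((b2_meas_ker.comp hq).mul (hf.comp h1)).mul (hg.comp h2)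
lemma measurable_freq {α : Type} [MeasurableSpace α] {g : α → R3 → ℝ≥0∞} {v : α → R3}
    (hg : Measurable (fun p : α × R3 => g p.1 p.2)) (hv : Measurable v) :
    Measurable (fun a => freq (g a) (v a)) := by
  unfold freq
  refine Measurable.lintegral_prod_right' (f := fun p : α × R3 =>
    ENNReal.ofReal (2 * Real.pi * ‖v p.1 - p.2‖) * g p.1 p.2) ?_
  exact Measurable.mul (by fun_prop) hg
lemma measurable_pot {α : Type} [MeasurableSpace α] {g : α → R3 → ℝ≥0∞} {v : α → R3}
    (hg : Measurable (fun p : α × R3 => g p.1 p.2)) (hv : Measurable v) :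
    Measurable (fun a => pot (g a) (v a)) := by
  unfold pot
  refine Measurable.lintegral_prod_right' (f := fun p : α × R3 =>
    ENNReal.ofReal (‖v p.1 - p.2‖⁻¹) * g p.1 p.2) ?_
  exact Measurable.mul (by fun_prop) hg
lemma measurable_plane {α : Type} [MeasurableSpace α] {g : α → R3 → ℝ≥0∞} {v w : α → R3}
    (hg : Measurable (fun p : α × R3 => g p.1 p.2)) (hv : Measurable v) (hw : Measurable w) :
    Measurable (fun a => plane (g a) (v a) (w a)) := by
  have hin : Measurable (fun p : α × R3 => (inner ℝ (p.2 - v p.1) (w p.1) : ℝ)) := by fun_prop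
  have hS : MeasurableSet {p : α × R3 | inner ℝ (p.2 - v p.1) (w p.1) ∈ Ico (0:ℝ) 1} :=
    hin measurableSet_Ico
  have h1 : Measurable (fun p : α × R3 => (p.1, p.2 - (inner ℝ (p.2 - v p.1) (w p.1) : ℝ) • w p.1)) :=
    measurable_fst.prodMk (measurable_snd.sub (hin.smul (hw.comp measurable_fst)))
  have h2 := ((hg.comp h1).indicator hS).lintegral_prod_right' (ν := (volume : Measure R3))
  convert h2 using 2 with a
  unfold plane
  have hS' : MeasurableSet {ξ : R3 | inner ℝ (ξ - v a) (w a) ∈ Ico (0:ℝ) 1} :=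
    measurable_prodMk_left hS
  rw [← lintegral_indicator hS']
  rfl
lemma MeasT.slice {α : Type} [MeasurableSpace α] {F : ℝ → R3 → R3 → α} (h : MeasT F) (t : ℝ) (x : R3) :
    Measurable (F t x) :=
  Measurable.comp (g := fun p : ℝ × R3 × R3 => F p.1 p.2.1 p.2.2) (f := fun v : R3 => (t, x, v)) h
    (by fun_prop)
lemma MeasT.comp {α β : Type} [MeasurableSpace α] [MeasurableSpace β] {F : ℝ → R3 → R3 → α}
    (h : MeasT F) {t : β → ℝ} {x v : β → R3} (ht : Measurable t) (hx : Measurable x)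
    (hv : Measurable v) : Measurable (fun b => F (t b) (x b) (v b)) :=
  Measurable.comp (g := fun p : ℝ × R3 × R3 => F p.1 p.2.1 p.2.2) (f := fun b => (t b, x b, v b)) h
    (ht.prodMk (hx.prodMk hv))
lemma MeasT.up {F : ℝ → R3 → R3 → ℝ} (h : MeasT F) : MeasT (up F) := ENNReal.measurable_ofReal.comp h
lemma MeasT.clamp {L U : TF} {F : ℝ → R3 → R3 → ℝ} (hL : MeasT L) (hU : MeasT U) (h : MeasT F) :
    MeasT (clamp L U F) :=
  Measurable.max hL (Measurable.min (ENNReal.measurable_ofReal.comp h) hU)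
lemma MeasT.gain {N N' : TF} (h : MeasT N) (h' : MeasT N') :
    MeasT (fun t x v => gain (N t x) (N' t x) v) :=
  measurable_gain (α := ℝ × R3 × R3) (f := fun p => N p.1 p.2.1) (g := fun p => N' p.1 p.2.1)
    (v := fun p => p.2.2) (h.comp (by fun_prop) (by fun_prop) measurable_snd)
    (h'.comp (by fun_prop) (by fun_prop) measurable_snd) (by fun_prop)
lemma MeasT.freq {N : TF} (h : MeasT N) : MeasT (fun t x v => freq (N t x) v) :=
  measurable_freq (α := ℝ × R3 × R3) (g := fun p => N p.1 p.2.1)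
    (v := fun p => p.2.2) (h.comp (by fun_prop) (by fun_prop) measurable_snd) (by fun_prop)
lemma measurable_damp {N : TF} (h : MeasT N) :
    Measurable (fun p : ℝ × ℝ × R3 × R3 => damp N p.1 p.2.1 p.2.2.1 p.2.2.2) := by
  unfold damp
  refine measurable_eneg.comp ?_
  have hS : MeasurableSet {q : (ℝ × ℝ × R3 × R3) × ℝ | q.2 ∈ Ioo q.1.1 q.1.2.1} :=
    (measurableSet_lt (by fun_prop) measurable_snd).inter (measurableSet_lt measurable_snd (by fun_prop))
  have h1 : Measurable (fun q : (ℝ × ℝ × R3 × R3) × ℝ =>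
      freq (N q.2 (q.1.2.2.1 - (q.1.2.1 - q.2) • q.1.2.2.2)) q.1.2.2.2) :=
    h.freq.comp measurable_snd (by fun_prop) (by fun_prop)
  have h2 := (h1.indicator hS).lintegral_prod_right' (ν := (volume : Measure ℝ))
  convert h2 using 2 with p
  rw [← lintegral_indicator measurableSet_Ioo]
  rfl
lemma measurable_collGain {F : ℝ → R3 → R3 → ℝ} (h : MeasT F) : MeasT (collGain F) := by
  unfold MeasT collGain
  refine Measurable.lintegral_prod_right' (f := fun p : (ℝ × R3 × R3) × R3 => ∫⁻ w,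
    ENNReal.ofReal (|inner ℝ (p.1.2.2 - p.2) w| * F p.1.1 p.1.2.1 (postVel p.1.2.2 p.2 w) *
      F p.1.1 p.1.2.1 (postVelStar p.1.2.2 p.2 w)) ∂sphereMeasure) ?_
  refine Measurable.lintegral_prod_right' (f := fun q : ((ℝ × R3 × R3) × R3) × R3 =>
    ENNReal.ofReal (|inner ℝ (q.1.1.2.2 - q.1.2) q.2| *
      F q.1.1.1 q.1.1.2.1 (postVel q.1.1.2.2 q.1.2 q.2) *
      F q.1.1.1 q.1.1.2.1 (postVelStar q.1.1.2.2 q.1.2 q.2))) ?_
  have hq : Measurable (fun q : ((ℝ × R3 × R3) × R3) × R3 => (q.1.1.2.2, q.1.2, q.2)) := by fun_prop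
  refine ENNReal.measurable_ofReal.comp (Measurable.mul (Measurable.mul (by fun_prop) ?_) ?_)
  · exact h.comp (by fun_prop) (by fun_prop) (continuous_postVel.measurable.comp hq)
  · exact h.comp (by fun_prop) (by fun_prop) (continuous_postVelStar.measurable.comp hq)
lemma measurable_collLoss {F : ℝ → R3 → R3 → ℝ} (h : MeasT F) : MeasT (collLoss F) := by
  unfold MeasT collLoss
  refine Measurable.lintegral_prod_right' (f := fun p : (ℝ × R3 × R3) × R3 => ∫⁻ w,
    ENNReal.ofReal (|inner ℝ (p.1.2.2 - p.2) w| * F p.1.1 p.1.2.1 p.1.2.2 *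
      F p.1.1 p.1.2.1 p.2) ∂sphereMeasure) ?_
  refine Measurable.lintegral_prod_right' (f := fun q : ((ℝ × R3 × R3) × R3) × R3 =>
    ENNReal.ofReal (|inner ℝ (q.1.1.2.2 - q.1.2) q.2| *
      F q.1.1.1 q.1.1.2.1 q.1.1.2.2 * F q.1.1.1 q.1.1.2.1 q.1.2)) ?_
  refine ENNReal.measurable_ofReal.comp (Measurable.mul (Measurable.mul (by fun_prop) ?_) ?_)
  · exact h.comp (by fun_prop) (by fun_prop) (by fun_prop)
  · exact h.comp (by fun_prop) (by fun_prop) (by fun_prop)
lemma measurable_Rr {F : ℝ → R3 → R3 → ℝ} (h : MeasT F) : MeasT (Rr F) :=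
  Measurable.sub (Measurable.ennreal_toReal (measurable_collGain h))
    (Measurable.ennreal_toReal (measurable_collLoss h))

/-! ### damping -/
lemma damp_le_one (N : TF) (s t : ℝ) (x v : R3) : damp N s t x v ≤ 1 := by
  exact eneg_le_one _
lemma damp_of_le (N : TF) {s t : ℝ} (h : t ≤ s) (x v : R3) : damp N s t x v = 1 := by
  unfold damp
  rw [Ioo_eq_empty (not_lt.2 h)]
  simp [eneg_zero]
/-- multiplicativity along a characteristic -/
lemma damp_mul {N : TF} (h : MeasT N) {r s t : ℝ} (hrs : r ≤ s) (hst : s ≤ t) (x v : R3) :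
    damp N r t x v = damp N s t x v * damp N r s (x - (t - s) • v) v := by
  unfold damp
  rw [← eneg_add]
  congr 1
  have h1 : ∀ q : ℝ, x - (t - s) • v - (s - q) • v = x - (t - q) • v := fun q => by
    rw [sub_sub, ← add_smul]
    congr 2
    ring
  simp only [h1]
  rw [setLIntegral_congr (Ioo_ae_eq_Ioc (a := r) (b := t)),
    setLIntegral_congr (Ioo_ae_eq_Ioc (a := r) (b := s)),
    setLIntegral_congr (Ioo_ae_eq_Ioc (a := s) (b := t)), ← Ioc_union_Ioc_eq_Ioc hrs hst,
    lintegral_union measurableSet_Ioc (Ioc_disjoint_Ioc_of_le le_rfl), add_comm]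
lemma collGain_eq {F : ℝ → R3 → R3 → ℝ} {t : ℝ} {x : R3} (h0 : ∀ v, 0 ≤ F t x v) (v : R3) :
    collGain F t x v = gain (up F t x) (up F t x) v := by
  unfold collGain gain up
  refine lintegral_congr fun vs => lintegral_congr fun w => ?_
  rw [ENNReal.ofReal_mul (mul_nonneg (abs_nonneg _) (h0 _)), ENNReal.ofReal_mul (abs_nonneg _)]

/-! ### lattice -/
lemma lat_add (k l : Fin 3 → ℤ) : lat (k + l) = lat k + lat l := by
  ext i
  simp [lat]
lemma lat_neg (k : Fin 3 → ℤ) : lat (-k) = -lat k := by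
  ext i
  simp [lat]
lemma lat_sub (k l : Fin 3 → ℤ) : lat (k - l) = lat k - lat l := by
  ext i
  simp [lat]
lemma lat_zero : lat 0 = 0 := by
  ext i
  simp [lat]
lemma lat_single (i : Fin 3) : lat (Pi.single i 1) = EuclideanSpace.single i (1:ℝ) := by
  ext j
  by_cases h : j = i
  · subst h; simp [lat]
  · simp [lat, h]
lemma one_le_norm_lat {k : Fin 3 → ℤ} (hk : k ≠ 0) : 1 ≤ ‖lat k‖ := by
  obtain ⟨i, hi⟩ := Function.ne_iff.1 hk
  refine le_trans ?_ (PiLp.norm_apply_le (lat k) i)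
  have h1 : (1 : ℤ) ≤ |k i| := Int.one_le_abs hi
  have h2 : (1 : ℝ) ≤ |(k i : ℝ)| := by exact_mod_cast h1
  simpa [lat] using h2
lemma per_add_lat {α : Type} {f : R3 → α} (hf : IsPeriodic3 f) (x : R3) (k : Fin 3 → ℤ) :
    f (x + lat k) = f x := by
  have key : ∀ (i : Fin 3) (n : ℤ) (y : R3), f (y + lat (Pi.single i n)) = f y := by
    intro i n
    induction n using Int.induction_on with
    | zero => intro y; rw [Pi.single_zero, lat_zero, add_zero]
    | succ n ih => intro y; rw [Pi.single_add, lat_add, lat_single, ← add_assoc, hf, ih]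
    | pred n ih =>
      intro y
      rw [← hf _ i, Pi.single_sub, lat_sub, lat_single, add_assoc, sub_add_cancel, ih]
  have hk : k = Pi.single 0 (k 0) + Pi.single 1 (k 1) + Pi.single 2 (k 2) := by
    funext i
    fin_cases i <;> simp
  rw [hk, lat_add, lat_add, ← add_assoc, ← add_assoc, key, key, key]
lemma per_sub_lat {α : Type} {f : R3 → α} (hf : IsPeriodic3 f) (x : R3) (k : Fin 3 → ℤ) :
    f (x - lat k) = f x := by
  rw [sub_eq_add_neg, ← lat_neg, per_add_lat hf]
/-- lattice sums are periodic -/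
lemma per_tsum (g : R3 → ℝ≥0∞) : IsPeriodic3 (fun x => ∑' k : Fin 3 → ℤ, g (x - lat k)) := by
  intro x i
  refine ((Equiv.addRight (Pi.single i (1 : ℤ) : Fin 3 → ℤ)).tsum_eq _).symm.trans ?_
  refine tsum_congr fun k => ?_
  rw [Equiv.coe_addRight, lat_add, lat_single, add_sub_add_right_eq_sub]

end Crest.Agent.R068
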