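import Crest.Agent.R068.Meas

/-! Row 68: supports and pointwise bounds of one cell; uniqueness of the cell. -/

set_option autoImplicit false
open MeasureTheory Set Filter Topology
open scoped ENNReal
open Crest.AnalysisR.VecCalc3 Crest.AnalysisR.PDE.Boltzmann

namespace Crest.Agent.R068

lemma cellA_inner (x y : R3) : inner ℝ x y =
    inner ℝ (fr 0) x * inner ℝ (fr 0) y + nc x * nc y + inner ℝ (fr 2) x * inner ℝ (fr 2) y := by
  rw [← fr.sum_inner_mul_inner x y, Fin.sum_univ_three, real_inner_comm (fr 0) x,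
    real_inner_comm (fr 1) x, real_inner_comm (fr 2) x]
  rfl

lemma cellA_a_Jr (x : R3) : inner ℝ (fr 0) (Jr x) = -inner ℝ (fr 2) x := by
  simp [Jr, inner_sub_right, inner_smul_right]
lemma cellA_b_Jr (x : R3) : inner ℝ (fr 2) (Jr x) = inner ℝ (fr 0) x := by
  simp [Jr, inner_sub_right, inner_smul_right]
lemma cellA_nc_Jr (x : R3) : nc (Jr x) = 0 := by
  simp [nc, Jr, inner_sub_right, inner_smul_right]
lemma cellA_a_pl (x : R3) : inner ℝ (fr 0) (pl x) = inner ℝ (fr 0) x := by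
  simp [pl, inner_sub_right, inner_smul_right]
lemma cellA_b_pl (x : R3) : inner ℝ (fr 2) (pl x) = inner ℝ (fr 2) x := by
  simp [pl, inner_sub_right, inner_smul_right]

lemma cellA_pars {h : R3} (h0 : nc h = 0) (z : R3) :
    inner ℝ h z ^ 2 + inner ℝ (Jr h) z ^ 2 = ‖h‖ ^ 2 * (‖z‖ ^ 2 - nc z ^ 2) := by
  rw [← real_inner_self_eq_norm_sq, ← real_inner_self_eq_norm_sq, cellA_inner h z,
    cellA_inner (Jr h) z, cellA_inner h h, cellA_inner z z, cellA_a_Jr, cellA_b_Jr, cellA_nc_Jr, h0]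
  ring

lemma cellA_skew (x y : R3) : inner ℝ (Jr x) y = -inner ℝ x (Jr y) := by
  rw [cellA_inner (Jr x) y, cellA_inner x (Jr y), cellA_a_Jr, cellA_b_Jr, cellA_nc_Jr, cellA_a_Jr,
    cellA_b_Jr, cellA_nc_Jr]
  ring

lemma cellA_nc_w (s : Fin 4) (v : R3) : nc (pl v - dir s) = 0 := by
  rw [nc_sub, nc_pl, nc_dir, sub_zero]

lemma cellA_P (s : Fin 4) (t : ℝ) (X v : R3) : inner ℝ (yy s t X) (pl v - dir s) =
    inner ℝ (pl v - dir s) (X - t • v) + t * ‖pl v - dir s‖ ^ 2 := by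
  rw [← real_inner_self_eq_norm_sq, cellA_inner (yy s t X), cellA_inner (pl v - dir s) (X - t • v),
    cellA_inner (pl v - dir s) (pl v - dir s), cellA_nc_w]
  simp only [yy, inner_sub_right, inner_smul_right, cellA_a_pl, cellA_b_pl]
  ring

lemma cellA_Q (s : Fin 4) (t : ℝ) (X v : R3) : inner ℝ (Jr (yy s t X)) (pl v - dir s) =
    inner ℝ (pl v - dir s) (Jr (X - t • v)) := by
  rw [cellA_inner (Jr (yy s t X)), cellA_inner (pl v - dir s) (Jr (X - t • v)), cellA_nc_w,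
    cellA_a_Jr, cellA_b_Jr, cellA_a_Jr, cellA_b_Jr]
  simp only [yy, inner_sub_right, inner_smul_right, cellA_a_pl, cellA_b_pl]
  ring

lemma cellA_hat {y : R3} (hy : y ≠ 0) : hat y = ‖y‖⁻¹ • y := by
  simp [hat, hy]

lemma cellA_al {s : Fin 4} {t : ℝ} {X : R3} (hy : yy s t X ≠ 0) (v : R3) :
    inner ℝ (hat (yy s t X)) (v - uu s t X) =
      inner ℝ (yy s t X) (pl v - dir s) / ‖yy s t X‖ - 1 / 4 := by
  have h1 : inner ℝ (hat (yy s t X)) (hat (yy s t X)) = (1:ℝ) := by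
    rw [real_inner_self_eq_norm_sq, norm_hat]; norm_num
  have h2 : inner ℝ (hat (yy s t X)) (v - dir s) =
      inner ℝ (yy s t X) (pl v - dir s) / ‖yy s t X‖ := by
    rw [cellA_hat hy, real_inner_smul_left, cellA_inner (yy s t X) (v - dir s),
      cellA_inner (yy s t X) (pl v - dir s), nc_yy]
    simp only [inner_sub_right, cellA_a_pl, cellA_b_pl]
    ring
  rw [uu, ← sub_sub, inner_sub_right, h2, inner_smul_right, h1, mul_one]

lemma cellA_be {s : Fin 4} {t : ℝ} {X : R3} (hy : yy s t X ≠ 0) (v : R3) :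
    inner ℝ (Jr (hat (yy s t X))) (v - uu s t X) =
      inner ℝ (Jr (yy s t X)) (pl v - dir s) / ‖yy s t X‖ := by
  rw [uu, cellA_inner (Jr (hat (yy s t X))), cellA_inner (Jr (yy s t X)), cellA_nc_Jr, cellA_nc_Jr,
    cellA_a_Jr, cellA_b_Jr, cellA_a_Jr, cellA_b_Jr, cellA_hat hy]
  simp only [inner_sub_right, inner_add_right, inner_smul_right, cellA_a_pl, cellA_b_pl]
  ring

lemma cellA_nc_hat (s : Fin 4) (t : ℝ) (X : R3) : nc (hat (yy s t X)) = 0 := by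
  have := nc_uu s t X
  rw [uu, nc_add, nc_dir, nc_smul] at this
  linarith

lemma cellA_norm_X (s : Fin 4) {t : ℝ} (ht : 0 ≤ t) (X : R3) :
    ‖X‖ ≤ ‖yy s t X‖ + t + |nc X| := by
  have e : X = yy s t X + t • dir s + nc X • fr 1 := by
    simp only [yy, pl]; abel
  calc ‖X‖ = ‖yy s t X + t • dir s + nc X • fr 1‖ := by rw [← e]
    _ ≤ ‖yy s t X‖ + ‖t • dir s‖ + ‖nc X • fr 1‖ := norm_add₃_le
    _ = _ := by
      rw [norm_smul, norm_smul, norm_dir, norm_fr, Real.norm_eq_abs, Real.norm_eq_abs,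
        abs_of_nonneg ht, mul_one, mul_one]

/-- the real-variable core of the kinematics -/
lemma cellA_core {η l t W N P Q : ℝ} (hη0 : 0 < η) (hη : η ≤ 1 / 100) (hl : 0 < l) (ht : 0 ≤ t)
    (hW : |W - 1 / 4| < η) (hN : 0 ≤ N) (hP : l / 4 + t * W ^ 2 ≤ P) (hQ : |Q| < η * l)
    (hPQ : P ^ 2 + Q ^ 2 = N ^ 2 * W ^ 2) :
    0 < N ∧ l ≤ 26 / 25 * N ∧ t ≤ 5 * N ∧ |P / N - 1 / 4| ≤ 2 * η ∧ |Q / N| ≤ η * l / N ∧
      |Q / N| ≤ 2 * η := by
  obtain ⟨w1, w2⟩ := abs_lt.1 hW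
  have W0 : 6 / 25 ≤ W := by linarith
  have W1 : W ≤ 26 / 100 := by linarith
  have tW : 0 ≤ t * W ^ 2 := by positivity
  have P0 : 0 < P := by linarith
  have NW : 0 ≤ N * W := by positivity
  have PN : P ≤ N * W := by
    refine (pow_le_pow_iff_left₀ P0.le NW two_ne_zero).1 ?_
    nlinarith [sq_nonneg Q]
  have N0 : 0 < N := by
    rcases hN.eq_or_lt with h | h
    · rw [← h] at PN; linarith
    · exact h
  have l1 : l ≤ 26 / 25 * N := by nlinarith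
  have t1 : t ≤ 5 * N := by
    have : t * W ^ 2 ≤ N * W := by linarith
    have h2 : t * W ≤ N := by
      have : (t * W) * W ≤ N * W := by nlinarith
      exact le_of_mul_le_mul_right this (by linarith)
    nlinarith
  have q1 : |Q / N| ≤ η * l / N := by
    rw [abs_div, abs_of_pos N0]
    exact div_le_div_of_nonneg_right hQ.le N0.le
  have q2 : |Q / N| ≤ 2 * η := by
    refine q1.trans ?_
    rw [div_le_iff₀ N0]; nlinarith
  refine ⟨N0, l1, t1, ?_, q1, q2⟩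
  have a0 : 0 < P / N := div_pos P0 N0
  have a1 : (P / N) ^ 2 + (Q / N) ^ 2 = W ^ 2 := by
    field_simp; linarith
  have a2 : (Q / N) ^ 2 ≤ (2 * η) ^ 2 := by
    rw [← sq_abs (Q / N)]; exact pow_le_pow_left₀ (abs_nonneg _) q2 2
  have a3 : P / N ≤ W := by
    rw [div_le_iff₀ N0]; linarith
  rw [abs_le]
  refine ⟨?_, by linarith⟩
  by_contra hc
  push Not at hc
  have : (P / N) ^ 2 < (1 / 4 - 2 * η) ^ 2 := by nlinarith
  nlinarith

namespace Par
variable {p : Par}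

lemma cellA_V (h : p.Std) : 8000 ≤ p.V := by linarith [h.R_ge, h.V_ge]

lemma cellA_rV (h : p.Std) (j : ℕ) : p.r j * (1000 * p.V ^ 4) ≤ 1 := by
  have hV := cellA_V h
  have h1 : p.V ^ 4 ≤ p.V ^ 10 := pow_le_pow_right₀ (by linarith) (by norm_num)
  have h2 := r_le h j
  have h3 := r_pos h j
  have h4 := h.r0_pos
  calc p.r j * (1000 * p.V ^ 4) ≤ p.r0 * (1000 * p.V ^ 10) := by gcongr
    _ ≤ 1 := h.r0_V

lemma cellA_r0 (h : p.Std) : p.r0 ≤ 1 / 1000 := by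
  have hV := cellA_V h
  have h1 : 1 ≤ p.V ^ 10 := one_le_pow₀ (by linarith)
  have := h.r0_V
  have := h.r0_pos
  nlinarith

lemma cellA_r (h : p.Std) (j : ℕ) : p.r j ≤ 1 / 1000 := (r_le h j).trans (cellA_r0 h)

lemma cellA_eta_pos (h : p.Std) (j : ℕ) : 0 < p.eta j := pow_pos (r_pos h j) 4

lemma cellA_DD_pos (h : p.Std) (j : ℕ) : 0 < p.DD j := pow_pos (r_pos h j) 3

lemma cellA_eta_DD (h : p.Std) (j : ℕ) : 3 * p.eta j ≤ p.DD j := by
  have h1 := cellA_r h j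
  have h2 := cellA_DD_pos h j
  have : p.eta j = p.r j * p.DD j := by simp only [eta, DD]; ring
  rw [this]; nlinarith

lemma cellA_DD (h : p.Std) (j : ℕ) : p.DD j ≤ 1 / 1000 := (DD_le h j).trans (cellA_r0 h)

lemma cellA_ell_pos (h : p.Std) (j : ℕ) : 0 < p.ell j := by
  have := cellA_V h
  have := r_pos h j
  unfold ell; positivity

lemma cellA_ell_mul (h : p.Std) (j : ℕ) : p.r j = p.V ^ 2 * p.ell j := by
  have := cellA_V h
  unfold ell; field_simp

lemma cellA_ell_le (h : p.Std) (j : ℕ) : p.ell j ≤ p.r j := by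
  have hV := cellA_V h
  have h1 : 1 ≤ p.V ^ 2 := one_le_pow₀ (by linarith)
  have := cellA_ell_pos h j
  rw [cellA_ell_mul h j]; nlinarith

lemma cellA_unf {j : ℕ} {s : Fin 4} {t : ℝ} {X v : R3} (h0 : p.Sb j s t X v ≠ 0) :
    |nc v| < p.eta j ∧ |‖pl v - dir s‖ - 1 / 4| < p.eta j ∧
      |inner ℝ (pl v - dir s) (Jr (X - t • v))| < p.eta j * p.ell j ∧
      p.ell j / 4 ≤ inner ℝ (pl v - dir s) (X - t • v) ∧
      inner ℝ (pl v - dir s) (X - t • v) ≤ p.r0 / 4 ∧ nc (X - t • v) ∈ p.Fat j s 0 := by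
  unfold Sb S0 at h0
  by_contra hc
  exact h0 (if_neg hc)

lemma cellA_Sb_le (j : ℕ) (s : Fin 4) (t : ℝ) (X v : R3) :
    p.Sb j s t X v ≤ ENNReal.ofReal (p.amp j) := by
  unfold Sb S0
  split_ifs
  · exact le_rfl
  · exact zero_le

lemma cellA_fat (h : p.Std) {j : ℕ} {s : Fin 4} {t : ℝ} (ht : 0 ≤ t) (ht' : t ≤ p.TT j) {X v : R3}
    (h0 : p.Sb j s t X v ≠ 0) : nc X ∈ p.Fat j s (p.eta j * t) := by
  obtain ⟨h1, -, -, -, -, h6⟩ := cellA_unf h0
  have e := Fat_shift h (z' := nc X) (ρ' := p.eta j * t) h6 (by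
    rw [nc_sub, nc_smul, sub_sub_cancel, abs_mul, abs_of_nonneg ht, mul_comm]
    exact mul_le_mul_of_nonneg_right h1.le ht) (by
    have a1 := DD_TT_lt h j
    have a2 := cellA_eta_DD h j
    have a3 := cellA_eta_pos h j
    have : p.eta j * t ≤ p.DD j * p.TT j := mul_le_mul (by linarith) ht' ht (by linarith)
    linarith)
  rwa [zero_add] at e

lemma cellA_kin (h : p.Std) {j : ℕ} {s : Fin 4} {t : ℝ} (ht : 0 ≤ t) {X v : R3}
    (h0 : p.Sb j s t X v ≠ 0) :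
    0 < ‖yy s t X‖ ∧ p.ell j ≤ 26 / 25 * ‖yy s t X‖ ∧ t ≤ 5 * ‖yy s t X‖ ∧
    |inner ℝ (hat (yy s t X)) (v - uu s t X)| ≤ 2 * p.eta j ∧
    |inner ℝ (Jr (hat (yy s t X))) (v - uu s t X)| ≤ p.eta j * p.ell j / ‖yy s t X‖ ∧
    |inner ℝ (Jr (hat (yy s t X))) (v - uu s t X)| ≤ 2 * p.eta j := by
  obtain ⟨h1, h2, h3, h4, h5, h6⟩ := cellA_unf h0
  have a2 := cellA_eta_DD h j
  have a3 := cellA_DD h j
  have hp := cellA_pars (nc_yy s t X) (pl v - dir s)
  rw [cellA_nc_w] at hp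
  obtain ⟨c1, c2, c3, c4, c5, c6⟩ := cellA_core (P := inner ℝ (yy s t X) (pl v - dir s))
    (Q := inner ℝ (Jr (yy s t X)) (pl v - dir s)) (cellA_eta_pos h j) (by linarith)
    (cellA_ell_pos h j) ht h2 (norm_nonneg (yy s t X)) (by rw [cellA_P]; linarith)
    (by rw [cellA_Q]; exact h3) (by rw [hp]; ring)
  have hy : yy s t X ≠ 0 := norm_pos_iff.1 c1
  rw [cellA_al hy, cellA_be hy]
  exact ⟨c1, c2, c3, c4, c5, c6⟩

/-- kinematics on the support of the freely transported cold datum -/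
lemma Sb_supp (h : p.Std) {j : ℕ} {s : Fin 4} {t : ℝ} (ht : 0 ≤ t) (ht' : t ≤ p.TT j) {X v : R3}
    (h0 : p.Sb j s t X v ≠ 0) :
    dd s t X v ≤ 3 * p.eta j ∧ ‖X‖ ≤ 3 * p.r0 + 2 * t ∧ nc X ∈ p.Fat j s (p.eta j * t) ∧
      |nc v| < p.eta j ∧ ‖v‖ ≤ 2 := by
  obtain ⟨h1, h2, h3, h4, h5, h6⟩ := cellA_unf h0
  obtain ⟨-, -, -, c4, -, c6⟩ := cellA_kin h ht h0
  have a1 := cellA_eta_pos h j
  have a2 := cellA_eta_DD h j
  have a3 := cellA_DD h j
  have hd : dd s t X v ≤ 3 * p.eta j := by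
    have hp := cellA_pars (cellA_nc_hat s t X) (v - uu s t X)
    rw [norm_hat, nc_sub, nc_uu, sub_zero] at hp
    have b1 := pow_le_pow_left₀ (abs_nonneg _) c4 2
    have b2 := pow_le_pow_left₀ (abs_nonneg _) c6 2
    have b3 := pow_le_pow_left₀ (abs_nonneg _) h1.le 2
    rw [sq_abs] at b1 b2 b3
    refine (pow_le_pow_iff_left₀ (norm_nonneg _) (by linarith) two_ne_zero).1 ?_
    nlinarith
  have hv : ‖v‖ ≤ 2 := by linarith [norm_le_dd s t X v]
  refine ⟨hd, ?_, cellA_fat h ht ht' h0, h1, hv⟩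
  have hZ : ‖X - t • v‖ ≤ 3 * p.r0 := by
    have hp := cellA_pars (cellA_nc_w s v) (X - t • v)
    rw [cellA_skew, neg_sq] at hp
    have r0 := h.r0_pos
    have l0 := cellA_ell_pos h j
    have l1 := (cellA_ell_le h j).trans (r_le h j)
    have b1 : inner ℝ (pl v - dir s) (X - t • v) ^ 2 ≤ (p.r0 / 4) ^ 2 :=
      pow_le_pow_left₀ (by linarith) h5 2
    have b2 : |inner ℝ (pl v - dir s) (Jr (X - t • v))| ≤ p.r0 / 4 := by nlinarith
    have b3 := pow_le_pow_left₀ (abs_nonneg _) b2 2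
    have b4 := pow_le_pow_left₀ (abs_nonneg _) (h6.2.1.le.trans (r_le h j)) 2
    rw [sq_abs] at b3 b4
    have b5 : (6 / 25 : ℝ) ^ 2 ≤ ‖pl v - dir s‖ ^ 2 :=
      pow_le_pow_left₀ (by norm_num) (by linarith [(abs_lt.1 h2).1]) 2
    have b6 : 0 ≤ ‖X - t • v‖ ^ 2 - nc (X - t • v) ^ 2 := by
      rw [norm_sq_pl]; simp
    have b7 := mul_le_mul_of_nonneg_right b5 b6
    refine (pow_le_pow_iff_left₀ (norm_nonneg _) (by linarith) two_ne_zero).1 ?_
    nlinarith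
  calc ‖X‖ = ‖(X - t • v) + t • v‖ := by rw [sub_add_cancel]
    _ ≤ ‖X - t • v‖ + ‖t • v‖ := norm_add_le _ _
    _ ≤ 3 * p.r0 + 2 * t := by
      rw [norm_smul, Real.norm_eq_abs, abs_of_nonneg ht]
      nlinarith

/-- the velocity support is a box that is thin in the angular direction -/
lemma Sb_box (h : p.Std) {j : ℕ} {s : Fin 4} {t : ℝ} (ht : 0 ≤ t) (ht' : t ≤ p.TT j) {X v : R3}
    (h0 : p.Sb j s t X v ≠ 0) :
    ‖X‖ + t ≤ 2 * p.V ^ 2 * ‖yy s t X‖ ∧ p.ell j ≤ 2 * ‖yy s t X‖ ∧ 0 < ‖yy s t X‖ ∧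
    |inner ℝ (hat (yy s t X)) (v - uu s t X)| ≤ 2 * p.eta j ∧ |inner ℝ (fr 1) (v - uu s t X)| ≤ p.eta j ∧
    |inner ℝ (Jr (hat (yy s t X))) (v - uu s t X)| ≤ p.eta j * p.ell j / ‖yy s t X‖ := by
  obtain ⟨c1, c2, c3, c4, c5, -⟩ := cellA_kin h ht h0
  refine ⟨?_, by linarith, c1, c4, ?_, c5⟩
  · have b1 := cellA_norm_X s ht X
    have b2 := (cellA_fat h ht ht' h0).2.1
    rw [cellA_ell_mul h j] at b2
    have hV := cellA_V h
    have b3 : 100 ≤ p.V ^ 2 := by nlinarith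
    have b4 : p.V ^ 2 * p.ell j ≤ p.V ^ 2 * (26 / 25 * ‖yy s t X‖) :=
      mul_le_mul_of_nonneg_left c2 (by linarith)
    nlinarith
  · change |nc (v - uu s t X)| ≤ _
    rw [nc_sub, nc_uu, sub_zero]
    exact (cellA_unf h0).1.le

lemma Bc_supp (h : p.Std) {j : ℕ} {s : Fin 4} {t : ℝ} (ht : 0 ≤ t) {X v : R3} (h0 : p.Bc j s t X v ≠ 0) :
    p.InCell j s t X ∧ dd s t X v ≤ p.DD j := by
  by_contra hc
  apply h0
  have hG : p.Grc j s t X v = 0 := if_neg hc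
  rw [Bc, hG, mul_zero, add_zero]
  split_ifs with ht'
  · by_contra hS
    obtain ⟨c1, c2, c3, -, -⟩ := Sb_supp h ht ht' hS
    have a1 := cellA_eta_pos h j
    have a2 := cellA_eta_DD h j
    exact hc ⟨⟨ht', c2, Fat_mono h (mul_le_mul_of_nonneg_right (by linarith) ht) c3⟩, by linarith⟩
  · rfl

lemma cellA_Grc_le (h : p.Std) (j : ℕ) (s : Fin 4) {t : ℝ} (ht : 0 ≤ t) (X v : R3) :
    ENNReal.ofReal t * p.Grc j s t X v ≤
      ENNReal.ofReal ((p.eta j ^ 3)⁻¹) * gs (p.eta j ^ 2)⁻¹ (v - uu s t X) := by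
  unfold Grc
  split_ifs with hc
  · rw [← mul_assoc, ← ENNReal.ofReal_mul ht]
    refine mul_le_mul_left (ENNReal.ofReal_le_ofReal ?_) _
    have a1 := cellA_eta_pos h j
    have a2 := one_le_TT h j
    have a3 : t ≤ p.TT j := hc.1.1
    rw [mul_inv, ← mul_assoc]
    refine mul_le_of_le_one_left (by positivity) ?_
    rw [← div_eq_mul_inv, div_le_one (by linarith)]
    exact a3
  · simp

lemma cellA_eta_amp (h : p.Std) (j : ℕ) : (p.eta j ^ 3)⁻¹ ≤ p.amp j := by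
  have a1 := cellA_eta_pos h j
  have l0 := cellA_ell_pos h j
  have l1 := (cellA_ell_le h j).trans (cellA_r h j)
  have hV := cellA_V h
  rw [amp, le_div_iff₀ (by positivity)]
  have : (p.eta j ^ 3)⁻¹ * (p.ell j * p.eta j ^ 3) = p.ell j := by field_simp
  rw [this]; nlinarith

lemma cellA_exp9 : 1 ≤ 9000 * Real.exp (-9) := by
  have h1 : Real.exp 9 ≤ 9000 := by
    have e : Real.exp 9 = Real.exp 1 ^ 9 := by rw [← Real.exp_nat_mul]; norm_num
    rw [e]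
    calc Real.exp 1 ^ 9 ≤ (2.7182818286 : ℝ) ^ 9 :=
          pow_le_pow_left₀ (Real.exp_pos 1).le Real.exp_one_lt_d9.le 9
      _ ≤ 9000 := by norm_num
  rw [Real.exp_neg, ← div_eq_mul_inv, one_le_div (Real.exp_pos 9)]
  exact h1

lemma Bc_gauss (h : p.Std) (j : ℕ) (s : Fin 4) {t : ℝ} (ht : 0 ≤ t) (X v : R3) :
    p.Bc j s t X v ≤ ENNReal.ofReal (10 ^ 4 * p.amp j) * gs (p.eta j ^ 2)⁻¹ (v - uu s t X) := by
  have a1 := cellA_eta_pos h j
  have a2 := cellA_eta_amp h j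
  have a3 : 0 < p.amp j := lt_of_lt_of_le (by positivity) a2
  have h1 : (if t ≤ p.TT j then p.Sb j s t X v else 0) ≤
      ENNReal.ofReal (9000 * p.amp j) * gs (p.eta j ^ 2)⁻¹ (v - uu s t X) := by
    split_ifs with ht'
    · by_cases hS : p.Sb j s t X v = 0
      · rw [hS]; exact zero_le
      · refine (cellA_Sb_le j s t X v).trans ?_
        have c1 : ‖v - uu s t X‖ ≤ 3 * p.eta j := (Sb_supp h ht ht' hS).1
        rw [gs, ← ENNReal.ofReal_mul (by positivity)]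
        refine ENNReal.ofReal_le_ofReal ?_
        have c2 := pow_le_pow_left₀ (norm_nonneg _) c1 2
        have c3 : (p.eta j ^ 2)⁻¹ * ‖v - uu s t X‖ ^ 2 ≤ 9 := by
          rw [inv_mul_le_iff₀ (by positivity)]; linarith
        have c4 : Real.exp (-9) ≤ Real.exp (-((p.eta j ^ 2)⁻¹ * ‖v - uu s t X‖ ^ 2)) :=
          Real.exp_le_exp.2 (by linarith)
        have c5 := cellA_exp9
        nlinarith
    · exact zero_le
  calc p.Bc j s t X v ≤ ENNReal.ofReal (9000 * p.amp j) * gs (p.eta j ^ 2)⁻¹ (v - uu s t X) +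
        ENNReal.ofReal ((p.eta j ^ 3)⁻¹) * gs (p.eta j ^ 2)⁻¹ (v - uu s t X) :=
        add_le_add h1 (cellA_Grc_le h j s ht X v)
    _ = ENNReal.ofReal (9000 * p.amp j + (p.eta j ^ 3)⁻¹) * gs (p.eta j ^ 2)⁻¹ (v - uu s t X) := by
        rw [ENNReal.ofReal_add (by positivity) (by positivity), add_mul]
    _ ≤ _ := mul_le_mul_left (ENNReal.ofReal_le_ofReal (by linarith)) _

lemma Bc_sup (h : p.Std) (j : ℕ) (s : Fin 4) {t : ℝ} (ht : 0 ≤ t) (X v : R3) :
    p.Bc j s t X v ≤ ENNReal.ofReal ((p.r j ^ 14)⁻¹) := by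
  have a1 := cellA_eta_pos h j
  have a2 := cellA_eta_amp h j
  have a3 : 0 < p.amp j := lt_of_lt_of_le (by positivity) a2
  have h1 : (if t ≤ p.TT j then p.Sb j s t X v else 0) ≤ ENNReal.ofReal (p.amp j) := by
    split_ifs
    · exact cellA_Sb_le j s t X v
    · exact zero_le
  have h2 : ENNReal.ofReal t * p.Grc j s t X v ≤ ENNReal.ofReal (p.amp j) := by
    refine (cellA_Grc_le h j s ht X v).trans ?_
    calc _ ≤ ENNReal.ofReal (p.amp j) * 1 :=
          mul_le_mul' (ENNReal.ofReal_le_ofReal a2) (gs_le_one (by positivity) _)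
      _ = _ := mul_one _
  refine (add_le_add h1 h2).trans ?_
  rw [← ENNReal.ofReal_add a3.le a3.le]
  refine ENNReal.ofReal_le_ofReal ?_
  have r0 := r_pos h j
  have hV := cellA_V h
  have b1 := cellA_rV h j
  have e : p.amp j = p.r j * p.V ^ 4 * (p.r j ^ 14)⁻¹ := by
    simp only [amp, ell, eta]; field_simp
  have b2 : 0 < (p.r j ^ 14)⁻¹ := by positivity
  rw [e]; nlinarith

/-- cells persist along the flight of their own particles -/
lemma InCell_flight (h : p.Std) {j : ℕ} {s : Fin 4} {r t : ℝ} (hr : 0 ≤ r) (hrt : r ≤ t) (ht : t ≤ p.TT j)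
    {X v : R3} (hc : p.InCell j s r (X - (t - r) • v)) (hd : dd s r (X - (t - r) • v) v ≤ p.DD j) :
    p.InCell j s t X ∧ dd s t X v ≤ p.DD j := by
  have hd' := (dd_mono s hrt X v).trans hd
  have a1 := cellA_DD h j
  have a2 := cellA_DD_pos h j
  have hv : ‖v‖ ≤ 2 := by linarith [norm_le_dd s t X v]
  have hn := (abs_nc_le_dd s t X v).trans hd'
  have h0 : 0 ≤ t - r := sub_nonneg.2 hrt
  refine ⟨⟨ht, ?_, ?_⟩, hd'⟩
  · calc ‖X‖ = ‖(X - (t - r) • v) + (t - r) • v‖ := by rw [sub_add_cancel]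
      _ ≤ ‖X - (t - r) • v‖ + ‖(t - r) • v‖ := norm_add_le _ _
      _ ≤ 3 * p.r0 + 2 * t := by
        rw [norm_smul, Real.norm_eq_abs, abs_of_nonneg h0]
        nlinarith [hc.2.1]
  · have e : p.DD j * t = p.DD j * r + p.DD j * (t - r) := by ring
    rw [e]
    refine Fat_shift h hc.2.2 ?_ ?_
    · rw [nc_sub, nc_smul, sub_sub_cancel, abs_mul, abs_of_nonneg h0, mul_comm]
      exact mul_le_mul_of_nonneg_right hn h0
    · rw [← e]
      exact lt_of_le_of_lt (mul_le_mul_of_nonneg_left ht a2.le) (DD_TT_lt h j)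

lemma Grc_flight (h : p.Std) {j : ℕ} {s : Fin 4} {r t : ℝ} (hr : 0 ≤ r) (hrt : r ≤ t) (ht : t ≤ p.TT j)
    (X v : R3) : p.Grc j s r (X - (t - r) • v) v ≤ p.Grc j s t X v := by
  by_cases hc : p.InCell j s r (X - (t - r) • v) ∧ dd s r (X - (t - r) • v) v ≤ p.DD j
  · rw [Grc, Grc, if_pos hc, if_pos (InCell_flight h hr hrt ht hc.1 hc.2)]
    refine mul_le_mul_right (ENNReal.ofReal_le_ofReal (Real.exp_le_exp.2 (neg_le_neg ?_))) _
    refine mul_le_mul_of_nonneg_left ?_ (by positivity)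
    exact pow_le_pow_left₀ (norm_nonneg _) (dd_mono s hrt X v) 2
  · rw [Grc, if_neg hc]; exact zero_le
end Par

lemma cellA_small {c : ℝ} (hc : 0 < c) :
    ∀ᶠ x in 𝓝[>] (0:ℝ), ∀ r ∈ Ioc 0 x, 80000 * (r * Real.log r ^ 2) < c := by
  have h1 := (tendsto_log_mul_rpow_nhdsGT_zero (r := 1 / 2) (by norm_num)).pow 2
  have h2 : ∀ᶠ r in 𝓝[>] (0:ℝ), 80000 * (r * Real.log r ^ 2) < c := by
    have h3 := h1.eventually (gt_mem_nhds (show (0:ℝ) ^ 2 < c / 80000 by norm_num; exact hc))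
    filter_upwards [h3, self_mem_nhdsWithin] with r hr r0
    have r1 : (0:ℝ) < r := r0
    rw [mul_pow, ← Real.rpow_natCast (r ^ _), ← Real.rpow_mul r1.le] at hr
    norm_num at hr
    linarith
  obtain ⟨b, hb, hs⟩ := (mem_nhdsGT_iff_exists_Ioo_subset).1 h2
  filter_upwards [Ioo_mem_nhdsGT hb] with x hx r hr
  exact hs ⟨hr.1, hr.2.trans_lt hx.2⟩

/-- alive cells never overlap (Diophantine property of the frame) -/
theorem ev_cell_unique : ∀ᶠ p in PF, ∀ (t : ℝ) (x : R3) (k k' : Fin 3 → ℤ) (j j' : ℕ) (s s' : Fin 4),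
    0 ≤ t → p.InCell j s t (x - lat k) → p.InCell j' s' t (x - lat k') → k = k' ∧ j = j' ∧ s = s' := by
  obtain ⟨c, hc, hd⟩ := fr_dioph
  have hs := ev_r0 (Q := fun _ x => ∀ r ∈ Ioc 0 x, 80000 * (r * Real.log r ^ 2) < c)
    (Eventually.of_forall fun _ => cellA_small hc)
  filter_upwards [ev_std, hs] with p h hs t x k k' j j' s s' ht c1 c2
  have hk : k = k' := by
    by_contra hne
    have d1 := hd (k - k') (sub_ne_zero.2 hne)
    have e : lat (k - k') = (x - lat k') - (x - lat k) := by rw [lat_sub]; abel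
    obtain ⟨m, m1, m2, m3⟩ : ∃ m, m ≤ j ∧ m ≤ j' ∧ t ≤ p.TT m := by
      rcases le_total j j' with hj | hj
      · exact ⟨j, le_rfl, hj, c1.1⟩
      · exact ⟨j', hj, le_rfl, c2.1⟩
    have b1 : |inner ℝ (fr 1) (lat (k - k'))| ≤ 2 * p.r m := by
      change |nc (lat (k - k'))| ≤ _
      rw [e, nc_sub]
      refine (abs_sub _ _).trans ?_
      linarith [c1.2.2.2.1, c2.2.2.2.1, Par.r_anti h m1, Par.r_anti h m2]
    have b2 : ‖lat (k - k')‖ ≤ 5 * p.TT m := by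
      rw [e]
      refine (norm_sub_le _ _).trans ?_
      linarith [c1.2.1, c2.2.1, Par.cellA_r0 h, Par.one_le_TT h m]
    have b3 := pow_le_pow_left₀ (norm_nonneg _) b2 2
    have r0 := Par.r_pos h m
    have b4 := mul_le_mul b1 b3 (by positivity) (by positivity)
    have b5 := hs (p.r m) ⟨r0, Par.r_le h m⟩
    rw [Par.TT] at b4
    nlinarith
  subst hk
  refine ⟨rfl, Par.Fat_disjoint h c1.2.2 c2.2.2 ?_ ?_⟩
  · exact lt_of_le_of_lt (mul_le_mul_of_nonneg_left c1.1 (Par.cellA_DD_pos h j).le) (Par.DD_TT_lt h j)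
  · exact lt_of_le_of_lt (mul_le_mul_of_nonneg_left c2.1 (Par.cellA_DD_pos h j').le)
      (Par.DD_TT_lt h j')

end Crest.Agent.R068
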