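import Crest.Agent.R068.CellA

/-! Row 68: integral bounds for one cell; the cell witness. -/

set_option autoImplicit false
open MeasureTheory Set Filter Topology
open scoped ENNReal
open Crest.AnalysisR.VecCalc3 Crest.AnalysisR.PDE.Boltzmann

namespace Crest.Agent.R068

lemma cb_ev_Ioc {P : ℝ → Prop} (h : ∀ᶠ r in 𝓝[>] (0:ℝ), P r) :
    ∀ᶠ x in 𝓝[>] (0:ℝ), ∀ r ∈ Ioc 0 x, P r := by
  obtain ⟨u, hu, hsub⟩ := mem_nhdsGT_iff_exists_Ioo_subset.1 h
  filter_upwards [Ioo_mem_nhdsGT hu] with x hx r hr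
  exact hsub ⟨hr.1, hr.2.trans_lt hx.2⟩

lemma cb_ev1 (C : ℝ) : ∀ᶠ r in 𝓝[>] (0:ℝ), C * (r * (-40 * Real.log r)) ≤ 1 := by
  have h : Tendsto (fun r : ℝ => C * (-40 * (r * Real.log r))) (𝓝 0) (𝓝 (C * (-40 * (0 * Real.log 0)))) :=
    ((Real.continuous_mul_log.tendsto 0).const_mul _).const_mul _
  have h2 := (h.mono_left (nhdsWithin_le_nhds (s := Ioi 0))).eventually
    (ge_mem_nhds (a := 1) (by simp))
  filter_upwards [h2] with r hr
  calc C * (r * (-40 * Real.log r)) = C * (-40 * (r * Real.log r)) := by ring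
    _ ≤ 1 := hr

lemma cb_ev2 (C : ℝ) (N : ℕ) : ∀ᶠ r in 𝓝[>] (0:ℝ), C * ((r⁻¹) ^ N * Real.exp (-r⁻¹)) ≤ 1 := by
  have h : Tendsto (fun r : ℝ => C * ((r⁻¹) ^ N * Real.exp (-r⁻¹))) (𝓝[>] 0) (𝓝 (C * 0)) :=
    ((Real.tendsto_pow_mul_exp_neg_atTop_nhds_zero N).comp tendsto_inv_nhdsGT_zero).const_mul _
  exact h.eventually (ge_mem_nhds (a := 1) (by simp))

lemma cb_meas_gs (a : ℝ) (b : R3) : Measurable fun u : R3 => gs a (u - b) :=
  (measurable_gs a).comp (measurable_id.sub_const b)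

lemma cb_freq {η : ℝ} (hη : 0 < η) (b v : R3) :
    freq (fun u => gs (η ^ 2)⁻¹ (u - b)) v ≤
      ENNReal.ofReal (2 * Real.pi * (‖v - b‖ * (6 * η ^ 3) + 20 * η ^ 4)) := by
  have hg := cb_meas_gs (η ^ 2)⁻¹ b
  have hn : Measurable fun u : R3 => ENNReal.ofReal ‖u - b‖ * gs (η ^ 2)⁻¹ (u - b) :=
    (measurable_id.sub_const b).norm.ennreal_ofReal.mul hg
  have hpi : 0 ≤ 2 * Real.pi := by positivity
  calc freq (fun u => gs (η ^ 2)⁻¹ (u - b)) v
      ≤ ∫⁻ u, ENNReal.ofReal (2 * Real.pi) * (ENNReal.ofReal ‖v - b‖ * gs (η ^ 2)⁻¹ (u - b) +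
          ENNReal.ofReal ‖u - b‖ * gs (η ^ 2)⁻¹ (u - b)) := by
        refine lintegral_mono fun u => ?_
        rw [← add_mul, ← mul_assoc, ← ENNReal.ofReal_add (norm_nonneg _) (norm_nonneg _),
          ← ENNReal.ofReal_mul hpi]
        refine mul_le_mul_left (ENNReal.ofReal_le_ofReal (mul_le_mul_of_nonneg_left ?_ hpi)) _
        calc ‖v - u‖ = ‖(v - b) - (u - b)‖ := by congr 1; abel
          _ ≤ _ := norm_sub_le _ _
    _ = ENNReal.ofReal (2 * Real.pi) * (ENNReal.ofReal ‖v - b‖ * (∫⁻ u, gs (η ^ 2)⁻¹ (u - b)) +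
          ∫⁻ u, ENNReal.ofReal ‖u - b‖ * gs (η ^ 2)⁻¹ (u - b)) := by
        rw [lintegral_const_mul' _ _ ENNReal.ofReal_ne_top, lintegral_add_right _ hn,
          lintegral_const_mul _ hg]
    _ ≤ ENNReal.ofReal (2 * Real.pi) * (ENNReal.ofReal ‖v - b‖ * ENNReal.ofReal (6 * η ^ 3) +
          ENNReal.ofReal (20 * η ^ 4)) := by
        gcongr
        · exact lintegral_gs_scaled hη b
        · exact lintegral_norm_gs_scaled hη b
    _ = _ := by
        rw [← ENNReal.ofReal_mul (norm_nonneg _), ← ENNReal.ofReal_add (by positivity) (by positivity),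
          ← ENNReal.ofReal_mul hpi]

lemma cb_norm_yy (s : Fin 4) {t : ℝ} (ht : 0 ≤ t) (X : R3) : ‖yy s t X‖ ≤ ‖X‖ + t := by
  have h1 : ‖pl X‖ ≤ ‖X‖ := by
    by_contra hc
    nlinarith [norm_sq_pl X, sq_nonneg (nc X), norm_nonneg X, norm_nonneg (pl X)]
  calc ‖yy s t X‖ ≤ ‖pl X‖ + ‖t • dir s‖ := norm_sub_le _ _
    _ ≤ ‖X‖ + t := by rw [norm_smul, norm_dir, Real.norm_eq_abs, abs_of_nonneg ht]; linarith

namespace Par
variable {p : Par}

lemma cb_V (h : p.Std) : 8000 ≤ p.V := by linarith [h.V_ge, h.R_ge]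

lemma cb_r_le (h : p.Std) (j : ℕ) : p.r j ≤ 1 / 1000 := by
  have h1 := h.r0_V
  have h2 : 1 ≤ p.V ^ 10 := one_le_pow₀ (by linarith [cb_V h])
  have h3 := r_le h j
  nlinarith [h.r0_pos]

lemma cb_eta_pos (h : p.Std) (j : ℕ) : 0 < p.eta j := pow_pos (r_pos h j) 4
lemma cb_ell_pos (h : p.Std) (j : ℕ) : 0 < p.ell j :=
  div_pos (r_pos h j) (pow_pos (by linarith [cb_V h]) 2)
lemma cb_amp_pos (h : p.Std) (j : ℕ) : 0 < p.amp j :=
  div_pos (pow_pos (by linarith [cb_V h]) 2) (mul_pos (cb_ell_pos h j) (pow_pos (cb_eta_pos h j) 3))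

/-- the transported part of the barrier -/
noncomputable def cbA (p : Par) (j : ℕ) (s : Fin 4) (t : ℝ) (X v : R3) : ℝ≥0∞ :=
  if t ≤ p.TT j then p.Sb j s t X v else 0

lemma cbA_meas (p : Par) (j : ℕ) (s : Fin 4) (t : ℝ) (X : R3) : Measurable (p.cbA j s t X) := by
  unfold cbA
  split_ifs
  · exact (p.meas_Sb j s).slice t X
  · exact measurable_const

lemma cb_Bc_le (h : p.Std) (j : ℕ) (s : Fin 4) {t : ℝ} (ht : 0 ≤ t) (X v : R3) :
    p.Bc j s t X v ≤ p.cbA j s t X v +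
      ENNReal.ofReal (p.eta j ^ 3)⁻¹ * gs (p.eta j ^ 2)⁻¹ (v - uu s t X) := by
  refine add_le_add_right ?_ _
  unfold Grc
  split_ifs with hc
  · rw [← mul_assoc, ← ENNReal.ofReal_mul ht]
    refine mul_le_mul_left (ENNReal.ofReal_le_ofReal ?_) _
    have h1 := one_le_TT h j
    have h2 := cb_eta_pos h j
    have h3 : t ≤ p.TT j := hc.1.1
    rw [mul_inv, ← mul_assoc]
    refine mul_le_of_le_one_left (by positivity) ?_
    rw [← div_eq_mul_inv, div_le_one (by linarith)]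
    exact h3
  · simp

lemma cbA_box (h : p.Std) (j : ℕ) (s : Fin 4) {t : ℝ} (ht : 0 ≤ t) (X : R3) :
    (∀ v, p.cbA j s t X v = 0) ∨ ∃ (e : OrthonormalBasis (Fin 3) ℝ R3) (l : ℝ), 0 < l ∧
      p.amp j * p.eta j ^ 2 * l ≤ 2 * p.V ^ 4 * (‖X‖ + t)⁻¹ ∧
      ∀ v, p.cbA j s t X v ≤ ENNReal.ofReal (p.amp j) *
        if |inner ℝ (e 0) (v - uu s t X)| ≤ 2 * p.eta j ∧ |inner ℝ (e 1) (v - uu s t X)| ≤ 2 * p.eta j ∧
          |inner ℝ (e 2) (v - uu s t X)| ≤ l then 1 else 0 := by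
  by_cases h0 : ∀ v, p.cbA j s t X v = 0
  · exact Or.inl h0
  right
  obtain ⟨v0, hv0⟩ := not_forall.1 h0
  have ht' : t ≤ p.TT j := by
    by_contra hc
    exact hv0 (if_neg hc)
  have hA : ∀ v, p.cbA j s t X v = p.Sb j s t X v := fun v => if_pos ht'
  rw [hA] at hv0
  obtain ⟨b1, -, b3, -⟩ := Sb_box h ht ht' hv0
  have hy : nc (hat (yy s t X)) = 0 := by
    unfold hat
    rw [if_neg (norm_pos_iff.1 b3), nc_smul, nc_yy, mul_zero]
  obtain ⟨e, e0, e1, e2⟩ := exists_onb_plane (norm_hat (yy s t X)) hy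
  have hη := cb_eta_pos h j
  have hl := cb_ell_pos h j
  have hV := cb_V h
  refine ⟨e, p.eta j * p.ell j / ‖yy s t X‖, by positivity, ?_, fun v => ?_⟩
  · have h1 : 0 < ‖X‖ + t := b3.trans_le (cb_norm_yy s ht X)
    have h2 : p.amp j * p.eta j ^ 2 * (p.eta j * p.ell j / ‖yy s t X‖) = p.V ^ 2 / ‖yy s t X‖ := by
      unfold amp; field_simp
    rw [h2, ← div_eq_mul_inv, div_le_div_iff₀ b3 h1]
    have : p.V ^ 2 * (‖X‖ + t) ≤ p.V ^ 2 * (2 * p.V ^ 2 * ‖yy s t X‖) :=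
      mul_le_mul_of_nonneg_left b1 (by positivity)
    linarith
  · rw [hA]
    by_cases hv : p.Sb j s t X v = 0
    · rw [hv]; exact zero_le
    obtain ⟨-, -, -, c1, c2, c3⟩ := Sb_box h ht ht' hv
    rw [e0, e1, e2, if_pos ⟨c1, by linarith, c3⟩, mul_one]
    unfold Sb S0
    split_ifs
    · exact le_rfl
    · exact zero_le

lemma cbA_mass (h : p.Std) (j : ℕ) (s : Fin 4) {t : ℝ} (ht : 0 ≤ t) (X : R3) :
    ∫⁻ v, p.cbA j s t X v ≤ ENNReal.ofReal (288 * p.V ^ 4 * (‖X‖ + t)⁻¹) := by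
  rcases cbA_box h j s ht X with h0 | ⟨e, l, hl, hb, hle⟩
  · simp [h0]
  have hη := cb_eta_pos h j
  have ha := cb_amp_pos h j
  have hvol := volume_box e (uu s t X) ![3 * p.eta j, 3 * p.eta j, 2 * l] (fun i => by
    fin_cases i <;> simp <;> positivity)
  calc ∫⁻ v, p.cbA j s t X v ≤ ∫⁻ v, {u : R3 | ∀ i, |inner ℝ (e i) (u - uu s t X)| <
        ![3 * p.eta j, 3 * p.eta j, 2 * l] i}.indicator (fun _ => ENNReal.ofReal (p.amp j)) v := by
        refine lintegral_mono fun v => (hle v).trans ?_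
        split_ifs with hc
        · rw [mul_one, indicator_of_mem]
          intro i
          fin_cases i
          · exact hc.1.trans_lt (by simp; linarith)
          · exact hc.2.1.trans_lt (by simp; linarith)
          · exact hc.2.2.trans_lt (by simp; linarith)
        · simp
    _ ≤ ENNReal.ofReal (p.amp j) * volume {u : R3 | ∀ i, |inner ℝ (e i) (u - uu s t X)| <
        ![3 * p.eta j, 3 * p.eta j, 2 * l] i} := lintegral_indicator_const_le _ _
    _ ≤ _ := by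
        rw [hvol, ← ENNReal.ofReal_mul ha.le]
        refine ENNReal.ofReal_le_ofReal ?_
        simp only [Matrix.cons_val_zero, Matrix.cons_val_one, Matrix.cons_val]
        nlinarith

lemma cbA_pot (h : p.Std) (j : ℕ) (s : Fin 4) {t : ℝ} (ht : 0 ≤ t) (X v : R3) :
    pot (p.cbA j s t X) v ≤
      ENNReal.ofReal (2400 * p.V ^ 4 * (‖X‖ + t)⁻¹ / max (dd s t X v) (p.eta j)) := by
  have hη := cb_eta_pos h j
  have ha := cb_amp_pos h j
  have hq : 0 ≤ p.V ^ 4 * (‖X‖ + t)⁻¹ := by positivity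
  rcases le_or_gt (6 * p.eta j) (dd s t X v) with hd | hd
  · have hd0 : 0 < dd s t X v / 2 := by linarith
    refine (pot_le_of_far (p.cbA_meas j s t X) hd0 fun u hu => ?_).trans ?_
    · have ht' : t ≤ p.TT j := by
        by_contra hc
        exact hu (if_neg hc)
      have hu' : p.Sb j s t X u ≠ 0 := by rwa [cbA, if_pos ht'] at hu
      have h1 : ‖u - uu s t X‖ ≤ 3 * p.eta j := (Sb_supp h ht ht' hu').1
      have h2 : ‖v - uu s t X‖ ≤ ‖v - u‖ + ‖u - uu s t X‖ := norm_sub_le_norm_sub_add_norm_sub _ _ _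
      unfold dd at hd ⊢
      linarith
    · refine (mul_le_mul_right (cbA_mass h j s ht X) _).trans ?_
      rw [← ENNReal.ofReal_mul (by positivity), max_eq_left (by linarith)]
      refine ENNReal.ofReal_le_ofReal ?_
      rw [le_div_iff₀ (by linarith)]
      have : (dd s t X v / 2)⁻¹ * (288 * p.V ^ 4 * (‖X‖ + t)⁻¹) * dd s t X v =
          576 * (p.V ^ 4 * (‖X‖ + t)⁻¹) := by
        have : dd s t X v ≠ 0 := by linarith
        field_simp; ring
      rw [this]; linarith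
  · rcases cbA_box h j s ht X with h0 | ⟨e, l, hl, hb, hle⟩
    · unfold pot; simp [h0]
    have hm : Measurable fun u : R3 => if |inner ℝ (e 0) (u - uu s t X)| ≤ 2 * p.eta j ∧
        |inner ℝ (e 1) (u - uu s t X)| ≤ 2 * p.eta j ∧ |inner ℝ (e 2) (u - uu s t X)| ≤ l
        then (1 : ℝ≥0∞) else 0 := by
      refine Measurable.ite ?_ measurable_const measurable_const
      have hi : ∀ (i : Fin 3) (c : ℝ), MeasurableSet {u : R3 | |inner ℝ (e i) (u - uu s t X)| ≤ c} :=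
        fun i c => measurableSet_le (by fun_prop) measurable_const
      exact (hi 0 _).inter ((hi 1 _).inter (hi 2 _))
    refine (pot_mono hle v).trans ?_
    rw [pot_const_mul hm]
    refine (mul_le_mul_right (pot_box e (uu s t X) v (by positivity) hl.le) _).trans ?_
    rw [← ENNReal.ofReal_mul ha.le]
    refine ENNReal.ofReal_le_ofReal ?_
    have hm0 : 0 < max (dd s t X v) (p.eta j) := lt_max_of_lt_right hη
    have hm1 : max (dd s t X v) (p.eta j) ≤ 6 * p.eta j := max_le hd.le (by linarith)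
    rw [le_div_iff₀ hm0]
    calc p.amp j * (100 * (2 * p.eta j) * l) * max (dd s t X v) (p.eta j)
        ≤ p.amp j * (100 * (2 * p.eta j) * l) * (6 * p.eta j) :=
          mul_le_mul_of_nonneg_left hm1 (by positivity)
      _ = 1200 * (p.amp j * p.eta j ^ 2 * l) := by ring
      _ ≤ _ := by linarith

lemma cb_pot (h : p.Std) (j : ℕ) (s : Fin 4) {t : ℝ} (ht : 0 ≤ t) (X v : R3) :
    pot (p.Bc j s t X) v ≤ ENNReal.ofReal (p.rho t X / max (dd s t X v) (p.eta j)) := by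
  have hη := cb_eta_pos h j
  have hg := cb_meas_gs (p.eta j ^ 2)⁻¹ (uu s t X)
  have hm0 : 0 < max (dd s t X v) (p.eta j) := lt_max_of_lt_right hη
  have hV := cb_V h
  refine (pot_mono (cb_Bc_le h j s ht X) v).trans ?_
  rw [pot_add (p.cbA_meas j s t X) (hg.const_mul _), pot_const_mul hg]
  refine (add_le_add (cbA_pot h j s ht X v) (mul_le_mul_right (pot_gs_scaled hη _ v) _)).trans ?_
  rw [← ENNReal.ofReal_mul (by positivity), ← ENNReal.ofReal_add (by positivity) (by positivity)]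
  refine ENNReal.ofReal_le_ofReal ?_
  have e : (p.eta j ^ 3)⁻¹ * (1000 * p.eta j ^ 3 / max ‖v - uu s t X‖ (p.eta j)) =
      1000 / max (dd s t X v) (p.eta j) := by
    unfold dd; field_simp
  rw [e, ← add_div]
  refine div_le_div_of_nonneg_right ?_ hm0.le
  have hq : 0 ≤ p.V ^ 4 * (‖X‖ + t)⁻¹ := by positivity
  have h4 : 1 ≤ p.V ^ 4 := one_le_pow₀ (by linarith)
  have e2 : p.rho t X = p.V * p.V ^ 4 + p.V * (p.V ^ 4 * (‖X‖ + t)⁻¹) := by unfold rho; ring
  rw [e2]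
  nlinarith

lemma cb_gain (h : p.Std) (j : ℕ) (s : Fin 4) {t : ℝ} (ht : 0 ≤ t) (X v : R3)
    (hd : dd s t X v ≤ 2 * p.DD j) :
    gain (p.Bc j s t X) (p.Bc j s t X) v ≤
      ENNReal.ofReal (202 * 10 ^ 8 * p.V ^ 8 * p.r j / p.eta j ^ 3) *
        gs (p.eta j ^ 2)⁻¹ (v - uu s t X) := by
  have hη := cb_eta_pos h j
  have ha := cb_amp_pos h j
  have hr := r_pos h j
  have hr1 := cb_r_le h j
  have hV := cb_V h
  have hg := cb_meas_gs (p.eta j ^ 2)⁻¹ (uu s t X)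
  refine (gain_mono (Bc_gauss h j s ht X) (Bc_gauss h j s ht X) v).trans ?_
  rw [gain_const_mul_left hg (hg.const_mul _), gain_const_mul_right hg hg, gain_gs_shift,
    mul_comm (gs _ _), ← mul_assoc, ← mul_assoc]
  refine mul_le_mul_left ?_ _
  refine (mul_le_mul_right (cb_freq hη _ v) _).trans ?_
  rw [← ENNReal.ofReal_mul (by positivity), ← ENNReal.ofReal_mul (by positivity)]
  refine ENNReal.ofReal_le_ofReal ?_
  have h1 : p.eta j ≤ p.DD j := pow_le_pow_of_le_one hr.le (by linarith) (by norm_num)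
  have h2 : 2 * Real.pi * (‖v - uu s t X‖ * (6 * p.eta j ^ 3) + 20 * p.eta j ^ 4) ≤
      202 * (p.DD j * p.eta j ^ 3) := by
    have h3 : ‖v - uu s t X‖ * (6 * p.eta j ^ 3) + 20 * p.eta j ^ 4 ≤ 32 * (p.DD j * p.eta j ^ 3) := by
      have a1 : ‖v - uu s t X‖ * p.eta j ^ 3 ≤ 2 * p.DD j * p.eta j ^ 3 :=
        mul_le_mul_of_nonneg_right hd (by positivity)
      have a2 : p.eta j * p.eta j ^ 3 ≤ p.DD j * p.eta j ^ 3 :=
        mul_le_mul_of_nonneg_right h1 (by positivity)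
      nlinarith
    have h4 : 0 ≤ p.DD j * p.eta j ^ 3 := mul_nonneg (hη.le.trans h1) (by positivity)
    calc _ ≤ 2 * Real.pi * (32 * (p.DD j * p.eta j ^ 3)) :=
          mul_le_mul_of_nonneg_left h3 (by positivity)
      _ ≤ _ := by nlinarith [Real.pi_lt_d2]
  refine (mul_le_mul_of_nonneg_left h2 (by positivity)).trans (le_of_eq ?_)
  have hV0 : p.V ≠ 0 := by linarith
  unfold amp ell DD
  field_simp

end Par

theorem ev_Bc_mass : ∀ᶠ p in PF, ∀ (j : ℕ) (s : Fin 4) (t : ℝ) (X : R3), 0 ≤ t →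
    ∫⁻ v, p.Bc j s t X v ≤ ENNReal.ofReal (p.rho t X) := by
  filter_upwards [ev_std] with p h j s t X ht
  have hη := Par.cb_eta_pos h j
  have hg := cb_meas_gs (p.eta j ^ 2)⁻¹ (uu s t X)
  have hV := Par.cb_V h
  refine (lintegral_mono (Par.cb_Bc_le h j s ht X)).trans ?_
  rw [lintegral_add_left (p.cbA_meas j s t X), lintegral_const_mul _ hg]
  refine (add_le_add (Par.cbA_mass h j s ht X) (mul_le_mul_right (lintegral_gs_scaled hη _) _)).trans ?_
  rw [← ENNReal.ofReal_mul (by positivity), ← ENNReal.ofReal_add (by positivity) (by positivity)]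
  refine ENNReal.ofReal_le_ofReal ?_
  have e : (p.eta j ^ 3)⁻¹ * (6 * p.eta j ^ 3) = 6 := by field_simp
  have hq : 0 ≤ p.V ^ 4 * (‖X‖ + t)⁻¹ := by positivity
  have h4 : 1 ≤ p.V ^ 4 := one_le_pow₀ (by linarith)
  have e2 : p.rho t X = p.V * p.V ^ 4 + p.V * (p.V ^ 4 * (‖X‖ + t)⁻¹) := by unfold Par.rho; ring
  rw [e, e2]
  nlinarith
theorem ev_Bc_pot : ∀ᶠ p in PF, ∀ (j : ℕ) (s : Fin 4) (t : ℝ) (X v : R3), 0 ≤ t →
    pot (p.Bc j s t X) v ≤ ENNReal.ofReal (p.rho t X) *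
      (1 + if dd s t X v ≤ 1 then (ENNReal.ofReal (max (dd s t X v) (p.eta j)))⁻¹ else 0) := by
  filter_upwards [ev_std] with p h j s t X v ht
  have hη := Par.cb_eta_pos h j
  have hm0 : 0 < max (dd s t X v) (p.eta j) := lt_max_of_lt_right hη
  have hV := Par.cb_V h
  have hρ : 0 ≤ p.rho t X := by unfold Par.rho; positivity
  refine (Par.cb_pot h j s ht X v).trans ?_
  rw [ENNReal.ofReal_div_of_pos hm0, div_eq_mul_inv]
  refine mul_le_mul_right ?_ _
  split_ifs with hd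
  · exact le_add_self
  · rw [add_zero, ENNReal.inv_le_one, ENNReal.one_le_ofReal]
    exact le_max_of_le_left (not_le.1 hd).le
theorem ev_Bc_plane : ∀ᶠ p in PF, ∀ (j : ℕ) (s : Fin 4) (t : ℝ) (X v w : R3), 0 ≤ t → ‖w‖ = 1 →
    plane (p.Bc j s t X) v w ≤ ENNReal.ofReal (p.V ^ 5 / p.r j ^ 5) := by
  filter_upwards [ev_std, ev_V (Q := fun _ x => 40000 ≤ x)
    (Eventually.of_forall fun _ => eventually_ge_atTop _)] with p h hV j s t X v w ht hw
  have hη := Par.cb_eta_pos h j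
  have ha := Par.cb_amp_pos h j
  have hr := Par.r_pos h j
  have hg := cb_meas_gs (p.eta j ^ 2)⁻¹ (uu s t X)
  refine (plane_mono (Par.Bc_gauss h j s ht X) v w).trans ?_
  rw [plane_const_mul hg, plane_gs_shift (by positivity) _ _ hw, ← ENNReal.ofReal_mul (by positivity)]
  refine ENNReal.ofReal_le_ofReal ?_
  have h1 : Real.exp (-((p.eta j ^ 2)⁻¹ * (inner ℝ (v - uu s t X) w) ^ 2)) ≤ 1 :=
    Real.exp_le_one_iff.2 (neg_nonpos.2 (by positivity))
  have hV0 : p.V ≠ 0 := by linarith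
  have e : 10 ^ 4 * p.amp j * (Real.pi / (p.eta j ^ 2)⁻¹ * 1) =
      10 ^ 4 * Real.pi * p.V ^ 4 / p.r j ^ 5 := by
    unfold Par.amp Par.ell Par.eta
    field_simp
  refine (mul_le_mul_of_nonneg_left (mul_le_mul_of_nonneg_left h1 (by positivity))
    (by positivity)).trans ?_
  rw [e]
  refine div_le_div_of_nonneg_right ?_ (by positivity)
  have h4 : 0 ≤ p.V ^ 4 := by positivity
  have h5 : 10 ^ 4 * Real.pi ≤ p.V := by linarith [Real.pi_lt_four]
  calc 10 ^ 4 * Real.pi * p.V ^ 4 ≤ p.V * p.V ^ 4 := mul_le_mul_of_nonneg_right h5 h4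
    _ = p.V ^ 5 := by ring
theorem ev_Bc_self : ∀ᶠ p in PF, ∀ (j : ℕ) (s : Fin 4) (t : ℝ) (X v : R3), 0 ≤ t →
    gain (p.Bc j s t X) (p.Bc j s t X) v ≤
      p.Grc j s t X v + ENNReal.ofReal (p.r j ^ (3 * p.K)) * gs (1 / 4) v := by
  filter_upwards [ev_std,
    ev_r0 (Q := fun p x => ∀ r ∈ Ioc 0 x, 202 * 10 ^ 8 * p.V ^ 8 * (r * (-40 * Real.log r)) ≤ 1)
      (Eventually.of_forall fun _ => cb_ev_Ioc (cb_ev1 _)),
    ev_r0 (Q := fun p x => ∀ r ∈ Ioc 0 x, 202 * 10 ^ 8 * p.V ^ 8 * Real.exp 1 *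
        ((r⁻¹) ^ (3 * p.K + 11) * Real.exp (-r⁻¹)) ≤ 1)
      (Eventually.of_forall fun _ => cb_ev_Ioc (cb_ev2 _ _))] with p h h1 h2 j s t X v ht
  have hη := Par.cb_eta_pos h j
  have hr := Par.r_pos h j
  have hr1 := Par.cb_r_le h j
  have hV := Par.cb_V h
  replace h1 := h1 _ ⟨hr, Par.r_le h j⟩
  replace h2 := h2 _ ⟨hr, Par.r_le h j⟩
  have hD : 0 < p.DD j := pow_pos hr 3
  by_cases hc : p.InCell j s t X
  swap
  · have h0 : p.Bc j s t X = fun _ => 0 := by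
      funext u
      by_contra hu
      exact hc (Par.Bc_supp h ht hu).1
    rw [h0, gain_zero_left]
    exact zero_le
  by_cases hfar : 2 * p.DD j ^ 2 < ‖v - uu s t X‖ ^ 2
  · rw [gain_eq_zero_of_supp (fun u hu => (Par.Bc_supp h ht hu).2)
      (fun u hu => (Par.Bc_supp h ht hu).2) hfar]
    exact zero_le
  have hd : dd s t X v ≤ 2 * p.DD j := by
    unfold dd
    by_contra hcon
    nlinarith [norm_nonneg (v - uu s t X)]
  refine (Par.cb_gain h j s ht X v hd).trans ?_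
  rcases le_or_gt (dd s t X v) (p.DD j) with hd' | hd'
  · refine le_trans ?_ le_self_add
    unfold Par.Grc
    rw [if_pos ⟨hc, hd'⟩]
    refine mul_le_mul_left (ENNReal.ofReal_le_ofReal ?_) _
    have hT := Par.one_le_TT h j
    rw [mul_inv, div_eq_mul_inv]
    refine mul_le_mul_of_nonneg_right ?_ (by positivity)
    rw [← one_div, le_div_iff₀ (by linarith), mul_assoc]
    exact h1
  · refine le_trans ?_ le_add_self
    unfold gs
    rw [← ENNReal.ofReal_mul (by positivity), ← ENNReal.ofReal_mul (by positivity)]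
    refine ENNReal.ofReal_le_ofReal ?_
    have hD1 : p.DD j ≤ 1 / 1000 :=
      (pow_le_of_le_one hr.le (by linarith) (by norm_num)).trans hr1
    have hv : ‖v‖ ≤ 2 := by linarith [norm_le_dd s t X v]
    have a1 : Real.exp (-1) ≤ Real.exp (-(1 / 4 * ‖v‖ ^ 2)) :=
      Real.exp_le_exp.2 (by nlinarith [norm_nonneg v])
    have a2 : Real.exp (-((p.eta j ^ 2)⁻¹ * ‖v - uu s t X‖ ^ 2)) ≤ Real.exp (-(p.r j)⁻¹) := by
      refine Real.exp_le_exp.2 (neg_le_neg ?_)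
      have b1 : p.DD j ^ 2 ≤ ‖v - uu s t X‖ ^ 2 := pow_le_pow_left₀ hD.le hd'.le 2
      refine le_trans ?_ (mul_le_mul_of_nonneg_left b1 (by positivity))
      have b2 : (p.eta j ^ 2)⁻¹ * p.DD j ^ 2 = (p.r j)⁻¹ * (p.r j)⁻¹ := by
        unfold Par.eta Par.DD; field_simp
      rw [b2]
      exact le_mul_of_one_le_right (by positivity) ((one_le_inv₀ hr).2 (by linarith))
    refine (mul_le_mul_of_nonneg_left a2 (by positivity)).trans
      (le_trans ?_ (mul_le_mul_of_nonneg_left a1 (by positivity)))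
    have e : 202 * 10 ^ 8 * p.V ^ 8 * p.r j / p.eta j ^ 3 * Real.exp (-(p.r j)⁻¹) =
        (202 * 10 ^ 8 * p.V ^ 8 * Real.exp 1 * (((p.r j)⁻¹) ^ (3 * p.K + 11) * Real.exp (-(p.r j)⁻¹))) *
          (p.r j ^ (3 * p.K) * Real.exp (-1)) := by
      rw [Real.exp_neg 1, pow_add, inv_pow, inv_pow]
      unfold Par.eta
      field_simp
    rw [e]
    exact mul_le_of_le_one_left (by positivity) h2

end Crest.Agent.R068
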