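import Crest.Agent.R068.CellB

/-! Row 68: transport of the cold barrier (auxiliary file of `CellC`). -/

set_option autoImplicit false
open MeasureTheory Set Filter Topology
open scoped ENNReal
open Crest.AnalysisR.VecCalc3 Crest.AnalysisR.PDE.Boltzmann

namespace Crest.Agent.R068

lemma cc2_tot_add (n : ℕ∞) (f g : ℕ → Fin 4 → R3 → ℝ≥0∞) (x : R3) :
    Par.tot n (fun j s X => f j s X + g j s X) x = Par.tot n f x + Par.tot n g x := by
  unfold Par.tot
  rw [← ENNReal.tsum_add]
  refine tsum_congr fun k => ?_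
  rw [← ENNReal.tsum_add]
  refine tsum_congr fun j => ?_
  rw [← Finset.sum_add_distrib]
  refine Finset.sum_congr rfl fun s _ => ?_
  split_ifs <;> simp

lemma cc2_tot_mul (n : ℕ∞) (c : ℝ≥0∞) (f : ℕ → Fin 4 → R3 → ℝ≥0∞) (x : R3) :
    Par.tot n (fun j s X => c * f j s X) x = c * Par.tot n f x := by
  unfold Par.tot
  rw [← ENNReal.tsum_mul_left]
  refine tsum_congr fun k => ?_
  rw [← ENNReal.tsum_mul_left]
  refine tsum_congr fun j => ?_
  rw [Finset.mul_sum]
  refine Finset.sum_congr rfl fun s _ => ?_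
  split_ifs <;> simp

lemma cc2_tot_mono {n : ℕ∞} {f g : ℕ → Fin 4 → R3 → ℝ≥0∞} {x y : R3}
    (h : ∀ k j s, f j s (x - lat k) ≤ g j s (y - lat k)) : Par.tot n f x ≤ Par.tot n g y := by
  unfold Par.tot
  refine ENNReal.tsum_le_tsum fun k => ENNReal.tsum_le_tsum fun j => Finset.sum_le_sum fun s _ => ?_
  split_ifs
  · exact h k j s
  · exact le_rfl

lemma cc2_tot_ne {n : ℕ∞} {f : ℕ → Fin 4 → R3 → ℝ≥0∞} {x : R3} (h : Par.tot n f x ≠ 0) :
    ∃ (k : Fin 3 → ℤ) (j : ℕ) (s : Fin 4), (j : ℕ∞) ≤ n ∧ f j s (x - lat k) ≠ 0 := by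
  by_contra hc
  push Not at hc
  apply h
  unfold Par.tot
  refine ENNReal.tsum_eq_zero.2 fun k => ENNReal.tsum_eq_zero.2 fun j =>
    Finset.sum_eq_zero fun s _ => ?_
  split_ifs with hj
  · exact hc k j s hj
  · rfl

lemma cc2_B_eq (p : Par) (n : ℕ∞) (t : ℝ) (x v : R3) :
    p.B n t x v = Par.tot n (fun j s X => if t ≤ p.TT j then p.Sb j s t X v else 0) x +
      ENNReal.ofReal t * p.Gr n t x v := by
  unfold Par.B Par.Gr Par.Bc
  rw [cc2_tot_add, cc2_tot_mul]

theorem cc2_transport1 {p : Par} (h : p.Std) (n : ℕ∞) (s t : ℝ) (x v : R3) (hs : 0 ≤ s)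
    (ht1 : t ≤ 1) :
    p.Sd n (x - t • v) v + ∫⁻ r in Ioo s t, p.Gr n r (x - (t - r) • v) v ≤ p.B n t x v := by
  rw [cc2_B_eq]
  refine add_le_add ?_ ?_
  · refine cc2_tot_mono fun k j s => ?_
    rw [if_pos (ht1.trans (Par.one_le_TT h j)), Par.Sb, sub_right_comm]
  · calc ∫⁻ r in Ioo s t, p.Gr n r (x - (t - r) • v) v ≤ ∫⁻ _ in Ioo s t, p.Gr n t x v := by
          refine setLIntegral_mono' measurableSet_Ioo fun r hr => cc2_tot_mono fun k j s => ?_
          rw [sub_right_comm]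
          exact Par.Grc_flight h (hs.trans hr.1.le) hr.2.le (ht1.trans (Par.one_le_TT h j)) _ v
      _ = p.Gr n t x v * ENNReal.ofReal (t - s) := by
          rw [setLIntegral_const, Real.volume_Ioo]
      _ ≤ _ := by
          rw [mul_comm]
          exact mul_le_mul' (ENNReal.ofReal_le_ofReal (by linarith)) le_rfl

lemma cc2_r0_le {p : Par} (h : p.Std) : p.r0 ≤ 1 / 2 := by
  have := h.r0_κ; have := h.κ_le; have := h.t2_le; linarith

/-- dead cells are damped -/
lemma cc2_dead {p : Par} (h : p.Std) {t : ℝ} {j m : ℕ} (hj : p.TT j < t) (hm : m ≤ 19) :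
    ENNReal.ofReal (p.Dm t) * ENNReal.ofReal ((p.r j ^ m)⁻¹) ≤ ENNReal.ofReal (2 * p.r0) := by
  have hr := Par.r_pos h j
  have hr1 : p.r j ≤ 1 := (Par.r_le h j).trans ((cc2_r0_le h).trans (by norm_num))
  have hD : p.Dm t ≤ 2 * p.r j ^ 20 := by
    rw [← Par.exp_neg_TT h j]
    have h1 : p.Dm t ≤ Real.exp (p.t2 / 2) * Real.exp (-(p.TT j / 2)) := by
      rw [← Real.exp_add]
      exact Real.exp_le_exp.2 (by linarith)
    refine h1.trans (mul_le_mul_of_nonneg_right ?_ (Real.exp_pos _).le)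
    have h2 := h.t2_le
    have h3 := Par.t2_pos h
    have h4 := Real.exp_bound_div_one_sub_of_interval' (x := p.t2 / 2) (by linarith) (by linarith)
    refine h4.le.trans ?_
    rw [div_le_iff₀ (by linarith)]
    linarith
  rw [← ENNReal.ofReal_mul (show 0 ≤ p.Dm t from (Real.exp_pos _).le)]
  refine ENNReal.ofReal_le_ofReal ?_
  rw [← div_eq_mul_inv, div_le_iff₀ (by positivity)]
  refine hD.trans ?_
  have h5 : p.r j ^ 19 ≤ p.r j ^ m := pow_le_pow_of_le_one hr.le hr1 hm
  calc 2 * p.r j ^ 20 = 2 * (p.r j * p.r j ^ 19) := by ring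
    _ ≤ 2 * (p.r0 * p.r j ^ m) := by
        gcongr
        · exact h.r0_pos.le
        · exact Par.r_le h j
    _ = _ := by ring

lemma cc2_Grc_le {p : Par} (h : p.Std) (j : ℕ) (s : Fin 4) (t : ℝ) (X v : R3) :
    p.Grc j s t X v ≤ ENNReal.ofReal ((p.r j ^ 12)⁻¹) := by
  have hr := Par.r_pos h j
  unfold Par.Grc
  split_ifs
  · refine (mul_le_of_le_one_right' (gs_le_one (by positivity) _)).trans
      (ENNReal.ofReal_le_ofReal ?_)
    have e : p.eta j ^ 3 = p.r j ^ 12 := by unfold Par.eta; ring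
    rw [e]
    refine inv_anti₀ (by positivity) ?_
    exact le_mul_of_one_le_left (by positivity) (Par.one_le_TT h j)
  · exact zero_le

lemma cc2_norm_le {p : Par} (h : p.Std) {j : ℕ} {s : Fin 4} {t : ℝ} {X v : R3}
    (hd : dd s t X v ≤ p.DD j) : ‖v‖ ≤ 2 := by
  have := norm_le_dd s t X v
  have := Par.DD_le h j
  have := cc2_r0_le h
  linarith

theorem cc2_transport2 {p : Par} (h : p.Std)
    (hB : ∀ (n : ℕ∞) (t : ℝ) (x : R3) (k : Fin 3 → ℤ) (j : ℕ) (s : Fin 4), 0 ≤ t →
      (j : ℕ∞) ≤ n → p.InCell j s t (x - lat k) →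
      p.B n t x = p.Bc j s t (x - lat k) ∧ p.Gr n t x = p.Grc j s t (x - lat k))
    (n : ℕ∞) (t : ℝ) (x v : R3) (ht : p.t2 ≤ t) :
    Ed p.t2 t v * p.B n p.t2 (x - (t - p.t2) • v) v +
      ∫⁻ r in Ioo p.t2 t, Ed r t v * (ENNReal.ofReal (p.Dm r ^ 2) * p.Gr n r (x - (t - r) • v) v) ≤
    ENNReal.ofReal (p.Dm t) * p.B n t x v + ENNReal.ofReal (10 * p.r0) * gs (1 / 8) v := by
  have h2 := Par.t2_pos h
  set c : ℝ≥0∞ := if ‖v‖ ≤ 2 then ENNReal.ofReal (2 * p.r0) else 0 with hc
  set D : ℝ≥0∞ := ENNReal.ofReal (p.Dm t) with hD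
  set G : ℝ≥0∞ := p.Gr n t x v with hG
  set SA : ℝ≥0∞ := Par.tot n (fun j s X => if t ≤ p.TT j then p.Sb j s t X v else 0) x with hSA
  have hD1 : D ≤ 1 := ENNReal.ofReal_le_one.2 (p.Dm_le_one ht)
  have hE : ∀ r, p.t2 ≤ r → r ≤ t → Ed r t v * ENNReal.ofReal (p.Dm r ^ 2) ≤ D * D := by
    intro r hr hrt
    unfold Ed
    rw [hD, ← ENNReal.ofReal_mul (Real.exp_pos _).le,
      ← ENNReal.ofReal_mul (show 0 ≤ p.Dm t from (Real.exp_pos _).le)]
    refine ENNReal.ofReal_le_ofReal ?_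
    unfold Par.Dm
    rw [sq, ← Real.exp_add, ← Real.exp_add, ← Real.exp_add]
    refine Real.exp_le_exp.2 ?_
    have := mul_nonneg (norm_nonneg v) (sub_nonneg.2 hrt)
    nlinarith
  have hE2 : Ed p.t2 t v ≤ D := by
    have h1 := hE p.t2 le_rfl ht
    have e : p.Dm p.t2 = 1 := by simp [Par.Dm]
    rw [e, one_pow, ENNReal.ofReal_one, mul_one] at h1
    exact h1.trans (mul_le_of_le_one_right' hD1)
  -- the barrier at time `t2`
  have a1 : D * p.B n p.t2 (x - (t - p.t2) • v) v ≤ D * (SA + ENNReal.ofReal p.t2 * G) + c := by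
    set BD := Par.tot n (fun j s X => if t ≤ p.TT j then 0 else p.Bc j s p.t2 X v)
      (x - (t - p.t2) • v) with hBD
    have b1 : p.B n p.t2 (x - (t - p.t2) • v) v ≤ (SA + ENNReal.ofReal p.t2 * G) + BD := by
      have e : p.B n p.t2 (x - (t - p.t2) • v) v =
          Par.tot n (fun j s X => if t ≤ p.TT j then p.Bc j s p.t2 X v else 0) (x - (t - p.t2) • v) +
            BD := by
        rw [hBD, ← cc2_tot_add]
        unfold Par.B
        congr 1
        funext j s X
        split_ifs <;> simp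
      rw [e]
      refine add_le_add ?_ le_rfl
      rw [hSA, hG, Par.Gr, ← cc2_tot_mul, ← cc2_tot_add]
      refine cc2_tot_mono fun k j s => ?_
      split_ifs with hj
      · unfold Par.Bc
        rw [if_pos (ht.trans hj), sub_right_comm]
        refine add_le_add (le_of_eq ?_) (mul_le_mul' le_rfl (Par.Grc_flight h h2.le ht hj _ v))
        unfold Par.Sb
        congr 1
        module
      · exact zero_le
    have b2 : D * BD ≤ c := by
      by_cases h0 : BD = 0
      · rw [h0, mul_zero]; exact zero_le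
      obtain ⟨k, j, s, hj, hne⟩ := cc2_tot_ne h0
      have hdead : ¬ t ≤ p.TT j := fun hc => hne (if_pos hc)
      rw [if_neg hdead] at hne
      obtain ⟨hin, hdd⟩ := Par.Bc_supp h h2.le hne
      have b3 : BD ≤ ENNReal.ofReal ((p.r j ^ 14)⁻¹) := by
        refine le_trans ?_ (Par.Bc_sup h j s h2.le (x - (t - p.t2) • v - lat k) v)
        rw [← (hB n p.t2 _ k j s h2.le hj hin).1]
        refine cc2_tot_mono fun k j s => ?_
        split_ifs
        · exact zero_le
        · exact le_rfl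
      rw [hc, if_pos (cc2_norm_le h hdd)]
      exact (mul_le_mul' le_rfl b3).trans (cc2_dead h (not_le.1 hdead) (by norm_num))
    calc _ ≤ D * ((SA + ENNReal.ofReal p.t2 * G) + BD) := mul_le_mul' le_rfl b1
      _ = D * (SA + ENNReal.ofReal p.t2 * G) + D * BD := mul_add _ _ _
      _ ≤ _ := add_le_add le_rfl b2
  -- the production term
  have a2 : ∀ r ∈ Ioo p.t2 t, D * p.Gr n r (x - (t - r) • v) v ≤ G + c := by
    intro r hr
    have hr0 : 0 ≤ r := h2.le.trans hr.1.le
    set GD := Par.tot n (fun j s X => if t ≤ p.TT j then 0 else p.Grc j s r X v)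
      (x - (t - r) • v) with hGD
    have b1 : p.Gr n r (x - (t - r) • v) v ≤ G + GD := by
      have e : p.Gr n r (x - (t - r) • v) v =
          Par.tot n (fun j s X => if t ≤ p.TT j then p.Grc j s r X v else 0) (x - (t - r) • v) +
            GD := by
        rw [hGD, ← cc2_tot_add]
        unfold Par.Gr
        congr 1
        funext j s X
        split_ifs <;> simp
      rw [e]
      refine add_le_add ?_ le_rfl
      refine cc2_tot_mono fun k j s => ?_
      split_ifs with hj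
      · rw [sub_right_comm]
        exact Par.Grc_flight h hr0 hr.2.le hj _ v
      · exact zero_le
    have b2 : D * GD ≤ c := by
      by_cases h0 : GD = 0
      · rw [h0, mul_zero]; exact zero_le
      obtain ⟨k, j, s, hj, hne⟩ := cc2_tot_ne h0
      have hdead : ¬ t ≤ p.TT j := fun hc => hne (if_pos hc)
      rw [if_neg hdead] at hne
      have hin : p.InCell j s r (x - (t - r) • v - lat k) ∧
          dd s r (x - (t - r) • v - lat k) v ≤ p.DD j := by
        by_contra hc
        exact hne (if_neg hc)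
      have b3 : GD ≤ ENNReal.ofReal ((p.r j ^ 12)⁻¹) := by
        refine le_trans ?_ (cc2_Grc_le h j s r (x - (t - r) • v - lat k) v)
        rw [← (hB n r _ k j s hr0 hj hin.1).2]
        refine cc2_tot_mono fun k j s => ?_
        split_ifs
        · exact zero_le
        · exact le_rfl
      rw [hc, if_pos (cc2_norm_le h hin.2)]
      exact (mul_le_mul' le_rfl b3).trans (cc2_dead h (not_le.1 hdead) (by norm_num))
    calc _ ≤ D * (G + GD) := mul_le_mul' le_rfl b1
      _ = D * G + D * GD := mul_add _ _ _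
      _ ≤ _ := add_le_add (mul_le_of_le_one_left' hD1) b2
  have a3 : ∫⁻ r in Ioo p.t2 t, Ed r t v * (ENNReal.ofReal (p.Dm r ^ 2) * p.Gr n r (x - (t - r) • v) v) ≤
      D * (G + c) * ENNReal.ofReal (t - p.t2) := by
    rw [← Real.volume_Ioo, ← setLIntegral_const]
    refine setLIntegral_mono' measurableSet_Ioo fun r hr => ?_
    rw [← mul_assoc]
    refine (mul_le_mul' (hE r hr.1.le hr.2.le) le_rfl).trans ?_
    rw [mul_assoc]
    exact mul_le_mul' le_rfl (a2 r hr)
  have a4 : D * ENNReal.ofReal (t - p.t2) ≤ 1 := by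
    rw [hD, ← ENNReal.ofReal_mul (show 0 ≤ p.Dm t from (Real.exp_pos _).le)]
    refine ENNReal.ofReal_le_one.2 ?_
    unfold Par.Dm
    rw [Real.exp_neg, inv_mul_le_iff₀ (Real.exp_pos _), mul_one]
    have h1 := Real.quadratic_le_exp_of_nonneg (x := (t - p.t2) / 2) (by linarith)
    nlinarith [sq_nonneg (t - p.t2 - 2)]
  have a5 : c + c ≤ ENNReal.ofReal (10 * p.r0) * gs (1 / 8) v := by
    rw [hc]
    split_ifs with hv
    · have hr0 := h.r0_pos
      unfold gs
      rw [← ENNReal.ofReal_add (by positivity) (by positivity), ← ENNReal.ofReal_mul (by positivity)]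
      refine ENNReal.ofReal_le_ofReal ?_
      have h1 : ‖v‖ ^ 2 ≤ 4 := by nlinarith [norm_nonneg v]
      have h3 := Real.add_one_le_exp (-(1 / 8 * ‖v‖ ^ 2))
      nlinarith
    · simp
  have e : ENNReal.ofReal t = ENNReal.ofReal p.t2 + ENNReal.ofReal (t - p.t2) := by
    rw [← ENNReal.ofReal_add h2.le (by linarith)]; congr 1; ring
  rw [cc2_B_eq p n t x v, ← hSA, ← hG, e]
  calc _ ≤ (D * (SA + ENNReal.ofReal p.t2 * G) + c) + D * (G + c) * ENNReal.ofReal (t - p.t2) :=
        add_le_add ((mul_le_mul' hE2 le_rfl).trans a1) a3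
    _ = D * (SA + (ENNReal.ofReal p.t2 + ENNReal.ofReal (t - p.t2)) * G) +
          (c + (D * ENNReal.ofReal (t - p.t2)) * c) := by ring
    _ ≤ _ := add_le_add le_rfl ((add_le_add le_rfl (mul_le_of_le_one_left' a4)).trans a5)

end Crest.Agent.R068
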