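import Crest.Agent.R068.CellB

/-! Row 68: lower bound for the cold density in the bulk of the slabs. -/

set_option autoImplicit false
open MeasureTheory Set Filter Topology
open scoped ENNReal
open Crest.AnalysisR.VecCalc3 Crest.AnalysisR.PDE.Boltzmann

namespace Crest.Agent.R068

lemma cc3_Jr_add (x y : R3) : Jr (x + y) = Jr x + Jr y := by
  simp only [Jr, inner_add_right, add_smul]; abel
lemma cc3_Jr_smul (c : ℝ) (x : R3) : Jr (c • x) = c • Jr x := by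
  simp only [Jr, real_inner_smul_right, mul_smul, smul_sub]
lemma cc3_inner_Jr_self (w : R3) : inner ℝ w (Jr w) = (0:ℝ) := by
  simp only [Jr, inner_sub_right, real_inner_smul_right, real_inner_comm w]; ring
lemma cc3_Jr_fr1 : Jr (fr 1) = 0 := by
  have h0 : inner ℝ (fr 0) (fr 1) = (0:ℝ) := fr.orthonormal.2 (by decide)
  have h2 : inner ℝ (fr 2) (fr 1) = (0:ℝ) := fr.orthonormal.2 (by decide)
  simp [Jr, h0, h2]

lemma cc3_num1 {n A β η : ℝ} (hn : 0 ≤ n) (ww : n ^ 2 = (1 / 4 + A) ^ 2 + β ^ 2) (h0 : |A| < η / 2)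
    (hβ : |β| < η / 100) (hη : η ≤ 1 / 10 ^ 6) : |n - 1 / 4| < η ∧ n ^ 2 ≤ 13 / 200 := by
  obtain ⟨hA1, hA2⟩ := abs_lt.1 h0
  obtain ⟨hβ2, hβ3⟩ := abs_lt.1 hβ
  have hw1 : n < 1 / 4 + η := by
    refine lt_of_pow_lt_pow_left₀ 2 (by linarith) ?_
    rw [ww]; nlinarith
  have hw2 : 1 / 4 - η < n := by
    refine lt_of_pow_lt_pow_left₀ 2 hn ?_
    rw [ww]; nlinarith [sq_nonneg β]
  exact ⟨abs_lt.2 ⟨by linarith, by linarith⟩, by nlinarith⟩

lemma cc3_num2 {r V t Y a b : ℝ} (hV : 8000 ≤ V) (ht : 0 < t) (hy : 7 / 20 * t ≤ Y) (h3 : r / 2 < a)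
    (h4 : a ≤ b) (hx : b ≤ 2 * V * t) : r / V ^ 2 ≤ Y / 100 := by
  have hY0 : 0 < Y := by linarith
  rw [div_le_iff₀ (by positivity)]
  have h5 : r ≤ 4 * V * t := by linarith
  have h6 : 4 * V * t ≤ 12 * V * Y := by nlinarith
  have h7 : 12 * V * Y ≤ Y / 100 * V ^ 2 := by nlinarith [mul_pos hY0 (by linarith : 0 < V)]
  linarith

lemma cc3_num3 {r r0 M t V N : ℝ} (hr : 0 < r) (ht : 0 < t) (hM : 1 ≤ M) (hV : 8000 ≤ V)
    (h1 : t * (1000 * V) ≤ r0) (h2 : r0 * (10 ^ 6 * M) ≤ 1) (hN : N ≤ r) :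
    t * N ≤ r / (2 * M) / 32 := by
  have h4 : t * N ≤ t * r := mul_le_mul_of_nonneg_left hN ht.le
  refine h4.trans ?_
  rw [div_div, le_div_iff₀ (by positivity)]
  have h5 : t ≤ r0 := by nlinarith
  have h6 : t * (2 * M * 32) ≤ 1 := by
    nlinarith [mul_le_mul_of_nonneg_right h5 (by linarith : (0:ℝ) ≤ M)]
  nlinarith

lemma cc3_yy_le {V t : ℝ} (hV : 8000 ≤ V) (ht : 0 < t) (s : Fin 4) {x : R3} (hx : ‖x‖ ≤ 2 * V * t) :
    ‖yy s t x‖ ≤ 3 * V * t := by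
  have h3 : ‖pl x‖ ≤ ‖x‖ := by
    have := norm_sq_pl x
    exact abs_le_of_sq_le_sq' (by nlinarith [sq_nonneg (nc x)]) (norm_nonneg _) |>.2
  have h4 : ‖yy s t x‖ ≤ ‖pl x‖ + t := by
    rw [yy]
    refine (norm_sub_le _ _).trans (le_of_eq ?_)
    rw [norm_smul, norm_dir, Real.norm_of_nonneg ht.le, mul_one]
  nlinarith

lemma cc3_box {p : Par} (h : p.Std) {j : ℕ} {s : Fin 4} {t : ℝ} {x : R3} (ht : 0 < t) (ht0 : t ≤ p.t0)
    (hF : nc x ∈ p.Fat j s (-(p.wd j / 32))) (hx : ‖x‖ ≤ 2 * p.V * t)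
    (hy : 7 / 20 * t ≤ ‖yy s t x‖) {e : OrthonormalBasis (Fin 3) ℝ R3} (he0 : e 0 = hat (yy s t x))
    (he1 : e 1 = fr 1) (he2 : e 2 = Jr (hat (yy s t x))) {u : R3}
    (h0 : |inner ℝ (e 0) (u - uu s t x)| < p.eta j / 2) (h1 : |inner ℝ (e 1) (u - uu s t x)| < p.eta j)
    (h2 : |inner ℝ (e 2) (u - uu s t x)| < p.eta j * p.ell j / ‖yy s t x‖) :
    p.Sb j s t x u = ENNReal.ofReal (p.amp j) := by
  have hr := Par.r_pos h j
  have hr0 := Par.r_le h j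
  have hV : 8000 ≤ p.V := by linarith [h.V_ge, h.R_ge]
  have ht1 : t * (1000 * p.V) ≤ p.r0 :=
    (mul_le_mul_of_nonneg_right ht0 (by positivity)).trans (Par.t0_le_r0 h)
  have hM : (1:ℝ) ≤ p.M := by exact_mod_cast h.M_ge
  have hr1 : p.r0 ≤ 1 / 10 ^ 6 := by
    have := h.r0_M; have := h.r0_pos
    rw [le_div_iff₀ (by positivity)]; nlinarith
  obtain ⟨Y, hY⟩ : ∃ Y, Y = ‖yy s t x‖ := ⟨_, rfl⟩
  obtain ⟨η, hη⟩ : ∃ η, η = p.eta j := ⟨_, rfl⟩
  obtain ⟨ℓ, hℓ⟩ : ∃ ℓ, ℓ = p.ell j := ⟨_, rfl⟩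
  rw [← hY] at hy
  rw [← hη] at h0 h1
  rw [← hη, ← hℓ, ← hY] at h2
  have hY0 : 0 < Y := by linarith
  have hη0 : 0 < η := by rw [hη, Par.eta]; positivity
  have hη1 : η ≤ p.r j := by
    rw [hη, Par.eta]
    exact pow_le_of_le_one hr.le (by linarith) (by norm_num)
  have hℓ0 : 0 < ℓ := by rw [hℓ, Par.ell]; positivity
  have hℓ1 : ℓ ≤ Y / 100 := by
    rw [hℓ]
    exact cc3_num2 hV ht hy hF.1 (abs_nc_le x) hx
  have hYle : Y ≤ 3 * p.V * t := hY ▸ cc3_yy_le hV ht s hx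
  have hy0 : yy s t x ≠ 0 := by rw [← norm_pos_iff, ← hY]; exact hY0
  have hyY : yy s t x = Y • e 0 := by
    rw [he0, hat, if_neg hy0, smul_smul, ← hY, mul_inv_cancel₀ hY0.ne', one_smul]
  obtain ⟨A, hA⟩ : ∃ A, A = inner ℝ (e 0) (u - uu s t x) := ⟨_, rfl⟩
  obtain ⟨N, hN⟩ : ∃ N, N = inner ℝ (e 1) (u - uu s t x) := ⟨_, rfl⟩
  obtain ⟨β, hβ⟩ : ∃ β, β = inner ℝ (e 2) (u - uu s t x) := ⟨_, rfl⟩
  have hdec : u - uu s t x = A • e 0 + N • e 1 + β • e 2 := by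
    have := e.sum_repr' (u - uu s t x)
    rw [Fin.sum_univ_three, ← hA, ← hN, ← hβ] at this
    exact this.symm
  have hNu : nc u = N := by
    rw [hN, he1]
    change nc u = nc (u - uu s t x)
    rw [nc_sub, nc_uu, sub_zero]
  rw [← hA] at h0
  rw [← hN] at h1
  rw [← hβ] at h2
  have hw : pl u - dir s = (1 / 4 + A) • e 0 + β • e 2 := by
    have : u = uu s t x + (A • e 0 + N • e 1 + β • e 2) := by rw [← hdec]; abel
    rw [pl, hNu, ← he1]
    conv_lhs => rw [this, uu, ← he0]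
    module
  obtain ⟨w, hw'⟩ : ∃ w, w = pl u - dir s := ⟨_, rfl⟩
  have hZ : x - t • u = Y • e 0 + (-t) • w + (nc x - t * N) • fr 1 := by
    rw [← hyY, hw', yy, pl, pl, hNu]
    module
  rw [← hw'] at hw
  have o00 : inner ℝ (e 0) (e 0) = (1:ℝ) := by rw [real_inner_self_eq_norm_sq, e.orthonormal.1]; simp
  have o22 : inner ℝ (e 2) (e 2) = (1:ℝ) := by rw [real_inner_self_eq_norm_sq, e.orthonormal.1]; simp
  have o02 : inner ℝ (e 0) (e 2) = (0:ℝ) := e.orthonormal.2 (by decide)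
  have o20 : inner ℝ (e 2) (e 0) = (0:ℝ) := e.orthonormal.2 (by decide)
  have o01 : inner ℝ (e 0) (e 1) = (0:ℝ) := e.orthonormal.2 (by decide)
  have o21 : inner ℝ (e 2) (e 1) = (0:ℝ) := e.orthonormal.2 (by decide)
  have w0 : inner ℝ w (e 0) = 1 / 4 + A := by
    rw [hw, inner_add_left, real_inner_smul_left, real_inner_smul_left, o00, o20]; ring
  have w2 : inner ℝ w (e 2) = β := by
    rw [hw, inner_add_left, real_inner_smul_left, real_inner_smul_left, o02, o22]; ring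
  have w1 : inner ℝ w (fr 1) = (0:ℝ) := by
    rw [← he1, hw, inner_add_left, real_inner_smul_left, real_inner_smul_left, o01, o21]; ring
  have ww : ‖w‖ ^ 2 = (1 / 4 + A) ^ 2 + β ^ 2 := by
    rw [← real_inner_self_eq_norm_sq]
    conv_lhs => enter [3]; rw [hw]
    rw [inner_add_right, real_inner_smul_right, real_inner_smul_right, w0, w2]; ring
  have hJ : inner ℝ w (Jr (x - t • u)) = Y * β := by
    rw [hZ, cc3_Jr_add, cc3_Jr_add, cc3_Jr_smul, cc3_Jr_smul, cc3_Jr_smul, cc3_Jr_fr1, he0, ← he2,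
      inner_add_right, inner_add_right, real_inner_smul_right, real_inner_smul_right,
      real_inner_smul_right, cc3_inner_Jr_self, w2, inner_zero_right]
    ring
  have hI : inner ℝ w (x - t • u) = Y * (1 / 4 + A) - t * ‖w‖ ^ 2 := by
    rw [hZ, inner_add_right, inner_add_right, real_inner_smul_right, real_inner_smul_right,
      real_inner_smul_right, w0, w1, real_inner_self_eq_norm_sq]
    ring
  have hβ1 : |β| < η / 100 := by
    refine h2.trans_le ?_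
    rw [div_le_iff₀ hY0]
    linarith [mul_le_mul_of_nonneg_left hℓ1 hη0.le]
  obtain ⟨hA1, hA2⟩ := abs_lt.1 h0
  have hηs : η ≤ 1 / 10 ^ 6 := by linarith
  obtain ⟨hw1, hw3⟩ := cc3_num1 (norm_nonneg w) ww h0 hβ1 hηs
  unfold Par.Sb Par.S0
  rw [if_pos]
  rw [← hw', hJ, hI, hNu, ← hη, ← hℓ]
  refine ⟨h1, hw1, ?_, ?_, ?_, ?_⟩
  · rw [abs_mul, abs_of_pos hY0, mul_comm, ← lt_div_iff₀ hY0]; exact h2
  · have h3 : t * ‖w‖ ^ 2 ≤ t * (13 / 200) := mul_le_mul_of_nonneg_left hw3 ht.le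
    have h4 : Y * (24 / 100) ≤ Y * (1 / 4 + A) := mul_le_mul_of_nonneg_left (by linarith) hY0.le
    linarith
  · have h3 : 0 ≤ t * ‖w‖ ^ 2 := by positivity
    have h4 : Y * (1 / 4 + A) ≤ Y * 1 := mul_le_mul_of_nonneg_left (by linarith) hY0.le
    have := h.r0_pos
    linarith
  · have hwd := Par.wd_pos h j
    have h3 : |nc (x - t • u) - nc x| ≤ p.wd j / 32 := by
      rw [nc_sub, nc_smul, hNu, sub_sub_cancel_left, abs_neg, abs_mul, abs_of_pos ht]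
      exact cc3_num3 hr ht hM hV ht1 h.r0_M (h1.le.trans hη1)
    have := Par.Fat_shift h hF h3 (by linarith)
    rwa [neg_add_cancel] at this

lemma cc3_lower {p : Par} (h : p.Std) (j : ℕ) (s : Fin 4) (t : ℝ) (x : R3) (ht : 0 < t) (ht0 : t ≤ p.t0)
    (hF : nc x ∈ p.Fat j s (-(p.wd j / 32))) (hx : ‖x‖ ≤ 2 * p.V * t)
    (hy : 7 / 20 * t ≤ ‖yy s t x‖) : ENNReal.ofReal (p.V / t) ≤ ∫⁻ u, p.Sb j s t x u := by
  have hr := Par.r_pos h j
  have hV : 8000 ≤ p.V := by linarith [h.V_ge, h.R_ge]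
  have hY0 : 0 < ‖yy s t x‖ := by linarith
  have hη0 : 0 < p.eta j := by rw [Par.eta]; positivity
  have hℓ0 : 0 < p.ell j := by rw [Par.ell]; positivity
  have hn : nc (hat (yy s t x)) = 0 := by
    rw [hat, if_neg (norm_pos_iff.1 hY0), nc_smul, nc_yy, mul_zero]
  obtain ⟨e, he0, he1, he2⟩ := exists_onb_plane (norm_hat _) hn
  have hvol := volume_box e (uu s t x) ![p.eta j / 2, p.eta j, p.eta j * p.ell j / ‖yy s t x‖]
    (fun i => by fin_cases i <;> simp <;> positivity)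
  have hYle := cc3_yy_le hV ht s hx
  have hmeas : MeasurableSet {u : R3 | ∀ i, |inner ℝ (e i) (u - uu s t x)| <
      (![p.eta j / 2, p.eta j, p.eta j * p.ell j / ‖yy s t x‖] : Fin 3 → ℝ) i} := by
    rw [ofPred_forall]
    exact MeasurableSet.iInter fun i => (isOpen_lt (by fun_prop) continuous_const).measurableSet
  refine le_trans ?_ (setLIntegral_le_lintegral {u : R3 | ∀ i, |inner ℝ (e i) (u - uu s t x)| <
      (![p.eta j / 2, p.eta j, p.eta j * p.ell j / ‖yy s t x‖] : Fin 3 → ℝ) i} _)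
  rw [setLIntegral_congr_fun hmeas (g := fun _ => ENNReal.ofReal (p.amp j))
    (fun u hu => cc3_box h ht ht0 hF hx hy he0 he1 he2 (hu 0) (hu 1) (hu 2)), setLIntegral_const, hvol,
    ← ENNReal.ofReal_mul (by rw [Par.amp]; positivity)]
  refine ENNReal.ofReal_le_ofReal ?_
  have : p.amp j * (8 * (p.eta j / 2 * p.eta j * (p.eta j * p.ell j / ‖yy s t x‖))) =
      4 * p.V ^ 2 / ‖yy s t x‖ := by
    rw [Par.amp]; field_simp; ring
  simp only [Matrix.cons_val_zero, Matrix.cons_val_one, Matrix.cons_val]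
  rw [this, div_le_div_iff₀ ht hY0]
  nlinarith [mul_le_mul_of_nonneg_left hYle (by linarith : 0 ≤ p.V), mul_pos ht (by positivity : 0 < p.V ^ 2)]

end Crest.Agent.R068
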