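import Crest.Agent.R068.CellB
import Crest.Agent.R068.CellCAux2
import Crest.Agent.R068.CellCAux3

/-! Row 68: the cell witness and transport of the cold barrier. -/

set_option autoImplicit false
open MeasureTheory Set Filter Topology
open scoped ENNReal
open Crest.AnalysisR.VecCalc3 Crest.AnalysisR.PDE.Boltzmann

namespace Crest.Agent.R068

lemma c1_tot_eq {n : ℕ∞} {f : ℕ → Fin 4 → R3 → ℝ≥0∞} {x : R3} {k : Fin 3 → ℤ} {j : ℕ} {s : Fin 4}
    (hj : (j : ℕ∞) ≤ n)
    (h : ∀ k' j' s', f j' s' (x - lat k') ≠ 0 → k = k' ∧ j = j' ∧ s = s') :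
    Par.tot n f x = f j s (x - lat k) := by
  unfold Par.tot
  rw [tsum_eq_single k, tsum_eq_single j, Finset.sum_eq_single s, if_pos hj]
  · intro s' _ hs'
    rw [if_pos hj]
    by_contra h0
    exact hs' (h k j s' h0).2.2.symm
  · simp
  · intro j' hj'
    refine Finset.sum_eq_zero fun s' _ => ?_
    split_ifs
    · by_contra h0
      exact hj' (h k j' s' h0).2.1.symm
    · rfl
  · intro k' hk'
    refine ENNReal.tsum_eq_zero.2 fun j' => Finset.sum_eq_zero fun s' _ => ?_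
    split_ifs
    · by_contra h0
      exact hk' (h k' j' s' h0).1.symm
    · rfl

lemma c1_tot_zero {n : ℕ∞} {f : ℕ → Fin 4 → R3 → ℝ≥0∞} {x : R3}
    (h : ∀ (k : Fin 3 → ℤ) (j : ℕ) (s : Fin 4), (j : ℕ∞) ≤ n → f j s (x - lat k) = 0) :
    Par.tot n f x = 0 := by
  unfold Par.tot
  refine ENNReal.tsum_eq_zero.2 fun k => ENNReal.tsum_eq_zero.2 fun j =>
    Finset.sum_eq_zero fun s _ => ?_
  split_ifs with hj
  · exact h k j s hj
  · rfl

lemma c1_Grc_supp {p : Par} {j : ℕ} {s : Fin 4} {t : ℝ} {X v : R3} (h0 : p.Grc j s t X v ≠ 0) :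
    p.InCell j s t X ∧ dd s t X v ≤ p.DD j := by
  by_contra h
  exact h0 (by unfold Par.Grc; rw [if_neg h])

lemma c1_Grc_le (p : Par) (j : ℕ) (s : Fin 4) (t : ℝ) (X v : R3) : p.Grc j s t X v ≤
    ENNReal.ofReal ((p.TT j * p.eta j ^ 3)⁻¹) * gs (p.eta j ^ 2)⁻¹ (v - uu s t X) := by
  unfold Par.Grc
  split_ifs
  · exact le_rfl
  · exact zero_le

lemma c1_r0_le {p : Par} (h : p.Std) : p.r0 ≤ 1 / 10 ^ 6 := by
  have h1 : (1 : ℝ) ≤ p.M := by exact_mod_cast h.M_ge
  have h2 := h.r0_M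
  have h3 := h.r0_pos
  rw [le_div_iff₀ (by norm_num)]
  nlinarith

lemma c1_norm_le {p : Par} (h : p.Std) {j : ℕ} {s : Fin 4} {t : ℝ} {X v : R3}
    (hd : dd s t X v ≤ p.DD j) : ‖v‖ ≤ 2 := by
  have h1 := norm_le_dd s t X v
  have h2 := Par.DD_le h j
  have h3 := c1_r0_le h
  norm_num at h3
  linarith

/-- inside an alive cell the periodised objects reduce to that cell -/
theorem ev_B_eq : ∀ᶠ p in PF, ∀ (n : ℕ∞) (t : ℝ) (x : R3) (k : Fin 3 → ℤ) (j : ℕ) (s : Fin 4), 0 ≤ t →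
    (j : ℕ∞) ≤ n → p.InCell j s t (x - lat k) →
    p.B n t x = p.Bc j s t (x - lat k) ∧ p.Gr n t x = p.Grc j s t (x - lat k) := by
  filter_upwards [ev_std, ev_cell_unique] with p hs hu n t x k j s ht hj hc
  constructor
  · funext v
    exact c1_tot_eq (f := fun j s X => p.Bc j s t X v) hj fun k' j' s' h0 =>
      hu t x k k' j j' s s' ht hc (Par.Bc_supp hs ht h0).1
  · funext v
    exact c1_tot_eq (f := fun j s X => p.Grc j s t X v) hj fun k' j' s' h0 =>
      hu t x k k' j j' s s' ht hc (c1_Grc_supp h0).1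
theorem ev_wit : ∀ᶠ p in PF, ∀ (n : ℕ∞) (t : ℝ) (x : R3), 0 ≤ t →
    ((∀ v, p.B n t x v = 0) ∧ ∀ v, p.Gr n t x v = 0) ∨ ∃ k j, p.Wit n t x k j := by
  filter_upwards [ev_std, ev_B_eq, ev_Bc_mass, ev_Bc_pot, ev_Bc_plane, ev_Bc_self]
    with p hs hB hmass hpot hplane hself n t x ht
  by_cases hc : ∃ (k : Fin 3 → ℤ) (j : ℕ) (s : Fin 4), (j : ℕ∞) ≤ n ∧ p.InCell j s t (x - lat k)
  · right
    obtain ⟨k, j, s, hj, hc⟩ := hc
    obtain ⟨e1, e2⟩ := hB n t x k j s ht hj hc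
    have hr := Par.r_pos hs j
    have hη : 0 < p.eta j := pow_pos hr 4
    have hT := Par.one_le_TT hs j
    refine ⟨k, j, hj, hc.1, hc.2.1, hc.2.2.1, hc.2.2.2.1, ⟨s, fun v h0 => ?_⟩, fun v h0 => ?_,
      fun v => ?_, fun v h0 => ?_, fun v => ?_, ?_, ?_, fun v => ?_, fun v w hw => ?_, fun v => ?_⟩
    · rw [e1] at h0
      exact (Par.Bc_supp hs ht h0).2
    · rw [e1] at h0
      have h1 := (Par.Bc_supp hs ht h0).2
      exact ⟨(abs_nc_le_dd s t _ v).trans h1, c1_norm_le hs h1⟩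
    · rw [e1]
      exact Par.Bc_sup hs j s ht _ v
    · rw [e2] at h0
      exact c1_norm_le hs (c1_Grc_supp h0).2
    · rw [e2]
      refine (c1_Grc_le p j s t _ v).trans ?_
      refine (mul_le_of_le_one_right' (gs_le_one (by positivity) _)).trans
        (ENNReal.ofReal_le_ofReal ?_)
      have h1 : p.eta j ^ 3 = p.r j ^ 12 := by unfold Par.eta; ring
      rw [h1]
      exact inv_anti₀ (pow_pos hr _) (le_mul_of_one_le_left (pow_pos hr _).le hT)
    · rw [e2]
      refine (lintegral_mono fun v => c1_Grc_le p j s t _ v).trans ?_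
      rw [lintegral_const_mul' _ _ ENNReal.ofReal_ne_top]
      refine (mul_le_mul' le_rfl (lintegral_gs_scaled hη _)).trans ?_
      rw [← ENNReal.ofReal_mul (by positivity), ← ENNReal.ofReal_ofNat 6]
      refine ENNReal.ofReal_le_ofReal ?_
      have h1 : (p.TT j * p.eta j ^ 3)⁻¹ * (6 * p.eta j ^ 3) = 6 / p.TT j := by field_simp
      rw [h1]
      exact div_le_self (by norm_num) hT
    · rw [e1]
      exact hmass j s t _ ht
    · rw [e1]
      refine (hpot j s t _ v ht).trans (mul_le_mul' le_rfl (add_le_add le_rfl ?_))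
      split_ifs with hd
      · unfold Par.Y Yf
        refine le_trans ?_ (ENNReal.le_tsum k)
        refine le_trans ?_ (Finset.single_le_sum (f := fun s : Fin 4 =>
          if ‖x - lat k‖ ≤ 1 / 4 + 3 * t ∧ dd s t (x - lat k) v ≤ 1 then
            (ENNReal.ofReal (max (dd s t (x - lat k) v) (p.etaS n)))⁻¹ else 0)
          (fun _ _ => zero_le) (Finset.mem_univ s))
        have h1 : ‖x - lat k‖ ≤ 1 / 4 + 3 * t := by
          have h2 := hc.2.1
          have h3 := c1_r0_le hs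
          norm_num at h3
          linarith
        simp only [h1, hd, and_self, if_true]
        exact ENNReal.inv_le_inv.2 (ENNReal.ofReal_le_ofReal
          (max_le_max le_rfl (Par.etaS_le hs hj)))
      · exact zero_le
    · rw [e1]
      exact hplane j s t _ v w ht hw
    · rw [e1, e2]
      exact hself j s t _ v ht
  · left
    push Not at hc
    constructor
    · intro v
      refine c1_tot_zero (f := fun j s X => p.Bc j s t X v) fun k j s hj => ?_
      by_contra h0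
      exact hc k j s hj (Par.Bc_supp hs ht h0).1
    · intro v
      refine c1_tot_zero (f := fun j s X => p.Grc j s t X v) fun k j s hj => ?_
      by_contra h0
      exact hc k j s hj (c1_Grc_supp h0).1
theorem ev_Sd_ne_top : ∀ᶠ p in PF, ∀ (n : ℕ∞) (x v : R3), p.Sd n x v ≠ ⊤ := by
  filter_upwards [ev_std, ev_wit] with p hs hw n x v
  refine ne_top_of_le_ne_top ?_ (Par.Sd_le_B hs n x v)
  rcases hw n 0 x le_rfl with h | ⟨k, j, h⟩
  · rw [h.1 v]; exact ENNReal.zero_ne_top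
  · exact ne_top_of_le_ne_top ENNReal.ofReal_ne_top (h.sup v)
/-- bounds for the truncated problems -/
theorem ev_bdd : ∀ᶠ p in PF, ∀ (n : ℕ), p.tn n ≤ p.t0 → ∀ (ε₁ a₁ T : ℝ), ∃ C : ℝ, ∀ ε a : ℝ, 0 ≤ ε → ε ≤ ε₁ →
    a ≤ a₁ → (∀ x v, p.f0 n a x v ≤ ENNReal.ofReal C * gs (1 / 8) v) ∧
    ∀ t ∈ Icc 0 T, ∀ x v, p.Up n ε t x v ≤ ENNReal.ofReal C * gs (1 / 8) v ∧
      p.Lo n t x v ≤ ENNReal.ofReal C * gs (1 / 8) v := by
  filter_upwards [ev_std, ev_wit] with p hs hw n hn ε₁ a₁ T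
  obtain ⟨cB, hcB⟩ : ∃ c : ℝ≥0∞, c = ENNReal.ofReal (2 * (p.r n ^ 14)⁻¹) := ⟨_, rfl⟩
  obtain ⟨cW, hcW⟩ : ∃ c : ℝ≥0∞, c = 1 + ENNReal.ofReal (CW T / p.etaS n) := ⟨_, rfl⟩
  have hcB' : cB ≠ ⊤ := by rw [hcB]; exact ENNReal.ofReal_ne_top
  have hcW' : cW ≠ ⊤ := by rw [hcW]; finiteness
  have hmu : ∀ v, mu v ≤ gs (1 / 8) v := fun v => (mu_le_gs v).trans (gs_anti (by norm_num) v)
  have hB : ∀ t, 0 ≤ t → ∀ x v, p.B n t x v ≤ cB * gs (1 / 8) v := by
    intro t ht x v
    rcases hw n t x ht with h | ⟨k, j, h⟩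
    · rw [h.1 v]; exact zero_le
    · by_cases h0 : p.B n t x v = 0
      · rw [h0]; exact zero_le
      · have h1 := (h.supp v h0).2
        have hj : j ≤ n := by exact_mod_cast h.le
        have hr := Par.r_pos hs n
        refine (h.sup v).trans ?_
        rw [hcB, gs, ← ENNReal.ofReal_mul (by positivity)]
        refine ENNReal.ofReal_le_ofReal ?_
        have h2 : (p.r j ^ 14)⁻¹ ≤ (p.r n ^ 14)⁻¹ :=
          inv_anti₀ (pow_pos hr _) (pow_le_pow_left₀ hr.le (Par.r_anti hs hj) _)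
        have h3 : 1 / 2 ≤ Real.exp (-(1 / 8 * ‖v‖ ^ 2)) := by
          have h4 := Real.add_one_le_exp (-(1 / 8 * ‖v‖ ^ 2))
          nlinarith [norm_nonneg v]
        have h4 : 0 ≤ (p.r n ^ 14)⁻¹ := by positivity
        nlinarith
  have hW : ∀ a, 1 / 8 ≤ a → ∀ t ∈ Icc 0 T, ∀ x v, p.W n a t x v ≤ cW * gs (1 / 8) v := by
    intro a ha t ht x v
    have hη := Par.etaS_pos hs n
    unfold Par.W Wf
    rw [mul_comm, hcW]
    refine mul_le_mul' (add_le_add le_rfl ((Yf_le hη ht.1 x v).trans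
      (ENNReal.ofReal_le_ofReal ?_))) (gs_anti ha v)
    exact div_le_div_of_nonneg_right (CW_mono ht.1 ht.2) hη.le
  obtain ⟨C, hC⟩ : ∃ c : ℝ≥0∞, c = 1 + cB + ENNReal.ofReal (55 * a₁) +
    ENNReal.ofReal (p.AA ε₁ p.t2 + p.C0) * cW + ENNReal.ofReal p.Cmax * cW + 1 + ENNReal.ofReal p.δ :=
    ⟨_, rfl⟩
  have hC' : C ≠ ⊤ := by rw [hC]; finiteness
  refine ⟨C.toReal, fun ε a hε hε₁ ha => ?_⟩
  rw [ENNReal.ofReal_toReal hC']
  refine ⟨fun x v => ?_, fun t ht x v => ⟨?_, ?_⟩⟩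
  · have h1 : p.amb x v ≤ gs (1 / 8) v := by
      unfold Par.amb
      split_ifs
      · exact hmu v
      · exact zero_le
    have h2 : p.Sd n x v ≤ cB * gs (1 / 8) v := (Par.Sd_le_B hs n x v).trans (hB 0 le_rfl x v)
    have h3 : p.seed n a x v ≤ ENNReal.ofReal (55 * a₁) * gs (1 / 8) v :=
      (Par.seed_le_gs hs hn a (by norm_num) (by norm_num) x v).trans
        (mul_le_mul' (ENNReal.ofReal_le_ofReal (by linarith)) le_rfl)
    calc p.f0 n a x v ≤ gs (1 / 8) v + cB * gs (1 / 8) v + ENNReal.ofReal (55 * a₁) * gs (1 / 8) v :=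
          add_le_add (add_le_add h1 h2) h3
      _ = (1 + cB + ENNReal.ofReal (55 * a₁)) * gs (1 / 8) v := by ring
      _ ≤ C * gs (1 / 8) v := by
          refine mul_le_mul' ?_ le_rfl
          rw [hC]
          exact le_self_add.trans (le_self_add.trans (le_self_add.trans le_self_add))
  · unfold Par.Up
    split_ifs with ht2
    · have h1 : p.AA ε t + p.Om t x ≤ p.AA ε₁ p.t2 + p.C0 := by
        have h2 := Par.AA_mono hs hε hε₁ ht.1 ht2
        have h3 := Par.AA_Om_le hs le_rfl (Par.eps_pos hs).le ht.1 ht2 x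
        rw [Par.AA_zero] at h3
        linarith
      have h2 := hW (p.aa t) (le_trans (by norm_num) (Par.aa_mem hs ht.1 ht2).1) t ht x v
      calc p.U1 n ε t x v ≤ cB * gs (1 / 8) v +
            ENNReal.ofReal (p.AA ε₁ p.t2 + p.C0) * (cW * gs (1 / 8) v) :=
            add_le_add (hB t ht.1 x v) (mul_le_mul' (ENNReal.ofReal_le_ofReal h1) h2)
        _ = (cB + ENNReal.ofReal (p.AA ε₁ p.t2 + p.C0) * cW) * gs (1 / 8) v := by ring
        _ ≤ C * gs (1 / 8) v := by
            refine mul_le_mul' ?_ le_rfl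
            rw [hC]
            refine le_trans ?_ (le_self_add.trans (le_self_add.trans le_self_add))
            exact add_le_add (le_add_self.trans le_self_add) le_rfl
    · have ht2' : p.t2 ≤ t := (not_le.1 ht2).le
      have hD : ENNReal.ofReal (p.Dm t) ≤ 1 := ENNReal.ofReal_le_one.2 (p.Dm_le_one ht2')
      have h1 : ENNReal.ofReal (p.Dm t) * p.B n t x v ≤ cB * gs (1 / 8) v :=
        (mul_le_of_le_one_left' hD).trans (hB t ht.1 x v)
      have h2 : p.Kh n t x v ≤ ENNReal.ofReal p.Cmax * (cW * gs (1 / 8) v) := by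
        unfold Par.Kh
        split_ifs
        · refine mul_le_mul' (ENNReal.ofReal_le_ofReal ((Par.CK_le hs ht2').trans ?_))
            (hW _ le_rfl t ht x v)
          have h3 : 0 ≤ p.Cmax := mul_nonneg (zero_le_one.trans (Par.one_le_C0 hs)) (Real.exp_pos _).le
          exact mul_le_of_le_one_right h3 (Real.exp_le_one_iff.2 (by linarith))
        · exact zero_le
      have h3 : ENNReal.ofReal (p.Dm t) * p.hol t x v ≤ gs (1 / 8) v := by
        refine (mul_le_of_le_one_left' hD).trans ?_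
        unfold Par.hol
        split_ifs
        · exact hmu v
        · exact zero_le
      calc mu v + p.Z n t x v ≤ gs (1 / 8) v + (cB * gs (1 / 8) v +
            ENNReal.ofReal p.Cmax * (cW * gs (1 / 8) v) + gs (1 / 8) v +
            ENNReal.ofReal p.δ * gs (1 / 8) v) :=
            add_le_add (hmu v) (add_le_add (add_le_add (add_le_add h1 h2) h3) le_rfl)
        _ = (1 + cB + ENNReal.ofReal p.Cmax * cW + 1 + ENNReal.ofReal p.δ) * gs (1 / 8) v := by ring
        _ ≤ C * gs (1 / 8) v := by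
            refine mul_le_mul' ?_ le_rfl
            rw [hC]
            exact add_le_add (add_le_add (add_le_add (le_self_add.trans le_self_add) le_rfl) le_rfl)
              le_rfl
  · have h1 : p.Lo n t x v ≤ gs (1 / 8) v := by
      unfold Par.Lo
      split_ifs
      · exact zero_le
      · exact tsub_le_self.trans (hmu v)
    refine h1.trans (le_mul_of_one_le_left' ?_)
    rw [hC]
    exact le_add_self.trans le_self_add
theorem ev_transport1 : ∀ᶠ p in PF, ∀ (n : ℕ∞) (s t : ℝ) (x v : R3), 0 ≤ s → 0 ≤ t → t ≤ 1 →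
    p.Sd n (x - t • v) v + ∫⁻ r in Ioo s t, p.Gr n r (x - (t - r) • v) v ≤ p.B n t x v := by
  filter_upwards [ev_std] with p h n s t x v hs _ ht1 using cc2_transport1 h n s t x v hs ht1
theorem ev_transport2 : ∀ᶠ p in PF, ∀ (n : ℕ∞) (t : ℝ) (x v : R3), p.t2 ≤ t →
    Ed p.t2 t v * p.B n p.t2 (x - (t - p.t2) • v) v +
      ∫⁻ r in Ioo p.t2 t, Ed r t v * (ENNReal.ofReal (p.Dm r ^ 2) * p.Gr n r (x - (t - r) • v) v) ≤
    ENNReal.ofReal (p.Dm t) * p.B n t x v + ENNReal.ofReal (10 * p.r0) * gs (1 / 8) v := by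
  filter_upwards [ev_std, ev_B_eq] with p h hB n t x v ht using cc2_transport2 h hB n t x v ht
/-- cold particles hardly see their own cell -/
theorem ev_freq_B_along : ∀ᶠ p in PF, ∀ (n : ℕ∞) (j : ℕ) (s : Fin 4) (r t : ℝ) (x u : R3),
    (j : ℕ∞) ≤ n → 0 ≤ r → r ≤ t → t ≤ 1 → p.Sb j s t x u ≠ 0 →
    freq (p.B n r (x - (t - r) • u)) u ≤ 1 := by
  filter_upwards [ev_std, ev_B_eq, ev_Bc_mass] with p hs hB hmass n j s r t x u hj hr hrt ht h0
  obtain ⟨X, hX⟩ : ∃ X, X = x - (t - r) • u := ⟨_, rfl⟩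
  rw [← hX]
  have h1 : p.Sb j s r X u ≠ 0 := by
    have : X - r • u = x - t • u := by rw [hX, sub_smul]; abel
    unfold Par.Sb at h0 ⊢
    rwa [this]
  have hrT : r ≤ p.TT j := (hrt.trans ht).trans (Par.one_le_TT hs j)
  obtain ⟨a1, a2, a3, -, -⟩ := Par.Sb_supp hs hr hrT h1
  have hρ := Par.r_pos hs j
  have hρ0 := Par.r_le hs j
  have hρ1 : p.r j ≤ 1 / 10 ^ 6 := hρ0.trans (c1_r0_le hs)
  have hηD : 3 * p.eta j ≤ p.DD j := by
    unfold Par.eta Par.DD
    have h2 : 0 < p.r j ^ 3 := pow_pos hρ 3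
    norm_num at hρ1
    nlinarith
  have hη : 0 < p.eta j := pow_pos hρ 4
  have hc : p.InCell j s r X :=
    ⟨hrT, a2, Par.Fat_mono hs (mul_le_mul_of_nonneg_right (by linarith) hr) a3⟩
  have hX0 : X - lat 0 = X := by rw [lat_zero, sub_zero]
  have e1 := (hB n r X 0 j s hr hj (by rwa [hX0])).1
  rw [e1, hX0]
  have h2 : freq (p.Bc j s r X) u ≤
      ∫⁻ vs, ENNReal.ofReal (2 * Real.pi * (2 * p.DD j)) * p.Bc j s r X vs := by
    refine lintegral_mono fun vs => ?_
    by_cases hv : p.Bc j s r X vs = 0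
    · simp [hv]
    · refine mul_le_mul' (ENNReal.ofReal_le_ofReal ?_) le_rfl
      have h3 := (Par.Bc_supp hs hr hv).2
      have h4 : ‖u - vs‖ ≤ dd s r X u + dd s r X vs := by
        unfold dd
        rw [norm_sub_rev vs]
        exact norm_sub_le_norm_sub_add_norm_sub _ _ _
      have h5 := Real.pi_pos
      gcongr
      linarith
  rw [lintegral_const_mul' _ _ ENNReal.ofReal_ne_top] at h2
  refine h2.trans ((mul_le_mul' le_rfl (hmass j s r X hr)).trans ?_)
  have hD : 0 < p.DD j := pow_pos hρ 3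
  have hpi := Real.pi_pos
  rw [← ENNReal.ofReal_mul (by positivity), ENNReal.ofReal_le_one]
  have hV : 1 ≤ p.V := by linarith [hs.V_ge, hs.R_ge]
  have h3 : (‖X‖ + r)⁻¹ ≤ (p.r j / 2)⁻¹ :=
    inv_anti₀ (by positivity) (by linarith [a3.1, abs_nc_le X])
  have h4 : p.r j * p.V ^ 5 ≤ 1 / 1000 := by
    have h5 : p.V ^ 5 ≤ p.V ^ 10 := pow_le_pow_right₀ hV (by norm_num)
    have h6 := hs.r0_V
    have h7 : p.r j * p.V ^ 5 ≤ p.r0 * p.V ^ 10 := mul_le_mul hρ0 h5 (by positivity) hs.r0_pos.le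
    linarith
  norm_num at hρ1
  calc 2 * Real.pi * (2 * p.DD j) * p.rho r X
      ≤ 2 * 4 * (2 * p.DD j) * (p.V ^ 5 * (1 + (p.r j / 2)⁻¹)) := by
        unfold Par.rho
        have := Real.pi_le_four
        have : 0 ≤ (‖X‖ + r)⁻¹ := by positivity
        gcongr
    _ = 16 * (p.r j * p.V ^ 5) * (p.r j * (p.r j + 2)) := by
        unfold Par.DD
        field_simp
        ring
    _ ≤ 16 * (1 / 1000) * (1 * 3) := by gcongr <;> linarith
    _ ≤ 1 := by norm_num
/-- lower bound for the cold density in the bulk of the slabs -/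
theorem ev_Sb_lower : ∀ᶠ p in PF, ∀ (j : ℕ) (s : Fin 4) (t : ℝ) (x : R3), 0 < t → t ≤ p.t0 →
    nc x ∈ p.Fat j s (-(p.wd j / 32)) → ‖x‖ ≤ 2 * p.V * t → 7 / 20 * t ≤ ‖yy s t x‖ →
    ENNReal.ofReal (p.V / t) ≤ ∫⁻ u, p.Sb j s t x u := by
  filter_upwards [ev_std] with p hs
  exact cc3_lower hs

end Crest.Agent.R068
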