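import Crest.Agent.R068.Basic

/-! Row 68: proofs for `OneD` (damping integrals, chain rule, product rule). -/

set_option autoImplicit false
open MeasureTheory Set Filter Topology
open scoped ENNReal NNReal

namespace Crest.Agent.R068

lemma oneda_ftc {F φ : ℝ → ℝ} {a b : ℝ} (hab : a ≤ b) (hF : AbsolutelyContinuousOnInterval F a b)
    (hd : ∀ᵐ x, x ∈ Ioo a b → HasDerivAt F (φ x) x) :
    IntegrableOn φ (Ioo a b) ∧ F b - F a = ∫ s in Ioo a b, φ s := by
  have he : deriv F =ᵐ[volume.restrict (Ioo a b)] φ := by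
    rw [EventuallyEq, ae_restrict_iff' measurableSet_Ioo]
    filter_upwards [hd] with x hx hx' using (hx hx').deriv
  refine ⟨((intervalIntegrable_iff_integrableOn_Ioo_of_le hab).1
    hF.intervalIntegrable_deriv).congr he, ?_⟩
  rw [← hF.integral_deriv_eq_sub, intervalIntegral.integral_of_le hab,
    integral_Ioc_eq_integral_Ioo, integral_congr_ae he]

lemma oneda_eq (g : ℝ → ℝ) {a s : ℝ} (h : a ≤ s) : ∫ r in Ioo a s, g r = ∫ r in a..s, g r := by
  rw [intervalIntegral.integral_of_le h, integral_Ioc_eq_integral_Ioo]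

lemma oneda_ac {g : ℝ → ℝ} {a b : ℝ} (hab : a ≤ b) (hg : IntegrableOn g (Ioo a b)) (c : ℝ) :
    AbsolutelyContinuousOnInterval (fun x => c + ∫ r in a..x, g r) a b ∧
      ∀ᵐ x, x ∈ Ioo a b → HasDerivAt (fun x => c + ∫ r in a..x, g r) (g x) x := by
  have hi := (intervalIntegrable_iff_integrableOn_Ioo_of_le hab).2 hg
  refine ⟨((LipschitzWith.const c).lipschitzOnWith.absolutelyContinuousOnInterval).add
    (hi.absolutelyContinuousOnInterval_intervalIntegral left_mem_uIcc), ?_⟩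
  filter_upwards [hi.ae_hasDerivAt_integral] with x hx hx'
  exact (hx (by rw [uIcc_of_le hab]; exact Ioo_subset_Icc_self hx') a left_mem_uIcc).const_add c

lemma oneda_comp {F Ψ : ℝ → ℝ} {a b : ℝ} (hF : AbsolutelyContinuousOnInterval F a b)
    (hΨ : ContDiff ℝ 1 Ψ) : AbsolutelyContinuousOnInterval (fun x => Ψ (F x)) a b := by
  obtain ⟨R, hR⟩ := hF.exists_bound
  obtain ⟨K, hK⟩ := (hΨ.contDiffOn (s := Icc (-R) R)).exists_lipschitzOnWith (by decide)
    (convex_Icc _ _) isCompact_Icc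
  have hm : ∀ x ∈ uIcc a b, F x ∈ Icc (-R) R := fun x hx => abs_le.1 (hR x hx)
  rw [absolutelyContinuousOnInterval_iff] at hF ⊢
  intro ε hε
  obtain ⟨δ, hδ, h⟩ := hF (ε / (K + 1)) (by positivity)
  refine ⟨δ, hδ, fun E hE hE' => ?_⟩
  calc _ ≤ ∑ i ∈ Finset.range E.1, K * dist (F (E.2 i).1) (F (E.2 i).2) :=
        Finset.sum_le_sum fun i hi =>
          hK.dist_le_mul _ (hm _ (hE.1 i hi).1) _ (hm _ (hE.1 i hi).2)
    _ = K * ∑ i ∈ Finset.range E.1, dist (F (E.2 i).1) (F (E.2 i).2) := (Finset.mul_sum _ _ _).symm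
    _ ≤ K * (ε / (K + 1)) := mul_le_mul_of_nonneg_left (h E hE hE').le K.2
    _ < (K + 1) * (ε / (K + 1)) := mul_lt_mul_of_pos_right (by linarith) (by positivity)
    _ = ε := by field_simp

lemma oneda_chain {g : ℝ → ℝ} {a b : ℝ} (hg : IntegrableOn g (Ioo a b)) (c : ℝ) {Ψ Ψ' : ℝ → ℝ}
    (hΨ : ∀ y, HasDerivAt Ψ (Ψ' y) y) (hc : Continuous Ψ') :
    IntegrableOn (fun s => Ψ' (c + ∫ r in Ioo a s, g r) * g s) (Ioo a b) ∧
    Ψ (c + ∫ s in Ioo a b, g s) - Ψ c = ∫ s in Ioo a b, Ψ' (c + ∫ r in Ioo a s, g r) * g s := by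
  rcases lt_or_ge b a with hab | hab
  · simp [Ioo_eq_empty_of_le hab.le]
  have hΨ1 : ContDiff ℝ 1 Ψ := by
    rw [contDiff_one_iff_deriv]
    refine ⟨fun y => (hΨ y).differentiableAt, ?_⟩
    rwa [show deriv Ψ = Ψ' from funext fun y => (hΨ y).deriv]
  obtain ⟨h1, h2⟩ := oneda_ac hab hg c
  have := oneda_ftc (φ := fun s => Ψ' (c + ∫ r in Ioo a s, g r) * g s) hab (oneda_comp h1 hΨ1) (by
    filter_upwards [h2] with x hx hx'
    rw [oneda_eq g hx'.1.le]
    exact (hΨ _).comp x (hx hx'))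
  simpa [oneda_eq g hab] using this

lemma oneda_prod {g h : ℝ → ℝ} {a b : ℝ} (hg : IntegrableOn g (Ioo a b))
    (hh : IntegrableOn h (Ioo a b)) (c d : ℝ) :
    IntegrableOn (fun s => g s * (d + ∫ r in Ioo a s, h r) + (c + ∫ r in Ioo a s, g r) * h s)
      (Ioo a b) ∧
    (c + ∫ s in Ioo a b, g s) * (d + ∫ s in Ioo a b, h s) - c * d =
      ∫ s in Ioo a b, (g s * (d + ∫ r in Ioo a s, h r) + (c + ∫ r in Ioo a s, g r) * h s) := by
  rcases lt_or_ge b a with hab | hab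
  · simp [Ioo_eq_empty_of_le hab.le]
  obtain ⟨h1, h2⟩ := oneda_ac hab hg c
  obtain ⟨h3, h4⟩ := oneda_ac hab hh d
  have := oneda_ftc (φ := fun s => g s * (d + ∫ r in Ioo a s, h r) +
      (c + ∫ r in Ioo a s, g r) * h s) hab (h1.fun_mul h3) (by
    filter_upwards [h2, h4] with x hx hy hx'
    rw [oneda_eq g hx'.1.le, oneda_eq h hx'.1.le]
    exact (hx hx').fun_mul (hy hx'))
  simpa [oneda_eq g hab, oneda_eq h hab] using this

lemma oneda_int {ν : ℝ → ℝ≥0∞} (hν : Measurable ν) {a b : ℝ} (hf : (∫⁻ r in Ioo a b, ν r) ≠ ⊤) :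
    IntegrableOn (fun r => (ν r).toReal) (Ioo a b) :=
  integrable_toReal_of_lintegral_ne_top hν.aemeasurable hf

lemma oneda_eneg {ν : ℝ → ℝ≥0∞} (hν : Measurable ν) {a b : ℝ} (hf : (∫⁻ r in Ioo a b, ν r) ≠ ⊤)
    {s t : ℝ} (hs : a ≤ s) (hst : s ≤ t) (ht : t ≤ b) :
    eneg (∫⁻ r in Ioo s t, ν r) = ENNReal.ofReal
      (Real.exp ((∫ r in Ioo a s, (ν r).toReal) - ∫ r in Ioo a t, (ν r).toReal)) := by
  have h1 : (∫⁻ r in Ioo s t, ν r) ≠ ⊤ :=
    ne_top_of_le_ne_top hf (lintegral_mono_set (Ioo_subset_Ioo hs ht))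
  have hi := oneda_int hν hf
  have h2 : ∀ {u v : ℝ}, a ≤ u → u ≤ v → v ≤ b →
      IntervalIntegrable (fun r => (ν r).toReal) volume u v := fun hu huv hv =>
    (intervalIntegrable_iff_integrableOn_Ioo_of_le huv).2 (hi.mono_set (Ioo_subset_Ioo hu hv))
  rw [eneg, if_neg h1, ← integral_toReal hν.aemeasurable (ae_lt_top hν h1), oneda_eq _ hst,
    oneda_eq _ hs, oneda_eq _ (hs.trans hst), ← intervalIntegral.integral_add_adjacent_intervals
      (h2 le_rfl hs (hst.trans ht)) (h2 hs hst ht)]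
  congr 2
  ring

/-- an integral against an integrable density, with a real weight -/
lemma oneda_lint {G : ℝ → ℝ≥0∞} (hG : Measurable G) {a t : ℝ} (hf : (∫⁻ r in Ioo a t, G r) ≠ ⊤)
    {w : ℝ → ℝ≥0∞} {ω : ℝ → ℝ} (hω : ∀ s, 0 ≤ ω s) (hw : ∀ s ∈ Ioo a t, w s = ENNReal.ofReal (ω s))
    (hi : IntegrableOn (fun s => ω s * (G s).toReal) (Ioo a t)) :
    ∫⁻ s in Ioo a t, w s * G s = ENNReal.ofReal (∫ s in Ioo a t, ω s * (G s).toReal) := by
  rw [ofReal_integral_eq_lintegral_ofReal hi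
    (Eventually.of_forall fun s => mul_nonneg (hω s) ENNReal.toReal_nonneg)]
  refine lintegral_congr_ae ?_
  filter_upwards [ae_lt_top hG hf, ae_restrict_mem measurableSet_Ioo] with s h1 h2
  rw [hw s h2, ENNReal.ofReal_mul (hω s), ENNReal.ofReal_toReal h1.ne]

lemma oneda_damp_eq {ν : ℝ → ℝ≥0∞} (hν : Measurable ν) (s t : ℝ)
    (hfin : (∫⁻ r in Ioo s t, ν r) ≠ ⊤) :
    eneg (∫⁻ r in Ioo s t, ν r) + ∫⁻ r in Ioo s t, eneg (∫⁻ r' in Ioo r t, ν r') * ν r = 1 := by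
  rcases lt_or_ge t s with hst | hst
  · simp [Ioo_eq_empty_of_le hst.le, eneg_zero]
  obtain ⟨h1, h2⟩ := oneda_chain (oneda_int hν hfin) (-∫ r in Ioo s t, (ν r).toReal)
    Real.hasDerivAt_exp Real.continuous_exp
  rw [oneda_lint hν hfin (fun _ => (Real.exp_pos _).le) (fun r hr => by
    rw [oneda_eneg hν hfin hr.1.le hr.2.le le_rfl, sub_eq_neg_add]) h1, ← h2,
    oneda_eneg hν hfin le_rfl hst le_rfl, ← ENNReal.ofReal_add (Real.exp_pos _).le]
  · simp
  · rw [neg_add_cancel, Real.exp_zero, sub_nonneg, Real.exp_le_one_iff, neg_nonpos]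
    exact integral_nonneg fun _ => ENNReal.toReal_nonneg

lemma oneda_damp_le {ν : ℝ → ℝ≥0∞} (hν : Measurable ν) (s t : ℝ) :
    eneg (∫⁻ r in Ioo s t, ν r) + ∫⁻ r in Ioo s t, eneg (∫⁻ r' in Ioo r t, ν r') * ν r ≤ 1 := by
  have hm : Measurable fun r => eneg (∫⁻ r' in Ioo r t, ν r') :=
    measurable_eneg.comp (Antitone.measurable fun r r' h =>
      lintegral_mono_set (Ioo_subset_Ioo_left h))
  have h1 : ∀ r, eneg (∫⁻ r' in Ioo r t, ν r') * ν r =
      ⨆ n : ℕ, eneg (∫⁻ r' in Ioo r t, ν r') * min (ν r) n := fun r => by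
    rw [← ENNReal.mul_iSup]
    congr 1
    rw [show (fun n : ℕ => min (ν r) n) = fun n : ℕ => ν r ⊓ n from rfl, ← inf_iSup_eq,
      ENNReal.iSup_natCast, inf_top_eq]
  simp only [h1]
  rw [lintegral_iSup (f := fun (n : ℕ) r => eneg (∫⁻ r' in Ioo r t, ν r') * min (ν r) n)
    (fun n => hm.mul (hν.min measurable_const)) (fun n m h r =>
    mul_le_mul_right (min_le_min_left _ (by exact_mod_cast h)) _), ENNReal.add_iSup]
  refine iSup_le fun n => le_trans ?_ (oneda_damp_eq (ν := fun r => min (ν r) n)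
    (hν.min measurable_const) s t ?_).le
  · exact add_le_add (eneg_anti (lintegral_mono fun r => min_le_left _ _)) (lintegral_mono fun r =>
      mul_le_mul_left (eneg_anti (lintegral_mono fun r => min_le_left _ _)) _)
  · refine ne_top_of_le_ne_top ?_ (lintegral_mono fun r => min_le_right _ (n : ℝ≥0∞))
    rw [setLIntegral_const]
    exact ENNReal.mul_ne_top (ENNReal.natCast_ne_top n) measure_Ioo_lt_top.ne

lemma oneda_exp_to_add {G ν : ℝ → ℝ≥0∞} (hG : Measurable G) (hν : Measurable ν) {a b : ℝ}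
    (hGf : (∫⁻ r in Ioo a b, G r) ≠ ⊤) (hνf : (∫⁻ r in Ioo a b, ν r) ≠ ⊤) {c : ℝ≥0∞} (hc : c ≠ ⊤)
    {f : ℝ → ℝ} (hf0 : ∀ t ∈ Icc a b, 0 ≤ f t)
    (hf : ∀ t ∈ Icc a b, ENNReal.ofReal (f t) = eneg (∫⁻ r in Ioo a t, ν r) * c +
      ∫⁻ s in Ioo a t, eneg (∫⁻ r in Ioo s t, ν r) * G s) :
    IntegrableOn (fun s => (G s).toReal - (ENNReal.ofReal (f s) * ν s).toReal) (Ioo a b) ∧
    ∀ t ∈ Icc a b, f t = c.toReal +
      ∫ s in Ioo a t, ((G s).toReal - (ENNReal.ofReal (f s) * ν s).toReal) := by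
  rcases lt_or_ge b a with hab | hab
  · simp [Ioo_eq_empty_of_le hab.le, Icc_eq_empty_of_lt hab]
  have hn := oneda_int hν hνf
  have hγ := oneda_int hG hGf
  obtain ⟨N, hN⟩ : ∃ N : ℝ → ℝ, N = fun s => ∫ r in Ioo a s, (ν r).toReal := ⟨_, rfl⟩
  have hNc : ContinuousOn N (Icc a b) := by
    have := (oneda_ac hab hn 0).1.continuousOn
    rw [uIcc_of_le hab] at this
    exact this.congr fun s hs => by simp only [hN, oneda_eq _ hs.1, zero_add]
  have hh : IntegrableOn (fun s => Real.exp (N s) * (G s).toReal) (Ioo a b) :=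
    IntegrableOn.continuousOn_mul_of_subset hNc.rexp hγ isCompact_Icc measurableSet_Ioo
      Ioo_subset_Icc_self
  have hch : ∀ t ∈ Icc a b, IntegrableOn (fun s => Real.exp (-N s) * -(ν s).toReal) (Ioo a t) ∧
      1 + ∫ s in Ioo a t, Real.exp (-N s) * -(ν s).toReal = Real.exp (-N t) := fun t ht => by
    obtain ⟨h1, h2⟩ := oneda_chain (hn.mono_set (Ioo_subset_Ioo_right ht.2)).neg 0
      Real.hasDerivAt_exp Real.continuous_exp
    simp only [Pi.neg_apply, integral_neg, zero_add, Real.exp_zero] at h1 h2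
    rw [hN]
    exact ⟨h1, by rw [← h2]; ring⟩
  have hft : ∀ t ∈ Icc a b, f t =
      Real.exp (-N t) * (c.toReal + ∫ s in Ioo a t, Real.exp (N s) * (G s).toReal) := fun t ht => by
    have h1 := hf t ht
    have h2 : IntegrableOn (fun s => Real.exp (-N t) * Real.exp (N s) * (G s).toReal) (Ioo a t) := by
      simp only [mul_assoc]
      exact (hh.mono_set (Ioo_subset_Ioo_right ht.2)).const_mul _
    have h3 : 0 ≤ ∫ s in Ioo a t, Real.exp (N s) * (G s).toReal :=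
      integral_nonneg fun s => mul_nonneg (Real.exp_pos _).le ENNReal.toReal_nonneg
    rw [oneda_lint hG (ne_top_of_le_ne_top hGf (lintegral_mono_set (Ioo_subset_Ioo_right ht.2)))
      (fun _ => by positivity) (fun s hs => by
        rw [oneda_eneg hν hνf hs.1.le hs.2.le ht.2, ← Real.exp_add, sub_eq_neg_add, hN]) h2,
      oneda_eneg hν hνf le_rfl ht.1 ht.2, ← ENNReal.ofReal_toReal hc,
      ← ENNReal.ofReal_mul (Real.exp_pos _).le] at h1
    simp only [mul_assoc, integral_const_mul, Ioo_self, setIntegral_empty, zero_sub] at h1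
    rw [← ENNReal.ofReal_add (by positivity) (by positivity),
      ENNReal.ofReal_eq_ofReal_iff (hf0 t ht) (by positivity)] at h1
    rw [h1, hN]
    ring
  have key : ∀ t ∈ Icc a b,
      IntegrableOn (fun s => (G s).toReal - (ENNReal.ofReal (f s) * ν s).toReal) (Ioo a t) ∧
      f t = c.toReal +
        ∫ s in Ioo a t, ((G s).toReal - (ENNReal.ofReal (f s) * ν s).toReal) := fun t ht => by
    obtain ⟨h1, h2⟩ := oneda_prod (hch t ht).1 (hh.mono_set (Ioo_subset_Ioo_right ht.2)) 1 c.toReal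
    have he : EqOn (fun s => Real.exp (-N s) * -(ν s).toReal *
        (c.toReal + ∫ r in Ioo a s, Real.exp (N r) * (G r).toReal) +
        (1 + ∫ r in Ioo a s, Real.exp (-N r) * -(ν r).toReal) * (Real.exp (N s) * (G s).toReal))
        (fun s => (G s).toReal - (ENNReal.ofReal (f s) * ν s).toReal) (Ioo a t) := fun s hs => by
      have hs' : s ∈ Icc a b := ⟨hs.1.le, hs.2.le.trans ht.2⟩
      have e : Real.exp (-N s) * Real.exp (N s) = 1 := by rw [← Real.exp_add]; simp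
      simp only [ENNReal.toReal_mul, ENNReal.toReal_ofReal (hf0 s hs')]
      rw [(hch s hs').2, hft s hs', ← mul_assoc, e]
      ring
    refine ⟨h1.congr_fun he measurableSet_Ioo, ?_⟩
    rw [← setIntegral_congr_fun measurableSet_Ioo he, ← h2, (hch t ht).2, hft t ht]
    ring
  exact ⟨(key b ⟨hab, le_rfl⟩).1, fun t ht => (key t ht).2⟩

end Crest.Agent.R068
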