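import Crest.Agent.R068.Basic
import Crest.Agent.R068.OneDAux

/-! Row 68: one-dimensional calculus for indefinite integrals. -/

set_option autoImplicit false
open MeasureTheory Set Filter Topology
open scoped ENNReal
open Crest.AnalysisR.VecCalc3 Crest.AnalysisR.PDE.Boltzmann

namespace Crest.Agent.R068

/-- `e^{-∫ν} + ∫ e^{-∫_r ν} ν(r) dr ≤ 1` -/
lemma int_damp_le {ν : ℝ → ℝ≥0∞} (hν : Measurable ν) (s t : ℝ) :
    eneg (∫⁻ r in Ioo s t, ν r) + ∫⁻ r in Ioo s t, eneg (∫⁻ r' in Ioo r t, ν r') * ν r ≤ 1 :=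
  oneda_damp_le hν s t
/-- equality for integrable `ν` -/
lemma int_damp_eq {ν : ℝ → ℝ≥0∞} (hν : Measurable ν) (s t : ℝ) (hfin : (∫⁻ r in Ioo s t, ν r) ≠ ⊤) :
    eneg (∫⁻ r in Ioo s t, ν r) + ∫⁻ r in Ioo s t, eneg (∫⁻ r' in Ioo r t, ν r') * ν r = 1 :=
  oneda_damp_eq hν s t hfin
/-- chain rule -/
lemma chain_rule {g : ℝ → ℝ} {a b : ℝ} (hg : IntegrableOn g (Ioo a b)) (c : ℝ) {Ψ Ψ' : ℝ → ℝ}
    (hΨ : ∀ y, HasDerivAt Ψ (Ψ' y) y) (hc : Continuous Ψ') :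
    IntegrableOn (fun s => Ψ' (c + ∫ r in Ioo a s, g r) * g s) (Ioo a b) ∧
    Ψ (c + ∫ s in Ioo a b, g s) - Ψ c = ∫ s in Ioo a b, Ψ' (c + ∫ r in Ioo a s, g r) * g s :=
  oneda_chain hg c hΨ hc
/-- product rule -/
lemma prod_rule {g h : ℝ → ℝ} {a b : ℝ} (hg : IntegrableOn g (Ioo a b)) (hh : IntegrableOn h (Ioo a b))
    (c d : ℝ) :
    IntegrableOn (fun s => g s * (d + ∫ r in Ioo a s, h r) + (c + ∫ r in Ioo a s, g r) * h s) (Ioo a b) ∧
    (c + ∫ s in Ioo a b, g s) * (d + ∫ s in Ioo a b, h s) - c * d =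
      ∫ s in Ioo a b, (g s * (d + ∫ r in Ioo a s, h r) + (c + ∫ r in Ioo a s, g r) * h s) :=
  oneda_prod hg hh c d
/-- integration by parts against a monotone nonnegative factor (layer cake) -/
lemma mono_parts {g N : ℝ → ℝ} {a b c : ℝ} (hab : a ≤ b) (hg : IntegrableOn g (Ioo a b))
    (hN : MonotoneOn N (Icc a b)) (hN0 : 0 ≤ N a)
    (hpos : ∀ s ∈ Icc a b, 0 ≤ c + ∫ r in Ioo a s, g r) :
    IntegrableOn (fun s => N s * g s) (Ioo a b) ∧
    N a * c + ∫ s in Ioo a b, N s * g s ≤ N b * (c + ∫ s in Ioo a b, g s) := by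
  have hcl : ∀ s, max a (min s b) ∈ Icc a b := fun s => ⟨le_max_left _ _, max_le hab (min_le_right _ _)⟩
  set M : ℝ → ℝ := fun s => N (max a (min s b)) with hM
  have hMm : Monotone M := fun s t h => hN (hcl s) (hcl t) (max_le_max le_rfl (min_le_min h le_rfl))
  have hMN : ∀ s ∈ Icc a b, M s = N s := fun s hs => by
    simp only [hM, min_eq_left hs.2, max_eq_right hs.1]
  have hlo : ∀ s, N a ≤ M s := fun s => hN (left_mem_Icc.2 hab) (hcl s) (hcl s).1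
  have hhi : ∀ s, M s ≤ N b := fun s => hN (hcl s) (right_mem_Icc.2 hab) (hcl s).2
  have hae : ∀ᵐ s ∂volume.restrict (Ioo a b), M s * g s = N s * g s :=
    ae_restrict_of_forall_mem measurableSet_Ioo fun s hs => by rw [hMN s (Ioo_subset_Icc_self hs)]
  have hint : IntegrableOn (fun s => M s * g s) (Ioo a b) :=
    Integrable.bdd_mul (c := N b) hg hMm.measurable.aestronglyMeasurable
      (ae_of_all _ fun s => by rw [Real.norm_of_nonneg (hN0.trans (hlo s))]; exact hhi s)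
  refine ⟨Integrable.congr hint hae, ?_⟩
  have hS : MeasurableSet {p : ℝ × ℝ | M p.2 ≤ p.1} :=
    measurableSet_le (hMm.measurable.comp measurable_snd) measurable_fst
  have hI : Integrable (Function.uncurry fun y s => {p : ℝ × ℝ | M p.2 ≤ p.1}.indicator (fun p => g p.2) (y, s))
      ((volume.restrict (Ioo (N a) (N b))).prod (volume.restrict (Ioo a b))) :=
    (Integrable.comp_snd hg _).indicator hS
  have h1 : ∀ s, ∫ y in Ioo (N a) (N b), {p : ℝ × ℝ | M p.2 ≤ p.1}.indicator (fun p => g p.2) (y, s) =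
      N b * g s - M s * g s := fun s => by
    have e : (fun y => {p : ℝ × ℝ | M p.2 ≤ p.1}.indicator (fun p => g p.2) (y, s)) =
        (Ici (M s)).indicator fun _ => g s := rfl
    have e2 : (Ioo (N a) (N b) ∩ Ici (M s) : Set ℝ) =ᵐ[volume] Ioo (M s) (N b) := by
      filter_upwards [Measure.ae_ne volume (M s)] with y hy
      exact propext ⟨fun h => ⟨lt_of_le_of_ne h.2 hy.symm, h.1.2⟩,
        fun h => ⟨⟨(hlo s).trans_lt h.1, h.2⟩, h.1.le⟩⟩
    rw [e, setIntegral_indicator measurableSet_Ici, setIntegral_congr_set e2, setIntegral_const,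
      Real.volume_real_Ioo_of_le (hhi s), smul_eq_mul, sub_mul]
  have h2 : ∀ y ∈ Ioo (N a) (N b),
      -c ≤ ∫ s in Ioo a b, {p : ℝ × ℝ | M p.2 ≤ p.1}.indicator (fun p => g p.2) (y, s) := fun y hy => by
    have e : (fun s => {p : ℝ × ℝ | M p.2 ≤ p.1}.indicator (fun p => g p.2) (y, s)) =
        {s | M s ≤ y}.indicator g := rfl
    have ha : a ∈ {s ∈ Icc a b | M s ≤ y} := ⟨left_mem_Icc.2 hab, (hMN a (left_mem_Icc.2 hab)).trans_le hy.1.le⟩
    have hb : BddAbove {s ∈ Icc a b | M s ≤ y} := ⟨b, fun s hs => hs.1.2⟩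
    have hτ : sSup {s ∈ Icc a b | M s ≤ y} ∈ Icc a b := ⟨le_csSup hb ha, csSup_le ⟨a, ha⟩ fun s hs => hs.1.2⟩
    have e2 : (Ioo a b ∩ {s | M s ≤ y} : Set ℝ) =ᵐ[volume] Ioo a (sSup {s ∈ Icc a b | M s ≤ y}) := by
      filter_upwards [Measure.ae_ne volume (sSup {s ∈ Icc a b | M s ≤ y})] with s hs
      refine propext ⟨fun h => ⟨h.1.1, lt_of_le_of_ne (le_csSup hb ⟨Ioo_subset_Icc_self h.1, h.2⟩) hs⟩,
        fun h => ⟨⟨h.1, h.2.trans_le hτ.2⟩, ?_⟩⟩
      obtain ⟨t, ht, hst⟩ := exists_lt_of_lt_csSup ⟨a, ha⟩ h.2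
      exact (hMm hst.le).trans ht.2
    rw [e, setIntegral_indicator (measurableSet_le hMm.measurable measurable_const), setIntegral_congr_set e2]
    linarith [hpos _ hτ]
  have h3 := setIntegral_mono_on (integrableOn_const measure_Ioo_lt_top.ne) hI.integral_prod_left
    measurableSet_Ioo h2
  rw [setIntegral_const, Real.volume_real_Ioo_of_le ((hlo a).trans (hhi a)), smul_eq_mul] at h3
  have h4 := integral_integral_swap hI
  simp only [h1] at h4
  rw [integral_sub (hg.const_mul _) hint, integral_const_mul, integral_congr_ae hae] at h4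
  have h5 := h3.trans_eq h4
  linarith
/-- a weight with logarithmic lower rate `ℓ`: `ψ f` gains at least `∫ (g ψ + ℓ f ψ)` -/
lemma weight_parts {g ψ ℓ : ℝ → ℝ} {a b c : ℝ} (hab : a ≤ b) (hg : IntegrableOn g (Ioo a b))
    (hℓ : IntegrableOn ℓ (Ioo a b)) (hψ0 : ∀ s ∈ Icc a b, 0 ≤ ψ s)
    (hψ : ∀ s ∈ Icc a b, ∀ s' ∈ Icc a b, s ≤ s' → ψ s * Real.exp (∫ r in Ioo s s', ℓ r) ≤ ψ s')
    (hpos : ∀ s ∈ Icc a b, 0 ≤ c + ∫ r in Ioo a s, g r) :
    IntegrableOn (fun s => g s * ψ s + ℓ s * (c + ∫ r in Ioo a s, g r) * ψ s) (Ioo a b) ∧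
    ψ a * c + ∫ s in Ioo a b, (g s * ψ s + ℓ s * (c + ∫ r in Ioo a s, g r) * ψ s) ≤
      ψ b * (c + ∫ s in Ioo a b, g s) := by
  have sub : ∀ s ∈ Icc a b, Ioo a s ⊆ Ioo a b := fun s hs => Ioo_subset_Ioo_right hs.2
  set h : ℝ → ℝ := fun s => Real.exp (0 + ∫ r in Ioo a s, ℓ r) * ℓ s with hh
  have c1 := fun s (hs : s ∈ Icc a b) =>
    chain_rule (hℓ.mono_set (sub s hs)) 0 Real.hasDerivAt_exp Real.continuous_exp
  have hE : ∀ s ∈ Icc a b, 1 + ∫ r in Ioo a s, h r = Real.exp (∫ r in Ioo a s, ℓ r) := fun s hs => by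
    rw [← (c1 s hs).2, zero_add, Real.exp_zero, add_sub_cancel]
  have c2 := fun s (hs : s ∈ Icc a b) => prod_rule (hg.mono_set (sub s hs)) (c1 s hs).1 c 1
  set G : ℝ → ℝ := fun s => g s * (1 + ∫ r in Ioo a s, h r) + (c + ∫ r in Ioo a s, g r) * h s with hG
  have hF : ∀ s ∈ Icc a b, c + ∫ r in Ioo a s, G r =
      (c + ∫ r in Ioo a s, g r) * Real.exp (∫ r in Ioo a s, ℓ r) := fun s hs => by
    rw [← (c2 s hs).2, hE s hs]
    ring
  have hN : MonotoneOn (fun s => ψ s * Real.exp (-∫ r in Ioo a s, ℓ r)) (Icc a b) := fun s hs t ht hst => by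
    have e : ∫ r in Ioo a t, ℓ r = (∫ r in Ioo a s, ℓ r) + ∫ r in Ioo s t, ℓ r := by
      rw [← integral_Ioc_eq_integral_Ioo, ← integral_Ioc_eq_integral_Ioo, ← integral_Ioc_eq_integral_Ioo,
        ← Ioc_union_Ioc_eq_Ioc hs.1 hst, setIntegral_union (Ioc_disjoint_Ioc_of_le le_rfl) measurableSet_Ioc]
      · exact (integrableOn_Ioc_iff_integrableOn_Ioo).2 (hℓ.mono_set (sub s hs))
      · exact (integrableOn_Ioc_iff_integrableOn_Ioo).2 (hℓ.mono_set (Ioo_subset_Ioo hs.1 ht.2))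
    refine le_trans (le_of_eq ?_) (mul_le_mul_of_nonneg_right (hψ s hs t ht hst) (Real.exp_pos _).le)
    rw [mul_assoc, ← Real.exp_add, e]
    ring_nf
  obtain ⟨m1, m2⟩ := mono_parts (g := G) hab (c2 b (right_mem_Icc.2 hab)).1 hN
    (mul_nonneg (hψ0 a (left_mem_Icc.2 hab)) (Real.exp_pos _).le) fun s hs => by
      rw [hF s hs]
      exact mul_nonneg (hpos s hs) (Real.exp_pos _).le
  have e1 : EqOn (fun s => ψ s * Real.exp (-∫ r in Ioo a s, ℓ r) * G s)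
      (fun s => g s * ψ s + ℓ s * (c + ∫ r in Ioo a s, g r) * ψ s) (Ioo a b) := fun s hs => by
    simp only [hG]
    rw [hE s (Ioo_subset_Icc_self hs)]
    simp only [hh, zero_add, Real.exp_neg]
    field_simp
  refine ⟨m1.congr_fun e1 measurableSet_Ioo, ?_⟩
  rw [setIntegral_congr_fun measurableSet_Ioo e1, hF b (right_mem_Icc.2 hab), Ioo_self, setIntegral_empty,
    neg_zero, Real.exp_zero, mul_one, Real.exp_neg] at m2
  refine m2.trans_eq ?_
  field_simp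
/-- from the exponential to the additive form of `f' = G - ν f` -/
lemma exp_to_add {G ν : ℝ → ℝ≥0∞} (hG : Measurable G) (hν : Measurable ν) {a b : ℝ}
    (hGf : (∫⁻ r in Ioo a b, G r) ≠ ⊤) (hνf : (∫⁻ r in Ioo a b, ν r) ≠ ⊤) {c : ℝ≥0∞} (hc : c ≠ ⊤)
    {f : ℝ → ℝ} (hf0 : ∀ t ∈ Icc a b, 0 ≤ f t)
    (hf : ∀ t ∈ Icc a b, ENNReal.ofReal (f t) = eneg (∫⁻ r in Ioo a t, ν r) * c +
      ∫⁻ s in Ioo a t, eneg (∫⁻ r in Ioo s t, ν r) * G s) :
    IntegrableOn (fun s => (G s).toReal - (ENNReal.ofReal (f s) * ν s).toReal) (Ioo a b) ∧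
    ∀ t ∈ Icc a b, f t = c.toReal +
      ∫ s in Ioo a t, ((G s).toReal - (ENNReal.ofReal (f s) * ν s).toReal) :=
  oneda_exp_to_add hG hν hGf hνf hc hf0 hf
/-- a `C¹` function whose derivative dominates `ρ` -/
lemma lintegral_le_of_deriv {u u' : ℝ → ℝ} {ρ : ℝ → ℝ≥0∞} {a b : ℝ} (hab : a ≤ b)
    (hu : ∀ s ∈ Icc a b, HasDerivAt u (u' s) s) (hu' : ContinuousOn u' (Icc a b))
    (h0 : 0 ≤ u a) (hρ : ∀ s ∈ Ioo a b, ρ s ≤ ENNReal.ofReal (u' s)) (hpos : ∀ s ∈ Ioo a b, 0 ≤ u' s) :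
    ENNReal.ofReal (u a) + ∫⁻ s in Ioo a b, ρ s ≤ ENNReal.ofReal (u b) := by
  have h1 := intervalIntegral.integral_eq_sub_of_hasDerivAt (f := u) (f' := u') (a := a) (b := b)
    (by rwa [uIcc_of_le hab]) (hu'.intervalIntegrable_of_Icc hab)
  rw [intervalIntegral.integral_of_le hab, integral_Ioc_eq_integral_Ioo] at h1
  have h2 := ofReal_integral_eq_lintegral_ofReal (μ := volume.restrict (Ioo a b))
    (hu'.integrableOn_Icc.mono_set Ioo_subset_Icc_self) (ae_restrict_of_forall_mem measurableSet_Ioo hpos)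
  have h3 : 0 ≤ ∫ s in Ioo a b, u' s := setIntegral_nonneg measurableSet_Ioo hpos
  calc _ ≤ ENNReal.ofReal (u a) + ENNReal.ofReal (∫ s in Ioo a b, u' s) :=
        add_le_add le_rfl ((setLIntegral_mono' measurableSet_Ioo hρ).trans_eq h2.symm)
    _ = _ := by rw [← ENNReal.ofReal_add h0 h3, h1, add_sub_cancel]
/-- Lipschitz functions are indefinite integrals of their (bounded) derivative -/
lemma lip_integral {u : ℝ → ℝ} {a b L : ℝ} (hab : a ≤ b)
    (hu : ∀ s ∈ Icc a b, ∀ s' ∈ Icc a b, |u s - u s'| ≤ L * |s - s'|) :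
    ∃ g : ℝ → ℝ, Measurable g ∧ (∀ s, |g s| ≤ |L|) ∧ ∀ s ∈ Icc a b, u s = u a + ∫ r in Ioo a s, g r := by
  have h1 : LipschitzOnWith ‖L‖₊ u (Icc a b) := LipschitzOnWith.of_dist_le_mul fun s hs t ht =>
    (hu s hs t ht).trans (mul_le_mul_of_nonneg_right (le_abs_self L) (abs_nonneg _))
  obtain ⟨v, hv, huv⟩ := h1.extend_real
  refine ⟨deriv v, measurable_deriv v, fun s => norm_deriv_le_of_lipschitz hv, fun s hs => ?_⟩
  have h2 := (hv.lipschitzOnWith (s := uIcc a s)).absolutelyContinuousOnInterval.integral_deriv_eq_sub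
  rw [intervalIntegral.integral_of_le hs.1, integral_Ioc_eq_integral_Ioo] at h2
  rw [h2, huv hs, huv (left_mem_Icc.2 hab), add_sub_cancel]

end Crest.Agent.R068
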