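import Crest.Agent.R068.Meas
import Crest.Agent.R068.OneD

/-! Row 68: the corrector profile and its growth along flights (auxiliary lemmas). -/

set_option autoImplicit false
open MeasureTheory Set Filter Topology
open scoped ENNReal
open Crest.AnalysisR.VecCalc3 Crest.AnalysisR.PDE.Boltzmann

namespace Crest.Agent.R068

lemma chi1_ii {S : Set ℝ} (hS : MeasurableSet S) (a b : ℝ) :
    IntervalIntegrable (fun y => S.indicator (1 : ℝ → ℝ) y) volume a b :=
  ⟨(intervalIntegrable_const (c := (1:ℝ)) (a := a) (b := b)).1.indicator hS,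
    (intervalIntegrable_const (c := (1:ℝ)) (a := a) (b := b)).2.indicator hS⟩

lemma chi1_ii' {S : Set ℝ} (hS : MeasurableSet S) (a b : ℝ) :
    IntervalIntegrable (fun y => 1 - 16 * S.indicator (1 : ℝ → ℝ) y) volume a b :=
  intervalIntegrable_const.sub ((chi1_ii hS a b).const_mul 16)

/-- the periodic pattern -/
def chi1_P (a : ℝ) : Set ℝ := {u | a ≤ Int.fract u ∧ Int.fract u ≤ a + 1 / 16}

lemma chi1_P_meas (a : ℝ) : MeasurableSet (chi1_P a) :=
  measurable_fract (measurableSet_Icc (a := a) (b := a + 1 / 16))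

lemma chi1_int {a : ℝ} (h0 : 0 < a) (h1 : a + 1 / 16 < 1) (m : ℤ) :
    ∫ u in (0:ℝ)..m, (chi1_P a).indicator (1 : ℝ → ℝ) u = m / 16 := by
  have hper : Function.Periodic (fun u => (chi1_P a).indicator (1 : ℝ → ℝ) u) 1 := by
    intro u
    simp only [chi1_P, Set.indicator, mem_ofPred_eq, Int.fract_add_one, Pi.one_apply]
  have h2 := hper.intervalIntegral_add_zsmul_eq m 0 (fun a b => chi1_ii (chi1_P_meas _) a b)
  simp only [zero_add, zsmul_eq_mul, mul_one] at h2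
  rw [h2]
  have h3 : ∫ u in (0:ℝ)..1, (chi1_P a).indicator (1 : ℝ → ℝ) u =
      ∫ u in (0:ℝ)..1, (Icc a (a + 1 / 16)).indicator (fun _ => (1:ℝ)) u := by
    refine intervalIntegral.integral_congr_uIoo fun u hu => ?_
    rw [uIoo_of_le zero_le_one] at hu
    have : Int.fract u = u := Int.fract_eq_self.2 ⟨hu.1.le, hu.2⟩
    simp only [chi1_P, Set.indicator, mem_ofPred_eq, this, Pi.one_apply, mem_Icc]
  have h4 : Icc a (a + 1 / 16) ⊆ Ioc 0 1 := fun u hu => ⟨h0.trans_le hu.1, hu.2.trans h1.le⟩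
  rw [h3, intervalIntegral.integral_of_le zero_le_one, setIntegral_indicator measurableSet_Icc,
    inter_eq_right.2 h4]
  simp only [integral_const, MeasurableSet.univ, measureReal_restrict_apply, univ_inter,
    smul_eq_mul, mul_one]
  rw [Real.volume_real_Icc_of_le (by linarith)]
  ring

/-- primitive of the pattern -/
noncomputable def chi1_G (a t : ℝ) : ℝ := ∫ u in (0:ℝ)..t, (1 - 16 * (chi1_P a).indicator (1 : ℝ → ℝ) u)

lemma chi1_G_eq (a t : ℝ) :
    chi1_G a t = t - 16 * ∫ u in (0:ℝ)..t, (chi1_P a).indicator (1 : ℝ → ℝ) u := by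
  rw [chi1_G, intervalIntegral.integral_sub intervalIntegrable_const
    ((chi1_ii (chi1_P_meas a) _ _).const_mul 16), intervalIntegral.integral_const_mul]
  simp

lemma chi1_G_int {a : ℝ} (h0 : 0 < a) (h1 : a + 1 / 16 < 1) (m : ℤ) : chi1_G a m = 0 := by
  rw [chi1_G_eq, chi1_int h0 h1]; ring

lemma chi1_G_le {a : ℝ} (h0 : 0 < a) (h1 : a + 1 / 16 < 1) (t : ℝ) : |chi1_G a t| ≤ 1 := by
  have hmono : ∀ x y : ℝ, x ≤ y → ∫ u in (0:ℝ)..x, (chi1_P a).indicator (1 : ℝ → ℝ) u ≤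
      ∫ u in (0:ℝ)..y, (chi1_P a).indicator (1 : ℝ → ℝ) u := by
    intro x y hxy
    rw [← intervalIntegral.integral_add_adjacent_intervals (chi1_ii (chi1_P_meas a) 0 x)
      (chi1_ii (chi1_P_meas a) x y)]
    have : 0 ≤ ∫ u in x..y, (chi1_P a).indicator (1 : ℝ → ℝ) u :=
      intervalIntegral.integral_nonneg hxy fun u _ => Set.indicator_nonneg (fun _ _ => zero_le_one) u
    linarith
  have e1 := hmono _ _ (Int.floor_le t)
  have e2 := hmono t ((⌊t⌋ + 1 : ℤ) : ℝ) (by push_cast; exact (Int.lt_floor_add_one t).le)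
  rw [chi1_int h0 h1] at e1 e2
  push_cast at e2
  have e3 := Int.floor_le t
  have e4 := Int.lt_floor_add_one t
  rw [chi1_G_eq, abs_le]
  constructor <;> linarith

lemma chi1_shell {p : Par} (h : p.Std) {n j : ℕ} (hj : j ≤ n) (s : Fin 4) {y : ℝ}
    (h1 : p.r j / 2 < |y|) (h2 : |y| < p.r j) :
    y ∈ p.bulk n s ↔ y / p.wd j ∈ chi1_P (((s : ℕ) : ℝ) / 4 + 3 / 32) := by
  have hw := (Par.wd_pos h j).ne'
  have e : -(p.wd j / 32) / p.wd j = -(1 / 32) := by field_simp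
  constructor
  · rintro ⟨i, -, f1, f2, f3, f4⟩
    have hij : i = j := by
      by_contra hne
      rcases Nat.lt_or_gt_of_ne hne with hlt | hlt
      · have := Par.r_anti h (Nat.succ_le_of_lt hlt)
        have e2 : p.r (i + 1) = p.r i / 2 := by simp only [Par.r, pow_succ]; field_simp
        simp only [Nat.succ_eq_add_one] at this
        linarith
      · have := Par.r_anti h (Nat.succ_le_of_lt hlt)
        have e2 : p.r (j + 1) = p.r j / 2 := by simp only [Par.r, pow_succ]; field_simp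
        simp only [Nat.succ_eq_add_one] at this
        linarith
    subst hij
    rw [e] at f3 f4
    exact ⟨by linarith, by linarith⟩
  · rintro ⟨f3, f4⟩
    refine ⟨j, hj, h1, h2, ?_, ?_⟩ <;> rw [e] <;> linarith

lemma chi1_th_sub (p : Par) (n : ℕ) (s : Fin 4) (a b : ℝ) :
    p.th n s b - p.th n s a = ∫ y in a..b, (1 - 16 * (p.bulk n s).indicator (1 : ℝ → ℝ) y) :=
  intervalIntegral.integral_interval_sub_left (chi1_ii' (p.measurableSet_bulk n s) _ _)
    (chi1_ii' (p.measurableSet_bulk n s) _ _)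

lemma chi1_th_shell {p : Par} (h : p.Std) {n j : ℕ} (hj : j ≤ n) (s : Fin 4) {a b : ℝ}
    (hab : ∀ y ∈ uIoo a b, p.r j / 2 < |y| ∧ |y| < p.r j) :
    p.th n s b - p.th n s a = p.wd j * (chi1_G (((s : ℕ) : ℝ) / 4 + 3 / 32) (b / p.wd j) -
      chi1_G (((s : ℕ) : ℝ) / 4 + 3 / 32) (a / p.wd j)) := by
  have hw := (Par.wd_pos h j).ne'
  rw [chi1_th_sub, chi1_G, chi1_G, intervalIntegral.integral_interval_sub_left
    (chi1_ii' (chi1_P_meas _) _ _) (chi1_ii' (chi1_P_meas _) _ _), ← smul_eq_mul,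
    ← intervalIntegral.integral_comp_div (f := fun u => 1 - 16 *
      (chi1_P (((s : ℕ) : ℝ) / 4 + 3 / 32)).indicator (1 : ℝ → ℝ) u) hw]
  refine intervalIntegral.integral_congr_uIoo fun y hy => ?_
  have e := chi1_shell h hj s (hab y hy).1 (hab y hy).2
  by_cases hb : y ∈ p.bulk n s
  · simp only [indicator_of_mem hb, indicator_of_mem (e.1 hb), Pi.one_apply]
  · simp only [indicator_of_notMem hb, indicator_of_notMem (fun h' => hb (e.2 h'))]

lemma chi1_th_core {p : Par} (h : p.Std) (n : ℕ) (s : Fin 4) {z : ℝ} (hz : |z| ≤ p.r n / 2) :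
    p.th n s z = z := by
  have : p.th n s z = ∫ _ in (0:ℝ)..z, (1:ℝ) := by
    refine intervalIntegral.integral_congr fun y hy => ?_
    have h1 : |y| ≤ |z| := by
      have := abs_sub_left_of_mem_uIcc hy
      simpa using this
    have h2 : y ∉ p.bulk n s := by
      rintro ⟨j, hj, f1, -⟩
      have := Par.r_anti h hj
      linarith
    simp [h2]
  simpa using this

lemma chi1_abs_th_le {p : Par} (h : p.Std) (n : ℕ) (s : Fin 4) {z : ℝ} (hz : |z| ≤ p.r0) :
    |p.th n s z| ≤ p.r n / 2 + |z| / p.M := by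
  have hM : (0:ℝ) < p.M := by exact_mod_cast h.M_ge
  have hs : ((s : ℕ) : ℝ) ≤ 3 := by exact_mod_cast Nat.lt_succ_iff.1 s.2
  have hs0 : (0:ℝ) ≤ ((s : ℕ) : ℝ) := Nat.cast_nonneg _
  have ha0 : (0:ℝ) < ((s : ℕ) : ℝ) / 4 + 3 / 32 := by linarith
  have ha1 : ((s : ℕ) : ℝ) / 4 + 3 / 32 + 1 / 16 < 1 := by linarith
  have hsucc : ∀ j, p.r (j + 1) = p.r j / 2 := fun j => by simp only [Par.r, pow_succ]; field_simp
  have key : ∀ k j, j + k = n + 1 → (|p.th n s (p.r j)| ≤ p.r n / 2 ∧ |p.th n s (-p.r j)| ≤ p.r n / 2) ∧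
      ∀ z, |z| ≤ p.r j → |p.th n s z| ≤ p.r n / 2 + |z| / p.M := by
    intro k
    induction k with
    | zero =>
      intro j hj
      obtain rfl : j = n + 1 := hj
      have h0 := (Par.r_pos h n).le
      have h1 : |p.r n / 2| = p.r n / 2 := abs_of_nonneg (by linarith)
      rw [hsucc]
      refine ⟨⟨?_, ?_⟩, fun z hz => ?_⟩
      · rw [chi1_th_core h n s h1.le, h1]
      · rw [chi1_th_core h n s (by rw [abs_neg, h1]), abs_neg, h1]
      · rw [chi1_th_core h n s hz]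
        have : 0 ≤ |z| / p.M := by positivity
        linarith
    | succ k ih =>
      intro j hj
      obtain ⟨⟨i1, i2⟩, i3⟩ := ih (j + 1) (by omega)
      have hjn : j ≤ n := by omega
      have h0 := Par.r_pos h j
      have hw := Par.wd_pos h j
      rw [hsucc] at i1 i2 i3
      have e1 : p.r j / 2 / p.wd j = ((p.M : ℤ) : ℝ) := by
        simp only [Par.wd]; push_cast; field_simp
      have e2 : -(p.r j / 2) / p.wd j = ((-p.M : ℤ) : ℝ) := by
        simp only [Par.wd]; push_cast; field_simp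
      have e3 : p.r j / p.wd j = ((2 * p.M : ℤ) : ℝ) := by
        simp only [Par.wd]; push_cast; field_simp
      have e4 : -p.r j / p.wd j = ((-(2 * p.M) : ℤ) : ℝ) := by
        simp only [Par.wd]; push_cast; field_simp
      have pos : ∀ z, p.r j / 2 ≤ z → z ≤ p.r j → p.th n s z = p.th n s (p.r j / 2) +
          p.wd j * chi1_G (((s : ℕ) : ℝ) / 4 + 3 / 32) (z / p.wd j) := by
        intro z z1 z2
        have := chi1_th_shell h hjn s (a := p.r j / 2) (b := z) (fun y hy => by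
          rw [uIoo_of_le z1] at hy
          rw [abs_of_pos (by linarith [hy.1])]
          exact ⟨hy.1, hy.2.trans_le z2⟩)
        rw [e1, chi1_G_int ha0 ha1] at this
        linarith
      have neg : ∀ z, z ≤ -(p.r j / 2) → -p.r j ≤ z → p.th n s z = p.th n s (-(p.r j / 2)) +
          p.wd j * chi1_G (((s : ℕ) : ℝ) / 4 + 3 / 32) (z / p.wd j) := by
        intro z z1 z2
        have := chi1_th_shell h hjn s (a := -(p.r j / 2)) (b := z) (fun y hy => by
          rw [uIoo_of_ge z1] at hy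
          rw [abs_of_neg (by linarith [hy.2])]
          exact ⟨by linarith [hy.2], by linarith [hy.1]⟩)
        rw [e2, chi1_G_int ha0 ha1] at this
        linarith
      refine ⟨⟨?_, ?_⟩, fun z hz => ?_⟩
      · rw [pos _ (by linarith) le_rfl, e3, chi1_G_int ha0 ha1, mul_zero, add_zero]
        exact i1
      · rw [neg _ (by linarith) le_rfl, e4, chi1_G_int ha0 ha1, mul_zero, add_zero]
        exact i2
      · by_cases hc : |z| ≤ p.r j / 2
        · exact i3 z hc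
        have hc' := (not_le.1 hc).le
        have hb : |p.wd j * chi1_G (((s : ℕ) : ℝ) / 4 + 3 / 32) (z / p.wd j)| ≤ |z| / p.M := by
          rw [abs_mul, abs_of_pos hw]
          refine (mul_le_of_le_one_right hw.le (chi1_G_le ha0 ha1 _)).trans ?_
          rw [Par.wd, ← div_div]
          exact div_le_div_of_nonneg_right hc' hM.le
        rcases le_total 0 z with hz0 | hz0
        · have := abs_of_nonneg hz0
          rw [pos z (by linarith) (by linarith)]
          exact (abs_add_le _ _).trans (add_le_add i1 hb)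
        · have := abs_of_nonpos hz0
          rw [neg z (by linarith) (by linarith)]
          exact (abs_add_le _ _).trans (add_le_add i2 hb)
  exact (key (n + 1) 0 (by omega)).2 z (by simpa [Par.r] using hz)

lemma chi1_std {p : Par} (h : p.Std) : 1 ≤ p.V ∧ p.δ1 ≤ 1 ∧ p.h ≤ 1 ∧ p.V * p.h ^ 2 ≤ 1 := by
  have h1 := h.R_ge
  have h2 := h.V_ge
  have h3 := h.κ0_le
  have h4 := h.δ1_le
  have h5 := h.h_le
  have h6 := h.h_pos
  have h7 : p.h ≤ 1 := by nlinarith
  refine ⟨by linarith, by linarith, h7, ?_⟩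
  have : p.V * p.h ≤ 1 := by nlinarith
  nlinarith

lemma chi1_th_le {p : Par} (h : p.Std) (n : ℕ) (s : Fin 4) {t z : ℝ} (h1 : p.tn n ≤ t) (h2 : t ≤ p.t0)
    (h3 : |z| ≤ t / p.h ^ 2) : |p.th n s z| ≤ 2 * t / (p.h ^ 2 * p.M) := by
  have hM : (0:ℝ) < p.M := by exact_mod_cast h.M_ge
  have hh := h.h_pos
  have ht : 0 < t := (Par.tn_pos h n).trans_le h1
  obtain ⟨-, -, hh1, -⟩ := chi1_std h
  have e1 : |z| ≤ p.r0 := h3.trans (by rw [div_le_iff₀ (by positivity)]; exact h2)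
  have e2 : p.r n ≤ t / p.M := by rw [le_div_iff₀ hM, mul_comm]; exact h1
  have e3 : t / p.M ≤ t / (p.h ^ 2 * p.M) :=
    div_le_div_of_nonneg_left ht.le (by positivity)
      (mul_le_of_le_one_left hM.le (pow_le_one₀ hh.le hh1))
  have e4 : |z| / p.M ≤ t / (p.h ^ 2 * p.M) := by
    rw [← div_div]; exact div_le_div_of_nonneg_right h3 hM.le
  have e5 := Par.r_pos h n
  have e6 : 2 * t / (p.h ^ 2 * p.M) = 2 * (t / (p.h ^ 2 * p.M)) := by ring
  have := chi1_abs_th_le h n s e1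
  linarith

lemma chi1_ev_M (c : ℝ) : ∀ᶠ p in PF, c / (p.h ^ 4 * p.δ1) ≤ p.M :=
  ev_M (Q := fun p x => c / (p.h ^ 4 * p.δ1) ≤ (x : ℝ))
    (Eventually.of_forall fun _ => tendsto_natCast_atTop_atTop.eventually_ge_atTop _)

theorem chi1_ev_chi_le : ∀ᶠ p in PF, ∀ (n : ℕ) (t : ℝ) (x v : R3), p.tn n ≤ t → t ≤ p.t0 →
    ‖x‖ ≤ t / p.h ^ 2 → p.δ1 ≤ |nc v| → |p.chi n t x v| ≤ 1 / 20 := by
  filter_upwards [ev_std, chi1_ev_M 920] with p h hM n t x v h1 h2 h3 h4
  have hM0 : (0:ℝ) < p.M := by exact_mod_cast h.M_ge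
  have hh := h.h_pos
  have hd := h.δ1_pos
  have ht : 0 < t := (Par.tn_pos h n).trans_le h1
  obtain ⟨-, -, hh1, -⟩ := chi1_std h
  have e1 := chi1_th_le h n (s1 v) h1 h2 ((abs_nc_le x).trans h3)
  have e3 := chi1_th_le h n (s3 v) h1 h2 ((abs_nc_le x).trans h3)
  have p0 : 0 ≤ ph t x v := Real.smoothTransition.nonneg _
  have p1 : ph t x v ≤ 1 := Real.smoothTransition.le_one _
  have e4 : |ph t x v * p.th n (s1 v) (nc x) + (1 - ph t x v) * p.th n (s3 v) (nc x)| ≤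
      2 * t / (p.h ^ 2 * p.M) := by
    refine (abs_add_le _ _).trans ?_
    rw [abs_mul, abs_mul, abs_of_nonneg p0, abs_of_nonneg (sub_nonneg.2 p1)]
    nlinarith [mul_le_mul_of_nonneg_left e1 p0, mul_le_mul_of_nonneg_left e3 (sub_nonneg.2 p1)]
  rw [Par.chi, abs_div, abs_mul, abs_of_pos (by positivity : 0 < 23 / t)]
  have e5 : p.h ^ 4 ≤ p.h ^ 2 := pow_le_pow_of_le_one hh.le hh1 (by norm_num)
  rw [div_le_iff₀ (by positivity)] at hM
  calc 23 / t * |ph t x v * p.th n (s1 v) (nc x) + (1 - ph t x v) * p.th n (s3 v) (nc x)| / |nc v|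
      ≤ 23 / t * (2 * t / (p.h ^ 2 * p.M)) / p.δ1 := by gcongr
    _ = 46 / (p.M * (p.h ^ 2 * p.δ1)) := by field_simp; ring
    _ ≤ 1 / 20 := by
      rw [div_le_div_iff₀ (by positivity) (by norm_num)]
      have : p.M * (p.h ^ 4 * p.δ1) ≤ p.M * (p.h ^ 2 * p.δ1) := by gcongr
      linarith

lemma chi1_one {α α' g Θ w : ℝ → ℝ} {a b : ℝ} (hab : a ≤ b)
    (hα : ∀ s ∈ Icc a b, HasDerivAt α (α' s) s) (hα' : ContinuousOn α' (Icc a b))
    (hg : IntegrableOn g (Ioo a b)) (hΘ : ∀ s ∈ Icc a b, Θ s = Θ a + ∫ r in Ioo a s, g r)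
    (hw : ContinuousOn w (Icc a b)) (hb : ∀ s ∈ Icc a b, w s ≤ α' s * Θ s) :
    IntegrableOn (fun s => w s + α s * g s) (Ioo a b) ∧
      α a * Θ a + ∫ s in Ioo a b, (w s + α s * g s) ≤ α b * Θ b := by
  have hi : IntegrableOn α' (Ioo a b) := hα'.integrableOn_Icc.mono_set Ioo_subset_Icc_self
  have hF : ∀ s ∈ Icc a b, α s = α a + ∫ r in Ioo a s, α' r := by
    intro s hs
    have hsub : Icc a s ⊆ Icc a b := Icc_subset_Icc le_rfl hs.2
    rw [oneda_eq _ hs.1, intervalIntegral.integral_eq_sub_of_hasDerivAt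
      (fun x hx => hα x (hsub (by rwa [uIcc_of_le hs.1] at hx)))
      ((hα'.mono hsub).intervalIntegrable_of_Icc hs.1)]
    ring
  obtain ⟨h1, h2⟩ := prod_rule hi hg (α a) (Θ a)
  have hc : ContinuousOn α (Icc a b) := fun s hs => (hα s hs).continuousAt.continuousWithinAt
  have h3 : IntegrableOn (fun s => w s + α s * g s) (Ioo a b) :=
    (hw.integrableOn_Icc.mono_set Ioo_subset_Icc_self).add
      (hg.continuousOn_mul_of_subset hc isCompact_Icc measurableSet_Ioo Ioo_subset_Icc_self)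
  refine ⟨h3, ?_⟩
  rw [← hF b ⟨hab, le_rfl⟩, ← hΘ b ⟨hab, le_rfl⟩] at h2
  have h4 := setIntegral_mono_on h3 h1 measurableSet_Ioo (fun s hs => by
    have hs' := Ioo_subset_Icc_self hs
    rw [← hF s hs', ← hΘ s hs']
    linarith [hb s hs'])
  linarith

lemma chi1_L : ∃ L : ℝ, 0 ≤ L ∧ ∀ u, |deriv Real.smoothTransition u| ≤ L := by
  have hc : Continuous (deriv Real.smoothTransition) :=
    (Real.smoothTransition.contDiff (n := 1)).continuous_deriv le_rfl
  obtain ⟨C, hC⟩ := (isCompact_Icc (a := (0:ℝ)) (b := 1)).exists_bound_of_continuousOn hc.continuousOn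
  have h0 : 0 ≤ C := (norm_nonneg _).trans (hC 0 ⟨le_rfl, zero_le_one⟩)
  refine ⟨C, h0, fun u => ?_⟩
  rcases lt_or_ge u 0 with h | h
  · have : Real.smoothTransition =ᶠ[𝓝 u] fun _ => 0 := by
      filter_upwards [Iio_mem_nhds h] with y hy using Real.smoothTransition.zero_of_nonpos (le_of_lt hy)
    rw [this.deriv_eq]; simpa using h0
  rcases lt_or_ge 1 u with h' | h'
  · have : Real.smoothTransition =ᶠ[𝓝 u] fun _ => 1 := by
      filter_upwards [Ioi_mem_nhds h'] with y hy using Real.smoothTransition.one_of_one_le (le_of_lt hy)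
    rw [this.deriv_eq]; simpa using h0
  · exact hC u ⟨h, h'⟩

lemma chi1_two {p : Par} (h : p.Std) {K : ℝ} (hK : 0 ≤ K) (hM : 92 * (K + 1) ≤ p.M * (p.h ^ 2 * p.δ1))
    (n : ℕ) (s : Fin 4) {r r' d c : ℝ} (h1 : p.tn n ≤ r) (h2 : r ≤ r') (h3 : r' ≤ p.t0)
    (hz : ∀ σ ∈ Icc r r', |d + c * σ| ≤ σ / p.h ^ 2) (hc : p.δ1 ≤ |c|) {ψ ψ' : ℝ → ℝ}
    (hψ : ∀ σ ∈ Icc r r', HasDerivAt ψ (ψ' σ) σ) (hψ' : ContinuousOn ψ' (Icc r r'))
    (b1 : ∀ σ ∈ Icc r r', |ψ σ| ≤ 1) (b2 : ∀ σ ∈ Icc r r', |ψ' σ| ≤ K / σ) :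
    IntegrableOn (fun σ => -1 / (2 * σ) + 23 * ψ σ / σ *
      (1 - 16 * (p.bulk n s).indicator (1 : ℝ → ℝ) (d + c * σ))) (Ioo r r') ∧
    23 * ψ r / r * (p.th n s (d + c * r) / c) + ∫ σ in Ioo r r', (-1 / (2 * σ) + 23 * ψ σ / σ *
      (1 - 16 * (p.bulk n s).indicator (1 : ℝ → ℝ) (d + c * σ))) ≤
      23 * ψ r' / r' * (p.th n s (d + c * r') / c) := by
  have hM0 : (0:ℝ) < p.M := by exact_mod_cast h.M_ge
  have hh := h.h_pos
  have hd := h.δ1_pos
  have hr : 0 < r := (Par.tn_pos h n).trans_le h1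
  have hc0 : c ≠ 0 := abs_pos.1 (hd.trans_le hc)
  have hne : ∀ σ ∈ Icc r r', σ ≠ 0 := fun σ hσ => (hr.trans_le hσ.1).ne'
  have hψc : ContinuousOn ψ (Icc r r') := fun s hs => (hψ s hs).continuousAt.continuousWithinAt
  refine chi1_one (α := fun σ => 23 * ψ σ / σ) (α' := fun σ => (23 * ψ' σ * σ - 23 * ψ σ * 1) / σ ^ 2)
    (Θ := fun σ => p.th n s (d + c * σ) / c) (w := fun σ => -1 / (2 * σ))
    (g := fun σ => 1 - 16 * (p.bulk n s).indicator (1 : ℝ → ℝ) (d + c * σ)) h2 ?_ ?_ ?_ ?_ ?_ ?_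
  · intro σ hσ
    exact ((hψ σ hσ).const_mul 23).div (hasDerivAt_id σ) (hne σ hσ)
  · refine ContinuousOn.div ?_ (continuousOn_id.pow 2) (fun σ hσ => pow_ne_zero 2 (hne σ hσ))
    exact ((hψ'.const_mul 23).mul continuousOn_id).sub ((hψc.const_mul 23).mul continuousOn_const)
  · have hm : MeasurableSet ((fun σ : ℝ => d + c * σ) ⁻¹' p.bulk n s) :=
      (by fun_prop : Measurable fun σ : ℝ => d + c * σ) (p.measurableSet_bulk n s)
    exact (chi1_ii' hm r r').1.mono_set Ioo_subset_Ioc_self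
  · intro σ hσ
    rw [oneda_eq _ hσ.1, intervalIntegral.integral_comp_add_mul
      (fun y => 1 - 16 * (p.bulk n s).indicator (1 : ℝ → ℝ) y) hc0, ← chi1_th_sub, smul_eq_mul]
    field_simp
    ring
  · exact continuousOn_const.div (continuousOn_const.mul continuousOn_id)
      (fun σ hσ => mul_ne_zero two_ne_zero (hne σ hσ))
  · intro σ hσ
    have hσ0 : 0 < σ := hr.trans_le hσ.1
    have e1 := chi1_th_le h n s (h1.trans hσ.1) (hσ.2.trans h3) (hz σ hσ)
    have e2 : |23 * ψ' σ * σ - 23 * ψ σ * 1| ≤ 23 * (K + 1) := by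
      have f1 := b2 σ hσ
      rw [le_div_iff₀ hσ0] at f1
      have f2 := b1 σ hσ
      refine (abs_sub _ _).trans ?_
      rw [mul_one, mul_assoc, abs_mul, abs_mul, abs_mul, abs_of_pos hσ0,
        abs_of_pos (by norm_num : (0:ℝ) < 23)]
      linarith
    have e3 : |(23 * ψ' σ * σ - 23 * ψ σ * 1) / σ ^ 2 * (p.th n s (d + c * σ) / c)| ≤ 1 / (2 * σ) := by
      rw [abs_mul, abs_div, abs_div, abs_of_pos (pow_pos hσ0 2)]
      calc |23 * ψ' σ * σ - 23 * ψ σ * 1| / σ ^ 2 * (|p.th n s (d + c * σ)| / |c|)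
          ≤ 23 * (K + 1) / σ ^ 2 * (2 * σ / (p.h ^ 2 * p.M) / p.δ1) := by gcongr
        _ = 92 * (K + 1) / (p.M * (p.h ^ 2 * p.δ1)) * (1 / (2 * σ)) := by field_simp; ring
        _ ≤ 1 * (1 / (2 * σ)) := by
          gcongr
          exact (div_le_one (by positivity)).2 hM
        _ = _ := one_mul _
    have := (abs_le.1 e3).1
    rw [neg_div]
    exact this

theorem chi1_ev_chi_char : ∀ᶠ p in PF, ∀ (n : ℕ) (r r' : ℝ) (x v : R3), p.tn n ≤ r → r ≤ r' → r' ≤ p.t0 →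
    ‖x + r • v‖ ≤ r / p.h ^ 2 → p.δ1 ≤ |nc v| → ‖v‖ ≤ p.V →
    p.chi n r (x + r • v) v + ∫ σ in Ioo r r', (-1 / σ +
      23 / σ * (ph σ (x + σ • v) v * (1 - 16 * (p.bulk n (s1 v)).indicator 1 (nc (x + σ • v))) +
        (1 - ph σ (x + σ • v) v) * (1 - 16 * (p.bulk n (s3 v)).indicator 1 (nc (x + σ • v))))) ≤
      p.chi n r' (x + r' • v) v := by
  obtain ⟨L, hL0, hL⟩ := chi1_L
  filter_upwards [ev_std, chi1_ev_M (92 * (4 * L + 1))] with p h hM n r r' x v h1 h2 h3 h4 h5 h6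
  have hM0 : (0:ℝ) < p.M := by exact_mod_cast h.M_ge
  have hh := h.h_pos
  have hd := h.δ1_pos
  have hr : 0 < r := (Par.tn_pos h n).trans_le h1
  obtain ⟨hV, -, hh1, hVh⟩ := chi1_std h
  have hVh' : p.V ≤ 1 / p.h ^ 2 := by rw [le_div_iff₀ (by positivity)]; exact hVh
  have hne : ∀ σ ∈ Icc r r', σ ≠ 0 := fun σ hσ => (hr.trans_le hσ.1).ne'
  have hM' : 92 * (4 * L / p.h ^ 2 + 1) ≤ p.M * (p.h ^ 2 * p.δ1) := by
    rw [div_le_iff₀ (by positivity)] at hM
    have e1 : p.h ^ 2 ≤ 1 := pow_le_one₀ hh.le hh1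
    have e2 : 92 * (4 * L / p.h ^ 2 + 1) = 92 * (4 * L + p.h ^ 2) / p.h ^ 2 := by field_simp
    rw [e2, div_le_iff₀ (by positivity)]
    nlinarith
  have hx : ∀ σ ∈ Icc r r', ‖x + σ • v‖ ≤ σ / p.h ^ 2 := by
    intro σ hσ
    have e : x + σ • v = x + r • v + (σ - r) • v := by rw [sub_smul]; abel
    rw [e]
    refine (norm_add_le _ _).trans ?_
    rw [norm_smul, Real.norm_of_nonneg (sub_nonneg.2 hσ.1)]
    have : (σ - r) * ‖v‖ ≤ (σ - r) * (1 / p.h ^ 2) :=
      mul_le_mul_of_nonneg_left (h6.trans hVh') (sub_nonneg.2 hσ.1)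
    have e2 : σ / p.h ^ 2 = r / p.h ^ 2 + (σ - r) * (1 / p.h ^ 2) := by ring
    linarith
  have hnc : ∀ σ : ℝ, nc (x + σ • v) = nc x + nc v * σ := fun σ => by rw [nc_add, nc_smul, mul_comm]
  have hz : ∀ σ ∈ Icc r r', |nc x + nc v * σ| ≤ σ / p.h ^ 2 := fun σ hσ => by
    rw [← hnc]; exact (abs_nc_le _).trans (hx σ hσ)
  set D : R3 := dir (s3 v) - dir (s1 v) with hD
  have hDn : ‖D‖ ≤ 2 := (norm_sub_le _ _).trans (by rw [norm_dir, norm_dir]; norm_num)
  set A : ℝ := inner ℝ x D with hA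
  set B : ℝ := inner ℝ v D with hB
  set φ : ℝ → ℝ := fun σ => Real.smoothTransition (1 / 2 + (A + σ * B) / σ) with hφ
  have hph : ∀ σ : ℝ, ph σ (x + σ • v) v = φ σ := fun σ => by
    simp only [ph, hφ, hA, hB, ← hD, inner_add_left, real_inner_smul_left]
  set φ' : ℝ → ℝ := fun σ => deriv Real.smoothTransition (1 / 2 + (A + σ * B) / σ) *
    ((1 * B * σ - (A + σ * B) * 1) / σ ^ 2) with hφ'
  have hcd : Continuous (deriv Real.smoothTransition) :=
    (Real.smoothTransition.contDiff (n := 1)).continuous_deriv le_rfl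
  have hdiff : Differentiable ℝ Real.smoothTransition :=
    (Real.smoothTransition.contDiff (n := 1)).differentiable one_ne_zero
  have d1 : ∀ σ ∈ Icc r r', HasDerivAt φ (φ' σ) σ := fun σ hσ =>
    (hdiff _).hasDerivAt.comp σ
      (((((hasDerivAt_id σ).mul_const B).const_add A).div (hasDerivAt_id σ) (hne σ hσ)).const_add (1 / 2))
  have d2 : ContinuousOn φ' (Icc r r') := by
    refine ContinuousOn.mul (hcd.comp_continuousOn (continuousOn_const.add
      (ContinuousOn.div (by fun_prop) continuousOn_id hne))) ?_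
    exact ContinuousOn.div (by fun_prop) (by fun_prop) (fun σ hσ => pow_ne_zero 2 (hne σ hσ))
  have p0 : ∀ σ, 0 ≤ φ σ := fun σ => Real.smoothTransition.nonneg _
  have p1 : ∀ σ, φ σ ≤ 1 := fun σ => Real.smoothTransition.le_one _
  have d3 : ∀ σ ∈ Icc r r', |φ' σ| ≤ 4 * L / p.h ^ 2 / σ := by
    intro σ hσ
    have hσ0 : 0 < σ := hr.trans_le hσ.1
    have e0 : ‖x‖ ≤ 2 * σ / p.h ^ 2 := by
      have e : x = x + σ • v - σ • v := by abel
      have e' : ‖x‖ ≤ ‖x + σ • v‖ + ‖σ • v‖ := by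
        conv_lhs => rw [e]
        exact norm_sub_le _ _
      rw [norm_smul, Real.norm_of_nonneg hσ0.le] at e'
      have : σ * ‖v‖ ≤ σ * (1 / p.h ^ 2) := mul_le_mul_of_nonneg_left (h6.trans hVh') hσ0.le
      have e2 : 2 * σ / p.h ^ 2 = σ / p.h ^ 2 + σ * (1 / p.h ^ 2) := by ring
      linarith [hx σ hσ]
    have e1 : |A| ≤ 2 * σ / p.h ^ 2 * 2 :=
      (abs_real_inner_le_norm x D).trans (mul_le_mul e0 hDn (norm_nonneg _) (by positivity))
    have e2 : 1 * B * σ - (A + σ * B) * 1 = -A := by ring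
    simp only [hφ']
    rw [e2, abs_mul, abs_div, abs_neg, abs_of_pos (pow_pos hσ0 2)]
    calc _ ≤ L * (2 * σ / p.h ^ 2 * 2 / σ ^ 2) := by gcongr; exact hL _
      _ = _ := by field_simp; ring
  obtain ⟨i1, j1⟩ := chi1_two h (K := 4 * L / p.h ^ 2) (by positivity) hM' n (s1 v) h1 h2 h3 hz h5 d1 d2
    (fun σ _ => abs_le.2 ⟨by linarith [p0 σ], p1 σ⟩) d3
  obtain ⟨i3, j3⟩ := chi1_two h (K := 4 * L / p.h ^ 2) (by positivity) hM' n (s3 v) h1 h2 h3 hz h5
    (ψ := fun σ => 1 - φ σ) (ψ' := fun σ => -φ' σ) (fun σ hσ => (d1 σ hσ).const_sub 1) d2.neg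
    (fun σ _ => abs_le.2 ⟨by linarith [p1 σ], by linarith [p0 σ]⟩) (fun σ hσ => by
      rw [abs_neg]; exact d3 σ hσ)
  have hsum := add_le_add j1 j3
  rw [add_add_add_comm, ← integral_add i1 i3] at hsum
  simp only [Par.chi, hph, hnc]
  refine le_trans (le_of_eq ?_) (hsum.trans (le_of_eq ?_))
  · congr 1
    · ring
    · refine integral_congr_ae (Eventually.of_forall fun σ => ?_)
      simp only
      ring
  · ring

lemma chi1_abs_lrate_le {p : Par} (n : ℕ) {t : ℝ} (ht : 0 < t) (x v : R3) :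
    |p.lrate n t x v| ≤ 1000 / t := by
  have p0 : 0 ≤ ph t x v := Real.smoothTransition.nonneg _
  have p1 : ph t x v ≤ 1 := Real.smoothTransition.le_one _
  have hi : ∀ s : Fin 4, -15 ≤ 1 - 16 * (p.bulk n s).indicator (1 : ℝ → ℝ) (nc x) ∧
      1 - 16 * (p.bulk n s).indicator (1 : ℝ → ℝ) (nc x) ≤ 15 := by
    intro s
    by_cases hb : nc x ∈ p.bulk n s
    · rw [indicator_of_mem hb, Pi.one_apply]; norm_num
    · rw [indicator_of_notMem hb]; norm_num
  obtain ⟨a1, a2⟩ := hi (s1 v)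
  obtain ⟨a3, a4⟩ := hi (s3 v)
  have hu : 0 < t⁻¹ := inv_pos.2 ht
  rw [Par.lrate]
  set a := 1 - 16 * (p.bulk n (s1 v)).indicator (1 : ℝ → ℝ) (nc x)
  set b := 1 - 16 * (p.bulk n (s3 v)).indicator (1 : ℝ → ℝ) (nc x)
  have e1 : -15 ≤ ph t x v * a + (1 - ph t x v) * b := by nlinarith
  have e2 : ph t x v * a + (1 - ph t x v) * b ≤ 15 := by nlinarith
  set c := ph t x v * a + (1 - ph t x v) * b
  simp only [div_eq_mul_inv]
  rw [abs_le]
  split_ifs <;> constructor <;> nlinarith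

end Crest.Agent.R068
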