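import Crest.Agent.R068.Meas

/-! Row 68: auxiliary lemmas for the growth weight `psi0`. -/

set_option autoImplicit false
open MeasureTheory Set Filter Topology
open scoped ENNReal
open Crest.AnalysisR.VecCalc3 Crest.AnalysisR.PDE.Boltzmann

namespace Crest.Agent.R068

lemma chi2_V_pos {p : Par} (h : p.Std) : 1 ≤ p.V := by
  have := h.R_ge; have := h.V_ge; linarith

lemma chi2_h_le {p : Par} (h : p.Std) : p.h ≤ 1 ∧ p.h ^ 2 * p.V ≤ 1 := by
  have h1 := chi2_V_pos h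
  have h2 := h.h_pos
  have h3 := h.h_le
  have h4 := h.δ1_le
  have h5 := h.κ0_le
  have h6 : p.h * p.V ≤ 1 := by nlinarith
  have h7 : p.h ≤ 1 := by nlinarith
  refine ⟨h7, ?_⟩
  have : p.h ^ 2 * p.V = p.h * (p.h * p.V) := by ring
  rw [this]
  have h8 : 0 ≤ p.h * p.V := by positivity
  nlinarith

lemma chi2_psi0_bounds {p : Par} (h : p.Std) {t : ℝ} (ht : 0 < t) (x : R3) :
    0 ≤ p.psi0 t x ∧ p.psi0 t x ≤ (t ^ 20)⁻¹ ∧
      (‖x‖ ≤ t / p.h ^ 2 → (t ^ 20)⁻¹ * p.h ^ 1600 ≤ p.psi0 t x) ∧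
      (p.psi0 t x ≠ 0 → ‖x‖ ≤ t / p.h ^ 2) := by
  have hV := chi2_V_pos h
  have hh := h.h_pos
  obtain ⟨hh1, -⟩ := chi2_h_le h
  have hVt : 0 < 2 * p.V * t := by positivity
  have hm : 0 < max ‖x‖ (2 * p.V * t) := lt_of_lt_of_le hVt (le_max_right _ _)
  have hq0 : 0 ≤ 2 * p.V * t / max ‖x‖ (2 * p.V * t) := by positivity
  have hq1 : 2 * p.V * t / max ‖x‖ (2 * p.V * t) ≤ 1 := (div_le_one hm).2 (le_max_right _ _)
  have ht20 : 0 ≤ (t ^ 20)⁻¹ := by positivity
  unfold Par.psi0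
  refine ⟨?_, ?_, ?_, ?_⟩
  · split_ifs
    · positivity
    · exact le_rfl
  · split_ifs
    · exact mul_le_of_le_one_right ht20 (pow_le_one₀ hq0 hq1)
    · exact ht20
  · intro hx
    rw [if_pos hx]
    refine mul_le_mul_of_nonneg_left ?_ ht20
    have e : p.h ^ 1600 = (p.h ^ 2) ^ 800 := by rw [← pow_mul]
    rw [e]
    refine pow_le_pow_left₀ (by positivity) ?_ _
    rw [le_div_iff₀ hm]
    have hh2 : 0 < p.h ^ 2 := by positivity
    rcases le_total ‖x‖ (2 * p.V * t) with h1 | h1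
    · rw [max_eq_right h1]
      exact mul_le_of_le_one_left hVt.le (pow_le_one₀ hh.le hh1)
    · rw [max_eq_left h1]
      rw [le_div_iff₀ hh2] at hx
      nlinarith
  · intro hx
    by_contra hc
    exact hx (if_neg hc)

lemma chi2_continuous_nc : Continuous nc := by
  unfold nc; fun_prop

lemma chi2_wt_psiO {p : Par} (h : p.Std) {t : ℝ} (ht : 0 < t) : Wt (p.psiO t) := by
  refine ⟨?_, ⟨(t ^ 20)⁻¹, fun q => ?_⟩, ⟨max (t / p.h ^ 2) p.V, fun q hq => ?_⟩⟩
  · unfold Par.psiO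
    refine Measurable.ite ?_ ?_ measurable_const
    · have h1 : Continuous fun q : R3 × R3 => |nc q.2| := (chi2_continuous_nc.comp continuous_snd).abs
      have h2 : Continuous fun q : R3 × R3 => ‖q.2‖ := by fun_prop
      exact (measurableSet_le measurable_const h1.measurable).inter
        (measurableSet_le h2.measurable measurable_const)
    · have h3 : Measurable fun q : R3 × R3 => ((t, q.1) : ℝ × R3) := measurable_const.prodMk measurable_fst
      have h4 := p.meas_psi0.comp h3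
      simpa only [Function.comp_def] using h4
  · obtain ⟨h0, h1, -, -⟩ := chi2_psi0_bounds h ht q.1
    unfold Par.psiO
    split_ifs
    · rwa [abs_of_nonneg h0]
    · rw [abs_zero]; positivity
  · unfold Par.psiO at hq
    split_ifs at hq with hc
    · exact ⟨((chi2_psi0_bounds h ht q.1).2.2.2 hq).trans (le_max_left _ _), hc.2.trans (le_max_right _ _)⟩
    · exact absurd rfl hq

lemma chi2_int_piece {a b c : ℝ} (ha : 0 < a) (hab : a ≤ b) {f : ℝ → ℝ}
    (hf : ∀ σ ∈ Ioo a b, f σ = c / σ) :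
    IntervalIntegrable f volume a b ∧ ∫ σ in a..b, f σ = c * Real.log (b / a) := by
  have hc : ContinuousOn (fun σ : ℝ => c / σ) (uIcc a b) := by
    rw [uIcc_of_le hab]
    exact continuousOn_const.div continuousOn_id fun σ hσ => (ha.trans_le hσ.1).ne'
  have hi : IntervalIntegrable (fun σ : ℝ => c / σ) volume a b := hc.intervalIntegrable
  constructor
  · rw [intervalIntegrable_iff_integrableOn_Ioo_of_le hab] at hi ⊢
    exact hi.congr_fun (fun σ hσ => (hf σ hσ).symm) measurableSet_Ioo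
  · rw [intervalIntegral.integral_of_le hab, integral_Ioc_eq_integral_Ioo,
      setIntegral_congr_fun measurableSet_Ioo hf, ← integral_Ioc_eq_integral_Ioo,
      ← intervalIntegral.integral_of_le hab]
    have : (fun σ : ℝ => c / σ) = fun σ => c * σ⁻¹ := by funext σ; rw [div_eq_mul_inv]
    rw [this, intervalIntegral.integral_const_mul, integral_inv_of_pos ha (ha.trans_le hab)]

lemma chi2_int {r m r' : ℝ} (hr : 0 < r) (h1 : r ≤ m) (h2 : m ≤ r') {f : ℝ → ℝ}
    (hf1 : ∀ σ ∈ Ioo r m, f σ = 380 / σ) (hf2 : ∀ σ ∈ Ioo m r', f σ = -20 / σ) :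
    IntegrableOn f (Ioo r r') ∧
      Real.exp (∫ σ in Ioo r r', f σ) = (m / r) ^ 380 * (m / r') ^ 20 := by
  obtain ⟨i1, e1⟩ := chi2_int_piece hr h1 hf1
  obtain ⟨i2, e2⟩ := chi2_int_piece (hr.trans_le h1) h2 hf2
  have hm : 0 < m := hr.trans_le h1
  have hr' : 0 < r' := hm.trans_le h2
  constructor
  · exact (intervalIntegrable_iff_integrableOn_Ioo_of_le (h1.trans h2)).1 (i1.trans i2)
  · rw [← integral_Ioc_eq_integral_Ioo, ← intervalIntegral.integral_of_le (h1.trans h2),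
      ← intervalIntegral.integral_add_adjacent_intervals i1 i2, e1, e2, Real.exp_add]
    have a1 : Real.exp (380 * Real.log (m / r)) = (m / r) ^ 380 := by
      rw [show (380 : ℝ) = ((380 : ℕ) : ℝ) by norm_num, Real.exp_nat_mul, Real.exp_log (by positivity)]
    have a2 : Real.exp (-20 * Real.log (r' / m)) = (m / r') ^ 20 := by
      have : -20 * Real.log (r' / m) = ((20 : ℕ) : ℝ) * Real.log (m / r') := by
        rw [Real.log_div hr'.ne' hm.ne', Real.log_div hm.ne' hr'.ne']; push_cast; ring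
      rw [this, Real.exp_nat_mul, Real.exp_log (by positivity)]
    rw [a1, a2]

lemma chi2_norm_le {x v : R3} {V a b : ℝ} (hv : ‖v‖ ≤ V) (hab : a ≤ b) :
    ‖x + b • v‖ ≤ ‖x + a • v‖ + (b - a) * V := by
  have e : x + b • v = (x + a • v) + (b - a) • v := by rw [sub_smul]; abel
  rw [e]
  refine (norm_add_le _ _).trans ?_
  rw [norm_smul, Real.norm_eq_abs, abs_of_nonneg (sub_nonneg.2 hab)]
  have := mul_le_mul_of_nonneg_left hv (sub_nonneg.2 hab)
  linarith

/-- the switching time -/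
lemma chi2_switch {x v : R3} {V r r' : ℝ} (hV : 0 < V) (hv : ‖v‖ ≤ V) (hrr : r ≤ r') :
    ∃ m, r ≤ m ∧ m ≤ r' ∧ (∀ σ ∈ Ioo r m, 2 * V * σ < ‖x + σ • v‖) ∧
      (∀ σ ∈ Ioo m r', ¬ 2 * V * σ < ‖x + σ • v‖) ∧
      (m = r ∨ 2 * V * m ≤ ‖x + m • v‖) ∧ (m = r' ∨ ‖x + r' • v‖ ≤ 2 * V * r') := by
  have key1 : ∀ a b, a ≤ b → ‖x + a • v‖ ≤ 2 * V * a → ‖x + b • v‖ ≤ 2 * V * b := by
    intro a b hab ha
    have := chi2_norm_le (x := x) hv hab
    nlinarith
  have key2 : ∀ a b, a < b → 2 * V * b ≤ ‖x + b • v‖ → 2 * V * a < ‖x + a • v‖ := by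
    intro a b hab hb
    have := chi2_norm_le (x := x) hv hab.le
    nlinarith
  rcases le_total ‖x + r • v‖ (2 * V * r) with h1 | h1
  · exact ⟨r, le_rfl, hrr, fun σ hσ => absurd hσ.2 (not_lt.2 hσ.1.le),
      fun σ hσ => not_lt.2 (key1 r σ hσ.1.le h1), Or.inl rfl, Or.inr (key1 r r' hrr h1)⟩
  rcases le_total (2 * V * r') ‖x + r' • v‖ with h2 | h2
  · exact ⟨r', hrr, le_rfl, fun σ hσ => key2 σ r' hσ.2 h2,
      fun σ hσ => absurd hσ.2 (not_lt.2 hσ.1.le), Or.inr h2, Or.inl rfl⟩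
  have hc : ContinuousOn (fun σ : ℝ => 2 * V * σ - ‖x + σ • v‖) (Icc r r') := by fun_prop
  obtain ⟨m, hm, hm0⟩ := intermediate_value_Icc hrr hc
    (show (0:ℝ) ∈ Icc _ _ from ⟨by linarith, by linarith⟩)
  simp only at hm0
  exact ⟨m, hm.1, hm.2, fun σ hσ => key2 σ m hσ.2 (by linarith),
    fun σ hσ => not_lt.2 (key1 m σ hσ.1.le (by linarith)), Or.inr (by linarith), Or.inr h2⟩

lemma chi2_psi0_char {p : Par} (h : p.Std) {r r' : ℝ} {x v : R3} (hr : 0 < r) (hrr : r ≤ r')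
    (hv : ‖v‖ ≤ p.V) :
    IntegrableOn (fun σ => -20 / σ + if 2 * p.V * σ < ‖x + σ • v‖ then 400 / σ else 0) (Ioo r r') ∧
    p.psi0 r (x + r • v) * Real.exp (∫ σ in Ioo r r',
      (-20 / σ + if 2 * p.V * σ < ‖x + σ • v‖ then 400 / σ else 0)) ≤ p.psi0 r' (x + r' • v) := by
  have hV1 := chi2_V_pos h
  have hV : 0 < p.V := by linarith
  have hh := h.h_pos
  obtain ⟨-, hhV⟩ := chi2_h_le h
  have hr' : 0 < r' := hr.trans_le hrr
  obtain ⟨m, h1, h2, h3, h4, h5, h6⟩ := chi2_switch (x := x) hV hv hrr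
  have hm : 0 < m := hr.trans_le h1
  obtain ⟨hi, he⟩ := chi2_int hr h1 h2
    (f := fun σ => -20 / σ + if 2 * p.V * σ < ‖x + σ • v‖ then 400 / σ else 0)
    (fun σ hσ => by simp only [if_pos (h3 σ hσ)]; ring)
    (fun σ hσ => by simp only [if_neg (h4 σ hσ)]; ring)
  refine ⟨hi, ?_⟩
  rw [he]
  by_cases hx : ‖x + r • v‖ ≤ r / p.h ^ 2
  swap
  · have : p.psi0 r (x + r • v) = 0 := if_neg hx
    rw [this, zero_mul]
    exact (chi2_psi0_bounds h hr' _).1
  have hx' : ‖x + r' • v‖ ≤ r' / p.h ^ 2 := by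
    have hh2 : 0 < p.h ^ 2 := by positivity
    have a1 := chi2_norm_le (x := x) hv hrr
    rw [le_div_iff₀ hh2] at hx ⊢
    have a2 : (r' - r) * p.V * p.h ^ 2 ≤ r' - r := by
      have := mul_le_mul_of_nonneg_left hhV (sub_nonneg.2 hrr)
      nlinarith
    nlinarith
  unfold Par.psi0
  rw [if_pos hx, if_pos hx']
  set φ : ℝ → ℝ := fun σ => 2 * p.V * σ / max ‖x + σ • v‖ (2 * p.V * σ) with hφ
  have hφ0 : ∀ σ, 0 < σ → 0 ≤ φ σ := fun σ hσ => by
    have : 0 < max ‖x + σ • v‖ (2 * p.V * σ) := lt_of_lt_of_le (by positivity) (le_max_right _ _)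
    simp only [hφ]; positivity
  have hφ1 : ∀ σ, 0 < σ → φ σ ≤ 1 := fun σ hσ => by
    have : 0 < max ‖x + σ • v‖ (2 * p.V * σ) := lt_of_lt_of_le (by positivity) (le_max_right _ _)
    exact (div_le_one this).2 (le_max_right _ _)
  have c1 : φ r ^ 2 * (m / r) ≤ φ m ^ 2 := by
    rcases h5 with rfl | h5
    · rw [div_self hr.ne', mul_one]
    · have a1 := chi2_norm_le (x := x) hv h1
      set X := ‖x + m • v‖ with hX
      set Y := ‖x + r • v‖ with hY
      have hX0 : 0 < X := lt_of_lt_of_le (by positivity) h5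
      have hD : 0 ≤ m - r := sub_nonneg.2 h1
      have hY1 : 2 * p.V * r ≤ Y := by nlinarith
      have hY0 : 0 < Y := lt_of_lt_of_le (by positivity) hY1
      have e1 : φ r = 2 * p.V * r / Y := by simp only [hφ]; rw [max_eq_left hY1]
      have e2 : φ m = 2 * p.V * m / X := by simp only [hφ]; rw [max_eq_left h5]
      have b0 : 0 ≤ X - (m - r) * p.V := by nlinarith
      have b1 : (X - (m - r) * p.V) ^ 2 ≤ Y ^ 2 := pow_le_pow_left₀ b0 (by linarith) 2
      have b2 : X ^ 2 * r ≤ (X - (m - r) * p.V) ^ 2 * m := by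
        have : X * (m - r) * (2 * p.V * m) ≤ X * (m - r) * X :=
          mul_le_mul_of_nonneg_left h5 (by positivity)
        have h7 : 0 ≤ ((m - r) * p.V) ^ 2 * m := by positivity
        nlinarith
      have b3 : X ^ 2 * r ≤ Y ^ 2 * m := b2.trans (mul_le_mul_of_nonneg_right b1 hm.le)
      rw [e1, e2]
      have e3 : (2 * p.V * r / Y) ^ 2 * (m / r) = (2 * p.V) ^ 2 * m * (r / Y ^ 2) := by
        field_simp
      have e4 : (2 * p.V * m / X) ^ 2 = (2 * p.V) ^ 2 * m * (m / X ^ 2) := by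
        field_simp
      rw [e3, e4]
      refine mul_le_mul_of_nonneg_left ?_ (by positivity)
      rw [div_le_div_iff₀ (by positivity) (by positivity)]
      linarith
  have c2 : φ m ≤ φ r' := by
    rcases h6 with rfl | h6
    · exact le_rfl
    · have : φ r' = 1 := by
        simp only [hφ]; rw [max_eq_right h6, div_self (by positivity)]
      rw [this]; exact hφ1 m hm
  change (r ^ 20)⁻¹ * φ r ^ 800 * ((m / r) ^ 380 * (m / r') ^ 20) ≤ (r' ^ 20)⁻¹ * φ r' ^ 800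
  have e5 : (r ^ 20)⁻¹ * (m / r') ^ 20 = (r' ^ 20)⁻¹ * (m / r) ^ 20 := by
    rw [div_pow, div_pow]; field_simp
  have e6 : (r ^ 20)⁻¹ * φ r ^ 800 * ((m / r) ^ 380 * (m / r') ^ 20) =
      (r' ^ 20)⁻¹ * (φ r ^ 2 * (m / r)) ^ 400 := by
    have : (φ r ^ 2 * (m / r)) ^ 400 = φ r ^ 800 * ((m / r) ^ 380 * (m / r) ^ 20) := by
      rw [mul_pow, ← pow_mul, ← pow_add]
    rw [this]
    calc (r ^ 20)⁻¹ * φ r ^ 800 * ((m / r) ^ 380 * (m / r') ^ 20)
        = ((r ^ 20)⁻¹ * (m / r') ^ 20) * (φ r ^ 800 * (m / r) ^ 380) := by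
          simp only [mul_assoc, mul_comm, mul_left_comm]
      _ = _ := by rw [e5]; simp only [mul_assoc, mul_comm, mul_left_comm]
  rw [e6]
  refine mul_le_mul_of_nonneg_left ?_ (by positivity)
  have e7 : φ r' ^ 800 = (φ r' ^ 2) ^ 400 := by rw [← pow_mul]
  rw [e7]
  have := hφ0 r hr
  refine pow_le_pow_left₀ (by positivity) (c1.trans ?_) _
  exact pow_le_pow_left₀ (hφ0 m hm) c2 2

lemma chi2_abs_lrate {p : Par} (n : ℕ) {t : ℝ} (ht : 0 < t) (x v : R3) :
    |p.lrate n t x v| ≤ 1000 / t := by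
  have i1 : ∀ (s : Fin 4) (z : ℝ), |1 - 16 * (p.bulk n s).indicator (1 : ℝ → ℝ) z| ≤ 15 := by
    intro s z
    by_cases hz : z ∈ p.bulk n s
    · rw [indicator_of_mem hz]; norm_num
    · rw [indicator_of_notMem hz]; norm_num
  have p0 : 0 ≤ ph t x v := Real.smoothTransition.nonneg _
  have p1 : ph t x v ≤ 1 := Real.smoothTransition.le_one _
  unfold Par.lrate
  have a1 := abs_le.1 (i1 (s1 v) (nc x))
  have a2 := abs_le.1 (i1 (s3 v) (nc x))
  set A := 1 - 16 * (p.bulk n (s1 v)).indicator (1 : ℝ → ℝ) (nc x)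
  set B := 1 - 16 * (p.bulk n (s3 v)).indicator (1 : ℝ → ℝ) (nc x)
  set q := ph t x v
  have b1 : q * A + (1 - q) * B ≤ 15 := by nlinarith
  have b2 : -15 ≤ q * A + (1 - q) * B := by nlinarith
  have hti : 0 < t⁻¹ := inv_pos.2 ht
  simp only [div_eq_mul_inv]
  set u := t⁻¹
  rw [abs_le]
  constructor <;> split_ifs <;> nlinarith

lemma chi2_psi_char {p : Par} (h : p.Std) (n : ℕ) {r r' : ℝ} {x v : R3} (hr : 0 < r) (hrr : r ≤ r')
    (hchi : ‖x + r • v‖ ≤ r / p.h ^ 2 → p.δ1 ≤ |nc v| → ‖v‖ ≤ p.V →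
      p.chi n r (x + r • v) v + ∫ σ in Ioo r r', (-1 / σ +
      23 / σ * (ph σ (x + σ • v) v * (1 - 16 * (p.bulk n (s1 v)).indicator 1 (nc (x + σ • v))) +
        (1 - ph σ (x + σ • v) v) * (1 - 16 * (p.bulk n (s3 v)).indicator 1 (nc (x + σ • v))))) ≤
      p.chi n r' (x + r' • v) v) :
    p.psi n r (x + r • v) v * Real.exp (∫ σ in Ioo r r', p.lrate n σ (x + σ • v) v) ≤
      p.psi n r' (x + r' • v) v := by
  have hr' : 0 < r' := hr.trans_le hrr
  unfold Par.psi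
  split_ifs with hc
  swap
  · rw [zero_mul]
  by_cases hx : ‖x + r • v‖ ≤ r / p.h ^ 2
  swap
  · have : p.psi0 r (x + r • v) = 0 := if_neg hx
    rw [this, zero_mul, zero_mul]
    exact mul_nonneg (chi2_psi0_bounds h hr' _).1 (Real.exp_pos _).le
  have h1 := hchi hx hc.1 hc.2
  obtain ⟨i1, h2⟩ := chi2_psi0_char (x := x) h hr hrr hc.2
  set f1 : ℝ → ℝ := fun σ => -20 / σ + if 2 * p.V * σ < ‖x + σ • v‖ then 400 / σ else 0 with hf1
  set f2 : ℝ → ℝ := fun σ => (-1 / σ +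
      23 / σ * (ph σ (x + σ • v) v * (1 - 16 * (p.bulk n (s1 v)).indicator 1 (nc (x + σ • v))) +
        (1 - ph σ (x + σ • v) v) * (1 - 16 * (p.bulk n (s3 v)).indicator 1 (nc (x + σ • v))))) with hf2
  have e : ∀ σ, p.lrate n σ (x + σ • v) v = f1 σ + f2 σ := by
    intro σ
    simp only [hf1, hf2, Par.lrate]
    ring
  have i0 : IntegrableOn (fun σ => p.lrate n σ (x + σ • v) v) (Ioo r r') := by
    have hm : Measurable (fun σ : ℝ => p.lrate n σ (x + σ • v) v) := by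
      have : Measurable (fun σ : ℝ => ((σ, x + σ • v, v) : ℝ × R3 × R3)) := by fun_prop
      have h4 := Measurable.comp (p.meas_lrate n) this
      simpa only [Function.comp_def] using h4
    refine Measure.integrableOn_of_bounded (M := 1000 / r) (by simp) hm.aestronglyMeasurable ?_
    refine (ae_restrict_iff' measurableSet_Ioo).2 (Eventually.of_forall fun σ hσ => ?_)
    rw [Real.norm_eq_abs]
    refine (chi2_abs_lrate n (hr.trans hσ.1) _ _).trans ?_
    exact div_le_div_of_nonneg_left (by norm_num) hr hσ.1.le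
  have i2 : IntegrableOn f2 (Ioo r r') := by
    have : f2 = fun σ => p.lrate n σ (x + σ • v) v - f1 σ := by
      funext σ; rw [e]; ring
    rw [this]
    exact i0.sub i1
  have e2 : ∫ σ in Ioo r r', p.lrate n σ (x + σ • v) v =
      (∫ σ in Ioo r r', f1 σ) + ∫ σ in Ioo r r', f2 σ := by
    simp only [e]
    exact integral_add i1 i2
  rw [e2, Real.exp_add]
  have h3 : Real.exp (p.chi n r (x + r • v) v) * Real.exp (∫ σ in Ioo r r', f2 σ) ≤
      Real.exp (p.chi n r' (x + r' • v) v) := by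
    rw [← Real.exp_add]; exact Real.exp_le_exp.2 h1
  calc _ = (p.psi0 r (x + r • v) * Real.exp (∫ σ in Ioo r r', f1 σ)) *
        (Real.exp (p.chi n r (x + r • v) v) * Real.exp (∫ σ in Ioo r r', f2 σ)) := by ring
    _ ≤ _ := mul_le_mul h2 h3 (by positivity) (chi2_psi0_bounds h hr' _).1

end Crest.Agent.R068
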