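import Crest.Agent.R068.Meas
import Crest.Agent.R068.OneD
import Crest.Agent.R068.ChiAux1
import Crest.Agent.R068.ChiAux2

/-! Row 68: the growth weight along free flights. -/

set_option autoImplicit false
open MeasureTheory Set Filter Topology
open scoped ENNReal
open Crest.AnalysisR.VecCalc3 Crest.AnalysisR.PDE.Boltzmann

namespace Crest.Agent.R068

lemma Par.abs_th_le {p : Par} (h : p.Std) (n : ℕ) (s : Fin 4) {z : ℝ} (hz : |z| ≤ p.r0) :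
    |p.th n s z| ≤ p.r n / 2 + |z| / p.M := chi1_abs_th_le h n s hz
theorem ev_chi_le : ∀ᶠ p in PF, ∀ (n : ℕ) (t : ℝ) (x v : R3), p.tn n ≤ t → t ≤ p.t0 → ‖x‖ ≤ t / p.h ^ 2 →
    p.δ1 ≤ |nc v| → |p.chi n t x v| ≤ 1 / 20 := chi1_ev_chi_le
theorem ev_chi_char : ∀ᶠ p in PF, ∀ (n : ℕ) (r r' : ℝ) (x v : R3), p.tn n ≤ r → r ≤ r' → r' ≤ p.t0 →
    ‖x + r • v‖ ≤ r / p.h ^ 2 → p.δ1 ≤ |nc v| → ‖v‖ ≤ p.V →
    p.chi n r (x + r • v) v + ∫ σ in Ioo r r', (-1 / σ +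
      23 / σ * (ph σ (x + σ • v) v * (1 - 16 * (p.bulk n (s1 v)).indicator 1 (nc (x + σ • v))) +
        (1 - ph σ (x + σ • v) v) * (1 - 16 * (p.bulk n (s3 v)).indicator 1 (nc (x + σ • v))))) ≤
      p.chi n r' (x + r' • v) v := chi1_ev_chi_char
lemma Par.psi0_char {p : Par} (h : p.Std) {r r' : ℝ} {x v : R3} (hr : 0 < r) (hrr : r ≤ r') (hv : ‖v‖ ≤ p.V) :
    p.psi0 r (x + r • v) * Real.exp (∫ σ in Ioo r r',
      (-20 / σ + if 2 * p.V * σ < ‖x + σ • v‖ then 400 / σ else 0)) ≤ p.psi0 r' (x + r' • v) :=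
  (chi2_psi0_char h hr hrr hv).2
theorem ev_psi_char : ∀ᶠ p in PF, ∀ (n : ℕ) (r r' : ℝ) (x v : R3), p.tn n ≤ r → r ≤ r' → r' ≤ p.t0 →
    p.psi n r (x + r • v) v * Real.exp (∫ σ in Ioo r r', p.lrate n σ (x + σ • v) v) ≤
      p.psi n r' (x + r' • v) v := by
  filter_upwards [ev_std, ev_chi_char] with p hs hc n r r' x v h1 h2 h3
  exact chi2_psi_char hs n ((Par.tn_pos hs n).trans_le h1) h2 (hc n r r' x v h1 h2 h3)
lemma Par.psi0_bounds {p : Par} (h : p.Std) {t : ℝ} (ht : 0 < t) (x : R3) :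
    0 ≤ p.psi0 t x ∧ p.psi0 t x ≤ (t ^ 20)⁻¹ ∧
      (‖x‖ ≤ t / p.h ^ 2 → (t ^ 20)⁻¹ * p.h ^ 1600 ≤ p.psi0 t x) ∧ (p.psi0 t x ≠ 0 → ‖x‖ ≤ t / p.h ^ 2) :=
  chi2_psi0_bounds h ht x
lemma Par.wt_psiO {p : Par} (h : p.Std) {t : ℝ} (ht : 0 < t) : Wt (p.psiO t) := chi2_wt_psiO h ht
lemma Par.abs_lrate_le {p : Par} (n : ℕ) {t : ℝ} (ht : 0 < t) (x v : R3) : |p.lrate n t x v| ≤ 1000 / t :=
  chi2_abs_lrate n ht x v

end Crest.Agent.R068
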