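import Crest.Agent.R068.Ent0

/-! Row 68: conservation laws for dominated mild solutions. -/

set_option autoImplicit false
open MeasureTheory Set Filter Topology
open scoped ENNReal ContDiff
open Crest.AnalysisR.VecCalc3 Crest.AnalysisR.PDE.Boltzmann

namespace Crest.Agent.R068

/-- the collision invariants -/
def cs_Inv (ψ : R3 → ℝ) : Prop :=
  ψ = (fun _ => 1) ∨ (∃ i : Fin 3, ψ = fun v => v i) ∨ ψ = fun v => ‖v‖ ^ 2 / 2

lemma cs_Inv.continuous {ψ : R3 → ℝ} (h : cs_Inv ψ) : Continuous ψ := by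
  rcases h with rfl | ⟨i, rfl⟩ | rfl <;> fun_prop

lemma cs_Inv.bound {ψ : R3 → ℝ} (h : cs_Inv ψ) (v : R3) : |ψ v| ≤ (1 + ‖v‖) ^ 2 := by
  have h0 := norm_nonneg v
  rcases h with rfl | ⟨i, rfl⟩ | rfl
  · simp only [abs_one]; nlinarith
  · have := PiLp.norm_apply_le v i
    rw [Real.norm_eq_abs] at this
    nlinarith
  · rw [abs_of_nonneg (by positivity)]; nlinarith

lemma cs_Inv.post {ψ : R3 → ℝ} (h : cs_Inv ψ) (v vs : R3) {w : R3} (hw : ‖w‖ = 1) :
    ψ (postVel v vs w) + ψ (postVelStar v vs w) = ψ v + ψ vs := by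
  rcases h with rfl | ⟨i, rfl⟩ | rfl
  · rfl
  · have := congrArg (fun u : R3 => u i) (post_momentum v vs w)
    simpa using this
  · have := post_energy (v := v) (vs := vs) hw 0
    simp only [sub_zero] at this
    simp only
    linarith

lemma cs_int_comp {α : Type} [MeasurableSpace α] {μ : Measure α} {T : α → α}
    (hT : MeasurePreserving T μ μ) {g : α → ℝ} (hg : Measurable g) :
    ∫ p, g (T p) ∂μ = ∫ p, g p ∂μ := by
  rw [← integral_map hT.measurable.aemeasurable hg.aestronglyMeasurable, hT.map_eq]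

lemma cs_ae_unit : ∀ᵐ p : R3 × R3 × R3 ∂((volume : Measure R3).prod
    ((volume : Measure R3).prod sphereMeasure)), ‖p.2.2‖ = 1 :=
  (Measure.quasiMeasurePreserving_snd.comp Measure.quasiMeasurePreserving_snd).ae sphere_ae_unit

/-- from the iterated lower integral to the Bochner integral on the triple product -/
lemma cs_triple {A : R3 × R3 × R3 → ℝ} (hA : Measurable A) (h0 : ∀ p, 0 ≤ A p) {ψ : R3 → ℝ}
    (hψ : cs_Inv ψ) (hfin : (∫⁻ v, ENNReal.ofReal ((1 + ‖v‖) ^ 2) *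
      ∫⁻ vs, ∫⁻ w, ENNReal.ofReal (A (v, vs, w)) ∂sphereMeasure) < ⊤) :
    Integrable (fun p => A p * ψ p.1)
      ((volume : Measure R3).prod ((volume : Measure R3).prod sphereMeasure)) ∧
    ∀ v, (∫⁻ vs, ∫⁻ w, ENNReal.ofReal (A (v, vs, w)) ∂sphereMeasure).toReal * ψ v =
      ∫ q, A (v, q) * ψ v ∂((volume : Measure R3).prod sphereMeasure) := by
  have hm : Measurable fun p : R3 × R3 × R3 => A p * ψ p.1 :=
    hA.mul (hψ.continuous.measurable.comp measurable_fst)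
  have e : ∀ v, ∫⁻ vs, ∫⁻ w, ENNReal.ofReal (A (v, vs, w)) ∂sphereMeasure =
      ∫⁻ q, ENNReal.ofReal (A (v, q)) ∂((volume : Measure R3).prod sphereMeasure) := fun v =>
    (lintegral_prod _ ((hA.comp measurable_prodMk_left).ennreal_ofReal.aemeasurable)).symm
  refine ⟨⟨hm.aestronglyMeasurable, ?_⟩, fun v => ?_⟩
  · rw [hasFiniteIntegral_iff_enorm, lintegral_prod _ hm.enorm.aemeasurable]
    refine lt_of_le_of_lt (lintegral_mono fun v => ?_) hfin
    rw [e, ← lintegral_const_mul' _ _ ENNReal.ofReal_ne_top]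
    refine lintegral_mono fun q => ?_
    rw [← ENNReal.ofReal_mul (by positivity), Real.enorm_eq_ofReal_abs, abs_mul,
      abs_of_nonneg (h0 _), mul_comm]
    exact ENNReal.ofReal_le_ofReal (mul_le_mul_of_nonneg_right (hψ.bound v) (h0 _))
  · rw [integral_mul_const, integral_eq_lintegral_of_nonneg_ae (Eventually.of_forall fun q => h0 _)
      (hA.comp measurable_prodMk_left).aestronglyMeasurable, e]

/-- collision invariants -/
lemma integral_Rr_invariant {F : ℝ → R3 → R3 → ℝ} {t : ℝ} {x : R3} (hm : Measurable (F t x))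
    (h0 : ∀ v, 0 ≤ F t x v)
    (hfin : (∫⁻ v, ENNReal.ofReal ((1 + ‖v‖) ^ 2) * (collGain F t x v + collLoss F t x v)) < ⊤)
    {ψ : R3 → ℝ} (hψ : ψ = (fun _ => 1) ∨ (∃ i : Fin 3, ψ = fun v => v i) ∨ ψ = fun v => ‖v‖ ^ 2 / 2) :
    Integrable (fun v => Rr F t x v * ψ v) ∧ ∫ v, Rr F t x v * ψ v = 0 := by
  have hI : cs_Inv ψ := hψ
  have hψm := hI.continuous.measurable
  have hp1 := continuous_postVel.measurable
  have hp2 := continuous_postVelStar.measurable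
  have hab : Measurable fun p : R3 × R3 × R3 => |inner ℝ (p.1 - p.2.1) p.2.2| := by
    refine Continuous.measurable ?_
    fun_prop
  set A : R3 × R3 × R3 → ℝ := fun p => |inner ℝ (p.1 - p.2.1) p.2.2| *
    F t x (postVel p.1 p.2.1 p.2.2) * F t x (postVelStar p.1 p.2.1 p.2.2) with hAdef
  set B : R3 × R3 × R3 → ℝ := fun p => |inner ℝ (p.1 - p.2.1) p.2.2| *
    F t x p.1 * F t x p.2.1 with hBdef
  have hA : Measurable A := (hab.mul (hm.comp hp1)).mul (hm.comp hp2)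
  have hB : Measurable B :=
    (hab.mul (hm.comp measurable_fst)).mul (hm.comp (measurable_fst.comp measurable_snd))
  have A0 : ∀ p, 0 ≤ A p := fun p => mul_nonneg (mul_nonneg (abs_nonneg _) (h0 _)) (h0 _)
  have B0 : ∀ p, 0 ≤ B p := fun p => mul_nonneg (mul_nonneg (abs_nonneg _) (h0 _)) (h0 _)
  obtain ⟨iA, eA⟩ := cs_triple hA A0 hI (lt_of_le_of_lt (lintegral_mono fun v =>
    mul_le_mul_right (le_self_add : collGain F t x v ≤ _) _) hfin)
  obtain ⟨iB, eB⟩ := cs_triple hB B0 hI (lt_of_le_of_lt (lintegral_mono fun v =>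
    mul_le_mul_right (le_add_self : collLoss F t x v ≤ _) _) hfin)
  have e : (fun v => Rr F t x v * ψ v) = fun v =>
      (∫ q, A (v, q) * ψ v ∂((volume : Measure R3).prod sphereMeasure)) -
        ∫ q, B (v, q) * ψ v ∂((volume : Measure R3).prod sphereMeasure) := by
    funext v
    rw [← eA, ← eB, Rr, sub_mul]
    rfl
  rw [e]
  refine ⟨iA.integral_prod_left.sub iB.integral_prod_left, ?_⟩
  rw [integral_sub iA.integral_prod_left iB.integral_prod_left, ← integral_prod _ iA,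
    ← integral_prod _ iB]
  set μ := (volume : Measure R3).prod ((volume : Measure R3).prod sphereMeasure) with hμ
  have hsym : ∀ p : R3 × R3 × R3, B (p.2.1, p.1, p.2.2) = B p := fun p => by
    simp only [hBdef]
    rw [← neg_sub p.1, inner_neg_left, abs_neg]; ring
  have a1 : (fun p : R3 × R3 × R3 => A (postVel p.1 p.2.1 p.2.2, postVelStar p.1 p.2.1 p.2.2, p.2.2) *
      ψ (postVel p.1 p.2.1 p.2.2)) =ᵐ[μ] fun p => B p * ψ (postVel p.1 p.2.1 p.2.2) := by
    filter_upwards [cs_ae_unit] with p hp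
    simp only [hAdef, hBdef]
    rw [inner_post hp, abs_neg, postVel_post hp, postVelStar_post hp]
  have i1 : Integrable (fun p : R3 × R3 × R3 => B p * ψ (postVel p.1 p.2.1 p.2.2)) μ :=
    (measurePreserving_prepost.integrable_comp_of_integrable iA).congr a1
  have e1 : ∫ p, A p * ψ p.1 ∂μ = ∫ p, B p * ψ (postVel p.1 p.2.1 p.2.2) ∂μ := by
    rw [← integral_congr_ae a1]
    exact (cs_int_comp measurePreserving_prepost (hA.mul (hψm.comp measurable_fst))).symm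
  have a2 : (fun p : R3 × R3 × R3 => B (p.2.1, p.1, p.2.2) * ψ (postVel p.2.1 p.1 p.2.2)) =
      fun p => B p * ψ (postVelStar p.1 p.2.1 p.2.2) := by
    funext p; rw [hsym, postVel_swap]
  have i2 : Integrable (fun p : R3 × R3 × R3 => B p * ψ (postVelStar p.1 p.2.1 p.2.2)) μ := by
    rw [← a2]; exact measurePreserving_swap12.integrable_comp_of_integrable i1
  have e2 : ∫ p, B p * ψ (postVelStar p.1 p.2.1 p.2.2) ∂μ =
      ∫ p, B p * ψ (postVel p.1 p.2.1 p.2.2) ∂μ := by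
    rw [← a2]
    exact cs_int_comp measurePreserving_swap12 (hB.mul (hψm.comp hp1))
  have a3 : (fun p : R3 × R3 × R3 => B (p.2.1, p.1, p.2.2) * ψ p.2.1) =
      fun p => B p * ψ p.2.1 := by
    funext p; rw [hsym]
  have i3 : Integrable (fun p : R3 × R3 × R3 => B p * ψ p.2.1) μ := by
    rw [← a3]; exact measurePreserving_swap12.integrable_comp_of_integrable iB
  have e3 : ∫ p, B p * ψ p.2.1 ∂μ = ∫ p, B p * ψ p.1 ∂μ := by
    rw [← a3]
    exact cs_int_comp measurePreserving_swap12 (hB.mul (hψm.comp measurable_fst))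
  have e4 : ∫ p, (B p * ψ (postVel p.1 p.2.1 p.2.2) + B p * ψ (postVelStar p.1 p.2.1 p.2.2)) ∂μ =
      ∫ p, (B p * ψ p.1 + B p * ψ p.2.1) ∂μ := by
    refine integral_congr_ae ?_
    filter_upwards [cs_ae_unit] with p hp
    rw [← mul_add, ← mul_add, hI.post _ _ hp]
  rw [integral_add i1 i2, integral_add iB i3] at e4
  linarith

/-! ### the test function -/

lemma cs_per {α : Type} {F : ℝ → R3 → R3 → α} (h : PerT F) (t : ℝ) (v x : R3) (i : Fin 3) :
    F t (x + EuclideanSpace.single i 1) v = F t x v := h t v x i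

lemma cs_transportD {ϕ : ℝ → R3 → ℝ} (hϕ : ContDiff ℝ ∞ (fun p : ℝ × R3 => ϕ p.1 p.2)) (t : ℝ)
    (x v : R3) : transportD (fun t x _ => ϕ t x) t x v =
      fderiv ℝ (fun p : ℝ × R3 => ϕ p.1 p.2) (t, x) (1, v) := by
  have hd := (hϕ.differentiable (by simp) (t, x)).hasFDerivAt
  set L := fderiv ℝ (fun p : ℝ × R3 => ϕ p.1 p.2) (t, x) with hL
  have h1 : HasDerivAt (fun s => ϕ s x) (L (1, 0)) t :=
    hd.comp_hasDerivAt (f := fun s : ℝ => (s, x)) t
      ((hasDerivAt_id t).prodMk (hasDerivAt_const t x))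
  have h2 : HasFDerivAt (fun y => ϕ t y) (L.comp (ContinuousLinearMap.inr ℝ ℝ R3)) x :=
    hd.comp (f := fun y : R3 => (t, y)) x (hasFDerivAt_prodMk_right t x)
  have h3 : ((1, v) : ℝ × R3) = (1, 0) + ∑ i : Fin 3, v i • ((0 : ℝ), EuclideanSpace.single i (1 : ℝ)) := by
    refine Prod.ext (by simp [Fin.sum_univ_three]) ?_
    ext j
    fin_cases j <;> simp [Fin.sum_univ_three]
  simp only [transportD, pderiv]
  rw [h1.deriv, h2.fderiv, h3, map_add, map_sum]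
  simp only [map_smul, smul_eq_mul, ContinuousLinearMap.comp_apply, ContinuousLinearMap.inr_apply]

lemma cs_D_cont {ϕ : ℝ → R3 → ℝ} (hϕ : ContDiff ℝ ∞ (fun p : ℝ × R3 => ϕ p.1 p.2)) :
    Continuous fun p : ℝ × R3 × R3 => transportD (fun t x _ => ϕ t x) p.1 p.2.1 p.2.2 := by
  simp only [cs_transportD hϕ]
  have := hϕ.continuous_fderiv (by simp)
  fun_prop

lemma cs_D_per {ϕ : ℝ → R3 → ℝ} (hp : ∀ t, IsPeriodic3 (ϕ t)) :
    PerT (transportD (fun t x _ => ϕ t x)) := by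
  intro t v x i
  simp only [transportD, pderiv]
  have h1 : (fun s => ϕ s (x + EuclideanSpace.single i 1)) = fun s => ϕ s x :=
    funext fun s => hp s x i
  have h2 : (fun y => ϕ t (y + EuclideanSpace.single i 1)) = fun y => ϕ t y :=
    funext fun y => hp t y i
  rw [h1, ← fderiv_comp_add_right, h2]

lemma cs_bounds {ϕ : ℝ → R3 → ℝ} (hϕ : ContDiff ℝ ∞ (fun p : ℝ × R3 => ϕ p.1 p.2)) (T : ℝ) :
    ∃ C : ℝ, 0 ≤ C ∧ ∀ t ∈ Icc (0:ℝ) T, ∀ x ∈ cell, |ϕ t x| ≤ C ∧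
      ∀ v, |transportD (fun t x _ => ϕ t x) t x v| ≤ C * (1 + ‖v‖) := by
  have hK : IsCompact (Icc (0:ℝ) T ×ˢ Metric.closedBall (0 : R3) 2) :=
    isCompact_Icc.prod (isCompact_closedBall _ _)
  obtain ⟨C₁, h₁⟩ := hK.exists_bound_of_continuousOn hϕ.continuous.continuousOn
  obtain ⟨C₂, h₂⟩ := hK.exists_bound_of_continuousOn
    (hϕ.continuous_fderiv (by simp)).continuousOn
  refine ⟨|C₁| + |C₂|, by positivity, fun t ht x hx => ?_⟩
  have hmem : (t, x) ∈ Icc (0:ℝ) T ×ˢ Metric.closedBall (0 : R3) 2 :=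
    ⟨ht, by simpa using norm_le_of_mem_cell hx⟩
  refine ⟨?_, fun v => ?_⟩
  · have := h₁ _ hmem
    rw [Real.norm_eq_abs] at this
    linarith [le_abs_self C₁, abs_nonneg C₂]
  · rw [cs_transportD hϕ, ← Real.norm_eq_abs]
    refine (ContinuousLinearMap.le_opNorm _ _).trans (mul_le_mul ?_ ?_ (norm_nonneg _) (by positivity))
    · linarith [h₂ _ hmem, le_abs_self C₂, abs_nonneg C₁]
    · rw [Prod.norm_def]
      exact max_le (by simp) (by simp)

lemma cs_char {ϕ : ℝ → R3 → ℝ} (hϕ : ContDiff ℝ ∞ (fun p : ℝ × R3 => ϕ p.1 p.2)) (x v : R3)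
    {s : ℝ} (hs : 0 ≤ s) : ϕ s (x + s • v) =
      ϕ 0 x + ∫ r in Ioo 0 s, transportD (fun t x _ => ϕ t x) r (x + r • v) v := by
  have hc : Continuous fun r : ℝ => transportD (fun t x _ => ϕ t x) r (x + r • v) v :=
    (cs_D_cont hϕ).comp (f := fun r : ℝ => (r, x + r • v, v)) (by fun_prop)
  have hd : ∀ r : ℝ, HasDerivAt (fun r : ℝ => ϕ r (x + r • v))
      (transportD (fun t x _ => ϕ t x) r (x + r • v) v) r := fun r => by
    rw [cs_transportD hϕ]
    refine (hϕ.differentiable (by simp) (r, x + r • v)).hasFDerivAt.comp_hasDerivAt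
      (f := fun r : ℝ => (r, x + r • v)) r ((hasDerivAt_id r).prodMk ?_)
    simpa using ((hasDerivAt_id r).smul_const v).const_add x
  have := intervalIntegral.integral_eq_sub_of_hasDerivAt (a := 0) (b := s) (fun r _ => hd r)
    (hc.intervalIntegrable _ _)
  rw [intervalIntegral.integral_of_le hs, integral_Ioc_eq_integral_Ioo] at this
  rw [this]; simp

/-! ### integrability -/

lemma cs_measS : MeasurableSet (cell ×ˢ (univ : Set R3)) := measurableSet_cell.prod MeasurableSet.univ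

lemma cs_restrict (I : Set ℝ) (S : Set (R3 × R3)) :
    (volume : Measure (ℝ × R3 × R3)).restrict (I ×ˢ S) =
      ((volume : Measure ℝ).restrict I).prod ((volume : Measure (R3 × R3)).restrict S) := by
  rw [Measure.prod_restrict]; rfl

lemma cs_restrict2 : (volume : Measure (R3 × R3)).restrict (cell ×ˢ univ) =
      ((volume : Measure R3).restrict cell).prod (volume : Measure R3) := by
  rw [← Measure.restrict_univ (μ := (volume : Measure R3)), Measure.prod_restrict,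
    Measure.restrict_univ]
  rfl

lemma cs_mom {U : TF} (hU : Good U) {F : ℝ → R3 → R3 → ℝ} {T : ℝ} (hd : DomOn T F U) :
    ∃ C : ℝ≥0∞, C < ⊤ ∧ ∀ t ∈ Icc (0:ℝ) T, (∫⁻ q in cell ×ˢ univ,
      ENNReal.ofReal ((1 + ‖q.2‖) ^ 3) * ENNReal.ofReal (F t q.1 q.2)
        ∂(volume : Measure (R3 × R3))) ≤ C := by
  obtain ⟨C, hC, h⟩ := hU.sup T
  refine ⟨C, hC, fun t ht => le_trans (lintegral_mono_ae ?_) (h t ht)⟩
  filter_upwards [ae_restrict_of_ae (hd t ht)] with q hq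
  exact mul_le_mul_right (hq.trans le_self_add) _

lemma cs_enorm_le {a b c C w : ℝ} (ha : 0 ≤ a) (hC : 0 ≤ C) (hw : 0 ≤ w) (h : |b * c| ≤ C * w) :
    ‖a * b * c‖ₑ ≤ ENNReal.ofReal C * (ENNReal.ofReal w * ENNReal.ofReal a) := by
  rw [← ENNReal.ofReal_mul hw, ← ENNReal.ofReal_mul hC, Real.enorm_eq_ofReal_abs, mul_assoc,
    abs_mul, abs_of_nonneg ha]
  refine ENNReal.ofReal_le_ofReal ?_
  calc a * |b * c| ≤ a * (C * w) := mul_le_mul_of_nonneg_left h ha
    _ = _ := by ring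

lemma cs_enorm_Rr (F : ℝ → R3 → R3 → ℝ) (t : ℝ) (x v : R3) :
    ‖Rr F t x v‖ₑ ≤ collGain F t x v + collLoss F t x v := by
  refine (enorm_sub_le).trans (add_le_add ?_ ?_) <;>
  · rw [Real.enorm_eq_ofReal ENNReal.toReal_nonneg]
    exact ENNReal.ofReal_toReal_le

lemma cs_slice_zero {F : ℝ → R3 → R3 → ℝ} (hF : Dens F) {ψ : R3 → ℝ} (hψ : cs_Inv ψ) (t : ℝ)
    (c : R3 → ℝ) (hfin : (∫⁻ q in cell ×ˢ univ, ENNReal.ofReal ((1 + ‖q.2‖) ^ 2) *
      (collGain F t q.1 q.2 + collLoss F t q.1 q.2) ∂(volume : Measure (R3 × R3))) < ⊤)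
    (hi : Integrable (fun q : R3 × R3 => Rr F t q.1 q.2 * ψ q.2 * c q.1)
      ((volume : Measure (R3 × R3)).restrict (cell ×ˢ univ))) :
    ∫ q in cell ×ˢ univ, Rr F t q.1 q.2 * ψ q.2 * c q.1 ∂(volume : Measure (R3 × R3)) = 0 := by
  have hm : Measurable fun q : R3 × R3 => ENNReal.ofReal ((1 + ‖q.2‖) ^ 2) *
      (collGain F t q.1 q.2 + collLoss F t q.1 q.2) := by
    refine Measurable.mul (Measurable.ennreal_ofReal (by fun_prop)) (Measurable.add ?_ ?_)
    · exact (measurable_collGain hF.meas).comp measurable_const measurable_fst measurable_snd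
    · exact (measurable_collLoss hF.meas).comp measurable_const measurable_fst measurable_snd
  rw [cs_restrict2] at hfin hi ⊢
  rw [lintegral_prod _ hm.aemeasurable] at hfin
  rw [integral_prod _ hi]
  refine integral_eq_zero_of_ae ?_
  filter_upwards [ae_lt_top hm.lintegral_prod_right' hfin.ne] with x hx
  rw [integral_mul_const, (integral_Rr_invariant (hF.meas.slice t x) (hF.nonneg t x) hx hψ).2,
    zero_mul]
  rfl

/-- the balance law on `[0,T]` -/
lemma cs_master {U : TF} (hU : Good U) {F : ℝ → R3 → R3 → ℝ} (hF : Dens F) {T : ℝ} (hT : 0 ≤ T)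
    (hm : Mild 0 T F) (hd : DomOn T F U) {ψ : R3 → ℝ} (hψ : cs_Inv ψ) {ϕ : ℝ → R3 → ℝ}
    (hϕ : ContDiff ℝ ∞ (fun p : ℝ × R3 => ϕ p.1 p.2)) (hp : ∀ t, IsPeriodic3 (ϕ t)) :
    IntegrableOn (fun p : ℝ × R3 × R3 =>
      F p.1 p.2.1 p.2.2 * ψ p.2.2 * transportD (fun t x _ => ϕ t x) p.1 p.2.1 p.2.2)
      (Ioo 0 T ×ˢ (cell ×ˢ univ)) ∧
    (∀ t ∈ Icc (0:ℝ) T,
      IntegrableOn (fun q : R3 × R3 => F t q.1 q.2 * ψ q.2 * ϕ t q.1) (cell ×ˢ univ)) ∧
    (∫ q in cell ×ˢ univ, F T q.1 q.2 * ψ q.2 * ϕ T q.1 ∂(volume : Measure (R3 × R3))) -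
      (∫ q in cell ×ˢ univ, F 0 q.1 q.2 * ψ q.2 * ϕ 0 q.1 ∂(volume : Measure (R3 × R3))) =
      ∫ p in Ioo 0 T ×ˢ (cell ×ˢ univ),
        F p.1 p.2.1 p.2.2 * ψ p.2.2 * transportD (fun t x _ => ϕ t x) p.1 p.2.1 p.2.2
        ∂(volume : Measure (ℝ × R3 × R3)) := by
  obtain ⟨C, hC0, hC⟩ := cs_bounds hϕ T
  obtain ⟨M, hM, hmom⟩ := cs_mom hU hd
  set D := transportD (fun t x (_ : R3) => ϕ t x) with hD
  have hDm : MeasT D := (cs_D_cont hϕ).measurable
  have hDp : PerT D := cs_D_per hp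
  have hψm := hψ.continuous.measurable
  have hϕm : Measurable fun p : ℝ × R3 × R3 => ϕ p.1 p.2.1 :=
    hϕ.continuous.measurable.comp (f := fun p : ℝ × R3 × R3 => (p.1, p.2.1)) (by fun_prop)
  have hI : MeasurableSet (Ioo (0:ℝ) T ×ˢ (cell ×ˢ (univ : Set R3))) :=
    measurableSet_Ioo.prod cs_measS
  set K₁ : ℝ → R3 → R3 → ℝ := fun t x v => Rr F t x v * ψ v * ϕ t x with hK₁
  set K₂ : ℝ → R3 → R3 → ℝ := fun t x v => F t x v * ψ v * D t x v with hK₂
  set G : ℝ → R3 → R3 → ℝ := fun t x v => F t x v * ψ v * ϕ t x with hG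
  have m₁ : MeasT K₁ :=
    ((measurable_Rr hF.meas).mul (hψm.comp (measurable_snd.comp measurable_snd))).mul hϕm
  have m₂ : MeasT K₂ :=
    (Measurable.mul hF.meas (hψm.comp (measurable_snd.comp measurable_snd))).mul hDm
  have mG : MeasT G :=
    (Measurable.mul hF.meas (hψm.comp (measurable_snd.comp measurable_snd))).mul hϕm
  have p₁ : PerT K₁ := fun t v x i => by
    simp only [hK₁]; rw [cs_per hF.per.Rr t v x i, hp t x i]
  have p₂ : PerT K₂ := fun t v x i => by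
    simp only [hK₂]; rw [cs_per hF.per t v x i, cs_per hDp t v x i]
  have pG : PerT G := fun t v x i => by
    simp only [hG]; rw [cs_per hF.per t v x i, hp t x i]
  have mw : ∀ k : ℕ, Measurable fun v : R3 => ENNReal.ofReal ((1 + ‖v‖) ^ k) := fun k =>
    Measurable.ennreal_ofReal (by fun_prop)
  have hfin := coll_weight_lt_top hU hF hd 2
  have i₁ : IntegrableOn (fun p : ℝ × R3 × R3 => K₁ p.1 p.2.1 p.2.2)
      (Ioo 0 T ×ˢ (cell ×ˢ univ)) := by
    refine ⟨Measurable.aestronglyMeasurable m₁, ?_⟩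
    rw [hasFiniteIntegral_iff_enorm]
    refine lt_of_le_of_lt (setLIntegral_mono' hI fun p hp => ?_)
      ((lintegral_const_mul' (ENNReal.ofReal C) _ ENNReal.ofReal_ne_top).trans_lt
        (ENNReal.mul_lt_top ENNReal.ofReal_lt_top hfin))
    simp only [hK₁]
    rw [enorm_mul, enorm_mul, mul_comm, mul_comm ‖Rr F p.1 p.2.1 p.2.2‖ₑ]
    refine mul_le_mul' ?_ (mul_le_mul' ?_ (cs_enorm_Rr _ _ _ _))
    · rw [Real.enorm_eq_ofReal_abs]
      exact ENNReal.ofReal_le_ofReal (hC p.1 (Ioo_subset_Icc_self hp.1) _ hp.2.1).1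
    · rw [Real.enorm_eq_ofReal_abs]
      exact ENNReal.ofReal_le_ofReal (hψ.bound _)
  have i₂ : IntegrableOn (fun p : ℝ × R3 × R3 => K₂ p.1 p.2.1 p.2.2)
      (Ioo 0 T ×ˢ (cell ×ˢ univ)) := by
    refine ⟨Measurable.aestronglyMeasurable m₂, ?_⟩
    rw [hasFiniteIntegral_iff_enorm]
    have hb : (∫⁻ p in Ioo (0:ℝ) T ×ˢ (cell ×ˢ univ), ENNReal.ofReal ((1 + ‖p.2.2‖) ^ 3) *
        ENNReal.ofReal (F p.1 p.2.1 p.2.2) ∂(volume : Measure (ℝ × R3 × R3))) < ⊤ := by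
      have hm3 : Measurable fun p : ℝ × R3 × R3 => ENNReal.ofReal ((1 + ‖p.2.2‖) ^ 3) *
          ENNReal.ofReal (F p.1 p.2.1 p.2.2) :=
        ((mw 3).comp (measurable_snd.comp measurable_snd)).mul hF.meas.up
      rw [cs_restrict, lintegral_prod _ hm3.aemeasurable]
      refine lt_of_le_of_lt (setLIntegral_mono' measurableSet_Ioo fun t ht =>
        hmom t (Ioo_subset_Icc_self ht)) ?_
      rw [setLIntegral_const]
      exact ENNReal.mul_lt_top hM measure_Ioo_lt_top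
    refine lt_of_le_of_lt (setLIntegral_mono' hI fun p hp => ?_)
      ((lintegral_const_mul' (ENNReal.ofReal C) _ ENNReal.ofReal_ne_top).trans_lt
        (ENNReal.mul_lt_top ENNReal.ofReal_lt_top hb))
    refine cs_enorm_le (hF.nonneg _ _ _) hC0 (by positivity) ?_
    rw [abs_mul]
    calc |ψ p.2.2| * |D p.1 p.2.1 p.2.2| ≤ (1 + ‖p.2.2‖) ^ 2 * (C * (1 + ‖p.2.2‖)) :=
          mul_le_mul (hψ.bound _) ((hC p.1 (Ioo_subset_Icc_self hp.1) _ hp.2.1).2 _)
            (abs_nonneg _) (by positivity)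
      _ = _ := by ring
  have mGt : ∀ t, MeasP (G t) := fun t => mG.comp measurable_const measurable_fst measurable_snd
  have iG : ∀ t ∈ Icc (0:ℝ) T, IntegrableOn (fun q : R3 × R3 => G t q.1 q.2) (cell ×ˢ univ) := by
    intro t ht
    refine ⟨Measurable.aestronglyMeasurable (mGt t), ?_⟩
    rw [hasFiniteIntegral_iff_enorm]
    refine lt_of_le_of_lt (setLIntegral_mono' cs_measS fun q hq => ?_)
      ((lintegral_const_mul' (ENNReal.ofReal C) _ ENNReal.ofReal_ne_top).trans_lt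
        (ENNReal.mul_lt_top ENNReal.ofReal_lt_top ((hmom t ht).trans_lt hM)))
    refine cs_enorm_le (hF.nonneg _ _ _) hC0 (by positivity) ?_
    rw [abs_mul]
    have h1 : 1 ≤ 1 + ‖q.2‖ := by linarith [norm_nonneg q.2]
    calc |ψ q.2| * |ϕ t q.1| ≤ (1 + ‖q.2‖) ^ 3 * C :=
          mul_le_mul ((hψ.bound _).trans (pow_le_pow_right₀ h1 (by norm_num)))
            (hC t ht _ hq.1).1 (abs_nonneg _) (by positivity)
      _ = _ := by ring
  refine ⟨i₂, iG, ?_⟩
  -- the collision term integrates to zero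
  have z₁ : ∫ p in Ioo 0 T ×ˢ (cell ×ˢ univ), K₁ p.1 p.2.1 p.2.2
      ∂(volume : Measure (ℝ × R3 × R3)) = 0 := by
    have hm' : Measurable fun p : ℝ × R3 × R3 => ENNReal.ofReal ((1 + ‖p.2.2‖) ^ 2) *
        (collGain F p.1 p.2.1 p.2.2 + collLoss F p.1 p.2.1 p.2.2) :=
      ((mw 2).comp (measurable_snd.comp measurable_snd)).mul
        (Measurable.add (measurable_collGain hF.meas) (measurable_collLoss hF.meas))
    have i₁' := i₁
    rw [IntegrableOn, cs_restrict] at i₁'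
    rw [cs_restrict, lintegral_prod _ hm'.aemeasurable] at hfin
    rw [cs_restrict, integral_prod _ i₁']
    refine integral_eq_zero_of_ae ?_
    filter_upwards [ae_lt_top hm'.lintegral_prod_right' hfin.ne, i₁'.prod_right_ae] with t h1 h2
    exact cs_slice_zero hF hψ t (ϕ t) h1 h2
  -- along characteristics
  set K : ℝ → R3 → R3 → ℝ := fun t x v => K₁ t x v + K₂ t x v with hK
  have mK : MeasT K := Measurable.add m₁ m₂
  have pK : PerT K := fun t v x i => by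
    simp only [hK]; rw [cs_per p₁ t v x i, cs_per p₂ t v x i]
  have iK : IntegrableOn (fun p : ℝ × R3 × R3 => K p.1 p.2.1 p.2.2)
      (Ioo 0 T ×ˢ (cell ×ˢ univ)) := i₁.add i₂
  have iK' : IntegrableOn (fun p : ℝ × R3 × R3 => K p.1 (p.2.1 + p.1 • p.2.2) p.2.2)
      (Ioo 0 T ×ˢ (cell ×ˢ univ)) := by
    refine ⟨(mK.comp measurable_fst (by fun_prop) (by fun_prop)).aestronglyMeasurable, ?_⟩
    rw [hasFiniteIntegral_iff_enorm, lintegral_char (f := fun t x v => ‖K t x v‖ₑ)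
      (Measurable.enorm mK) (fun t v x i => by simp only; rw [cs_per pK t v x i]) measurableSet_Ioo]
    exact iK.2
  have iG' : IntegrableOn (fun q : R3 × R3 => G T (q.1 + T • q.2) q.2) (cell ×ˢ univ) := by
    refine ⟨(mG.comp measurable_const (by fun_prop) (by fun_prop)).aestronglyMeasurable, ?_⟩
    rw [hasFiniteIntegral_iff_enorm, lintegral_phase_shift (f := fun x v => ‖G T x v‖ₑ)
      (Measurable.enorm (mGt T)) (fun v x i => by simp only; rw [cs_per pG T v x i])]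
    exact (iG T ⟨hT, le_rfl⟩).2
  have hchar : ∀ᵐ q : R3 × R3, G T (q.1 + T • q.2) q.2 - G 0 q.1 q.2 =
      ∫ s in Ioo 0 T, K s (q.1 + s • q.2) q.2 := by
    filter_upwards [hm] with q hq
    obtain ⟨hq1, hq2⟩ := hq
    have hc : Continuous fun r : ℝ => D r (q.1 + r • q.2) q.2 :=
      (cs_D_cont hϕ).comp (f := fun r : ℝ => (r, q.1 + r • q.2, q.2)) (by fun_prop)
    have hh : IntegrableOn (fun r : ℝ => D r (q.1 + r • q.2) q.2) (Ioo 0 T) :=
      (hc.integrableOn_Icc (a := 0) (b := T)).mono_set Ioo_subset_Icc_self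
    have h3 := (prod_rule hq1 hh (F 0 q.1 q.2) (ϕ 0 q.1)).2
    rw [← hq2 T ⟨hT, le_rfl⟩, ← cs_char hϕ _ _ hT] at h3
    have h4 : ∫ s in Ioo 0 T, K s (q.1 + s • q.2) q.2 = (∫ s in Ioo 0 T,
        (Rr F s (q.1 + s • q.2) q.2 * (ϕ 0 q.1 + ∫ r in Ioo 0 s, D r (q.1 + r • q.2) q.2) +
          (F 0 q.1 q.2 + ∫ r in Ioo 0 s, Rr F r (q.1 + r • q.2) q.2) *
            D s (q.1 + s • q.2) q.2)) * ψ q.2 := by
      rw [← integral_mul_const]
      refine setIntegral_congr_fun measurableSet_Ioo fun s hs => ?_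
      rw [← hq2 s (Ioo_subset_Icc_self hs), ← cs_char hϕ _ _ hs.1.le]
      simp only [hK, hK₁, hK₂]
      ring
    rw [h4, ← h3]
    simp only [hG]
    ring
  change (∫ q in cell ×ˢ univ, G T q.1 q.2 ∂(volume : Measure (R3 × R3))) -
      (∫ q in cell ×ˢ univ, G 0 q.1 q.2 ∂(volume : Measure (R3 × R3))) =
      ∫ p in Ioo 0 T ×ˢ (cell ×ˢ univ), K₂ p.1 p.2.1 p.2.2 ∂(volume : Measure (ℝ × R3 × R3))
  rw [← integral_phase_shift (mGt T) (fun v => pG T v) T, ← integral_sub iG' (iG 0 ⟨le_rfl, hT⟩),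
    integral_congr_ae (ae_restrict_of_ae hchar)]
  have e1 : ∫ p in Ioo 0 T ×ˢ (cell ×ˢ univ), K p.1 p.2.1 p.2.2 ∂(volume : Measure (ℝ × R3 × R3)) =
      ∫ p in Ioo 0 T ×ˢ (cell ×ˢ univ), K₂ p.1 p.2.1 p.2.2 ∂(volume : Measure (ℝ × R3 × R3)) := by
    rw [integral_add i₁ i₂, z₁, zero_add]
  rw [IntegrableOn, cs_restrict] at iK'
  rw [← e1, ← integral_char mK pK measurableSet_Ioo, cs_restrict, integral_prod_symm _ iK']

theorem mild_local {U : TF} (hU : Good U) {F : ℝ → R3 → R3 → ℝ} (hF : Dens F)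
    (hm : ∀ T, Mild 0 T F) (hd : ∀ T, DomOn T F U) : HasLocalConservation F (F 0) := by
  rintro ψ hψ ϕ hϕ hp ⟨T, hT⟩
  have hT0 : 0 ≤ |T| + 1 := by positivity
  obtain ⟨h1, h2, h3⟩ := cs_master hU hF hT0 (hm _) (hd _) hψ hϕ hp
  have hR : MeasurableSet region := measurableSet_Ioi.prod cs_measS
  have hsub : Ioo 0 (|T| + 1) ×ˢ (cell ×ˢ univ) ⊆ region := prod_mono Ioo_subset_Ioi_self le_rfl
  have hz : ∀ p ∈ region \ Ioo 0 (|T| + 1) ×ˢ (cell ×ˢ univ),
      F p.1 p.2.1 p.2.2 * ψ p.2.2 * transportD (fun t x _ => ϕ t x) p.1 p.2.1 p.2.2 = 0 := by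
    rintro p ⟨hp1, hp2⟩
    have ht : T < p.1 := by
      by_contra h
      exact hp2 ⟨⟨hp1.1, by linarith [le_abs_self T]⟩, hp1.2⟩
    have he : (fun p : ℝ × R3 => ϕ p.1 p.2) =ᶠ[𝓝 (p.1, p.2.1)] fun _ => 0 := by
      filter_upwards [continuous_fst.continuousAt.eventually (lt_mem_nhds ht)] with y hy
      exact hT _ _ hy.le
    rw [cs_transportD hϕ, he.fderiv_eq]
    simp
  refine ⟨h1.of_forall_sdiff_eq_zero hR hz, h2 0 ⟨le_rfl, hT0⟩, ?_⟩
  rw [setIntegral_eq_of_subset_of_forall_sdiff_eq_zero hR hsub hz, ← h3]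
  have : ∀ x, ϕ (|T| + 1) x = 0 := fun x => hT _ _ (by linarith [le_abs_self T])
  simp [this]

lemma cs_const {U : TF} (hU : Good U) {F : ℝ → R3 → R3 → ℝ} (hF : Dens F)
    (hm : ∀ T, Mild 0 T F) (hd : ∀ T, DomOn T F U) {t : ℝ} (ht : 0 ≤ t) {ψ : R3 → ℝ}
    (hψ : cs_Inv ψ) :
    IntegrableOn (fun q : R3 × R3 => ψ q.2 * F t q.1 q.2) (cell ×ˢ univ) ∧
    ∫ q in cell ×ˢ univ, ψ q.2 * F t q.1 q.2 ∂(volume : Measure (R3 × R3)) =
      ∫ q in cell ×ˢ univ, ψ q.2 * F 0 q.1 q.2 ∂(volume : Measure (R3 × R3)) := by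
  obtain ⟨-, h2, h3⟩ := cs_master hU hF ht (hm _) (hd _) hψ (ϕ := fun _ _ => 1) contDiff_const
    (fun _ _ _ => rfl)
  have h4 := h2 t ⟨ht, le_rfl⟩
  simp only [cs_transportD (ϕ := fun _ _ => 1) contDiff_const, fderiv_fun_const, Pi.zero_apply,
    zero_apply, mul_zero, integral_zero, mul_one] at h3 h4
  simp only [mul_comm (ψ _)]
  exact ⟨h4, by linarith⟩

theorem mild_momentum {U : TF} (hU : Good U) {F : ℝ → R3 → R3 → ℝ} (hF : Dens F)
    (hm : ∀ T, Mild 0 T F) (hd : ∀ T, DomOn T F U) (t : ℝ) (ht : 0 ≤ t) (i : Fin 3) :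
    Integrable (fun q : R3 × R3 => q.2 i * F t q.1 q.2)
      ((volume : Measure (R3 × R3)).restrict (cell ×ˢ univ)) ∧
    ∫ q in cell ×ˢ univ, q.2 i * F t q.1 q.2 ∂(volume : Measure (R3 × R3)) =
      ∫ q in cell ×ˢ univ, q.2 i * F 0 q.1 q.2 ∂(volume : Measure (R3 × R3)) :=
  cs_const hU hF hm hd ht (ψ := fun v => v i) (Or.inr (Or.inl ⟨i, rfl⟩))
theorem mild_energy {U : TF} (hU : Good U) {F : ℝ → R3 → R3 → ℝ} (hF : Dens F)
    (hm : ∀ T, Mild 0 T F) (hd : ∀ T, DomOn T F U) (t : ℝ) (ht : 0 ≤ t) :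
    (∫⁻ q in cell ×ˢ univ, ENNReal.ofReal (‖q.2‖ ^ 2 * F t q.1 q.2) ∂(volume : Measure (R3 × R3))) ≤
      ∫⁻ q in cell ×ˢ univ, ENNReal.ofReal (‖q.2‖ ^ 2 * F 0 q.1 q.2) ∂(volume : Measure (R3 × R3)) := by
  have key : ∀ s : ℝ, 0 ≤ s → (∫⁻ q in cell ×ˢ univ, ENNReal.ofReal (‖q.2‖ ^ 2 * F s q.1 q.2)
      ∂(volume : Measure (R3 × R3))) = ENNReal.ofReal (2 * ∫ q in cell ×ˢ univ,
        ‖q.2‖ ^ 2 / 2 * F 0 q.1 q.2 ∂(volume : Measure (R3 × R3))) := fun s hs => by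
    obtain ⟨h1, h2⟩ := cs_const hU hF hm hd hs (ψ := fun v => ‖v‖ ^ 2 / 2) (Or.inr (Or.inr rfl))
    rw [← h2, ← integral_const_mul, ofReal_integral_eq_lintegral_ofReal (h1.const_mul 2)
      (Eventually.of_forall fun q => by have := hF.nonneg s q.1 q.2; positivity)]
    refine lintegral_congr fun q => ?_
    congr 1; ring
  rw [key t ht, key 0 le_rfl]

end Crest.Agent.R068
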