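import Crest.Agent.R068.Gauss

/-! Row 68: Picard iteration for the cut-off equation (auxiliary lemmas). -/

set_option autoImplicit false
open MeasureTheory Set Filter Topology
open scoped ENNReal
open Crest.AnalysisR.VecCalc3 Crest.AnalysisR.PDE.Boltzmann

namespace Crest.Agent.R068

/-- the right-hand side of the exponential mild form -/
noncomputable def cbR (T₀ : ℝ) (f₀ : R3 → R3 → ℝ≥0∞) (N : TF) : TF := fun t x v =>
  damp N T₀ t x v * f₀ (x - t • v) v +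
    ∫⁻ s in Ioo T₀ t, damp N s t x v * gain (N s (x - (t - s) • v)) (N s (x - (t - s) • v)) v

lemma cb_meas_int {N : TF} (hN : MeasT N) :
    Measurable (fun q : (ℝ × R3 × R3) × ℝ => damp N q.2 q.1.1 q.1.2.1 q.1.2.2 *
      gain (N q.2 (q.1.2.1 - (q.1.1 - q.2) • q.1.2.2)) (N q.2 (q.1.2.1 - (q.1.1 - q.2) • q.1.2.2))
        q.1.2.2) := by
  refine Measurable.mul ?_ ?_
  · exact (measurable_damp hN).comp
      (f := fun q : (ℝ × R3 × R3) × ℝ => (q.2, q.1.1, q.1.2.1, q.1.2.2)) (by fun_prop)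
  · exact (MeasT.gain hN hN).comp (t := fun q : (ℝ × R3 × R3) × ℝ => q.2)
      (x := fun q => q.1.2.1 - (q.1.1 - q.2) • q.1.2.2) (v := fun q => q.1.2.2)
      (by fun_prop) (by fun_prop) (by fun_prop)

lemma cb_meas (T₀ : ℝ) {f₀ : R3 → R3 → ℝ≥0∞} {N : TF} (hf : MeasP f₀) (hN : MeasT N) :
    MeasT (cbR T₀ f₀ N) := by
  unfold MeasT cbR
  refine Measurable.add (Measurable.mul ?_ ?_) ?_
  · exact (measurable_damp hN).comp
      (f := fun p : ℝ × R3 × R3 => (T₀, p.1, p.2.1, p.2.2)) (by fun_prop)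
  · exact hf.comp (f := fun p : ℝ × R3 × R3 => (p.2.1 - p.1 • p.2.2, p.2.2)) (by fun_prop)
  · have hs : MeasurableSet {q : (ℝ × R3 × R3) × ℝ | T₀ < q.2 ∧ q.2 < q.1.1} :=
      (measurableSet_lt measurable_const measurable_snd).inter
        (measurableSet_lt measurable_snd (by fun_prop))
    have := ((cb_meas_int hN).indicator hs).lintegral_prod_right' (ν := (volume : Measure ℝ))
    convert this using 2 with p
    rw [← lintegral_indicator measurableSet_Ioo]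
    refine lintegral_congr fun s => ?_
    by_cases h : s ∈ Ioo T₀ p.1
    · rw [indicator_of_mem h, indicator_of_mem (by exact h)]
    · rw [indicator_of_notMem h, indicator_of_notMem (by exact h)]

lemma cb_per_fun {N : TF} (hN : PerT N) (s : ℝ) (x y : R3) (i : Fin 3) :
    N s (x + EuclideanSpace.single i 1 - y) = N s (x - y) := by
  funext v
  rw [show x + EuclideanSpace.single i 1 - y = (x - y) + EuclideanSpace.single i 1 by abel]
  exact hN s v (x - y) i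

lemma cb_per (T₀ : ℝ) {f₀ : R3 → R3 → ℝ≥0∞} {N : TF} (hf : PerP f₀) (hN : PerT N) :
    PerT (cbR T₀ f₀ N) := by
  intro t v x i
  have h1 : f₀ (x + EuclideanSpace.single i 1 - t • v) v = f₀ (x - t • v) v := by
    rw [show x + EuclideanSpace.single i 1 - t • v = (x - t • v) + EuclideanSpace.single i 1 by abel]
    exact hf v (x - t • v) i
  simp only [cbR, damp, cb_per_fun hN, h1]

lemma cb_eneg_le {A A' B : ℝ≥0∞} (h : A' ≤ A + B) : eneg A ≤ eneg A' + B := by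
  calc eneg A = eneg A * 1 := (mul_one _).symm
    _ ≤ eneg A * (eneg B + B) := by gcongr; exact one_le_eneg_add B
    _ = eneg (A + B) + eneg A * B := by rw [mul_add, eneg_add]
    _ ≤ eneg A' + 1 * B := by gcongr; exacts [eneg_anti h, eneg_le_one A]
    _ = eneg A' + B := by rw [one_mul]

lemma cb_w (v : R3) : ENNReal.ofReal (10 ^ 6 * (1 + ‖v‖)) = 10 ^ 6 * ENNReal.ofReal (1 + ‖v‖) := by
  rw [ENNReal.ofReal_mul (by positivity)]
  congr 1
  rw [ENNReal.ofReal_pow (by norm_num)]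
  norm_num

lemma cb_gain_self {C : ℝ≥0∞} {f : R3 → ℝ≥0∞} (h : ∀ u, f u ≤ C * gs (1 / 8) u) (v : R3) :
    gain f f v ≤ C * C * 10 ^ 6 * (ENNReal.ofReal (1 + ‖v‖) * gs (1 / 8) v) := by
  have hm := measurable_gs (1 / 8)
  calc gain f f v ≤ gain (fun u => C * gs (1 / 8) u) (fun u => C * gs (1 / 8) u) v :=
        gain_mono h h v
    _ = C * (C * gain (gs (1 / 8)) (gs (1 / 8)) v) := by
        rw [gain_const_mul_left hm (hm.const_mul C), gain_const_mul_right hm hm]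
    _ ≤ C * (C * (ENNReal.ofReal (10 ^ 6 * (1 + ‖v‖)) * gs (1 / 8) v)) := by
        gcongr; exact gain_gs_self_le (by norm_num) v
    _ = _ := by rw [cb_w]; ring

lemma cb_abs1 (v : R3) : ENNReal.ofReal (1 + ‖v‖) * gs (1 / 8) v ≤ 100 * gs (1 / 16) v :=
  weight_absorb (by norm_num) v

lemma cb_abs2 (v : R3) : ENNReal.ofReal (1 + ‖v‖) * (ENNReal.ofReal (1 + ‖v‖) * gs (1 / 8) v) ≤
    10000 * gs (1 / 16) v := by
  calc _ ≤ ENNReal.ofReal (1 + ‖v‖) * (100 * gs (3 / 32) v) :=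
        mul_le_mul' le_rfl (weight_absorb (by norm_num) v)
    _ = 100 * (ENNReal.ofReal (1 + ‖v‖) * gs (3 / 32) v) := by ring
    _ ≤ 100 * (100 * gs (1 / 16) v) := mul_le_mul' le_rfl (weight_absorb (by norm_num) v)
    _ = _ := by ring

lemma cb_gain_diff {C D : ℝ≥0∞} {f g : R3 → ℝ≥0∞} (hf : Measurable f) (hg : Measurable g)
    (h : ∀ u, f u ≤ C * gs (1 / 8) u) (h' : ∀ u, g u ≤ C * gs (1 / 8) u)
    (hd : ∀ u, f u ≤ g u + D * gs (1 / 16) u) (v : R3) :
    gain f f v ≤ gain g g v + D * (2 * C * 10 ^ 7 * gs (1 / 16) v) := by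
  have h8 := measurable_gs (1 / 8)
  have h16 := measurable_gs (1 / 16)
  have key : gain (gs (1 / 8)) (gs (1 / 16)) v ≤ 10 ^ 7 * gs (1 / 16) v :=
    gain_gs_gs_le (by norm_num) (by norm_num) v
  have e1 : gain (gs (1 / 16)) f v ≤ C * (10 ^ 7 * gs (1 / 16) v) := by
    calc gain (gs (1 / 16)) f v ≤ gain (gs (1 / 16)) (fun u => C * gs (1 / 8) u) v :=
          gain_mono (fun _ => le_rfl) h v
      _ = C * gain (gs (1 / 8)) (gs (1 / 16)) v := by
          rw [gain_const_mul_right h16 h8, gain_comm h16 h8]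
      _ ≤ _ := by gcongr
  have e2 : gain g (gs (1 / 16)) v ≤ C * (10 ^ 7 * gs (1 / 16) v) := by
    calc gain g (gs (1 / 16)) v ≤ gain (fun u => C * gs (1 / 8) u) (gs (1 / 16)) v :=
          gain_mono h' (fun _ => le_rfl) v
      _ = C * gain (gs (1 / 8)) (gs (1 / 16)) v := gain_const_mul_left h8 h16 C v
      _ ≤ _ := by gcongr
  calc gain f f v ≤ gain (fun u => g u + D * gs (1 / 16) u) f v := gain_mono hd (fun _ => le_rfl) v
    _ = gain g f v + D * gain (gs (1 / 16)) f v := by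
        rw [gain_add_left hg (h16.const_mul D) hf, gain_const_mul_left h16 hf]
    _ ≤ gain g (fun u => g u + D * gs (1 / 16) u) v + D * gain (gs (1 / 16)) f v := by
        gcongr; exact gain_mono (fun _ => le_rfl) hd v
    _ = gain g g v + D * gain g (gs (1 / 16)) v + D * gain (gs (1 / 16)) f v := by
        rw [gain_add_right hg hg (h16.const_mul D), gain_const_mul_right hg h16]
    _ ≤ gain g g v + D * (C * (10 ^ 7 * gs (1 / 16) v)) + D * (C * (10 ^ 7 * gs (1 / 16) v)) := by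
        gcongr
    _ = _ := by ring

lemma cb_damp_diff {T₀ T : ℝ} {N N' : TF} (hN : MeasT N) {D : ℝ → ℝ≥0∞}
    (hD : Measurable D) (hd : ∀ s ∈ Ioo T₀ T, ∀ x v, N' s x v ≤ N s x v + D s * gs (1 / 16) v)
    {s t : ℝ} (hs : T₀ ≤ s) (ht : t ≤ T) (x v : R3) :
    damp N s t x v ≤ damp N' s t x v +
      (∫⁻ r in Ioo T₀ t, D r) * (10 ^ 6 * ENNReal.ofReal (1 + ‖v‖)) := by
  apply cb_eneg_le
  have h16 := measurable_gs (1 / 16)
  calc ∫⁻ r in Ioo s t, freq (N' r (x - (t - r) • v)) v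
      ≤ ∫⁻ r in Ioo s t, (freq (N r (x - (t - r) • v)) v +
          D r * (10 ^ 6 * ENNReal.ofReal (1 + ‖v‖))) := by
        refine setLIntegral_mono' measurableSet_Ioo fun r hr => ?_
        calc freq (N' r (x - (t - r) • v)) v
            ≤ freq (fun u => N r (x - (t - r) • v) u + D r * gs (1 / 16) u) v :=
              freq_mono (hd r ⟨hs.trans_lt hr.1, hr.2.trans_le ht⟩ _) v
          _ = freq (N r (x - (t - r) • v)) v + D r * freq (gs (1 / 16)) v := by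
              rw [freq_add (hN.slice _ _) (h16.const_mul _), freq_const_mul h16]
          _ ≤ _ := by gcongr; rw [← cb_w]; exact freq_gs_le (by norm_num) v
    _ = (∫⁻ r in Ioo s t, freq (N r (x - (t - r) • v)) v) +
          (∫⁻ r in Ioo s t, D r) * (10 ^ 6 * ENNReal.ofReal (1 + ‖v‖)) := by
        rw [lintegral_add_right _ (hD.mul_const _), lintegral_mul_const _ hD]
    _ ≤ _ := by
        gcongr

lemma cb_vol {T₀ T t : ℝ} (ht : t ≤ T) : volume (Ioo T₀ t) ≤ ENNReal.ofReal (T - T₀) := by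
  rw [Real.volume_Ioo]; exact ENNReal.ofReal_le_ofReal (by linarith)

/-- the Lipschitz constant -/
noncomputable def cbK (C : ℝ≥0∞) (τ : ℝ) : ℝ≥0∞ :=
  10 ^ 8 * C + 2 * C * 10 ^ 7 + 10 ^ 16 * C * C * ENNReal.ofReal τ

lemma cbK_ne_top {C : ℝ≥0∞} (hC : C ≠ ⊤) (τ : ℝ) : cbK C τ ≠ ⊤ := by
  unfold cbK
  have := ENNReal.ofReal_ne_top (r := τ)
  finiteness

lemma cb_step {T₀ T : ℝ} {C : ℝ≥0∞} {f₀ : R3 → R3 → ℝ≥0∞} {N N' : TF} (hN : MeasT N)
    (hN' : MeasT N') {D : ℝ → ℝ≥0∞} (hD : Measurable D)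
    (hf : ∀ x v, f₀ x v ≤ C * gs (1 / 8) v)
    (hb : ∀ s ∈ Ioo T₀ T, ∀ x v, N s x v ≤ C * gs (1 / 8) v)
    (hb' : ∀ s ∈ Ioo T₀ T, ∀ x v, N' s x v ≤ C * gs (1 / 8) v)
    (hd : ∀ s ∈ Ioo T₀ T, ∀ x v, N s x v ≤ N' s x v + D s * gs (1 / 16) v)
    (hd' : ∀ s ∈ Ioo T₀ T, ∀ x v, N' s x v ≤ N s x v + D s * gs (1 / 16) v)
    {t : ℝ} (ht : t ≤ T) (x v : R3) :
    cbR T₀ f₀ N t x v ≤ cbR T₀ f₀ N' t x v +
      cbK C (T - T₀) * (∫⁻ r in Ioo T₀ t, D r) * gs (1 / 16) v := by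
  set I := ∫⁻ r in Ioo T₀ t, D r with hI
  set w := ENNReal.ofReal (1 + ‖v‖) with hw
  set g := gs (1 / 16) v with hg
  have t1 : damp N T₀ t x v * f₀ (x - t • v) v ≤
      damp N' T₀ t x v * f₀ (x - t • v) v + I * (10 ^ 8 * C * g) := by
    calc _ ≤ (damp N' T₀ t x v + I * (10 ^ 6 * w)) * f₀ (x - t • v) v := by
          gcongr; exact cb_damp_diff hN hD hd' le_rfl ht x v
      _ = damp N' T₀ t x v * f₀ (x - t • v) v + I * (10 ^ 6 * w) * f₀ (x - t • v) v := add_mul ..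
      _ ≤ damp N' T₀ t x v * f₀ (x - t • v) v + I * (10 ^ 6 * w) * (C * gs (1 / 8) v) := by
          gcongr; exact hf _ _
      _ = damp N' T₀ t x v * f₀ (x - t • v) v + I * (10 ^ 6 * C * (w * gs (1 / 8) v)) := by ring
      _ ≤ damp N' T₀ t x v * f₀ (x - t • v) v + I * (10 ^ 6 * C * (100 * g)) :=
          add_le_add le_rfl (mul_le_mul' le_rfl (mul_le_mul' le_rfl (cb_abs1 v)))
      _ = _ := by ring
  have t2 : ∀ s ∈ Ioo T₀ t,
      damp N s t x v * gain (N s (x - (t - s) • v)) (N s (x - (t - s) • v)) v ≤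
      damp N' s t x v * gain (N' s (x - (t - s) • v)) (N' s (x - (t - s) • v)) v +
        (D s * (2 * C * 10 ^ 7 * g) + I * (10 ^ 16 * C * C * g)) := by
    intro s hs
    have hs' : s ∈ Ioo T₀ T := ⟨hs.1, hs.2.trans_le ht⟩
    set y := x - (t - s) • v
    calc _ ≤ (damp N' s t x v + I * (10 ^ 6 * w)) * gain (N s y) (N s y) v := by
          gcongr; exact cb_damp_diff hN hD hd' hs.1.le ht x v
      _ = damp N' s t x v * gain (N s y) (N s y) v + I * (10 ^ 6 * w) * gain (N s y) (N s y) v :=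
          add_mul ..
      _ ≤ damp N' s t x v * (gain (N' s y) (N' s y) v + D s * (2 * C * 10 ^ 7 * g)) +
            I * (10 ^ 6 * w) * (C * C * 10 ^ 6 * (w * gs (1 / 8) v)) := by
          gcongr
          · exact cb_gain_diff (hN.slice _ _) (hN'.slice _ _) (hb s hs' y) (hb' s hs' y)
              (hd s hs' y) v
          · exact cb_gain_self (hb s hs' y) v
      _ = damp N' s t x v * gain (N' s y) (N' s y) v +
            (damp N' s t x v * (D s * (2 * C * 10 ^ 7 * g)) +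
            I * (10 ^ 12 * C * C * (w * (w * gs (1 / 8) v)))) := by ring
      _ ≤ damp N' s t x v * gain (N' s y) (N' s y) v +
            (1 * (D s * (2 * C * 10 ^ 7 * g)) + I * (10 ^ 12 * C * C * (10000 * g))) :=
          add_le_add le_rfl (add_le_add (mul_le_mul' (damp_le_one _ _ _ _ _) le_rfl)
            (mul_le_mul' le_rfl (mul_le_mul' le_rfl (cb_abs2 v))))
      _ = _ := by ring
  have t3 : (∫⁻ s in Ioo T₀ t,
      damp N s t x v * gain (N s (x - (t - s) • v)) (N s (x - (t - s) • v)) v) ≤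
      (∫⁻ s in Ioo T₀ t,
        damp N' s t x v * gain (N' s (x - (t - s) • v)) (N' s (x - (t - s) • v)) v) +
        (I * (2 * C * 10 ^ 7 * g) + I * (10 ^ 16 * C * C * g) * ENNReal.ofReal (T - T₀)) := by
    refine (setLIntegral_mono' measurableSet_Ioo t2).trans ?_
    rw [lintegral_add_right _ ((hD.mul_const _).add_const _),
      lintegral_add_right _ measurable_const, lintegral_mul_const _ hD, setLIntegral_const]
    gcongr
    exact cb_vol ht
  unfold cbR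
  refine (add_le_add t1 t3).trans (le_of_eq ?_)
  unfold cbK
  ring

lemma cb_bound {T₀ T : ℝ} {C : ℝ≥0∞} {f₀ : R3 → R3 → ℝ≥0∞} {N : TF}
    (hf : ∀ x v, f₀ x v ≤ C * gs (1 / 8) v)
    (hb : ∀ s ∈ Ioo T₀ T, ∀ x v, N s x v ≤ C * gs (1 / 8) v) {t : ℝ} (ht : t ≤ T) (x v : R3) :
    cbR T₀ f₀ N t x v ≤ (C + 10 ^ 8 * C * C * ENNReal.ofReal (T - T₀)) * gs (1 / 16) v := by
  have t1 : damp N T₀ t x v * f₀ (x - t • v) v ≤ C * gs (1 / 16) v := by
    calc _ ≤ 1 * (C * gs (1 / 8) v) := by gcongr; exacts [damp_le_one _ _ _ _ _, hf _ _]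
      _ ≤ 1 * (C * gs (1 / 16) v) := by gcongr; exact gs_anti (by norm_num) v
      _ = _ := one_mul _
  have t2 : ∀ s ∈ Ioo T₀ t,
      damp N s t x v * gain (N s (x - (t - s) • v)) (N s (x - (t - s) • v)) v ≤
        10 ^ 8 * C * C * gs (1 / 16) v := by
    intro s hs
    calc _ ≤ 1 * (C * C * 10 ^ 6 * (ENNReal.ofReal (1 + ‖v‖) * gs (1 / 8) v)) := by
          gcongr
          exacts [damp_le_one _ _ _ _ _, cb_gain_self (hb s ⟨hs.1, hs.2.trans_le ht⟩ _) v]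
      _ ≤ 1 * (C * C * 10 ^ 6 * (100 * gs (1 / 16) v)) :=
          mul_le_mul' le_rfl (mul_le_mul' le_rfl (cb_abs1 v))
      _ = _ := by ring
  unfold cbR
  refine (add_le_add t1 (setLIntegral_mono' measurableSet_Ioo t2)).trans ?_
  rw [setLIntegral_const]
  calc _ ≤ C * gs (1 / 16) v + 10 ^ 8 * C * C * gs (1 / 16) v * ENNReal.ofReal (T - T₀) := by
        gcongr; exact cb_vol ht
    _ = _ := by ring

lemma cb_clamp_le (L U : TF) (F G : ℝ → R3 → R3 → ℝ) (t : ℝ) (x v : R3) {E : ℝ≥0∞}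
    (h : ENNReal.ofReal |F t x v - G t x v| ≤ E) :
    clamp L U F t x v ≤ clamp L U G t x v + E := by
  unfold clamp
  have h1 : ENNReal.ofReal (F t x v) ≤ ENNReal.ofReal (G t x v) + E := by
    calc ENNReal.ofReal (F t x v) ≤ ENNReal.ofReal (G t x v + |F t x v - G t x v|) :=
          ENNReal.ofReal_le_ofReal (by linarith [le_abs_self (F t x v - G t x v)])
      _ ≤ ENNReal.ofReal (G t x v) + ENNReal.ofReal |F t x v - G t x v| := ENNReal.ofReal_add_le
      _ ≤ _ := by gcongr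
  refine max_le (le_add_right (le_max_left _ _)) ?_
  refine le_trans ?_ (add_le_add (le_max_right _ _) le_rfl)
  rcases le_total (ENNReal.ofReal (G t x v)) (U t x v) with h2 | h2
  · rw [min_eq_left h2]; exact (min_le_left _ _).trans h1
  · rw [min_eq_right h2]; exact le_add_right (min_le_right _ _)

lemma cb_abs_toReal {A B E : ℝ≥0∞} (hA : A ≠ ⊤) (hB : B ≠ ⊤) (h : A ≤ B + E) (h' : B ≤ A + E) :
    ENNReal.ofReal |A.toReal - B.toReal| ≤ E := by
  by_cases hE : E = ⊤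
  · simp [hE]
  rw [ENNReal.ofReal_le_iff_le_toReal hE]
  have h1 := ENNReal.toReal_mono (by finiteness) h
  have h2 := ENNReal.toReal_mono (by finiteness) h'
  rw [ENNReal.toReal_add hB hE] at h1
  rw [ENNReal.toReal_add hA hE] at h2
  rw [abs_le]; constructor <;> linarith

lemma cb_int_exp {l : ℝ} (hl : 0 < l) (T₀ t : ℝ) :
    (∫⁻ s in Ioo T₀ t, ENNReal.ofReal (Real.exp (l * s))) ≤
      ENNReal.ofReal (Real.exp (l * t) / l) := by
  have hi : IntegrableOn (fun s => Real.exp (l * s)) (Iic t) := integrableOn_exp_mul_Iic hl t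
  calc _ ≤ ∫⁻ s in Iic t, ENNReal.ofReal (Real.exp (l * s)) :=
        lintegral_mono_set (fun s hs => hs.2.le)
    _ = ENNReal.ofReal (∫ s in Iic t, Real.exp (l * s)) :=
        (ofReal_integral_eq_lintegral_ofReal hi
          (Eventually.of_forall fun s => (Real.exp_pos _).le)).symm
    _ = _ := by rw [integral_exp_mul_Iic hl]

section Picard

variable (T₀ : ℝ) (f₀ : R3 → R3 → ℝ≥0∞) (L U : TF)

/-- the Picard map -/
noncomputable def cbP (F : ℝ → R3 → R3 → ℝ) : ℝ → R3 → R3 → ℝ :=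
  fun t x v => (cbR T₀ f₀ (clamp L U F) t x v).toReal

/-- the Picard iterates -/
noncomputable def cbIt : ℕ → ℝ → R3 → R3 → ℝ
  | 0 => fun _ _ _ => 0
  | k + 1 => cbP T₀ f₀ L U (cbIt k)

variable {T₀ f₀ L U}

lemma cb_clamp_per (hLp : PerT L) (hUp : PerT U) {F : ℝ → R3 → R3 → ℝ} (hF : PerT F) :
    PerT (clamp L U F) := by
  intro t v x i
  have h1 := hLp t v x i
  have h2 := hUp t v x i
  have h3 := hF t v x i
  simp only at h1 h2 h3
  simp only [clamp, h1, h2, h3]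

lemma cbP_dens (hf : MeasP f₀) (hfp : PerP f₀) (hL : MeasT L) (hLp : PerT L) (hU : MeasT U)
    (hUp : PerT U) {F : ℝ → R3 → R3 → ℝ} (hF : Dens F) : Dens (cbP T₀ f₀ L U F) where
  meas := (cb_meas T₀ hf (hL.clamp hU hF.meas)).ennreal_toReal
  per t v x i := congrArg ENNReal.toReal (cb_per T₀ hfp (cb_clamp_per hLp hUp hF.per) t v x i)
  nonneg _ _ _ := ENNReal.toReal_nonneg

lemma cbIt_dens (hf : MeasP f₀) (hfp : PerP f₀) (hL : MeasT L) (hLp : PerT L) (hU : MeasT U)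
    (hUp : PerT U) (k : ℕ) : Dens (cbIt T₀ f₀ L U k) := by
  induction k with
  | zero => exact ⟨measurable_const, fun _ _ _ _ => rfl, fun _ _ _ => le_rfl⟩
  | succ k ih => exact cbP_dens hf hfp hL hLp hU hUp ih

lemma cb_clamp_bound {T : ℝ} {C : ℝ≥0∞}
    (hb : ∀ t ∈ Ioo T₀ T, ∀ x v, L t x v ≤ C * gs (1 / 8) v ∧ U t x v ≤ C * gs (1 / 8) v)
    (F : ℝ → R3 → R3 → ℝ) : ∀ s ∈ Ioo T₀ T, ∀ x v, clamp L U F s x v ≤ C * gs (1 / 8) v :=
  fun s hs x v => max_le (hb s hs x v).1 ((min_le_right _ _).trans (hb s hs x v).2)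

lemma cbR_ne_top {T : ℝ} {C : ℝ≥0∞} (hC : C ≠ ⊤) (hf : ∀ x v, f₀ x v ≤ C * gs (1 / 8) v)
    (hb : ∀ t ∈ Ioo T₀ T, ∀ x v, L t x v ≤ C * gs (1 / 8) v ∧ U t x v ≤ C * gs (1 / 8) v)
    (F : ℝ → R3 → R3 → ℝ) {t : ℝ} (ht : t ≤ T) (x v : R3) :
    cbR T₀ f₀ (clamp L U F) t x v ≠ ⊤ := by
  refine ne_top_of_le_ne_top ?_ (cb_bound hf (cb_clamp_bound hb F) ht x v)
  have := gs_ne_top (1 / 16) v
  have := ENNReal.ofReal_ne_top (r := T - T₀)
  finiteness

lemma cbP_step (hL : MeasT L) (hU : MeasT U) {T : ℝ} {C : ℝ≥0∞} (hC : C ≠ ⊤)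
    (hf : ∀ x v, f₀ x v ≤ C * gs (1 / 8) v)
    (hb : ∀ t ∈ Ioo T₀ T, ∀ x v, L t x v ≤ C * gs (1 / 8) v ∧ U t x v ≤ C * gs (1 / 8) v)
    {F G : ℝ → R3 → R3 → ℝ} (hF : MeasT F) (hG : MeasT G) {D : ℝ → ℝ≥0∞} (hD : Measurable D)
    (hd : ∀ s ∈ Ioo T₀ T, ∀ x v, ENNReal.ofReal |F s x v - G s x v| ≤ D s * gs (1 / 16) v)
    {t : ℝ} (ht : t ≤ T) (x v : R3) :
    ENNReal.ofReal |cbP T₀ f₀ L U F t x v - cbP T₀ f₀ L U G t x v| ≤
      cbK C (T - T₀) * (∫⁻ r in Ioo T₀ t, D r) * gs (1 / 16) v := by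
  have d1 : ∀ s ∈ Ioo T₀ T, ∀ x v, clamp L U F s x v ≤ clamp L U G s x v + D s * gs (1 / 16) v :=
    fun s hs x v => cb_clamp_le L U F G s x v (hd s hs x v)
  have d2 : ∀ s ∈ Ioo T₀ T, ∀ x v, clamp L U G s x v ≤ clamp L U F s x v + D s * gs (1 / 16) v :=
    fun s hs x v => cb_clamp_le L U G F s x v (by rw [abs_sub_comm]; exact hd s hs x v)
  exact cb_abs_toReal (cbR_ne_top hC hf hb F ht x v) (cbR_ne_top hC hf hb G ht x v)
    (cb_step (hL.clamp hU hF) (hL.clamp hU hG) hD hf (cb_clamp_bound hb F) (cb_clamp_bound hb G)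
      d1 d2 ht x v)
    (cb_step (hL.clamp hU hG) (hL.clamp hU hF) hD hf (cb_clamp_bound hb G) (cb_clamp_bound hb F)
      d2 d1 ht x v)

lemma cb_le_of_ofReal {a b : ℝ} (hb : 0 ≤ b) {v : R3}
    (h : ENNReal.ofReal a ≤ ENNReal.ofReal b * gs (1 / 16) v) :
    a ≤ b * Real.exp (-(1 / 16 * ‖v‖ ^ 2)) := by
  rw [gs, ← ENNReal.ofReal_mul hb, ENNReal.ofReal_le_ofReal_iff (by positivity)] at h
  exact h

lemma cb_ofReal_le {a b : ℝ} (hb : 0 ≤ b) {v : R3}
    (h : a ≤ b * Real.exp (-(1 / 16 * ‖v‖ ^ 2))) :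
    ENNReal.ofReal a ≤ ENNReal.ofReal b * gs (1 / 16) v := by
  rw [gs, ← ENNReal.ofReal_mul hb]
  exact ENNReal.ofReal_le_ofReal h

/-- geometric decay of the increments -/
lemma cbIt_geom (hT₀ : 0 ≤ T₀) (hfm : MeasP f₀) (hfp : PerP f₀) (hL : MeasT L) (hLp : PerT L)
    (hU : MeasT U) (hUp : PerT U) {T : ℝ} {C : ℝ≥0∞} (hC : C ≠ ⊤)
    (hf : ∀ x v, f₀ x v ≤ C * gs (1 / 8) v)
    (hb : ∀ t ∈ Ioo T₀ T, ∀ x v, L t x v ≤ C * gs (1 / 8) v ∧ U t x v ≤ C * gs (1 / 8) v) :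
    ∃ M : ℝ, 0 ≤ M ∧ ∀ k : ℕ, ∀ t ≤ T, ∀ x v,
      |cbIt T₀ f₀ L U (k + 1) t x v - cbIt T₀ f₀ L U (k + 2) t x v| ≤
        M * Real.exp (-(1 / 16 * ‖v‖ ^ 2)) * (1 / 2) ^ k := by
  set K := (cbK C (T - T₀)).toReal with hK
  have hK0 : 0 ≤ K := ENNReal.toReal_nonneg
  have hKe : cbK C (T - T₀) = ENNReal.ofReal K := (ENNReal.ofReal_toReal (cbK_ne_top hC _)).symm
  set l := 2 * K + 1 with hl
  have hl0 : 0 < l := by positivity
  have hM : C + 10 ^ 8 * C * C * ENNReal.ofReal (T - T₀) ≠ ⊤ := by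
    have := ENNReal.ofReal_ne_top (r := T - T₀)
    finiteness
  set M := (C + 10 ^ 8 * C * C * ENNReal.ofReal (T - T₀)).toReal with hMd
  have hM0 : 0 ≤ M := ENNReal.toReal_nonneg
  have hd := cbIt_dens (T₀ := T₀) hfm hfp hL hLp hU hUp
  have step : ∀ k : ℕ, (∀ s ∈ Ioo T₀ T, ∀ x v,
      ENNReal.ofReal |cbIt T₀ f₀ L U k s x v - cbIt T₀ f₀ L U (k + 1) s x v| ≤
        ENNReal.ofReal (M * (1 / 2) ^ k * Real.exp (l * s)) * gs (1 / 16) v) →
      ∀ t ≤ T, ∀ x v,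
      ENNReal.ofReal |cbIt T₀ f₀ L U (k + 1) t x v - cbIt T₀ f₀ L U (k + 2) t x v| ≤
        ENNReal.ofReal (M * (1 / 2) ^ (k + 1) * Real.exp (l * t)) * gs (1 / 16) v := by
    intro k h t ht x v
    have := cbP_step hL hU hC hf hb (hd k).meas (hd (k + 1)).meas
      (D := fun s => ENNReal.ofReal (M * (1 / 2) ^ k * Real.exp (l * s))) (by fun_prop) h ht x v
    refine this.trans ?_
    gcongr
    have hc : 0 ≤ M * (1 / 2 : ℝ) ^ k := by positivity
    simp only [ENNReal.ofReal_mul hc]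
    rw [lintegral_const_mul _ (by fun_prop), hKe]
    calc _ ≤ ENNReal.ofReal K * (ENNReal.ofReal (M * (1 / 2) ^ k) *
          ENNReal.ofReal (Real.exp (l * t) / l)) := by gcongr; exact cb_int_exp hl0 T₀ t
      _ = ENNReal.ofReal (K * (M * (1 / 2) ^ k * (Real.exp (l * t) / l))) := by
          rw [← ENNReal.ofReal_mul hc, ← ENNReal.ofReal_mul hK0]
      _ ≤ _ := by
          apply ENNReal.ofReal_le_ofReal
          have h1 : K / l ≤ 1 / 2 := by rw [div_le_iff₀ hl0]; linarith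
          have h2 : 0 ≤ M * (1 / 2 : ℝ) ^ k * Real.exp (l * t) := by positivity
          calc _ = K / l * (M * (1 / 2 : ℝ) ^ k * Real.exp (l * t)) := by ring
            _ ≤ 1 / 2 * (M * (1 / 2 : ℝ) ^ k * Real.exp (l * t)) := by gcongr
            _ = _ := by ring
  have all : ∀ k : ℕ, ∀ s ∈ Ioo T₀ T, ∀ x v,
      ENNReal.ofReal |cbIt T₀ f₀ L U k s x v - cbIt T₀ f₀ L U (k + 1) s x v| ≤
        ENNReal.ofReal (M * (1 / 2) ^ k * Real.exp (l * s)) * gs (1 / 16) v := by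
    intro k
    induction k with
    | zero =>
      intro s hs x v
      have h1 := cb_bound hf (cb_clamp_bound hb (cbIt T₀ f₀ L U 0)) hs.2.le x v
      have h2 : |cbIt T₀ f₀ L U 0 s x v - cbIt T₀ f₀ L U (0 + 1) s x v| =
          (cbR T₀ f₀ (clamp L U (cbIt T₀ f₀ L U 0)) s x v).toReal := by
        simp [cbIt, cbP]
      rw [h2]
      refine ENNReal.ofReal_toReal_le.trans (h1.trans ?_)
      gcongr
      rw [← ENNReal.ofReal_toReal hM]
      apply ENNReal.ofReal_le_ofReal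
      have : 1 ≤ Real.exp (l * s) := Real.one_le_exp (mul_nonneg hl0.le (hT₀.trans hs.1.le))
      simp only [pow_zero, mul_one]
      exact le_mul_of_one_le_right hM0 this
    | succ k ih => exact fun s hs => step k ih s hs.2.le
  refine ⟨M * Real.exp (l * T), by positivity, fun k t ht x v => ?_⟩
  have := cb_le_of_ofReal (by positivity) (step k (all k) t ht x v)
  refine this.trans ?_
  have h1 : Real.exp (l * t) ≤ Real.exp (l * T) := by gcongr
  have h2 : (1 / 2 : ℝ) ^ (k + 1) ≤ (1 / 2) ^ k := by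
    rw [pow_succ]; have : (0 : ℝ) ≤ (1 / 2) ^ k := by positivity
    linarith
  calc _ ≤ M * (1 / 2) ^ k * Real.exp (l * T) * Real.exp (-(1 / 16 * ‖v‖ ^ 2)) := by gcongr
    _ = _ := by ring

theorem cb_exists (hT₀ : 0 ≤ T₀) (hf : MeasP f₀)
    (hfp : PerP f₀) (hL : MeasT L) (hLp : PerT L) (hU : MeasT U) (hUp : PerT U)
    (hfb : ∃ C : ℝ, ∀ x v, f₀ x v ≤ ENNReal.ofReal C * gs (1 / 8) v)
    (hb : ∀ T : ℝ, ∃ C : ℝ, ∀ t ∈ Ioo T₀ T, ∀ x v,
      L t x v ≤ ENNReal.ofReal C * gs (1 / 8) v ∧ U t x v ≤ ENNReal.ofReal C * gs (1 / 8) v) :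
    ∃ F : ℝ → R3 → R3 → ℝ, Dens F ∧ ExpMild T₀ f₀ (clamp L U F) F := by
  have hC : ∀ T : ℝ, ∃ C : ℝ≥0∞, C ≠ ⊤ ∧ (∀ x v, f₀ x v ≤ C * gs (1 / 8) v) ∧
      ∀ t ∈ Ioo T₀ T, ∀ x v, L t x v ≤ C * gs (1 / 8) v ∧ U t x v ≤ C * gs (1 / 8) v := by
    intro T
    obtain ⟨C₁, h₁⟩ := hfb
    obtain ⟨C₂, h₂⟩ := hb T
    refine ⟨ENNReal.ofReal C₁ + ENNReal.ofReal C₂, by finiteness, fun x v => (h₁ x v).trans ?_,
      fun t ht x v => ⟨(h₂ t ht x v).1.trans ?_, (h₂ t ht x v).2.trans ?_⟩⟩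
    · gcongr; exact le_self_add
    · gcongr; exact le_add_self
    · gcongr; exact le_add_self
  have hd := cbIt_dens (T₀ := T₀) hf hfp hL hLp hU hUp
  have hconv : ∀ t x v, ∃ a, Tendsto (fun k => cbIt T₀ f₀ L U (k + 1) t x v) atTop (𝓝 a) := by
    intro t x v
    obtain ⟨C, h0, h1, h2⟩ := hC t
    obtain ⟨M, -, hM⟩ := cbIt_geom hT₀ hf hfp hL hLp hU hUp h0 h1 h2
    exact cauchySeq_tendsto_of_complete (cauchySeq_of_le_geometric (1 / 2) _ (by norm_num)
      fun k => hM k t le_rfl x v)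
  choose F hF using hconv
  have hFd : Dens F := by
    refine ⟨?_, fun t v x i => ?_, fun t x v => ?_⟩
    · exact measurable_of_tendsto_metrizable (fun k => (hd (k + 1)).meas)
        (tendsto_pi_nhds.2 fun p => hF p.1 p.2.1 p.2.2)
    · refine tendsto_nhds_unique (hF t _ v) ?_
      have := hF t x v
      convert this using 2 with k
      exact (hd (k + 1)).per t v x i
    · exact ge_of_tendsto' (hF t x v) fun k => (hd (k + 1)).nonneg t x v
  refine ⟨F, hFd, fun t x v => ?_⟩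
  obtain ⟨C, h0, h1, h2⟩ := hC t
  obtain ⟨M, hM0, hM⟩ := cbIt_geom hT₀ hf hfp hL hLp hU hUp h0 h1 h2
  suffices h : F t x v = cbP T₀ f₀ L U F t x v by
    rw [h, cbP, ENNReal.ofReal_toReal (cbR_ne_top h0 h1 h2 F le_rfl x v)]
    rfl
  set K := (cbK C (t - T₀)).toReal with hK
  have hK0 : 0 ≤ K := ENNReal.toReal_nonneg
  have hKe : cbK C (t - T₀) = ENNReal.ofReal K := (ENNReal.ofReal_toReal (cbK_ne_top h0 _)).symm
  have herr : ∀ k : ℕ, |cbIt T₀ f₀ L U (k + 1 + 1) t x v - cbP T₀ f₀ L U F t x v| ≤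
      K * (2 * M) * |t - T₀| * (1 / 2) ^ k := by
    intro k
    have hc : 0 ≤ 2 * M * (1 / 2 : ℝ) ^ k := by positivity
    have := cbP_step hL hU h0 h1 h2 (hd (k + 1)).meas hFd.meas
      (D := fun _ => ENNReal.ofReal (2 * M * (1 / 2) ^ k)) measurable_const
      (fun s hs y u => by
        apply cb_ofReal_le hc
        have := dist_le_of_le_geometric_of_tendsto (1 / 2) _ (by norm_num)
          (f := fun k => cbIt T₀ f₀ L U (k + 1) s y u) (fun k => hM k s hs.2.le y u) (hF s y u) k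
        rw [Real.dist_eq] at this
        refine this.trans (le_of_eq ?_)
        ring) le_rfl x v
    rw [setLIntegral_const, hKe] at this
    have h3 : ENNReal.ofReal |cbIt T₀ f₀ L U (k + 1 + 1) t x v - cbP T₀ f₀ L U F t x v| ≤
        ENNReal.ofReal (K * (2 * M) * |t - T₀| * (1 / 2) ^ k) := by
      refine this.trans ?_
      calc _ ≤ ENNReal.ofReal K * (ENNReal.ofReal (2 * M * (1 / 2) ^ k) *
            ENNReal.ofReal |t - T₀|) * 1 := by
            gcongr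
            · rw [Real.volume_Ioo]; exact ENNReal.ofReal_le_ofReal (le_abs_self _)
            · exact gs_le_one (by norm_num) v
        _ = _ := by
            rw [mul_one, ← ENNReal.ofReal_mul hc, ← ENNReal.ofReal_mul hK0]
            congr 1; ring
    rwa [ENNReal.ofReal_le_ofReal_iff (by positivity)] at h3
  refine tendsto_nhds_unique ((hF t x v).comp (tendsto_add_atTop_nat 1)) ?_
  rw [tendsto_iff_dist_tendsto_zero]
  refine squeeze_zero (fun _ => dist_nonneg) herr ?_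
  simpa using (tendsto_pow_atTop_nhds_zero_of_lt_one (r := (1 / 2 : ℝ)) (by norm_num)
    (by norm_num)).const_mul (K * (2 * M) * |t - T₀|)

end Picard

end Crest.Agent.R068
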