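import Crest.Agent.R068.CutAux
import Crest.Agent.R068.CutAuxB

/-! Row 68: the cut-off equation: stability and global existence. -/

set_option autoImplicit false
open MeasureTheory Set Filter Topology
open scoped ENNReal
open Crest.AnalysisR.VecCalc3 Crest.AnalysisR.PDE.Boltzmann

namespace Crest.Agent.R068

/-- stability in a weaker Gaussian weight -/
theorem cut_stable (C : ℝ) (T : ℝ) : ∃ C' : ℝ, 0 ≤ C' ∧ ∀ (T₀ δ : ℝ) (f₀ g₀ : R3 → R3 → ℝ≥0∞) (N N' : TF)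
    (F G : ℝ → R3 → R3 → ℝ), 0 ≤ T₀ → 0 ≤ δ → Dens F → Dens G → MeasT N → MeasT N' →
    ExpMild T₀ f₀ N F → ExpMild T₀ g₀ N' G →
    (∀ x v, f₀ x v ≤ ENNReal.ofReal C * gs (1 / 8) v) → (∀ x v, g₀ x v ≤ ENNReal.ofReal C * gs (1 / 8) v) →
    (∀ x v, f₀ x v ≤ g₀ x v + ENNReal.ofReal δ * gs (1 / 16) v) →
    (∀ x v, g₀ x v ≤ f₀ x v + ENNReal.ofReal δ * gs (1 / 16) v) →
    (∀ t ∈ Ioo T₀ T, ∀ x v, N t x v ≤ ENNReal.ofReal C * gs (1 / 8) v) →
    (∀ t ∈ Ioo T₀ T, ∀ x v, N' t x v ≤ ENNReal.ofReal C * gs (1 / 8) v) →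
    (∀ t ∈ Ioo T₀ T, ∀ x v, N t x v ≤ N' t x v + ENNReal.ofReal |F t x v - G t x v|) →
    (∀ t ∈ Ioo T₀ T, ∀ x v, N' t x v ≤ N t x v + ENNReal.ofReal |F t x v - G t x v|) →
    ∀ t ≤ T, ∀ x v, |F t x v - G t x v| ≤ C' * δ * Real.exp (-(1 / 16 * ‖v‖ ^ 2)) := by
  set K := duhK (ENNReal.ofReal C) T with hKdef
  have hKt : K ≠ ⊤ := duhK_ne_top ENNReal.ofReal_ne_top T
  set lam : ℝ := 2 * K.toReal + 1 with hlamdef
  have hlam : 0 < lam := by positivity
  have hK : 2 * K ≤ ENNReal.ofReal lam := by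
    rw [hlamdef, ENNReal.ofReal_add (by positivity) (by norm_num), ENNReal.ofReal_mul (by norm_num),
      ENNReal.ofReal_toReal hKt, ENNReal.ofReal_ofNat]
    exact le_self_add
  refine ⟨1 + Real.exp (lam * T), by positivity, ?_⟩
  intro T₀ δ f₀ g₀ N N' F G hT₀ hδ hF hG hN hN' hFm hGm hf hg hfg hgf hb hb' h1 h2
  -- one step
  have step : ∀ a : ℝ, 0 ≤ a →
      (∀ s ∈ Ioo T₀ T, ∀ x v, |F s x v - G s x v| ≤
        a * Real.exp (lam * s) * Real.exp (-(1 / 16 * ‖v‖ ^ 2))) →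
      ∀ t ≤ T, ∀ x v, |F t x v - G t x v| ≤
        (δ + a / 2 * Real.exp (lam * t)) * Real.exp (-(1 / 16 * ‖v‖ ^ 2)) := by
    intro a ha hP t ht x v
    have hsub : ∀ s ∈ Ioo T₀ t, s ∈ Ioo T₀ T := fun s hs => ⟨hs.1, hs.2.trans_le ht⟩
    have hK' : 2 * duhK (ENNReal.ofReal C) (t - T₀) ≤ ENNReal.ofReal lam :=
      (mul_le_mul' le_rfl (duhK_mono _ (by linarith))).trans hK
    have k1 : ∀ s ∈ Ioo T₀ t, ∀ x v,
        N s x v ≤ N' s x v + ENNReal.ofReal (a * Real.exp (lam * s)) * gs (1 / 16) v :=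
      fun s hs x v => (h1 s (hsub s hs) x v).trans
        (add_le_add le_rfl (cut_ofReal_le (by positivity) v (hP s (hsub s hs) x v)))
    have k2 : ∀ s ∈ Ioo T₀ t, ∀ x v,
        N' s x v ≤ N s x v + ENNReal.ofReal (a * Real.exp (lam * s)) * gs (1 / 16) v :=
      fun s hs x v => (h2 s (hsub s hs) x v).trans
        (add_le_add le_rfl (cut_ofReal_le (by positivity) v (hP s (hsub s hs) x v)))
    refine cut_abs_le (hF.nonneg _ _ _) (hG.nonneg _ _ _) (by positivity) v ?_ ?_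
    · rw [expMild_iff_duh.1 hFm, expMild_iff_duh.1 hGm, ENNReal.ofReal_add hδ (by positivity)]
      exact duh_lip_exp ha hlam hK' hN hN' hg hfg (fun s hs => hb s (hsub s hs))
        (fun s hs => hb' s (hsub s hs)) k1 k2 x v
    · rw [expMild_iff_duh.1 hFm, expMild_iff_duh.1 hGm, ENNReal.ofReal_add hδ (by positivity)]
      exact duh_lip_exp ha hlam hK' hN' hN hf hgf (fun s hs => hb' s (hsub s hs))
        (fun s hs => hb s (hsub s hs)) k2 k1 x v
  -- a priori bound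
  set A : ℝ≥0∞ := ENNReal.ofReal C + 10 ^ 8 * ENNReal.ofReal C ^ 2 * ENNReal.ofReal T with hA
  have hAt : A ≠ ⊤ := by rw [hA]; finiteness
  have hap : ∀ s ∈ Ioo T₀ T, ∀ x v, |F s x v - G s x v| ≤
      A.toReal * Real.exp (-(1 / 16 * ‖v‖ ^ 2)) := by
    intro s hs x v
    have hsub : ∀ r ∈ Ioo T₀ s, r ∈ Ioo T₀ T := fun r hr => ⟨hr.1, hr.2.trans hs.2⟩
    have hle : ENNReal.ofReal C + 10 ^ 8 * ENNReal.ofReal C ^ 2 * ENNReal.ofReal (s - T₀) ≤ A := by
      rw [hA]; gcongr; linarith [hs.2]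
    refine cut_abs_le (hF.nonneg _ _ _) (hG.nonneg _ _ _) ENNReal.toReal_nonneg v ?_ ?_
    · rw [ENNReal.ofReal_toReal hAt, expMild_iff_duh.1 hFm]
      exact ((duh_le hf (fun r hr => hb r (hsub r hr)) x v).trans (mul_le_mul' hle le_rfl)).trans
        le_add_self
    · rw [ENNReal.ofReal_toReal hAt, expMild_iff_duh.1 hGm (s)]
      exact ((duh_le hg (fun r hr => hb' r (hsub r hr)) x v).trans (mul_le_mul' hle le_rfl)).trans
        le_add_self
  have hexp : ∀ s ∈ Ioo T₀ T, 1 ≤ Real.exp (lam * s) := fun s hs =>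
    Real.one_le_exp (mul_nonneg hlam.le (hT₀.trans hs.1.le))
  have iter : ∀ n : ℕ, ∀ s ∈ Ioo T₀ T, ∀ x v, |F s x v - G s x v| ≤
      (2 * δ + A.toReal * (1 / 2) ^ n) * Real.exp (lam * s) * Real.exp (-(1 / 16 * ‖v‖ ^ 2)) := by
    intro n
    induction n with
    | zero =>
      intro s hs x v
      refine (hap s hs x v).trans (mul_le_mul_of_nonneg_right ?_ (Real.exp_pos _).le)
      have := hexp s hs
      have h0 : 0 ≤ A.toReal := ENNReal.toReal_nonneg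
      simp only [pow_zero, mul_one]
      nlinarith
    | succ n ih =>
      intro s hs x v
      refine (step _ (by positivity) ih s hs.2.le x v).trans
        (mul_le_mul_of_nonneg_right ?_ (Real.exp_pos _).le)
      have := hexp s hs
      rw [pow_succ]
      nlinarith
  have lim : ∀ s ∈ Ioo T₀ T, ∀ x v, |F s x v - G s x v| ≤
      2 * δ * Real.exp (lam * s) * Real.exp (-(1 / 16 * ‖v‖ ^ 2)) := by
    intro s hs x v
    have h0 : Tendsto (fun n : ℕ => (2 * δ + A.toReal * (1 / 2) ^ n) * Real.exp (lam * s) *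
        Real.exp (-(1 / 16 * ‖v‖ ^ 2))) atTop
        (𝓝 ((2 * δ + A.toReal * 0) * Real.exp (lam * s) * Real.exp (-(1 / 16 * ‖v‖ ^ 2)))) :=
      (((((tendsto_pow_atTop_nhds_zero_of_lt_one (by norm_num) (by norm_num)).const_mul _).const_add
        _).mul_const _).mul_const _)
    rw [mul_zero, add_zero] at h0
    exact ge_of_tendsto' h0 fun n => iter n s hs x v
  intro t ht x v
  refine (step _ (by positivity) lim t ht x v).trans
    (mul_le_mul_of_nonneg_right ?_ (Real.exp_pos _).le)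
  have : Real.exp (lam * t) ≤ Real.exp (lam * T) := Real.exp_le_exp.2 (by gcongr)
  nlinarith

lemma clamp_le_add (L U : TF) (F G : ℝ → R3 → R3 → ℝ) (t : ℝ) (x v : R3) :
    clamp L U F t x v ≤ clamp L U G t x v + ENNReal.ofReal |F t x v - G t x v| := by
  have h : ENNReal.ofReal (F t x v) ≤ ENNReal.ofReal (G t x v) + ENNReal.ofReal |F t x v - G t x v| :=
    (ENNReal.ofReal_le_ofReal (by linarith [le_abs_self (F t x v - G t x v)])).trans
      ENNReal.ofReal_add_le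
  unfold clamp
  refine max_le (le_add_right (le_max_left _ _)) ?_
  refine le_trans ?_ (add_le_add (le_max_right _ _) le_rfl)
  rw [← min_add_add_right]
  exact min_le_min h le_self_add

/-- global existence for the cut-off equation -/
theorem cut_exists {T₀ : ℝ} (hT₀ : 0 ≤ T₀) {f₀ : R3 → R3 → ℝ≥0∞} {L U : TF} (hf : MeasP f₀)
    (hfp : PerP f₀) (hL : MeasT L) (hLp : PerT L) (hU : MeasT U) (hUp : PerT U)
    (hfb : ∃ C : ℝ, ∀ x v, f₀ x v ≤ ENNReal.ofReal C * gs (1 / 8) v)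
    (hb : ∀ T : ℝ, ∃ C : ℝ, ∀ t ∈ Ioo T₀ T, ∀ x v,
      L t x v ≤ ENNReal.ofReal C * gs (1 / 8) v ∧ U t x v ≤ ENNReal.ofReal C * gs (1 / 8) v) :
    ∃ F : ℝ → R3 → R3 → ℝ, Dens F ∧ ExpMild T₀ f₀ (clamp L U F) F :=
  cb_exists hT₀ hf hfp hL hLp hU hUp hfb hb

end Crest.Agent.R068
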