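import Crest.Agent.R068.Mild

/-! Row 68: the Duhamel map of the cut-off equation: a priori bound and Lipschitz estimate. -/

set_option autoImplicit false
open MeasureTheory Set Filter Topology
open scoped ENNReal
open Crest.AnalysisR.VecCalc3 Crest.AnalysisR.PDE.Boltzmann

namespace Crest.Agent.R068

/-- the Duhamel map: `ExpMild T₀ f₀ N F` says `ofReal (F t x v) = duh T₀ f₀ N t x v` -/
noncomputable def duh (T₀ : ℝ) (f₀ : R3 → R3 → ℝ≥0∞) (N : TF) : TF := fun t x v =>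
  damp N T₀ t x v * f₀ (x - t • v) v +
    ∫⁻ s in Ioo T₀ t, damp N s t x v * gain (N s (x - (t - s) • v)) (N s (x - (t - s) • v)) v

lemma expMild_iff_duh {T₀ : ℝ} {f₀ : R3 → R3 → ℝ≥0∞} {N : TF} {F : ℝ → R3 → R3 → ℝ} :
    ExpMild T₀ f₀ N F ↔ ∀ t x v, ENNReal.ofReal (F t x v) = duh T₀ f₀ N t x v := Iff.rfl

lemma cut_eneg_le {A A' B : ℝ≥0∞} (h : A' ≤ A + B) : eneg A ≤ eneg A' + B := by
  calc eneg A = eneg A * 1 := (mul_one _).symm
    _ ≤ eneg A * (eneg B + B) := by gcongr; exact one_le_eneg_add B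
    _ = eneg (A + B) + eneg A * B := by rw [mul_add, eneg_add]
    _ ≤ eneg A' + 1 * B := add_le_add (eneg_anti h) (by gcongr; exact eneg_le_one A)
    _ = eneg A' + B := by rw [one_mul]

lemma cut_ofReal_mul (v : R3) :
    ENNReal.ofReal (10 ^ 6 * (1 + ‖v‖)) = 10 ^ 6 * ENNReal.ofReal (1 + ‖v‖) := by
  rw [ENNReal.ofReal_mul (by norm_num), ENNReal.ofReal_pow (by norm_num)]
  norm_num

lemma cut_freq_le {n n' : R3 → ℝ≥0∞} (hn : Measurable n) {e : ℝ≥0∞}
    (h : ∀ u, n' u ≤ n u + e * gs (1 / 16) u) (v : R3) :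
    freq n' v ≤ freq n v + 10 ^ 6 * ENNReal.ofReal (1 + ‖v‖) * e := by
  calc freq n' v ≤ freq (fun u => n u + e * gs (1 / 16) u) v := freq_mono h v
    _ = freq n v + e * freq (gs (1 / 16)) v := by
      rw [freq_add hn ((measurable_gs _).const_mul e), freq_const_mul (measurable_gs _)]
    _ ≤ freq n v + e * ENNReal.ofReal (10 ^ 6 * (1 + ‖v‖)) := by
      gcongr; exact freq_gs_le (by norm_num) v
    _ = _ := by rw [cut_ofReal_mul, mul_comm e]

lemma cut_damp_le {N N' : TF} (hN : MeasT N) {e : ℝ → ℝ≥0∞} (he : Measurable e) {s t : ℝ}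
    (h : ∀ r ∈ Ioo s t, ∀ y u, N' r y u ≤ N r y u + e r * gs (1 / 16) u) (x v : R3) :
    damp N s t x v ≤ damp N' s t x v + 10 ^ 6 * ENNReal.ofReal (1 + ‖v‖) * ∫⁻ r in Ioo s t, e r := by
  refine cut_eneg_le ?_
  rw [← lintegral_const_mul _ he, ← lintegral_add_right _ (he.const_mul _)]
  refine setLIntegral_mono' measurableSet_Ioo fun r hr => ?_
  exact cut_freq_le (hN.slice _ _) (h r hr _) v

lemma cut_gain_self_le {n : R3 → ℝ≥0∞} {C : ℝ≥0∞} (h : ∀ u, n u ≤ C * gs (1 / 8) u) (v : R3) :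
    gain n n v ≤ C ^ 2 * 10 ^ 6 * (ENNReal.ofReal (1 + ‖v‖) * gs (1 / 8) v) := by
  calc gain n n v ≤ gain (fun u => C * gs (1 / 8) u) (fun u => C * gs (1 / 8) u) v := gain_mono h h v
    _ = C * (C * gain (gs (1 / 8)) (gs (1 / 8)) v) := by
      rw [gain_const_mul_left (measurable_gs _) ((measurable_gs _).const_mul C),
        gain_const_mul_right (measurable_gs _) (measurable_gs _)]
    _ ≤ C * (C * (ENNReal.ofReal (10 ^ 6 * (1 + ‖v‖)) * gs (1 / 8) v)) := by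
      gcongr; exact gain_gs_self_le (by norm_num) v
    _ = _ := by rw [cut_ofReal_mul]; ring

lemma cut_gain_mixed {n : R3 → ℝ≥0∞} {C e : ℝ≥0∞} (h : ∀ u, n u ≤ C * gs (1 / 8) u) (v : R3) :
    gain n (fun u => e * gs (1 / 16) u) v ≤ 10 ^ 7 * C * e * gs (1 / 16) v := by
  calc gain n (fun u => e * gs (1 / 16) u) v
      ≤ gain (fun u => C * gs (1 / 8) u) (fun u => e * gs (1 / 16) u) v :=
        gain_mono h (fun _ => le_rfl) v
    _ = C * (e * gain (gs (1 / 8)) (gs (1 / 16)) v) := by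
      rw [gain_const_mul_left (measurable_gs _) ((measurable_gs _).const_mul e),
        gain_const_mul_right (measurable_gs _) (measurable_gs _)]
    _ ≤ C * (e * (10 ^ 7 * gs (1 / 16) v)) := by
      gcongr; exact gain_gs_gs_le (by norm_num) (by norm_num) v
    _ = _ := by ring

lemma cut_gain_le {n n' : R3 → ℝ≥0∞} (hn : Measurable n) (hn' : Measurable n') {C e : ℝ≥0∞}
    (hb : ∀ u, n u ≤ C * gs (1 / 8) u) (hb' : ∀ u, n' u ≤ C * gs (1 / 8) u)
    (h : ∀ u, n u ≤ n' u + e * gs (1 / 16) u) (v : R3) :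
    gain n n v ≤ gain n' n' v + 2 * 10 ^ 7 * C * e * gs (1 / 16) v := by
  have hE : Measurable (fun u => e * gs (1 / 16) u) := (measurable_gs _).const_mul e
  calc gain n n v ≤ gain (fun u => n' u + e * gs (1 / 16) u) n v := gain_mono h (fun _ => le_rfl) v
    _ = gain n' n v + gain n (fun u => e * gs (1 / 16) u) v := by
      rw [gain_add_left hn' hE hn, gain_comm hE hn]
    _ ≤ gain n' (fun u => n' u + e * gs (1 / 16) u) v + gain n (fun u => e * gs (1 / 16) u) v := by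
      gcongr; exact gain_mono (fun _ => le_rfl) h v
    _ = gain n' n' v + gain n' (fun u => e * gs (1 / 16) u) v +
        gain n (fun u => e * gs (1 / 16) u) v := by rw [gain_add_right hn' hn' hE]
    _ ≤ gain n' n' v + 10 ^ 7 * C * e * gs (1 / 16) v + 10 ^ 7 * C * e * gs (1 / 16) v := by
      gcongr
      · exact cut_gain_mixed hb' v
      · exact cut_gain_mixed hb v
    _ = _ := by ring

lemma cut_absorb1 (v : R3) : ENNReal.ofReal (1 + ‖v‖) * gs (1 / 8) v ≤ 100 * gs (1 / 16) v :=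
  weight_absorb (by norm_num) v

lemma cut_absorb2 (v : R3) :
    ENNReal.ofReal (1 + ‖v‖) * (ENNReal.ofReal (1 + ‖v‖) * gs (1 / 8) v) ≤ 10 ^ 4 * gs (1 / 16) v := by
  calc ENNReal.ofReal (1 + ‖v‖) * (ENNReal.ofReal (1 + ‖v‖) * gs (1 / 8) v)
      ≤ ENNReal.ofReal (1 + ‖v‖) * (100 * gs (3 / 32) v) :=
        mul_le_mul' le_rfl (weight_absorb (by norm_num) v)
    _ = 100 * (ENNReal.ofReal (1 + ‖v‖) * gs (3 / 32) v) := by ring
    _ ≤ 100 * (100 * gs (1 / 16) v) := mul_le_mul' le_rfl (weight_absorb (by norm_num) v)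
    _ = _ := by rw [← mul_assoc]; norm_num

/-- a priori bound for the Duhamel map -/
lemma duh_le {T₀ t : ℝ} {f₀ : R3 → R3 → ℝ≥0∞} {N : TF} {C : ℝ≥0∞}
    (hf : ∀ x v, f₀ x v ≤ C * gs (1 / 8) v)
    (hN : ∀ s ∈ Ioo T₀ t, ∀ x v, N s x v ≤ C * gs (1 / 8) v) (x v : R3) :
    duh T₀ f₀ N t x v ≤ (C + 10 ^ 8 * C ^ 2 * ENNReal.ofReal (t - T₀)) * gs (1 / 16) v := by
  unfold duh
  rw [add_mul]
  refine add_le_add ?_ ?_
  · calc _ ≤ 1 * (C * gs (1 / 8) v) := mul_le_mul' (damp_le_one _ _ _ _ _) (hf _ _)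
      _ ≤ _ := by rw [one_mul]; gcongr; exact gs_anti (by norm_num) v
  · calc _ ≤ ∫⁻ _ in Ioo T₀ t, 10 ^ 8 * C ^ 2 * gs (1 / 16) v := by
          refine setLIntegral_mono' measurableSet_Ioo fun s hs => ?_
          calc _ ≤ 1 * (C ^ 2 * 10 ^ 6 * (ENNReal.ofReal (1 + ‖v‖) * gs (1 / 8) v)) :=
                mul_le_mul' (damp_le_one _ _ _ _ _) (cut_gain_self_le (hN s hs _) v)
            _ ≤ 1 * (C ^ 2 * 10 ^ 6 * (100 * gs (1 / 16) v)) :=
                mul_le_mul' le_rfl (mul_le_mul' le_rfl (cut_absorb1 v))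
            _ = _ := by ring
      _ = _ := by rw [setLIntegral_const, Real.volume_Ioo]; ring

/-- the Lipschitz constant of the Duhamel map on a time interval of length `τ` -/
noncomputable def duhK (C : ℝ≥0∞) (τ : ℝ) : ℝ≥0∞ :=
  2 * 10 ^ 8 * C + 10 ^ 16 * C ^ 2 * ENNReal.ofReal τ

lemma duhK_ne_top {C : ℝ≥0∞} (hC : C ≠ ⊤) (τ : ℝ) : duhK C τ ≠ ⊤ := by
  unfold duhK
  finiteness

lemma duhK_mono (C : ℝ≥0∞) {τ τ' : ℝ} (h : τ ≤ τ') : duhK C τ ≤ duhK C τ' := by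
  unfold duhK
  gcongr

/-- **one-step Lipschitz estimate** for the Duhamel map: if `|N - N'| ≤ e(s) gs(1/16)` at time `s`
then `duh f₀ N ≤ duh g₀ N' + (δ + K ∫ e) gs(1/16)`. -/
lemma duh_lip {T₀ t : ℝ} {f₀ g₀ : R3 → R3 → ℝ≥0∞} {N N' : TF} {C δ : ℝ≥0∞} {e : ℝ → ℝ≥0∞}
    (hN : MeasT N) (hN' : MeasT N') (he : Measurable e)
    (hg : ∀ x v, g₀ x v ≤ C * gs (1 / 8) v)
    (hfg : ∀ x v, f₀ x v ≤ g₀ x v + δ * gs (1 / 16) v)
    (hb : ∀ s ∈ Ioo T₀ t, ∀ x v, N s x v ≤ C * gs (1 / 8) v)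
    (hb' : ∀ s ∈ Ioo T₀ t, ∀ x v, N' s x v ≤ C * gs (1 / 8) v)
    (h1 : ∀ s ∈ Ioo T₀ t, ∀ x v, N s x v ≤ N' s x v + e s * gs (1 / 16) v)
    (h2 : ∀ s ∈ Ioo T₀ t, ∀ x v, N' s x v ≤ N s x v + e s * gs (1 / 16) v) (x v : R3) :
    duh T₀ f₀ N t x v ≤ duh T₀ g₀ N' t x v +
      (δ + duhK C (t - T₀) * ∫⁻ s in Ioo T₀ t, e s) * gs (1 / 16) v := by
  set E := ∫⁻ s in Ioo T₀ t, e s with hE
  set w := ENNReal.ofReal (1 + ‖v‖) with hw
  have hd : ∀ s, T₀ ≤ s → damp N s t x v ≤ damp N' s t x v + 10 ^ 6 * w * E := fun s hs => by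
    refine (cut_damp_le hN he (fun r hr => h2 r ⟨hs.trans_lt hr.1, hr.2⟩) x v).trans ?_
    gcongr
    exact lintegral_mono_set (Ioo_subset_Ioo_left hs)
  have a1 : damp N T₀ t x v * f₀ (x - t • v) v ≤ damp N' T₀ t x v * g₀ (x - t • v) v +
      (δ + 10 ^ 8 * C * E) * gs (1 / 16) v := by
    calc _ ≤ damp N T₀ t x v * (g₀ (x - t • v) v + δ * gs (1 / 16) v) := by gcongr; exact hfg _ _
      _ = damp N T₀ t x v * g₀ (x - t • v) v + damp N T₀ t x v * (δ * gs (1 / 16) v) := mul_add _ _ _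
      _ ≤ (damp N' T₀ t x v + 10 ^ 6 * w * E) * g₀ (x - t • v) v + 1 * (δ * gs (1 / 16) v) := by
        gcongr
        · exact hd T₀ le_rfl
        · exact damp_le_one _ _ _ _ _
      _ = damp N' T₀ t x v * g₀ (x - t • v) v + 10 ^ 6 * w * E * g₀ (x - t • v) v +
          δ * gs (1 / 16) v := by ring
      _ ≤ damp N' T₀ t x v * g₀ (x - t • v) v + 10 ^ 6 * w * E * (C * gs (1 / 8) v) +
          δ * gs (1 / 16) v := by gcongr; exact hg _ _
      _ = damp N' T₀ t x v * g₀ (x - t • v) v + 10 ^ 6 * E * C * (w * gs (1 / 8) v) +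
          δ * gs (1 / 16) v := by ring
      _ ≤ damp N' T₀ t x v * g₀ (x - t • v) v + 10 ^ 6 * E * C * (100 * gs (1 / 16) v) +
          δ * gs (1 / 16) v :=
        add_le_add (add_le_add le_rfl (mul_le_mul' le_rfl (cut_absorb1 v))) le_rfl
      _ = _ := by ring
  have a2 : ∀ s ∈ Ioo T₀ t,
      damp N s t x v * gain (N s (x - (t - s) • v)) (N s (x - (t - s) • v)) v ≤
      damp N' s t x v * gain (N' s (x - (t - s) • v)) (N' s (x - (t - s) • v)) v +
        (10 ^ 16 * C ^ 2 * E * gs (1 / 16) v + 2 * 10 ^ 7 * C * gs (1 / 16) v * e s) := by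
    intro s hs
    set G' := gain (N' s (x - (t - s) • v)) (N' s (x - (t - s) • v)) v with hG'
    calc _ ≤ damp N s t x v * (G' + 2 * 10 ^ 7 * C * e s * gs (1 / 16) v) := by
          gcongr
          exact cut_gain_le (hN.slice _ _) (hN'.slice _ _) (hb s hs _) (hb' s hs _) (h1 s hs _) v
      _ = damp N s t x v * G' + damp N s t x v * (2 * 10 ^ 7 * C * e s * gs (1 / 16) v) :=
          mul_add _ _ _
      _ ≤ (damp N' s t x v + 10 ^ 6 * w * E) * G' + 1 * (2 * 10 ^ 7 * C * e s * gs (1 / 16) v) := by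
          gcongr
          · exact hd s hs.1.le
          · exact damp_le_one _ _ _ _ _
      _ = damp N' s t x v * G' + 10 ^ 6 * w * E * G' + 2 * 10 ^ 7 * C * gs (1 / 16) v * e s := by ring
      _ ≤ damp N' s t x v * G' + 10 ^ 6 * w * E * (C ^ 2 * 10 ^ 6 * (w * gs (1 / 8) v)) +
          2 * 10 ^ 7 * C * gs (1 / 16) v * e s := by
          gcongr; exact cut_gain_self_le (hb' s hs _) v
      _ = damp N' s t x v * G' + 10 ^ 12 * C ^ 2 * E * (w * (w * gs (1 / 8) v)) +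
          2 * 10 ^ 7 * C * gs (1 / 16) v * e s := by ring
      _ ≤ damp N' s t x v * G' + 10 ^ 12 * C ^ 2 * E * (10 ^ 4 * gs (1 / 16) v) +
          2 * 10 ^ 7 * C * gs (1 / 16) v * e s :=
          add_le_add (add_le_add le_rfl (mul_le_mul' le_rfl (cut_absorb2 v))) le_rfl
      _ = _ := by ring
  have a3 := setLIntegral_mono' (μ := volume) measurableSet_Ioo a2
  rw [lintegral_add_right _ ((he.const_mul _).const_add _),
    lintegral_add_right _ (he.const_mul _), setLIntegral_const, lintegral_const_mul _ he,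
    Real.volume_Ioo, ← hE] at a3
  unfold duh
  refine (add_le_add a1 a3).trans ?_
  rw [add_add_add_comm]
  gcongr
  have h27 : (2 * 10 ^ 7 : ℝ≥0∞) ≤ 10 ^ 8 := by norm_num
  calc _ ≤ (δ + 10 ^ 8 * C * E) * gs (1 / 16) v +
        (10 ^ 16 * C ^ 2 * E * gs (1 / 16) v * ENNReal.ofReal (t - T₀) +
          10 ^ 8 * C * gs (1 / 16) v * E) := by gcongr
    _ = _ := by unfold duhK; ring

lemma cut_lintegral_exp {a lam : ℝ} (ha : 0 ≤ a) (hlam : 0 < lam) (T₀ t : ℝ) :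
    ∫⁻ s in Ioo T₀ t, ENNReal.ofReal (a * Real.exp (lam * s)) ≤
      ENNReal.ofReal (a * Real.exp (lam * t) / lam) := by
  refine (lintegral_mono_set (fun s hs => (le_of_lt hs.2 : s ∈ Iic t))).trans (le_of_eq ?_)
  rw [← ofReal_integral_eq_lintegral_ofReal ((integrableOn_exp_mul_Iic hlam t).const_mul a)
    (ae_of_all _ fun s => by positivity), integral_const_mul, integral_exp_mul_Iic hlam,
    mul_div_assoc]

/-- contraction form of `duh_lip` in the exponentially weighted norm: any `lam ≥ 2 K` works -/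
lemma duh_lip_exp {T₀ t : ℝ} {f₀ g₀ : R3 → R3 → ℝ≥0∞} {N N' : TF} {C δ : ℝ≥0∞} {a lam : ℝ}
    (ha : 0 ≤ a) (hlam : 0 < lam) (hK : 2 * duhK C (t - T₀) ≤ ENNReal.ofReal lam)
    (hN : MeasT N) (hN' : MeasT N')
    (hg : ∀ x v, g₀ x v ≤ C * gs (1 / 8) v)
    (hfg : ∀ x v, f₀ x v ≤ g₀ x v + δ * gs (1 / 16) v)
    (hb : ∀ s ∈ Ioo T₀ t, ∀ x v, N s x v ≤ C * gs (1 / 8) v)
    (hb' : ∀ s ∈ Ioo T₀ t, ∀ x v, N' s x v ≤ C * gs (1 / 8) v)
    (h1 : ∀ s ∈ Ioo T₀ t, ∀ x v,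
      N s x v ≤ N' s x v + ENNReal.ofReal (a * Real.exp (lam * s)) * gs (1 / 16) v)
    (h2 : ∀ s ∈ Ioo T₀ t, ∀ x v,
      N' s x v ≤ N s x v + ENNReal.ofReal (a * Real.exp (lam * s)) * gs (1 / 16) v) (x v : R3) :
    duh T₀ f₀ N t x v ≤ duh T₀ g₀ N' t x v +
      (δ + ENNReal.ofReal (a / 2 * Real.exp (lam * t))) * gs (1 / 16) v := by
  refine (duh_lip hN hN' (e := fun s => ENNReal.ofReal (a * Real.exp (lam * s))) (by fun_prop)
    hg hfg hb hb' h1 h2 x v).trans ?_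
  gcongr
  have hK' : duhK C (t - T₀) ≤ ENNReal.ofReal (lam / 2) := by
    rw [ENNReal.ofReal_div_of_pos (by norm_num), ENNReal.ofReal_ofNat,
      ENNReal.le_div_iff_mul_le (Or.inl (by norm_num)) (Or.inl (by norm_num)), mul_comm]
    exact hK
  calc _ ≤ ENNReal.ofReal (lam / 2) * ENNReal.ofReal (a * Real.exp (lam * t) / lam) :=
        mul_le_mul' hK' (cut_lintegral_exp ha hlam T₀ t)
    _ = _ := by
      rw [← ENNReal.ofReal_mul (by positivity)]
      congr 1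
      field_simp

/-- passing from two one-sided extended inequalities to a real bound -/
lemma cut_abs_le {p q b : ℝ} (hp : 0 ≤ p) (hq : 0 ≤ q) (hb : 0 ≤ b) {a : ℝ} (v : R3)
    (h1 : ENNReal.ofReal p ≤ ENNReal.ofReal q + ENNReal.ofReal b * gs a v)
    (h2 : ENNReal.ofReal q ≤ ENNReal.ofReal p + ENNReal.ofReal b * gs a v) :
    |p - q| ≤ b * Real.exp (-(a * ‖v‖ ^ 2)) := by
  have hb' : 0 ≤ b * Real.exp (-(a * ‖v‖ ^ 2)) := by positivity
  unfold gs at h1 h2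
  rw [← ENNReal.ofReal_mul hb, ← ENNReal.ofReal_add (by assumption) hb',
    ENNReal.ofReal_le_ofReal_iff (by positivity)] at h1 h2
  rw [abs_le]
  constructor <;> linarith

lemma cut_ofReal_le {p b a : ℝ} (hb : 0 ≤ b) (v : R3) (h : p ≤ b * Real.exp (-(a * ‖v‖ ^ 2))) :
    ENNReal.ofReal p ≤ ENNReal.ofReal b * gs a v := by
  unfold gs
  rw [← ENNReal.ofReal_mul hb]
  exact ENNReal.ofReal_le_ofReal h

end Crest.Agent.R068
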