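import Crest.Agent.R068.EntAux3

/-! Row 68: the H-theorem for dominated mild solutions. -/

set_option autoImplicit false
open MeasureTheory Set Filter Topology
open scoped ENNReal
open Crest.AnalysisR.VecCalc3 Crest.AnalysisR.PDE.Boltzmann

namespace Crest.Agent.R068

lemma ent_sub {T₀ T t : ℝ} (hT₀ : 0 ≤ T₀) (ht : t ∈ Icc (0:ℝ) T) :
    Ioo T₀ t ×ˢ (cell ×ˢ (univ : Set R3)) ⊆ Ioo (0:ℝ) T ×ˢ (cell ×ˢ univ) :=
  prod_mono_left (Ioo_subset_Ioo hT₀ ht.2)

lemma ent_fin_lam {U : TF} (hU : Good U) {F : ℝ → R3 → R3 → ℝ} (hF : Dens F) {T : ℝ}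
    (hd : DomOn T F U) {d : ℝ} (hd0 : 0 < d) (hd1 : d ≤ 1) :
    (∫⁻ p in Ioo (0:ℝ) T ×ˢ (cell ×ˢ univ), (collGain F p.1 p.2.1 p.2.2 + collLoss F p.1 p.2.1 p.2.2) *
      ENNReal.ofReal (entLam d (F p.1 p.2.1 p.2.2) p.2.2) ∂(volume : Measure (ℝ × R3 × R3))) < ⊤ := by
  obtain ⟨K, hK, hle⟩ := entLam_le hd0 hd1
  have h1 := coll_weight_lt_top hU hF hd 2
  have h2 := coll_ent_lt_top hU hF hd
  have m1 : Measurable (fun p : ℝ × R3 × R3 => ENNReal.ofReal K * (ENNReal.ofReal ((1 + ‖p.2.2‖) ^ 2) *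
      (collGain F p.1 p.2.1 p.2.2 + collLoss F p.1 p.2.1 p.2.2))) := by
    refine Measurable.const_mul (Measurable.mul (by fun_prop) ?_) _
    exact Measurable.add (measurable_collGain hF.meas) (measurable_collLoss hF.meas)
  calc _ ≤ ∫⁻ p in Ioo (0:ℝ) T ×ˢ (cell ×ˢ univ),
        (64 * ((collGain F p.1 p.2.1 p.2.2 + collLoss F p.1 p.2.1 p.2.2) *
          up F p.1 p.2.1 p.2.2 ^ (1 / 64 : ℝ)) +
        ENNReal.ofReal K * (ENNReal.ofReal ((1 + ‖p.2.2‖) ^ 2) *
          (collGain F p.1 p.2.1 p.2.2 + collLoss F p.1 p.2.1 p.2.2)))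
          ∂(volume : Measure (ℝ × R3 × R3)) := by
        refine lintegral_mono fun p => ?_
        have h0 := hF.nonneg p.1 p.2.1 p.2.2
        have h3 : ENNReal.ofReal (entLam d (F p.1 p.2.1 p.2.2) p.2.2) ≤
            64 * up F p.1 p.2.1 p.2.2 ^ (1 / 64 : ℝ) +
              ENNReal.ofReal K * ENNReal.ofReal ((1 + ‖p.2.2‖) ^ 2) := by
          refine (ENNReal.ofReal_le_ofReal (hle _ h0 _)).trans (le_of_eq ?_)
          rw [ENNReal.ofReal_add (by positivity) (by positivity), ENNReal.ofReal_mul (by norm_num),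
            ENNReal.ofReal_mul hK, ← ENNReal.ofReal_rpow_of_nonneg h0 (by norm_num)]
          simp [up]
        refine (mul_le_mul_right h3 _).trans (le_of_eq ?_)
        ring
    _ < ⊤ := by
        rw [lintegral_add_right _ m1, lintegral_const_mul' _ _ (by norm_num),
          lintegral_const_mul' _ _ ENNReal.ofReal_ne_top]
        exact ENNReal.add_lt_top.2 ⟨ENNReal.mul_lt_top (by norm_num) h2,
          ENNReal.mul_lt_top ENNReal.ofReal_lt_top h1⟩

/-- conservation of mass -/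
lemma ent_mass {U : TF} (hU : Good U) {F : ℝ → R3 → R3 → ℝ} (hF : Dens F) {T₀ T : ℝ}
    (hT₀ : 0 ≤ T₀) (hm : Mild T₀ T F) (hd : DomOn T F U) {t : ℝ} (ht : t ∈ Icc (0:ℝ) T) :
    (∫⁻ q in cell ×ˢ univ, ENNReal.ofReal (F t q.1 q.2) ∂(volume : Measure (R3 × R3))) =
      ∫⁻ q in cell ×ˢ univ, ENNReal.ofReal (F 0 q.1 q.2) ∂(volume : Measure (R3 × R3)) := by
  have h1 := (lintegral_mono_set (ent_sub hT₀ ht)).trans_lt (coll_weight_lt_top hU hF hd 0)
  simp only [pow_zero, ENNReal.ofReal_one, one_mul] at h1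
  have hG : (∫⁻ p in Ioo T₀ t ×ˢ (cell ×ˢ univ), collGain F p.1 p.2.1 p.2.2
      ∂(volume : Measure (ℝ × R3 × R3))) ≠ ⊤ :=
    ((lintegral_mono fun p => le_self_add).trans_lt h1).ne
  have hL : (∫⁻ p in Ioo T₀ t ×ˢ (cell ×ˢ univ), collLoss F p.1 p.2.1 p.2.2
      ∂(volume : Measure (ℝ × R3 × R3))) ≠ ⊤ :=
    ((lintegral_mono fun p => le_add_self).trans_lt h1).ne
  have h2 := ent_char hF hT₀ hm ht (β := fun _ _ => 1) (P := fun y _ => y) measurable_const
    measurable_fst (fun _ _ _ => zero_le_one) (fun _ hy _ => hy)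
    (fun _ => ⟨fun y => y, fun _ => 1, fun y => hasDerivAt_id y, continuous_const,
      fun _ _ => ⟨rfl, rfl⟩⟩)
    (by simpa only [ENNReal.ofReal_one, mul_one] using hG)
    (by simpa only [ENNReal.ofReal_one, mul_one] using hL)
  simp only [ENNReal.ofReal_one, mul_one] at h2
  have mG := measurable_collGain hF.meas
  have mL := measurable_collLoss hF.meas
  have h3 : (∫⁻ p in Ioo T₀ t ×ˢ (cell ×ˢ univ), collGain F p.1 p.2.1 p.2.2
      ∂(volume : Measure (ℝ × R3 × R3))) = ∫⁻ p in Ioo T₀ t ×ˢ (cell ×ˢ univ),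
        collLoss F p.1 p.2.1 p.2.2 ∂(volume : Measure (ℝ × R3 × R3)) := by
    rw [ent_lint_I mG, ent_lint_I mL]
    refine lintegral_congr fun s => ?_
    rw [ent_lint_cell (mG.comp measurable_const measurable_fst measurable_snd),
      ent_lint_cell (mL.comp measurable_const measurable_fst measurable_snd)]
    exact lintegral_congr fun x => ent_local_mass hF s x
  rw [h3] at h2
  exact (ENNReal.add_left_inj hL).1 h2

lemma ent_mM : (∫⁻ q in cell ×ˢ univ, ENNReal.ofReal (maxwellian q.2) ∂(volume : Measure (R3 × R3))) = 1 := by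
  have mM : Measurable (fun q : R3 × R3 => ENNReal.ofReal (maxwellian q.2)) :=
    (ent_measurable_maxwellian.comp measurable_snd).ennreal_ofReal
  rw [ent_lint_cell mM]
  have : ∫⁻ v, ENNReal.ofReal (maxwellian v) = 1 := lintegral_mu
  simp [this, volume_cell]

lemma ent_PH {f : R3 → R3 → ℝ} (hf : MeasP f) (h0 : ∀ x v, 0 ≤ f x v) {d : ℝ} (hd : 0 < d) :
    (∫⁻ q in cell ×ˢ univ, ENNReal.ofReal (entP d (f q.1 q.2) q.2) ∂(volume : Measure (R3 × R3))) + 1 =
    (∫⁻ q in cell ×ˢ univ, ENNReal.ofReal (entEta d (f q.1 q.2) q.2) ∂(volume : Measure (R3 × R3))) +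
      (ENNReal.ofReal (Real.log ((1 + d) / d)) *
        (∫⁻ q in cell ×ˢ univ, ENNReal.ofReal (f q.1 q.2) ∂(volume : Measure (R3 × R3))) +
      ENNReal.ofReal (Real.log ((1 + d) / d) * d)) := by
  have hκ : 0 ≤ Real.log ((1 + d) / d) := Real.log_nonneg (by rw [le_div_iff₀ hd]; linarith)
  have mM : Measurable (fun q : R3 × R3 => ENNReal.ofReal (maxwellian q.2)) :=
    (ent_measurable_maxwellian.comp measurable_snd).ennreal_ofReal
  have mf : Measurable (fun q : R3 × R3 => ENNReal.ofReal (f q.1 q.2)) := Measurable.ennreal_ofReal hf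
  have h1 : (∫⁻ q in cell ×ˢ univ, (ENNReal.ofReal (entP d (f q.1 q.2) q.2) +
      ENNReal.ofReal (maxwellian q.2)) ∂(volume : Measure (R3 × R3))) =
      ∫⁻ q in cell ×ˢ univ, (ENNReal.ofReal (entEta d (f q.1 q.2) q.2) +
        ENNReal.ofReal (Real.log ((1 + d) / d)) * ENNReal.ofReal (f q.1 q.2) +
        ENNReal.ofReal (Real.log ((1 + d) / d) * d) * ENNReal.ofReal (maxwellian q.2))
        ∂(volume : Measure (R3 × R3)) := by
    refine lintegral_congr fun q => ?_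
    have := maxwellian_pos q.2
    have := h0 q.1 q.2
    rw [← ENNReal.ofReal_add (entP_nonneg hd (h0 _ _) _) (maxwellian_pos _).le, entP_add hd (h0 _ _),
      ENNReal.ofReal_add (add_nonneg (entEta_nonneg hd (h0 _ _) _) (by positivity)) (by positivity),
      ENNReal.ofReal_add (entEta_nonneg hd (h0 _ _) _) (by positivity), ENNReal.ofReal_mul hκ,
      ENNReal.ofReal_mul (by positivity)]
  rw [lintegral_add_right _ mM, lintegral_add_right _ (mM.const_mul _),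
    lintegral_add_right _ (mf.const_mul _), lintegral_const_mul _ mM, lintegral_const_mul _ mf,
    ent_mM, mul_one, add_assoc] at h1
  exact h1

/-- the dissipation estimate at a fixed time -/
lemma ent_time {F : ℝ → R3 → R3 → ℝ} (hF : Dens F) (s : ℝ) {d : ℝ} (hd : 0 < d) (hd1 : d ≤ 1) :
    (∫⁻ q in cell ×ˢ univ, ∫⁻ vs, ∫⁻ w, entSI d (F s q.1) q.2 vs w ∂sphereMeasure ∂volume
      ∂(volume : Measure (R3 × R3))) +
      4 * ∫⁻ q in cell ×ˢ univ, collGain F s q.1 q.2 * ENNReal.ofReal (entLam d (F s q.1 q.2) q.2)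
        ∂(volume : Measure (R3 × R3)) ≤
    4 * (∫⁻ q in cell ×ˢ univ, collLoss F s q.1 q.2 * ENNReal.ofReal (entLam d (F s q.1 q.2) q.2)
        ∂(volume : Measure (R3 × R3))) +
      ENNReal.ofReal d * (4 * entm * sphereMeasure univ *
        ((∫⁻ q in cell ×ˢ univ, ENNReal.ofReal ((1 + ‖q.2‖) * F s q.1 q.2)
          ∂(volume : Measure (R3 × R3))) + entm)) := by
  have mF : Measurable (fun q : R3 × R3 => F s q.1 q.2) :=
    hF.meas.comp measurable_const measurable_fst measurable_snd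
  have mΛ : Measurable (fun q : R3 × R3 => ENNReal.ofReal (entLam d (F s q.1 q.2) q.2)) :=
    ((measurable_entLam d).comp (f := fun q : R3 × R3 => (F s q.1 q.2, q.2))
      (mF.prodMk measurable_snd)).ennreal_ofReal
  have mG : Measurable (fun q : R3 × R3 => collGain F s q.1 q.2 *
      ENNReal.ofReal (entLam d (F s q.1 q.2) q.2)) :=
    ((measurable_collGain hF.meas).comp measurable_const measurable_fst measurable_snd).mul mΛ
  have mL : Measurable (fun q : R3 × R3 => collLoss F s q.1 q.2 *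
      ENNReal.ofReal (entLam d (F s q.1 q.2) q.2)) :=
    ((measurable_collLoss hF.meas).comp measurable_const measurable_fst measurable_snd).mul mΛ
  have mN : Measurable (fun q : R3 × R3 => ENNReal.ofReal ((1 + ‖q.2‖) * F s q.1 q.2)) :=
    Measurable.ennreal_ofReal (Measurable.mul (by fun_prop) mF)
  have mS0 := measurable_entSI (α := R3) d (f := F s) mF
  have mS1 : Measurable (fun z : ((R3 × R3) × R3) × R3 => entSI d (F s z.1.1.1) z.1.1.2 z.1.2 z.2) :=
    mS0.comp (f := fun z : ((R3 × R3) × R3) × R3 => (z.1.1.1, z.1.1.2, z.1.2, z.2)) (by fun_prop)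
  have mS2 : Measurable (fun z : (R3 × R3) × R3 =>
      ∫⁻ w, entSI d (F s z.1.1) z.1.2 z.2 w ∂sphereMeasure) := mS1.lintegral_prod_right'
  have mS : Measurable (fun q : R3 × R3 =>
      ∫⁻ vs, ∫⁻ w, entSI d (F s q.1) q.2 vs w ∂sphereMeasure) := mS2.lintegral_prod_right'
  have nG : Measurable (fun x : R3 => ∫⁻ v, collGain F s x v *
      ENNReal.ofReal (entLam d (F s x v) v)) := mG.lintegral_prod_right'
  have nL : Measurable (fun x : R3 => ∫⁻ v, collLoss F s x v *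
      ENNReal.ofReal (entLam d (F s x v) v)) := mL.lintegral_prod_right'
  have nN : Measurable (fun x : R3 => ∫⁻ v, ENNReal.ofReal ((1 + ‖v‖) * F s x v)) :=
    mN.lintegral_prod_right'
  rw [ent_lint_cell mS, ent_lint_cell mG, ent_lint_cell mL, ent_lint_cell mN]
  have key := lintegral_mono (μ := (volume : Measure R3).restrict cell)
    fun x => ent_local (hF.meas.slice s x) (hF.nonneg s x) hd hd1
  rw [lintegral_add_right _ (nG.const_mul _), lintegral_add_left (nL.const_mul _),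
    lintegral_const_mul _ nG, lintegral_const_mul _ nL,
    lintegral_const_mul _ ((nN.add_const _).const_mul _), lintegral_const_mul _ (nN.add_const _),
    lintegral_add_left nN] at key
  simpa [volume_cell] using key

lemma ent_alg {Ht H0 Pt P0 X a b D E : ℝ≥0∞} (hX : X ≠ ⊤) (ha : a ≠ ⊤) (h1 : Pt + 1 = Ht + X)
    (h2 : P0 + 1 = H0 + X) (h3 : Pt + b = P0 + a) (h4 : D + 4 * a ≤ 4 * b + E) :
    4 * Ht + D ≤ 4 * H0 + E := by
  have hf : 4 * X + 4 * a ≠ ⊤ :=
    ENNReal.add_ne_top.2 ⟨ENNReal.mul_ne_top (by norm_num) hX, ENNReal.mul_ne_top (by norm_num) ha⟩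
  rw [← ENNReal.add_le_add_iff_right hf]
  calc 4 * Ht + D + (4 * X + 4 * a) = 4 * (Ht + X) + (D + 4 * a) := by ring
    _ ≤ 4 * (Pt + 1) + (4 * b + E) := by rw [h1]; exact add_le_add le_rfl h4
    _ = 4 * (Pt + b) + 4 + E := by ring
    _ = 4 * (P0 + 1) + 4 * a + E := by rw [h3]; ring
    _ = _ := by rw [h2]; ring

lemma ent_mD {F : ℝ → R3 → R3 → ℝ} (hF : Dens F) (d : ℝ) :
    Measurable (fun z : ((ℝ × R3 × R3) × R3) × R3 =>
      entSI d (F z.1.1.1 z.1.1.2.1) z.1.1.2.2 z.1.2 z.2) := by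
  have mS0 := measurable_entSI (α := ℝ × R3) d (f := fun a => F a.1 a.2)
    (hF.meas.comp measurable_fst.fst measurable_fst.snd measurable_snd)
  exact mS0.comp (f := fun z : ((ℝ × R3 × R3) × R3) × R3 =>
    ((z.1.1.1, z.1.1.2.1), z.1.1.2.2, z.1.2, z.2)) (by fun_prop)

/-- the regularised entropy inequality -/
lemma ent_reg {U : TF} (hU : Good U) {F : ℝ → R3 → R3 → ℝ} (hF : Dens F) {T₀ T : ℝ}
    (hT₀ : 0 ≤ T₀) (hm : Mild T₀ T F) (hd : DomOn T F U) {t : ℝ} (ht : t ∈ Icc (0:ℝ) T) :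
    ∃ C : ℝ≥0∞, C ≠ ⊤ ∧ ∀ d : ℝ, 0 < d → d ≤ 1 →
      4 * (∫⁻ q in cell ×ˢ univ, ENNReal.ofReal (entEta d (F t q.1 q.2) q.2)
        ∂(volume : Measure (R3 × R3))) +
      (∫⁻ s in Ioo T₀ t, ∫⁻ q in cell ×ˢ univ, ∫⁻ vs, ∫⁻ w, entSI d (F s q.1) q.2 vs w ∂sphereMeasure
        ∂volume ∂(volume : Measure (R3 × R3))) ≤ 4 * relEntropy (F 0) + ENNReal.ofReal d * C := by
  obtain ⟨C₀, hC₀, hb⟩ := ent_bound hU hF hd
  have hN : ∀ s ∈ Icc (0:ℝ) T, (∫⁻ q in cell ×ˢ univ, ENNReal.ofReal ((1 + ‖q.2‖) * F s q.1 q.2)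
      ∂(volume : Measure (R3 × R3))) ≤ 2 * C₀ := by
    intro s hs
    refine le_trans ?_ (mul_le_mul_right (hb s hs) 2)
    rw [← lintegral_const_mul' _ _ (by norm_num)]
    refine lintegral_mono fun q => ?_
    refine le_trans (ENNReal.ofReal_le_ofReal ?_) (le_of_eq
      ((ENNReal.ofReal_mul (p := 2)
        (q := F s q.1 q.2 * (1 + ‖q.2‖ ^ 2 + |Real.log (F s q.1 q.2)|)) (by norm_num)).trans
        (by rw [ENNReal.ofReal_ofNat])))
    have h1 := hF.nonneg s q.1 q.2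
    have h2 : 1 + ‖q.2‖ ≤ 2 * (1 + ‖q.2‖ ^ 2 + |Real.log (F s q.1 q.2)|) := by
      nlinarith [abs_nonneg (Real.log (F s q.1 q.2)), sq_nonneg (‖q.2‖ - 1), norm_nonneg q.2]
    nlinarith [mul_le_mul_of_nonneg_right h2 h1]
  have hm0 : (∫⁻ q in cell ×ˢ univ, ENNReal.ofReal (F 0 q.1 q.2) ∂(volume : Measure (R3 × R3))) ≠ ⊤ := by
    refine ne_top_of_le_ne_top (ENNReal.mul_ne_top (a := 2) (by norm_num) hC₀.ne)
      (le_trans (lintegral_mono fun q => ENNReal.ofReal_le_ofReal ?_) (hN 0 ⟨le_rfl, ht.1.trans ht.2⟩))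
    nlinarith [hF.nonneg 0 q.1 q.2, norm_nonneg q.2]
  obtain ⟨K, hK⟩ : ∃ K : ℝ≥0∞, K = 4 * entm * sphereMeasure univ * (2 * C₀ + entm) := ⟨_, rfl⟩
  have hKf : K ≠ ⊤ := by
    rw [hK]
    exact ENNReal.mul_ne_top (ENNReal.mul_ne_top (ENNReal.mul_ne_top (by norm_num) entm_lt_top.ne)
      (measure_ne_top _ _)) (ENNReal.add_ne_top.2 ⟨ENNReal.mul_ne_top (by norm_num) hC₀.ne,
        entm_lt_top.ne⟩)
  refine ⟨K * volume (Ioo T₀ t), ENNReal.mul_ne_top hKf (by simp), fun d hd0 hd1 => ?_⟩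
  have hfin := (lintegral_mono_set (ent_sub hT₀ ht)).trans_lt (ent_fin_lam hU hF hd hd0 hd1)
  have hG : (∫⁻ p in Ioo T₀ t ×ˢ (cell ×ˢ univ), collGain F p.1 p.2.1 p.2.2 *
      ENNReal.ofReal (entLam d (F p.1 p.2.1 p.2.2) p.2.2) ∂(volume : Measure (ℝ × R3 × R3))) ≠ ⊤ :=
    ((lintegral_mono fun p => mul_le_mul_left le_self_add _).trans_lt hfin).ne
  have hL : (∫⁻ p in Ioo T₀ t ×ˢ (cell ×ˢ univ), collLoss F p.1 p.2.1 p.2.2 *
      ENNReal.ofReal (entLam d (F p.1 p.2.1 p.2.2) p.2.2) ∂(volume : Measure (ℝ × R3 × R3))) ≠ ⊤ :=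
    ((lintegral_mono fun p => mul_le_mul_left le_add_self _).trans_lt hfin).ne
  have h3 := ent_char hF hT₀ hm ht (β := entLam d) (P := entP d) (measurable_entLam d)
    (measurable_entP d) (fun _ hy v => entLam_nonneg hd0 hy v) (fun _ hy v => entP_nonneg hd0 hy v)
    (entP_ext hd0) hG hL
  have mFs : ∀ s, MeasP (F s) := fun s => hF.meas.comp measurable_const measurable_fst measurable_snd
  have h1 := ent_PH (mFs t) (hF.nonneg t) hd0
  have h2 := ent_PH (mFs 0) (hF.nonneg 0) hd0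
  rw [ent_mass hU hF hT₀ hm hd ht] at h1
  have mΛ : Measurable (fun p : ℝ × R3 × R3 => ENNReal.ofReal (entLam d (F p.1 p.2.1 p.2.2) p.2.2)) :=
    ((measurable_entLam d).comp (f := fun p : ℝ × R3 × R3 => (F p.1 p.2.1 p.2.2, p.2.2))
      (Measurable.prodMk hF.meas measurable_snd.snd)).ennreal_ofReal
  have mG : Measurable (fun p : ℝ × R3 × R3 => collGain F p.1 p.2.1 p.2.2 *
      ENNReal.ofReal (entLam d (F p.1 p.2.1 p.2.2) p.2.2)) :=
    Measurable.mul (measurable_collGain hF.meas) mΛ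
  have mL : Measurable (fun p : ℝ × R3 × R3 => collLoss F p.1 p.2.1 p.2.2 *
      ENNReal.ofReal (entLam d (F p.1 p.2.1 p.2.2) p.2.2)) :=
    Measurable.mul (measurable_collLoss hF.meas) mΛ
  have nG : Measurable (fun s : ℝ => ∫⁻ q in cell ×ˢ univ, collGain F s q.1 q.2 *
      ENNReal.ofReal (entLam d (F s q.1 q.2) q.2) ∂(volume : Measure (R3 × R3))) :=
    mG.lintegral_prod_right'
  have nL : Measurable (fun s : ℝ => ∫⁻ q in cell ×ˢ univ, collLoss F s q.1 q.2 *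
      ENNReal.ofReal (entLam d (F s q.1 q.2) q.2) ∂(volume : Measure (R3 × R3))) :=
    mL.lintegral_prod_right'
  have h4 : (∫⁻ s in Ioo T₀ t, ∫⁻ q in cell ×ˢ univ, ∫⁻ vs, ∫⁻ w, entSI d (F s q.1) q.2 vs w
        ∂sphereMeasure ∂volume ∂(volume : Measure (R3 × R3))) +
      4 * (∫⁻ p in Ioo T₀ t ×ˢ (cell ×ˢ univ), collGain F p.1 p.2.1 p.2.2 *
        ENNReal.ofReal (entLam d (F p.1 p.2.1 p.2.2) p.2.2) ∂(volume : Measure (ℝ × R3 × R3))) ≤
      4 * (∫⁻ p in Ioo T₀ t ×ˢ (cell ×ˢ univ), collLoss F p.1 p.2.1 p.2.2 *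
        ENNReal.ofReal (entLam d (F p.1 p.2.1 p.2.2) p.2.2) ∂(volume : Measure (ℝ × R3 × R3))) +
      ENNReal.ofReal d * (K * volume (Ioo T₀ t)) := by
    rw [ent_lint_I mG, ent_lint_I mL, ← lintegral_const_mul _ nG, ← lintegral_const_mul _ nL,
      ← lintegral_add_right _ (nG.const_mul _), ← mul_assoc, ← setLIntegral_const,
      ← lintegral_add_left (nL.const_mul _)]
    refine setLIntegral_mono' measurableSet_Ioo fun s hs => ?_
    refine (ent_time hF s hd0 hd1).trans (add_le_add le_rfl (mul_le_mul_right ?_ _))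
    rw [hK]
    exact mul_le_mul_right (add_le_add (hN s ⟨hT₀.trans hs.1.le, hs.2.le.trans ht.2⟩) le_rfl) _
  refine (ent_alg (ENNReal.add_ne_top.2 ⟨ENNReal.mul_ne_top ENNReal.ofReal_ne_top hm0,
    ENNReal.ofReal_ne_top⟩) hG h1 h2 h3 h4).trans (add_le_add (mul_le_mul_right ?_ _) le_rfl)
  exact lintegral_mono fun q => ENNReal.ofReal_le_ofReal (entEta_le hd0 (hF.nonneg _ _ _) _)

/-- the entropy inequality -/
theorem entropy_ineq {U : TF} (hU : Good U) {F : ℝ → R3 → R3 → ℝ} (hF : Dens F) {T₀ T : ℝ}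
    (hT₀ : 0 ≤ T₀) (hm : Mild T₀ T F) (hd : DomOn T F U) {t : ℝ} (ht : t ∈ Icc (0:ℝ) T) :
    relEntropy (F t) + (∫⁻ s in Ioo T₀ t, dissipation (F s)) ≤ relEntropy (F 0) := by
  obtain ⟨C, hC, h⟩ := ent_reg hU hF hT₀ hm hd ht
  obtain ⟨d, hd0, hd1, hdt⟩ : ∃ d : ℕ → ℝ, (∀ n, 0 < d n) ∧ (∀ n, d n ≤ 1) ∧ Tendsto d atTop (𝓝 0) :=
    ⟨fun n => 1 / ((n:ℝ) + 1), fun n => by positivity, fun n => by
      rw [div_le_one (by positivity)]; linarith [(Nat.cast_nonneg n : (0:ℝ) ≤ n)],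
      tendsto_one_div_add_atTop_nhds_zero_nat⟩
  have he : Tendsto (fun n => ENNReal.ofReal (d n) * C) atTop (𝓝 0) := by
    have := ENNReal.Tendsto.mul_const (b := C) (ENNReal.tendsto_ofReal hdt) (Or.inr hC)
    simpa using this
  have mE : ∀ n, Measurable (fun q : R3 × R3 => ENNReal.ofReal (entEta (d n) (F t q.1 q.2) q.2)) :=
    fun n => ((measurable_entEta (d n)).comp (f := fun q : R3 × R3 => (F t q.1 q.2, q.2))
      ((hF.meas.comp measurable_const measurable_fst measurable_snd).prodMk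
        measurable_snd)).ennreal_ofReal
  have f1 : 4 * relEntropy (F t) ≤ liminf (fun n => 4 * ∫⁻ q in cell ×ˢ univ,
      ENNReal.ofReal (entEta (d n) (F t q.1 q.2) q.2) ∂(volume : Measure (R3 × R3))) atTop := by
    unfold relEntropy
    simp_rw [← lintegral_const_mul' (4:ℝ≥0∞) _ (by norm_num)]
    refine ent_fatou (fun n => (mE n).const_mul _) fun q => ?_
    exact (ENNReal.Tendsto.const_mul (ENNReal.tendsto_ofReal (entEta_tendsto hdt hd0 _ _))
      (Or.inr (by norm_num))).liminf_eq.ge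
  have m1 := fun n => ent_mD hF (d n)
  have m2 : ∀ n, Measurable (fun z : (ℝ × R3 × R3) × R3 =>
      ∫⁻ w, entSI (d n) (F z.1.1 z.1.2.1) z.1.2.2 z.2 w ∂sphereMeasure) :=
    fun n => (m1 n).lintegral_prod_right'
  have m3 : ∀ n, Measurable (fun p : ℝ × R3 × R3 =>
      ∫⁻ vs, ∫⁻ w, entSI (d n) (F p.1 p.2.1) p.2.2 vs w ∂sphereMeasure) :=
    fun n => (m2 n).lintegral_prod_right'
  have m4 : ∀ n, Measurable (fun s : ℝ => ∫⁻ q in cell ×ˢ univ,
      ∫⁻ vs, ∫⁻ w, entSI (d n) (F s q.1) q.2 vs w ∂sphereMeasure ∂volume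
        ∂(volume : Measure (R3 × R3))) :=
    fun n => (m3 n).lintegral_prod_right'
  have f2 : 4 * (∫⁻ s in Ioo T₀ t, dissipation (F s)) ≤ liminf (fun n => ∫⁻ s in Ioo T₀ t,
      ∫⁻ q in cell ×ˢ univ, ∫⁻ vs, ∫⁻ w, entSI (d n) (F s q.1) q.2 vs w ∂sphereMeasure ∂volume
        ∂(volume : Measure (R3 × R3))) atTop := by
    unfold dissipation
    rw [lintegral_const_mul' _ _ (by norm_num), ← mul_assoc,
      ENNReal.mul_inv_cancel (by norm_num) (by norm_num), one_mul]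
    refine ent_fatou m4 fun s => ?_
    refine ent_fatou (fun n => (m3 n).comp (f := fun q : R3 × R3 => (s, q))
      measurable_prodMk_left) fun q => ?_
    refine ent_fatou (fun n => (m2 n).comp (f := fun vs : R3 => ((s, q), vs))
      measurable_prodMk_left) fun vs => ?_
    refine ent_fatou (fun n => (m1 n).comp (f := fun w : R3 => (((s, q), vs), w))
      measurable_prodMk_left) fun w => ?_
    exact (entSI_tendsto hdt hd0 (hF.nonneg s q.1) q.2 vs w).liminf_eq.ge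
  have := ent_liminf_add f1 f2 (fun n => h (d n) (hd0 n) (hd1 n)) he
  rw [← mul_add] at this
  exact (ENNReal.mul_le_mul_iff_right (by norm_num) (by norm_num)).1 this

end Crest.Agent.R068
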