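import Crest.Agent.R068.Weak
import Crest.Agent.R068.Ent
import Crest.Agent.R068.Cons

/-! Row 68: assembly of the solution class; distinguishing two solutions. -/

set_option autoImplicit false
open MeasureTheory Set Filter Topology
open scoped ENNReal
open Crest.AnalysisR.VecCalc3 Crest.AnalysisR.PDE.Boltzmann

namespace Crest.Agent.R068

theorem mild_global {U : TF} (hU : Good U) {F : ℝ → R3 → R3 → ℝ} (hF : Dens F)
    (hm : ∀ T, Mild 0 T F) (hd : ∀ T, DomOn T F U) : IsGlobalSolution F (F 0) := by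
  refine ⟨hF.meas, fun t x v _ => hF.nonneg t x v, hF.per, fun _ _ => rfl, mild_weak hU hF hm hd,
    mild_local hU hF hm hd, fun T => ent_bound hU hF (hd T), mild_cont hU hF hm hd, fun T k => ?_,
    mild_momentum hU hF hm hd, mild_energy hU hF hm hd, fun t ht => ?_⟩
  · refine lt_of_le_of_lt (lintegral_mono fun p => ?_) (coll_weight_lt_top hU hF (hd T) k)
    refine mul_le_mul_left (ENNReal.ofReal_le_ofReal ?_) _
    have hn := norm_nonneg p.2.2
    calc (1 + ‖p.2.2‖ ^ 2) ^ (k / 2 : ℝ) ≤ ((1 + ‖p.2.2‖) ^ 2) ^ (k / 2 : ℝ) :=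
          Real.rpow_le_rpow (by positivity) (by nlinarith) (by positivity)
      _ = (1 + ‖p.2.2‖) ^ k := by
          rw [← Real.rpow_natCast, ← Real.rpow_mul (by positivity), ← Real.rpow_natCast]
          congr 1
          push_cast
          ring
  · rw [← setLIntegral_congr (Ioo_ae_eq_Icc (a := (0 : ℝ)) (b := t))]
    exact entropy_ineq hU hF le_rfl (hm t) (hd t) ⟨ht, le_rfl⟩

theorem differ {F₁ F₂ : ℝ → R3 → R3 → ℝ} {F₀ : R3 → R3 → ℝ} (h₁ : IsGlobalSolution F₁ F₀)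
    (h₂ : IsGlobalSolution F₂ F₀) {t : ℝ} (ht : 0 < t) {ψ : R3 × R3 → ℝ} (hψ : Wt ψ)
    (hne : ∫ q : R3 × R3, F₁ t q.1 q.2 * ψ q ≠ ∫ q : R3 × R3, F₂ t q.1 q.2 * ψ q) :
    0 < volume {p : ℝ × R3 × R3 | p ∈ region ∧ F₁ p.1 p.2.1 p.2.2 ≠ F₂ p.1 p.2.1 p.2.2} := by
  rw [pos_iff_ne_zero]
  intro h0
  apply hne
  obtain ⟨m₁, -, p₁, -, -, -, -, c₁, -⟩ := h₁
  obtain ⟨m₂, -, p₂, -, -, -, -, c₂, -⟩ := h₂
  have s₁ : ∀ s, Measurable fun q : R3 × R3 => F₁ s q.1 q.2 := fun s =>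
    m₁.comp (measurable_const.prodMk measurable_id)
  have s₂ : ∀ s, Measurable fun q : R3 × R3 => F₂ s q.1 q.2 := fun s =>
    m₂.comp (measurable_const.prodMk measurable_id)
  have hae : ∀ᵐ p : ℝ × R3 × R3, ¬ (p ∈ region ∧ F₁ p.1 p.2.1 p.2.2 ≠ F₂ p.1 p.2.1 p.2.2) :=
    measure_eq_zero_iff_ae_notMem.1 h0
  rw [Measure.volume_eq_prod] at hae
  have hae2 := Measure.ae_ae_of_ae_prod hae
  have hfr : ∃ᶠ s in 𝓝 t, ∀ᵐ q : R3 × R3,
      ¬ ((s, q) ∈ region ∧ F₁ s q.1 q.2 ≠ F₂ s q.1 q.2) :=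
    mem_closure_iff_frequently.1 (Measure.dense_of_ae hae2 t)
  have hn : nhdsWithin t (Ici 0) = 𝓝 t := nhdsWithin_eq_nhds.2 (Ici_mem_nhds ht)
  have t₁ := c₁ t ht.le
  have t₂ := c₂ t ht.le
  rw [hn] at t₁ t₂
  have t₃ := t₁.add t₂
  rw [add_zero] at t₃
  have hS : MeasurableSet (cell ×ˢ (univ : Set R3)) := measurableSet_cell.prod MeasurableSet.univ
  have hD : (∫⁻ q in cell ×ˢ univ, ‖F₁ t q.1 q.2 - F₂ t q.1 q.2‖ₑ ∂(volume : Measure (R3 × R3)))
      ≤ 0 := by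
    refine isClosed_Ici.mem_of_frequently_of_tendsto ?_ t₃
    refine (hfr.and_eventually (Ioi_mem_nhds ht)).mono fun s ⟨hs, hs0⟩ => ?_
    have hm : Measurable fun q : R3 × R3 => ‖F₁ s q.1 q.2 - F₁ t q.1 q.2‖ₑ :=
      ((s₁ s).sub (s₁ t)).enorm
    rw [mem_Ici, ← lintegral_add_left hm]
    refine lintegral_mono_ae ?_
    filter_upwards [ae_restrict_of_ae hs, ae_restrict_mem hS] with q hq hq'
    have e : F₁ s q.1 q.2 = F₂ s q.1 q.2 := by
      by_contra hc
      exact hq ⟨⟨hs0, hq'⟩, hc⟩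
    rw [e, show F₁ t q.1 q.2 - F₂ t q.1 q.2 =
      -(F₂ s q.1 q.2 - F₁ t q.1 q.2) + (F₂ s q.1 q.2 - F₂ t q.1 q.2) by ring]
    refine (enorm_add_le _ _).trans (le_of_eq ?_)
    rw [enorm_neg]
  have hD2 := (lintegral_eq_zero_iff ((s₁ t).sub (s₂ t)).enorm).1 (le_antisymm hD bot_le)
  have hall := ae_of_ae_cell (P := fun x v => F₁ t x v = F₂ t x v)
    (fun v x i => by simp only [p₁ t v x i, p₂ t v x i]) (by
      filter_upwards [hD2] with q hq
      simpa [sub_eq_zero] using hq)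
  refine integral_congr_ae ?_
  filter_upwards [hall] with q hq
  rw [hq]

lemma glob_meas_mu : Measurable fun q : R3 × R3 => mu q.2 := measurable_mu.comp measurable_snd

lemma glob_lintegral_mu :
    ∫⁻ q in cell ×ˢ univ, mu q.2 ∂(volume : Measure (R3 × R3)) = 1 := by
  rw [Measure.volume_eq_prod, ← Measure.prod_restrict, Measure.restrict_univ,
    lintegral_prod _ glob_meas_mu.aemeasurable]
  simp [lintegral_mu, volume_cell]

lemma glob_ptw {y M ε : ℝ} (hy : 0 ≤ y) (hM : 0 < M) (hε : 0 < ε) :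
    0 ≤ y * Real.log (y / M) - y + M ∧
      |y - M| ≤ ε * M + (1 + 1 / ε) * (y * Real.log (y / M) - y + M) := by
  obtain ⟨a, ha, rfl⟩ : ∃ a : ℝ, 0 ≤ a ∧ y = a ^ 2 := ⟨√y, Real.sqrt_nonneg _, (Real.sq_sqrt hy).symm⟩
  obtain ⟨b, hb, rfl⟩ : ∃ b : ℝ, 0 < b ∧ M = b ^ 2 :=
    ⟨√M, Real.sqrt_pos.2 hM, (Real.sq_sqrt hM.le).symm⟩
  have h1 : (a - b) ^ 2 ≤ a ^ 2 * Real.log (a ^ 2 / b ^ 2) - a ^ 2 + b ^ 2 := by
    rcases ha.eq_or_lt with rfl | ha'
    · simp
    · have h2 := Real.one_sub_inv_le_log_of_pos (div_pos ha' hb)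
      rw [← div_pow, Real.log_pow]
      have h3 := mul_le_mul_of_nonneg_left h2 (sq_nonneg a)
      have h4 : a ^ 2 * (1 - (a / b)⁻¹) = a ^ 2 - a * b := by field_simp
      rw [h4] at h3
      push_cast
      nlinarith
  refine ⟨(sq_nonneg _).trans h1, ?_⟩
  have h5 : |a ^ 2 - b ^ 2| ≤ (a - b) ^ 2 + 2 * b * |a - b| := by
    rw [show a ^ 2 - b ^ 2 = (a - b) ^ 2 + 2 * b * (a - b) by ring]
    refine (abs_add_le _ _).trans (le_of_eq ?_)
    rw [abs_of_nonneg (sq_nonneg _), abs_mul, abs_of_nonneg (by positivity)]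
  have h6 : 2 * b * |a - b| ≤ ε * b ^ 2 + 1 / ε * (a - b) ^ 2 := by
    rw [← sq_abs (a - b)]
    have h7 : 0 ≤ 1 / ε * (ε * b - |a - b|) ^ 2 := by positivity
    have h8 : 1 / ε * (ε * b - |a - b|) ^ 2 =
        ε * b ^ 2 + 1 / ε * |a - b| ^ 2 - 2 * b * |a - b| := by
      field_simp
      ring
    linarith
  have h9 := mul_le_mul_of_nonneg_left h1 (by positivity : 0 ≤ 1 + 1 / ε)
  nlinarith

/-- small relative entropy means close to the Maxwellian in `L¹` -/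
theorem l1_of_entropy {β : ℝ} (hβ : 0 < β) : ∃ e : ℝ, 0 < e ∧ ∀ f : R3 → R3 → ℝ, MeasP f →
    (∀ x v, 0 ≤ f x v) → relEntropy f ≤ ENNReal.ofReal e →
    (∫⁻ q in cell ×ˢ univ, ENNReal.ofReal |f q.1 q.2 - maxwellian q.2| ∂(volume : Measure (R3 × R3))) ≤
      ENNReal.ofReal β := by
  have hC : 0 < 1 + 1 / (β / 2) := by positivity
  refine ⟨β / 2 / (1 + 1 / (β / 2)), by positivity, fun f _ h0 hent => ?_⟩
  calc (∫⁻ q in cell ×ˢ univ, ENNReal.ofReal |f q.1 q.2 - maxwellian q.2|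
        ∂(volume : Measure (R3 × R3)))
      ≤ ∫⁻ q in cell ×ˢ univ, (ENNReal.ofReal (β / 2) * mu q.2 + ENNReal.ofReal (1 + 1 / (β / 2)) *
          ENNReal.ofReal (f q.1 q.2 * Real.log (f q.1 q.2 / maxwellian q.2) - f q.1 q.2 +
            maxwellian q.2)) ∂(volume : Measure (R3 × R3)) := by
        refine lintegral_mono fun q => ?_
        obtain ⟨h1, h2⟩ := glob_ptw (h0 q.1 q.2) (maxwellian_pos q.2) (half_pos hβ)
        simp only [mu]
        rw [← ENNReal.ofReal_mul (half_pos hβ).le, ← ENNReal.ofReal_mul hC.le,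
          ← ENNReal.ofReal_add (mul_nonneg (half_pos hβ).le (maxwellian_pos _).le)
            (mul_nonneg hC.le h1)]
        exact ENNReal.ofReal_le_ofReal h2
    _ = ENNReal.ofReal (β / 2) + ENNReal.ofReal (1 + 1 / (β / 2)) * relEntropy f := by
        rw [lintegral_add_left (glob_meas_mu.const_mul _),
          lintegral_const_mul' _ _ ENNReal.ofReal_ne_top,
          lintegral_const_mul' _ _ ENNReal.ofReal_ne_top, glob_lintegral_mu, mul_one]
        rfl
    _ ≤ ENNReal.ofReal (β / 2) + ENNReal.ofReal (1 + 1 / (β / 2)) *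
          ENNReal.ofReal (β / 2 / (1 + 1 / (β / 2))) := by gcongr
    _ = ENNReal.ofReal β := by
        rw [← ENNReal.ofReal_mul hC.le, mul_div_cancel₀ _ hC.ne',
          ← ENNReal.ofReal_add (half_pos hβ).le (half_pos hβ).le, add_halves]

lemma glob_log_le {γ : ℝ} (hγ : 0 ≤ γ) {v : R3} (hv : γ ≠ 0 → ‖v‖ ≤ 4) :
    γ * Real.log (1 + γ / maxwellian v) ≤ 1000 * (γ + γ ^ (65 / 64 : ℝ)) := by
  rcases hγ.eq_or_lt with rfl | hγ'
  · simp
  have hv4 := hv hγ'.ne'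
  have hM := maxwellian_pos v
  have hpi : 1 ≤ 2 * Real.pi := by linarith [Real.pi_gt_three]
  have hlM : Real.log (maxwellian v) = -(3 / 2 : ℝ) * Real.log (2 * Real.pi) + -‖v‖ ^ 2 / 2 := by
    unfold maxwellian
    rw [Real.log_mul (by positivity) (by positivity), Real.log_rpow (by positivity), Real.log_exp]
  have hl1 : 0 ≤ Real.log (2 * Real.pi) := Real.log_nonneg hpi
  have hl2 : Real.log (2 * Real.pi) ≤ 7 := by
    linarith [Real.log_le_sub_one_of_pos (by positivity : 0 < 2 * Real.pi), Real.pi_lt_four]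
  have hv2 : ‖v‖ ^ 2 ≤ 16 := by nlinarith [norm_nonneg v]
  have hM1 : maxwellian v ≤ 1 := by
    rw [← Real.log_nonpos_iff hM.le, hlM]
    nlinarith [sq_nonneg ‖v‖]
  have h1 : Real.log (1 + γ / maxwellian v) ≤ Real.log (1 + γ) + 20 := by
    have h2 : 1 + γ / maxwellian v ≤ (1 + γ) / maxwellian v := by
      rw [add_div]
      gcongr
      exact one_le_one_div hM hM1
    have h3 := Real.log_le_log (by positivity) h2
    rw [Real.log_div (by positivity) hM.ne', hlM] at h3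
    linarith
  have hr : 0 ≤ γ ^ (1 / 64 : ℝ) := Real.rpow_nonneg hγ _
  have h4 : Real.log (1 + γ) ≤ 1 + 64 * γ ^ (1 / 64 : ℝ) := by
    rcases le_total γ 1 with h | h
    · linarith [Real.log_le_sub_one_of_pos (by positivity : 0 < 1 + γ)]
    · have h5 : Real.log (1 + γ) ≤ Real.log (2 * γ) := Real.log_le_log (by positivity) (by linarith)
      rw [Real.log_mul (by norm_num) hγ'.ne'] at h5
      have h6 := Real.log_le_rpow_div hγ (by norm_num : (0 : ℝ) < 1 / 64)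
      linarith [Real.log_le_sub_one_of_pos (by norm_num : (0 : ℝ) < 2)]
  have h7 : γ ^ (65 / 64 : ℝ) = γ * γ ^ (1 / 64 : ℝ) := by
    rw [show (65 / 64 : ℝ) = 1 + 1 / 64 by norm_num, Real.rpow_add hγ', Real.rpow_one]
  rw [h7]
  nlinarith [mul_le_mul_of_nonneg_left (h1.trans (add_le_add_left h4 20)) hγ, mul_nonneg hγ hr]

/-- entropy of a perturbed, partially removed Maxwellian -/
lemma relEntropy_le {f g : R3 → R3 → ℝ≥0∞} {A : Set (R3 × R3)} (hA : MeasurableSet A) (hg : MeasP g)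
    (hgf : ∀ x v, g x v ≠ ⊤) (hsupp : ∀ x v, g x v ≠ 0 → ‖v‖ ≤ 4)
    (hf : ∀ x v, f x v = A.indicator (fun q => mu q.2) (x, v) + g x v) :
    relEntropy (fun x v => (f x v).toReal) ≤
      (∫⁻ q in (cell ×ˢ univ) \ A, mu q.2 ∂(volume : Measure (R3 × R3))) +
      1000 * ∫⁻ q in cell ×ˢ univ, (g q.1 q.2 + g q.1 q.2 ^ (65 / 64 : ℝ)) ∂(volume : Measure (R3 × R3)) := by
  have hmu : Measurable fun q : R3 × R3 => mu q.2 := measurable_mu.comp measurable_snd
  have e1 : (∫⁻ q in (cell ×ˢ univ) \ A, mu q.2 ∂(volume : Measure (R3 × R3))) =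
      ∫⁻ q in cell ×ˢ univ, Aᶜ.indicator (fun q : R3 × R3 => mu q.2) q
        ∂(volume : Measure (R3 × R3)) := by
    rw [lintegral_indicator hA.compl, Measure.restrict_restrict hA.compl, sdiff_eq, inter_comm]
  rw [e1, ← lintegral_const_mul' _ _ (by norm_num), ← lintegral_add_left (hmu.indicator hA.compl)]
  refine lintegral_mono fun q => ?_
  obtain ⟨x, v⟩ := q
  obtain ⟨γ, hγ, hgγ⟩ : ∃ γ : ℝ, 0 ≤ γ ∧ g x v = ENNReal.ofReal γ :=
    ⟨(g x v).toReal, ENNReal.toReal_nonneg, (ENNReal.ofReal_toReal (hgf x v)).symm⟩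
  have hM := maxwellian_pos v
  have key := glob_log_le hγ (v := v) (fun h => hsupp x v (by
    rw [hgγ]
    exact (ENNReal.ofReal_pos.2 (lt_of_le_of_ne hγ (Ne.symm h))).ne'))
  have e2 : 1000 * (g x v + g x v ^ (65 / 64 : ℝ)) =
      ENNReal.ofReal (1000 * (γ + γ ^ (65 / 64 : ℝ))) := by
    rw [hgγ, ENNReal.ofReal_rpow_of_nonneg hγ (by norm_num),
      ← ENNReal.ofReal_add hγ (Real.rpow_nonneg hγ _), ENNReal.ofReal_mul (by norm_num)]
    simp
  simp only
  rw [e2, hf x v, hgγ]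
  by_cases hq : (x, v) ∈ A
  · rw [indicator_of_mem hq, indicator_of_notMem (by simpa using hq), zero_add, mu,
      ← ENNReal.ofReal_add hM.le hγ, ENNReal.toReal_ofReal (by positivity)]
    refine ENNReal.ofReal_le_ofReal ?_
    have h1 : (maxwellian v + γ) / maxwellian v = 1 + γ / maxwellian v := by field_simp
    rw [h1]
    have h2 := mul_le_mul_of_nonneg_left
      (Real.log_le_sub_one_of_pos (by positivity : 0 < 1 + γ / maxwellian v)) hM.le
    have h3 : maxwellian v * (1 + γ / maxwellian v - 1) = γ := by field_simp; ring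
    nlinarith
  · rw [indicator_of_notMem hq, indicator_of_mem (by simpa using hq), zero_add, mu,
      ENNReal.toReal_ofReal hγ, ← ENNReal.ofReal_add hM.le (by positivity)]
    refine ENNReal.ofReal_le_ofReal ?_
    have h1 : γ * Real.log (γ / maxwellian v) ≤ γ * Real.log (1 + γ / maxwellian v) := by
      rcases hγ.eq_or_lt with rfl | hγ'
      · simp
      · exact mul_le_mul_of_nonneg_left (Real.log_le_log (by positivity) (by linarith)) hγ
    linarith

end Crest.Agent.R068
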