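import Crest.Agent.R068.GoodU
import Crest.Agent.R068.Global

/-! Row 68: the data: admissibility, small entropy, convergence. -/

set_option autoImplicit false
open MeasureTheory Set Filter Topology
open scoped ENNReal
open Crest.AnalysisR.VecCalc3 Crest.AnalysisR.PDE.Boltzmann

namespace Crest.Agent.R068

lemma dt_tsum_tendsto {ι : Type} (g : ℕ → ι → ℝ≥0∞) (G : ι → ℝ≥0∞) (hle : ∀ n i, g n i ≤ G i)
    (hev : ∀ i, ∀ᶠ n in atTop, g n i = G i) :
    Tendsto (fun n => ∑' i, g n i) atTop (𝓝 (∑' i, G i)) := by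
  refine tendsto_order.2 ⟨fun c hc => ?_, fun c hc => Eventually.of_forall fun n =>
    lt_of_le_of_lt (ENNReal.tsum_le_tsum (hle n)) hc⟩
  rw [ENNReal.tsum_eq_iSup_sum, lt_iSup_iff] at hc
  obtain ⟨s, hs⟩ := hc
  filter_upwards [(eventually_all_finset s).2 fun i _ => hev i] with n hn
  refine hs.trans_le ?_
  rw [← Finset.sum_congr rfl hn]
  exact ENNReal.sum_le_tsum s

lemma dt_tot_tendsto (f : ℕ → Fin 4 → R3 → ℝ≥0∞) (x : R3) :
    Tendsto (fun n : ℕ => Par.tot n f x) atTop (𝓝 (Par.tot ⊤ f x)) := by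
  unfold Par.tot
  simp only [← ENNReal.tsum_prod]
  refine dt_tsum_tendsto _ _ (fun n i => Finset.sum_le_sum fun s _ => ?_) (fun i => ?_)
  · rw [if_pos le_top]
    split_ifs
    · exact le_rfl
    · exact zero_le
  · filter_upwards [eventually_ge_atTop i.2] with n hn
    refine Finset.sum_congr rfl fun s _ => ?_
    rw [if_pos le_top, if_pos (by exact_mod_cast hn)]

lemma dt_enorm {A S T e : ℝ≥0∞} (hA : A ≠ ⊤) (hT : T ≠ ⊤) (he : e ≠ ⊤) (h : S ≤ T) :
    ‖(A + S + e).toReal - (A + T).toReal‖ₑ ≤ (T - S) + e := by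
  have hS : S ≠ ⊤ := ne_top_of_le_ne_top hT h
  rw [ENNReal.toReal_add (ENNReal.add_ne_top.2 ⟨hA, hS⟩) he, ENNReal.toReal_add hA hS,
    ENNReal.toReal_add hA hT]
  have h1 : A.toReal + S.toReal + e.toReal - (A.toReal + T.toReal) =
      -(T - S).toReal + e.toReal := by
    rw [ENNReal.toReal_sub_of_le h hT]; ring
  rw [h1]
  refine (enorm_add_le _ _).trans ?_
  rw [enorm_neg, Real.enorm_toReal he, Real.enorm_toReal (ENNReal.sub_ne_top hT)]

lemma dt_meas_A (R ρ : ℝ) : MeasurableSet {q : R3 × R3 | ‖q.2‖ < R ∧ ρ ^ 2 ≤ sn q.1} :=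
  (measurableSet_lt measurable_snd.norm measurable_const).inter
    (measurableSet_le measurable_const (continuous_sn.measurable.comp measurable_fst))

lemma dt_hole {R ρ : ℝ} (hR : 1 ≤ R) (hρ : 0 < ρ) :
    ∫⁻ q in (cell ×ˢ univ) \ {q : R3 × R3 | ‖q.2‖ < R ∧ ρ ^ 2 ≤ sn q.1}, mu q.2
      ∂(volume : Measure (R3 × R3)) ≤ ENNReal.ofReal (24000 / R + ρ) := by
  set H : Set R3 := {x : R3 | x ∈ cell ∧ sn x < ρ ^ 2} with hH
  have hHm : MeasurableSet H :=
    measurableSet_cell.inter (measurableSet_lt continuous_sn.measurable measurable_const)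
  have hR0 : 0 < R := by linarith
  have hc : Real.exp (-((1 / 2 - 1 / 4) * R ^ 2)) ≤ 4 / R := by
    rw [Real.exp_neg, inv_eq_one_div, div_le_div_iff₀ (Real.exp_pos _) hR0]
    have := Real.add_one_le_exp ((1 / 2 - 1 / 4) * R ^ 2)
    nlinarith
  have hm : Measurable (fun q : R3 × R3 => ENNReal.ofReal (4 / R) * gs (1 / 4) q.2 +
      H.indicator (fun _ => (1 : ℝ≥0∞)) q.1 * mu q.2) :=
    (measurable_const.mul ((measurable_gs _).comp measurable_snd)).add
      (((measurable_const.indicator hHm).comp measurable_fst).mul glob_meas_mu)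
  calc _ ≤ ∫⁻ q in (cell ×ˢ univ) \ {q : R3 × R3 | ‖q.2‖ < R ∧ ρ ^ 2 ≤ sn q.1},
        (ENNReal.ofReal (4 / R) * gs (1 / 4) q.2 + H.indicator (fun _ => (1 : ℝ≥0∞)) q.1 * mu q.2)
        ∂(volume : Measure (R3 × R3)) := by
        refine setLIntegral_mono' (cs_measS.diff (dt_meas_A R ρ)) fun q hq => ?_
        by_cases h1 : ‖q.2‖ < R
        · have h2 : q.1 ∈ H := ⟨hq.1.1, not_le.1 fun h => hq.2 ⟨h1, h⟩⟩
          rw [indicator_of_mem h2, one_mul]
          exact le_add_self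
        · refine le_trans ?_ le_self_add
          refine (mu_le_gs _).trans ((gs_tail (b := 1 / 4) (by norm_num) hR0.le (not_lt.1 h1)).trans ?_)
          exact mul_le_mul_left (ENNReal.ofReal_le_ofReal hc) _
    _ ≤ ∫⁻ q in cell ×ˢ univ,
        (ENNReal.ofReal (4 / R) * gs (1 / 4) q.2 + H.indicator (fun _ => (1 : ℝ≥0∞)) q.1 * mu q.2)
        ∂(volume : Measure (R3 × R3)) := lintegral_mono_set sdiff_subset
    _ ≤ ∫⁻ x in cell, (ENNReal.ofReal (24000 / R) + H.indicator (fun _ => (1 : ℝ≥0∞)) x) := by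
        rw [ent0_tonelli2 _ hm]
        refine lintegral_mono fun x => ?_
        dsimp only
        have hm1 : Measurable (fun v : R3 => ENNReal.ofReal (4 / R) * gs (1 / 4) v) :=
          (measurable_gs _).const_mul _
        rw [lintegral_add_left hm1,
          lintegral_const_mul _ (measurable_gs _), lintegral_const_mul _ measurable_mu,
          lintegral_mu, mul_one]
        refine add_le_add_left ((mul_le_mul_right (gb_int_gs (by norm_num)) _).trans ?_) _
        rw [← ENNReal.ofReal_mul (by positivity)]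
        exact ENNReal.ofReal_le_ofReal (le_of_eq (by ring))
    _ ≤ ENNReal.ofReal (24000 / R) + ENNReal.ofReal ρ := by
        rw [lintegral_add_left measurable_const, setLIntegral_const, volume_cell, mul_one]
        refine add_le_add_right ((setLIntegral_le_lintegral _ _).trans ?_) _
        rw [lintegral_indicator_const hHm, one_mul]
        exact volume_hole hρ
    _ = _ := (ENNReal.ofReal_add (by positivity) hρ.le).symm

/-- the local gauge -/
noncomputable def dtG (ρ : ℝ) (X : R3) : ℝ≥0∞ :=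
  (Metric.closedBall (0:R3) ρ).indicator (fun X => 1 + (ENNReal.ofReal ‖X‖)⁻¹ ^ 2 +
    (ENNReal.ofReal (Real.sqrt |nc X|))⁻¹) X

lemma dt_meas_G (ρ : ℝ) : Measurable (dtG ρ) := by
  refine Measurable.indicator ?_ measurableSet_closedBall
  refine (measurable_const.add ((measurable_norm.ennreal_ofReal.inv).pow_const 2)).add ?_
  exact (continuous_nc.abs.sqrt.measurable.ennreal_ofReal).inv

lemma dt_int_G {ρ : ℝ} (hρ : 0 ≤ ρ) :
    ∫⁻ x in cell, ∑' k : Fin 3 → ℤ, dtG ρ (x - lat k) ≤ ENNReal.ofReal (100 * (ρ + ρ ^ 3)) := by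
  rw [lintegral_cell_tsum (dt_meas_G ρ)]
  unfold dtG
  rw [lintegral_indicator measurableSet_closedBall]
  exact lintegral_gauge hρ

lemma dt_B_pt {p : Par} (h : p.Std) {n : ℕ∞} {x : R3} {k : Fin 3 → ℤ} {j : ℕ}
    (w : p.Wit n 0 x k j) :
    ∫⁻ v, (p.B n 0 x v + 2 * p.B n 0 x v ^ (65 / 64 : ℝ)) ≤
      ENNReal.ofReal (3 * p.V ^ 5) * dtG (3 * p.r0) (x - lat k) := by
  set X := x - lat k with hX
  have hr := Par.r_pos h j
  have hr1 : p.r j ≤ 1 := by
    have h1 := Par.r_le h j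
    have h2 := h.r0_κ
    have h3 := h.κ_le
    have h4 := h.t2_le
    linarith
  have hV : 0 < p.V := by
    have h1 := h.R_ge
    have h2 := h.V_ge
    linarith
  have hz : 0 < |nc X| := lt_trans (by positivity) w.lo
  have hX0 : 0 < ‖X‖ := hz.trans_le (abs_nc_le X)
  have hs : 0 < Real.sqrt |nc X| := Real.sqrt_pos.2 hz
  set b : ℝ := (Real.sqrt (Real.sqrt |nc X|))⁻¹ with hb
  have hb0 : 0 < b := inv_pos.2 (Real.sqrt_pos.2 hs)
  have hb2 : b ^ 2 = (Real.sqrt |nc X|)⁻¹ := by rw [hb, inv_pow, Real.sq_sqrt hs.le]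
  have hb4 : b ^ 64 = (|nc X| ^ 16)⁻¹ := by
    rw [show b ^ 64 = ((b ^ 2) ^ 2) ^ 16 by ring, hb2, inv_pow, Real.sq_sqrt hz.le, inv_pow]
  have hsup : (p.r j ^ 14)⁻¹ ≤ b ^ 64 := by
    rw [hb4]
    refine inv_anti₀ (by positivity) ?_
    exact (pow_le_pow_left₀ hz.le w.hi.le 16).trans (pow_le_pow_of_le_one hr.le hr1 (by norm_num))
  have hpt : ∀ v, p.B n 0 x v + 2 * p.B n 0 x v ^ (65 / 64 : ℝ) ≤
      ENNReal.ofReal (1 + 2 * b) * p.B n 0 x v := by
    intro v
    have h1 : p.B n 0 x v ^ ((64 : ℕ)⁻¹ : ℝ) ≤ ENNReal.ofReal b := by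
      rw [← ENNReal.pow_rpow_inv_natCast (n := 64) (by norm_num) (ENNReal.ofReal b)]
      refine ENNReal.rpow_le_rpow ((w.sup v).trans ?_) (by positivity)
      rw [← ENNReal.ofReal_pow hb0.le]
      exact ENNReal.ofReal_le_ofReal hsup
    have h2 : (65 / 64 : ℝ) = ((64 : ℕ)⁻¹ : ℝ) + 1 := by norm_num
    rw [h2, ENNReal.rpow_add_of_nonneg _ _ (by positivity) zero_le_one, ENNReal.rpow_one,
      ENNReal.ofReal_add zero_le_one (by positivity), ENNReal.ofReal_one,
      ENNReal.ofReal_mul (by norm_num), ENNReal.ofReal_ofNat, add_mul, one_mul, mul_assoc]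
    gcongr
  refine (lintegral_mono hpt).trans ?_
  rw [lintegral_const_mul _ ((p.meas_B n).slice 0 x)]
  refine (mul_le_mul_right w.mass _).trans ?_
  have hmem : X ∈ Metric.closedBall (0:R3) (3 * p.r0) := by
    have := w.near
    rw [mem_closedBall_zero_iff]
    linarith
  unfold dtG
  rw [indicator_of_mem hmem, ← ENNReal.ofReal_inv_of_pos hX0, ← ENNReal.ofReal_inv_of_pos hs,
    ← ENNReal.ofReal_pow (by positivity), ← ENNReal.ofReal_one,
    ← ENNReal.ofReal_add (by positivity) (by positivity),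
    ← ENNReal.ofReal_add (by positivity) (by positivity),
    ← ENNReal.ofReal_mul (by positivity), ← ENNReal.ofReal_mul (by positivity)]
  refine ENNReal.ofReal_le_ofReal ?_
  rw [Par.rho, add_zero, ← hb2]
  have ha : 0 < ‖X‖⁻¹ := inv_pos.2 hX0
  generalize ‖X‖⁻¹ = a at ha
  have h5 : (1 + 2 * b) * (1 + a) ≤ 3 * (1 + a ^ 2 + b ^ 2) := by
    nlinarith [sq_nonneg (a - 1), sq_nonneg (b - 1), sq_nonneg (a - b)]
  have h6 := mul_le_mul_of_nonneg_left h5 (pow_pos hV 5).le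
  nlinarith

lemma dt_meas_B (p : Par) (n : ℕ∞) : Measurable (fun q : R3 × R3 =>
    p.B n 0 q.1 q.2 + 2 * p.B n 0 q.1 q.2 ^ (65 / 64 : ℝ)) := by
  have hB : Measurable (fun q : R3 × R3 => p.B n 0 q.1 q.2) :=
    (p.meas_B n).comp measurable_const measurable_fst measurable_snd
  exact hB.add ((hB.pow_const _).const_mul 2)

lemma dt_B_int {p : Par} (h : p.Std) {n : ℕ∞}
    (hw : ∀ x, ((∀ v, p.B n 0 x v = 0) ∧ ∀ v, p.Gr n 0 x v = 0) ∨ ∃ k j, p.Wit n 0 x k j) :
    ∫⁻ q in cell ×ˢ univ, (p.B n 0 q.1 q.2 + 2 * p.B n 0 q.1 q.2 ^ (65 / 64 : ℝ))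
      ∂(volume : Measure (R3 × R3)) ≤ ENNReal.ofReal (9000 * p.V ^ 5 * p.r0) := by
  have hV : 0 < p.V := by
    have h1 := h.R_ge
    have h2 := h.V_ge
    linarith
  have hr0 := h.r0_pos
  have hr1 : p.r0 ≤ 1 := by
    have h2 := h.r0_κ
    have h3 := h.κ_le
    have h4 := h.t2_le
    linarith
  rw [ent0_tonelli2 _ (dt_meas_B p n)]
  calc _ ≤ ∫⁻ x in cell, ENNReal.ofReal (3 * p.V ^ 5) *
        ∑' k : Fin 3 → ℤ, dtG (3 * p.r0) (x - lat k) := by
        refine lintegral_mono fun x => ?_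
        dsimp only
        rcases hw x with ⟨h0, -⟩ | ⟨k, j, w⟩
        · simp only [h0, ENNReal.zero_rpow_of_pos (show (0:ℝ) < 65 / 64 by norm_num), mul_zero,
            add_zero, lintegral_zero, zero_le]
        · exact (dt_B_pt h w).trans (mul_le_mul_right (ENNReal.le_tsum k) _)
    _ ≤ ENNReal.ofReal (3 * p.V ^ 5) * ENNReal.ofReal (100 * (3 * p.r0 + (3 * p.r0) ^ 3)) := by
        rw [lintegral_const_mul' _ _ ENNReal.ofReal_ne_top]
        exact mul_le_mul_right (dt_int_G (by positivity)) _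
    _ ≤ _ := by
        rw [← ENNReal.ofReal_mul (by positivity)]
        refine ENNReal.ofReal_le_ofReal ?_
        have h1 : p.r0 ^ 3 ≤ p.r0 := by
          simpa using pow_le_pow_of_le_one hr0.le hr1 (show 1 ≤ 3 by norm_num)
        have h2 := mul_le_mul_of_nonneg_left h1 (pow_pos hV 5).le
        nlinarith

lemma dt_seed_int {p : Par} (h : p.Std) {n : ℕ} (hn : p.tn n ≤ p.t0) (a : ℝ) :
    ∫⁻ q in cell ×ˢ univ, p.seed n a q.1 q.2 ∂(volume : Measure (R3 × R3)) ≤
      ENNReal.ofReal (330000 * a) := by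
  rw [ent0_tonelli2 _ (p.meas_seed n a)]
  calc _ ≤ ∫⁻ _x in cell, ENNReal.ofReal (330000 * a) := by
        refine lintegral_mono fun x => ?_
        refine (lintegral_mono fun v => Par.seed_le_gs h hn a (b := 1 / 4) (by norm_num) le_rfl x v).trans ?_
        rw [lintegral_const_mul _ (measurable_gs _)]
        refine (mul_le_mul_right (gb_int_gs (by norm_num)) _).trans ?_
        rw [← ENNReal.ofReal_mul' (by norm_num)]
        exact ENNReal.ofReal_le_ofReal (le_of_eq (by ring))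
    _ = _ := by rw [setLIntegral_const, volume_cell, mul_one]

lemma dt_pow {S B e : ℝ≥0∞} (hS : S ≤ B) (he : e ≤ 1) :
    S + e + (S + e) ^ (65 / 64 : ℝ) ≤ (B + 2 * B ^ (65 / 64 : ℝ)) + 3 * e := by
  have h1 : (S + e) ^ (65 / 64 : ℝ) ≤ 2 * (B ^ (65 / 64 : ℝ) + e) := by
    refine (ENNReal.rpow_add_le_mul_rpow_add_rpow S e (by norm_num)).trans ?_
    refine mul_le_mul' ?_ (add_le_add (ENNReal.rpow_le_rpow hS (by norm_num)) ?_)
    · conv_rhs => rw [← ENNReal.rpow_one 2]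
      exact ENNReal.rpow_le_rpow_of_exponent_le (by norm_num) (by norm_num)
    · conv_rhs => rw [← ENNReal.rpow_one e]
      exact ENNReal.rpow_le_rpow_of_exponent_ge he (by norm_num)
  calc S + e + (S + e) ^ (65 / 64 : ℝ) ≤ B + e + 2 * (B ^ (65 / 64 : ℝ) + e) := by gcongr
    _ = _ := by ring

theorem ev_admissible : ∀ᶠ p in PF, IsAdmissibleDatum p.F0 p.R := by
  filter_upwards [ev_std, ev_good, ev_wit] with p hs hg hw
  refine ⟨p.meas_F0, fun x v => ENNReal.toReal_nonneg, p.per_F0, fun x v hv => ?_, ?_⟩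
  · have h1 : p.amb x v = 0 := if_neg fun h => absurd h.1 (not_lt.2 hv)
    have h2 : p.B ⊤ 0 x v = 0 := by
      rcases hw ⊤ 0 x le_rfl with ⟨h0, -⟩ | ⟨k, j, w⟩
      · exact h0 v
      · by_contra hc
        have h3 := (w.supp v hc).2
        have h4 := hs.R_ge
        linarith
    have h3 : p.Sd ⊤ x v = 0 := le_antisymm (h2 ▸ Par.Sd_le_B hs ⊤ x v) zero_le
    rw [Par.F0, h1, h3, add_zero, ENNReal.toReal_zero]
  · have hF : Dens (fun _ : ℝ => p.F0) :=
      ⟨p.meas_F0.comp measurable_snd, fun _ v => p.per_F0 v, fun _ _ _ => ENNReal.toReal_nonneg⟩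
    have hd : DomOn 0 (fun _ : ℝ => p.F0) p.Ust := by
      intro t ht
      rw [le_antisymm ht.2 ht.1]
      exact Eventually.of_forall fun q => Par.F0_le_Ust hs q.1 q.2
    obtain ⟨C, hC, h⟩ := ent_bound hg hF hd
    exact (h 0 ⟨le_rfl, le_rfl⟩).trans_lt hC

theorem ev_entropy0 : ∀ᶠ p in PF, ∀ (n : ℕ) (a : ℝ), p.tn n ≤ p.t0 → a ≤ p.r0 →
    relEntropy (fun x v => (p.f0 n a x v).toReal) ≤ ENNReal.ofReal p.e := by
  have e1 : ∀ᶠ p in PF, 72000 / p.e ≤ p.R :=
    ev_R (Q := fun p x => 72000 / p.e ≤ x) (Eventually.of_forall fun p => eventually_ge_atTop _)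
  have e2 : ∀ᶠ p in PF, p.r1 ≤ p.e / 3 :=
    ev_r1 (Q := fun p x => x ≤ p.e / 3) (by
      filter_upwards [ev_std] with p hp
      have := hp.e_pos
      exact (eventually_le_nhds (by positivity)).filter_mono nhdsWithin_le_nhds)
  have e3 : ∀ᶠ p in PF, p.r0 ≤ p.e / 3 / (1000 * (9000 * p.V ^ 5 + 990000)) :=
    ev_r0 (Q := fun p x => x ≤ p.e / 3 / (1000 * (9000 * p.V ^ 5 + 990000))) (by
      filter_upwards [ev_std] with p hp
      have := hp.e_pos
      have hV : 0 < p.V := by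
        have h1 := hp.R_ge
        have h2 := hp.V_ge
        linarith
      exact (eventually_le_nhds (by positivity)).filter_mono nhdsWithin_le_nhds)
  filter_upwards [ev_std, ev_wit, ev_Sd_ne_top, e1, e2, e3] with p hs hw hfin h1 h2 h3 n a hn ha
  have he := hs.e_pos
  have hR := hs.R_ge
  have hV : 0 < p.V := by
    have h2 := hs.V_ge
    linarith
  have hr0 := hs.r0_pos
  have hr1 : p.r0 ≤ 1 := by
    have h2 := hs.r0_κ
    have h3 := hs.κ_le
    have h4 := hs.t2_le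
    linarith
  have hseed : ∀ x v, p.seed n a x v ≤ 1 := fun x v =>
    (Par.seed_le hs hn a x v).trans (ENNReal.ofReal_le_one.2 (ha.trans hr1))
  refine (relEntropy_le (g := fun x v => p.Sd n x v + p.seed n a x v) (dt_meas_A p.R p.r1)
    ((p.meas_Sd n).add (p.meas_seed n a)) (fun x v => ENNReal.add_ne_top.2
      ⟨hfin n x v, ne_top_of_le_ne_top ENNReal.one_ne_top (hseed x v)⟩) (fun x v hv => ?_)
    (fun x v => ?_)).trans ?_
  · by_cases h0 : p.seed n a x v = 0
    · rw [h0, add_zero] at hv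
      have hB0 : p.B n 0 x v ≠ 0 := fun h => hv (le_antisymm (h ▸ Par.Sd_le_B hs n x v) zero_le)
      rcases hw n 0 x le_rfl with ⟨h0, -⟩ | ⟨k, j, w⟩
      · exact absurd (h0 v) hB0
      · have := (w.supp v hB0).2
        linarith
    · exact Par.seed_supp h0
  · rw [Par.f0, add_assoc, Par.amb, indicator_apply]
    congr 1
  · have hI : ∫⁻ q in cell ×ˢ univ, (p.Sd n q.1 q.2 + p.seed n a q.1 q.2 +
        (p.Sd n q.1 q.2 + p.seed n a q.1 q.2) ^ (65 / 64 : ℝ)) ∂(volume : Measure (R3 × R3)) ≤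
        ENNReal.ofReal ((9000 * p.V ^ 5 + 990000) * p.r0) := by
      have hpt : ∀ q : R3 × R3, p.Sd n q.1 q.2 + p.seed n a q.1 q.2 +
          (p.Sd n q.1 q.2 + p.seed n a q.1 q.2) ^ (65 / 64 : ℝ) ≤
          (p.B n 0 q.1 q.2 + 2 * p.B n 0 q.1 q.2 ^ (65 / 64 : ℝ)) + 3 * p.seed n a q.1 q.2 :=
        fun q => dt_pow (Par.Sd_le_B hs (n : ℕ∞) q.1 q.2) (hseed q.1 q.2)
      refine (lintegral_mono hpt).trans ?_
      rw [lintegral_add_left (dt_meas_B p n),
        lintegral_const_mul _ (p.meas_seed n a)]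
      refine (add_le_add (dt_B_int hs fun x => hw n 0 x le_rfl)
        (mul_le_mul_right ((dt_seed_int hs hn a).trans (ENNReal.ofReal_le_ofReal
          (mul_le_mul_of_nonneg_left ha (by norm_num)))) _)).trans ?_
      rw [← ENNReal.ofReal_ofNat 3, ← ENNReal.ofReal_mul (by norm_num),
        ← ENNReal.ofReal_add (by positivity) (by positivity)]
      exact ENNReal.ofReal_le_ofReal (le_of_eq (by ring))
    refine (add_le_add (dt_hole (by linarith) hs.r1_pos) (mul_le_mul_right hI _)).trans ?_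
    have hr1p := hs.r1_pos
    rw [← ENNReal.ofReal_ofNat 1000, ← ENNReal.ofReal_mul (by norm_num),
      ← ENNReal.ofReal_add (by positivity) (by positivity)]
    refine ENNReal.ofReal_le_ofReal ?_
    rw [le_div_iff₀ (by positivity)] at h3
    have h4 : 24000 / p.R ≤ p.e / 3 := by
      rw [div_le_iff₀ he] at h1
      rw [div_le_iff₀ (by linarith)]
      linarith
    linarith

theorem ev_data_conv : ∀ᶠ p in PF, ∀ (φ : ℕ → ℕ) (a : ℕ → ℝ), Tendsto φ atTop atTop →
    Tendsto a atTop (𝓝 0) → (∀ i, p.tn (φ i) ≤ p.t0) →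
    Tendsto (fun i => ∫⁻ q in cell ×ˢ univ, ‖(p.f0 (φ i) (a i) q.1 q.2).toReal - p.F0 q.1 q.2‖ₑ
      ∂(volume : Measure (R3 × R3))) atTop (𝓝 0) := by
  filter_upwards [ev_std, ev_wit, ev_Sd_ne_top] with p hs hw hfin φ a hφ ha hn
  have hm : ∀ i, Measurable (fun q : R3 × R3 => p.Sd ⊤ q.1 q.2 - p.Sd (φ i) q.1 q.2) := fun i =>
    (p.meas_Sd ⊤).sub (p.meas_Sd (φ i))
  have h1 : Tendsto (fun i => ∫⁻ q in cell ×ˢ univ, (p.Sd ⊤ q.1 q.2 - p.Sd (φ i) q.1 q.2)
      ∂(volume : Measure (R3 × R3))) atTop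
      (𝓝 (∫⁻ _q in cell ×ˢ univ, 0 ∂(volume : Measure (R3 × R3)))) := by
    refine tendsto_lintegral_of_dominated_convergence (fun q => p.Sd ⊤ q.1 q.2) hm
      (fun i => Eventually.of_forall fun q => tsub_le_self) ?_ (Eventually.of_forall fun q => ?_)
    · refine ne_top_of_le_ne_top ENNReal.ofReal_ne_top
        (le_trans (lintegral_mono fun q => ?_) (dt_B_int hs fun x => hw ⊤ 0 x le_rfl))
      exact (Par.Sd_le_B hs ⊤ q.1 q.2).trans le_self_add
    · have h2 : Tendsto (fun i => p.Sd (φ i) q.1 q.2) atTop (𝓝 (p.Sd ⊤ q.1 q.2)) :=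
        (dt_tot_tendsto (fun j s X => p.S0 j s X q.2) q.1).comp hφ
      have h3 := ENNReal.Tendsto.sub (tendsto_const_nhds (x := p.Sd ⊤ q.1 q.2)) h2
        (Or.inl (hfin ⊤ q.1 q.2))
      rwa [tsub_self] at h3
  rw [lintegral_zero] at h1
  have h2 : Tendsto (fun i => ENNReal.ofReal (330000 * a i)) atTop (𝓝 0) := by
    have := ENNReal.tendsto_ofReal (ha.const_mul 330000)
    rwa [mul_zero, ENNReal.ofReal_zero] at this
  have h3 := h1.add h2
  rw [add_zero] at h3
  refine tendsto_of_tendsto_of_tendsto_of_le_of_le tendsto_const_nhds h3 (fun i => zero_le)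
    (fun i => ?_)
  have hpt : ∀ q : R3 × R3, ‖(p.f0 (φ i) (a i) q.1 q.2).toReal - p.F0 q.1 q.2‖ₑ ≤
      (p.Sd ⊤ q.1 q.2 - p.Sd (φ i) q.1 q.2) + p.seed (φ i) (a i) q.1 q.2 := by
    intro q
    have hA : p.amb q.1 q.2 ≠ ⊤ := by
      unfold Par.amb
      split_ifs
      · exact mu_ne_top _
      · exact ENNReal.zero_ne_top
    rw [Par.f0, Par.F0]
    exact dt_enorm hA (hfin _ _ _)
      (ne_top_of_le_ne_top ENNReal.ofReal_ne_top (Par.seed_le hs (hn i) _ _ _))
      (p.Sd_mono le_top _ _)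
  refine le_trans (lintegral_mono hpt) ?_
  rw [lintegral_add_left (hm i)]
  exact add_le_add_right (dt_seed_int hs (hn i) _) _

end Crest.Agent.R068
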