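import Crest.Prelude.Def_HardSphereBoltzmann

/-! Row 68 (Boltzmann non-uniqueness): general definitions. -/

set_option autoImplicit false
open MeasureTheory Set
open scoped ENNReal
open Crest.AnalysisR.VecCalc3 Crest.AnalysisR.PDE.Boltzmann

namespace Crest.Agent.R068

/-- extended-valued kinetic densities -/
abbrev TF : Type := ℝ → R3 → R3 → ℝ≥0∞

/-- bilinear gain term -/
noncomputable def gain (f g : R3 → ℝ≥0∞) (v : R3) : ℝ≥0∞ :=
  ∫⁻ vs, ∫⁻ w, ENNReal.ofReal |inner ℝ (v - vs) w| * f (postVel v vs w) * g (postVelStar v vs w)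
    ∂sphereMeasure

/-- collision frequency `ν[g](v) = 2π ∫ |v - v⁎| g(v⁎)` -/
noncomputable def freq (g : R3 → ℝ≥0∞) (v : R3) : ℝ≥0∞ :=
  ∫⁻ vs, ENNReal.ofReal (2 * Real.pi * ‖v - vs‖) * g vs

/-- Newton potential `∫ f(η) / |v - η|` -/
noncomputable def pot (f : R3 → ℝ≥0∞) (v : R3) : ℝ≥0∞ :=
  ∫⁻ η, ENNReal.ofReal (‖v - η‖⁻¹) * f η

/-- integral of `g` over the plane through `v` with unit normal `w`, written as a slab average -/
noncomputable def plane (g : R3 → ℝ≥0∞) (v w : R3) : ℝ≥0∞ :=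
  ∫⁻ ξ in {ξ : R3 | inner ℝ (ξ - v) w ∈ Ico (0:ℝ) 1}, g (ξ - (inner ℝ (ξ - v) w) • w)

/-- Gaussian weight `exp(-a |v|²)` -/
noncomputable def gs (a : ℝ) (v : R3) : ℝ≥0∞ := ENNReal.ofReal (Real.exp (-(a * ‖v‖ ^ 2)))

/-- the Maxwellian, extended-valued -/
noncomputable def mu (v : R3) : ℝ≥0∞ := ENNReal.ofReal (maxwellian v)

/-- `exp (-y)` on `[0, ∞]` -/
noncomputable def eneg (y : ℝ≥0∞) : ℝ≥0∞ :=
  if y = ⊤ then 0 else ENNReal.ofReal (Real.exp (-y.toReal))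

/-- a real density seen as an extended-valued one -/
noncomputable def up (F : ℝ → R3 → R3 → ℝ) : TF := fun t x v => ENNReal.ofReal (F t x v)

/-- joint measurability in `(t,x,v)` -/
def MeasT {α : Type} [MeasurableSpace α] (F : ℝ → R3 → R3 → α) : Prop :=
  Measurable (fun p : ℝ × R3 × R3 => F p.1 p.2.1 p.2.2)

/-- joint measurability in `(x,v)` -/
def MeasP {α : Type} [MeasurableSpace α] (f : R3 → R3 → α) : Prop :=
  Measurable (fun q : R3 × R3 => f q.1 q.2)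

/-- periodicity in `x` -/
def PerT {α : Type} (F : ℝ → R3 → R3 → α) : Prop := ∀ t v, IsPeriodic3 (fun x => F t x v)

/-- periodicity in `x` -/
def PerP {α : Type} (f : R3 → R3 → α) : Prop := ∀ v, IsPeriodic3 (fun x => f x v)

/-- lattice points -/
noncomputable def lat (k : Fin 3 → ℤ) : R3 := WithLp.toLp 2 (fun i => (k i : ℝ))

/-- damping factor `exp(-∫_s^t ν[N])` along the characteristic that ends at `(t,x,v)` -/
noncomputable def damp (N : TF) (s t : ℝ) (x v : R3) : ℝ≥0∞ :=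
  eneg (∫⁻ r in Ioo s t, freq (N r (x - (t - r) • v)) v)

/-- exponential mild form: collisions (computed with `N`) are switched on at time `T₀`,
the datum `f₀` is given at time `0`. -/
def ExpMild (T₀ : ℝ) (f₀ : R3 → R3 → ℝ≥0∞) (N : TF) (F : ℝ → R3 → R3 → ℝ) : Prop :=
  ∀ t x v, ENNReal.ofReal (F t x v) = damp N T₀ t x v * f₀ (x - t • v) v +
    ∫⁻ s in Ioo T₀ t, damp N s t x v * gain (N s (x - (t - s) • v)) (N s (x - (t - s) • v)) v

/-- `F` clamped between the barriers `L` and `U` -/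
noncomputable def clamp (L U : TF) (F : ℝ → R3 → R3 → ℝ) : TF :=
  fun t x v => max (L t x v) (min (ENNReal.ofReal (F t x v)) (U t x v))

/-- the real collision term -/
noncomputable def Rr (F : ℝ → R3 → R3 → ℝ) (t : ℝ) (x v : R3) : ℝ :=
  (collGain F t x v).toReal - (collLoss F t x v).toReal

/-- additive mild form on `[0,T]`, collisions switched on at time `T₀`. -/
def Mild (T₀ T : ℝ) (F : ℝ → R3 → R3 → ℝ) : Prop :=
  ∀ᵐ q : R3 × R3, IntegrableOn (fun s => Rr F s (q.1 + s • q.2) q.2) (Ioo T₀ T) ∧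
    ∀ t ∈ Icc (0:ℝ) T, F t (q.1 + t • q.2) q.2 =
      F 0 q.1 q.2 + ∫ s in Ioo T₀ t, Rr F s (q.1 + s • q.2) q.2

/-- basic properties of a real density -/
structure Dens (F : ℝ → R3 → R3 → ℝ) : Prop where
  meas : MeasT F
  per : PerT F
  nonneg : ∀ t x v, 0 ≤ F t x v

/-- an admissible dominating function -/
structure Good (U : TF) : Prop where
  meas : MeasT U
  per : PerT U
  mom : ∀ (T : ℝ) (k : ℕ), (∫⁻ p in Ioo (0:ℝ) T ×ˢ cell,
    (∫⁻ v, ENNReal.ofReal ((1 + ‖v‖) ^ k) * U p.1 p.2 v) ^ 2 ∂(volume : Measure (ℝ × R3))) < ⊤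
  ent : ∀ T : ℝ, (∫⁻ p in Ioo (0:ℝ) T ×ˢ (cell ×ˢ univ),
    (gain (U p.1 p.2.1) (U p.1 p.2.1) p.2.2 + U p.1 p.2.1 p.2.2 * freq (U p.1 p.2.1) p.2.2) *
      U p.1 p.2.1 p.2.2 ^ (1 / 64 : ℝ) ∂(volume : Measure (ℝ × R3 × R3))) < ⊤
  sup : ∀ T : ℝ, ∃ C : ℝ≥0∞, C < ⊤ ∧ ∀ t ∈ Icc (0:ℝ) T, (∫⁻ q in cell ×ˢ univ,
    ENNReal.ofReal ((1 + ‖q.2‖) ^ 3) * (U t q.1 q.2 + U t q.1 q.2 ^ (65 / 64 : ℝ))
      ∂(volume : Measure (R3 × R3))) ≤ C

/-- `F ≤ U` almost everywhere at every time of `[0,T]` -/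
def DomOn (T : ℝ) (F : ℝ → R3 → R3 → ℝ) (U : TF) : Prop :=
  ∀ t ∈ Icc (0:ℝ) T, ∀ᵐ q : R3 × R3, ENNReal.ofReal (F t q.1 q.2) ≤ U t q.1 q.2

/-- bounded measurable test weights with bounded support on phase space -/
structure Wt (ψ : R3 × R3 → ℝ) : Prop where
  meas : Measurable ψ
  bdd : ∃ C, ∀ q, |ψ q| ≤ C
  supp : ∃ ρ, ∀ q, ψ q ≠ 0 → ‖q.1‖ ≤ ρ ∧ ‖q.2‖ ≤ ρ

/-- the linearised majorant `𝒦 g = 2 Q⁺(μ, g) + μ ν[g]` -/
noncomputable def Kop (g : R3 → ℝ≥0∞) (v : R3) : ℝ≥0∞ := 2 * gain mu g v + mu v * freq g v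

/-- late-time damping `exp(-(1+|v|)(t-s))` -/
noncomputable def Ed (s t : ℝ) (v : R3) : ℝ≥0∞ :=
  ENNReal.ofReal (Real.exp (-((1 + ‖v‖) * (t - s))))

end Crest.Agent.R068
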