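import Crest.Agent.R068.Mild

/-! Row 68: integrability of the collision terms of dominated densities. -/

set_option autoImplicit false
open MeasureTheory Set Filter Topology
open scoped ENNReal
open Crest.AnalysisR.VecCalc3 Crest.AnalysisR.PDE.Boltzmann

namespace Crest.Agent.R068

lemma ent0_tonelli2 (A : Set R3) {f : R3 × R3 → ℝ≥0∞} (hf : Measurable f) :
    ∫⁻ q in A ×ˢ univ, f q ∂(volume : Measure (R3 × R3)) = ∫⁻ x in A, ∫⁻ v, f (x, v) := by
  rw [Measure.volume_eq_prod, ← Measure.prod_restrict, lintegral_prod _ hf.aemeasurable,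
    Measure.restrict_univ]

lemma ent0_tonelli3 (I : Set ℝ) (A : Set R3) {f : ℝ × R3 × R3 → ℝ≥0∞} (hf : Measurable f) :
    ∫⁻ p in I ×ˢ (A ×ˢ univ), f p ∂(volume : Measure (ℝ × R3 × R3)) =
      ∫⁻ t in I, ∫⁻ x in A, ∫⁻ v, f (t, x, v) := by
  rw [Measure.volume_eq_prod, ← Measure.prod_restrict, lintegral_prod _ hf.aemeasurable]
  refine lintegral_congr fun t => ?_
  exact ent0_tonelli2 A (f := fun q => f (t, q)) (hf.comp measurable_prodMk_left)

lemma ent0_tonelli2' (I : Set ℝ) (A : Set R3) {f : ℝ × R3 → ℝ≥0∞} (hf : Measurable f) :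
    ∫⁻ p in I ×ˢ A, f p ∂(volume : Measure (ℝ × R3)) = ∫⁻ t in I, ∫⁻ x in A, f (t, x) := by
  rw [Measure.volume_eq_prod, ← Measure.prod_restrict, lintegral_prod _ hf.aemeasurable]

lemma ent0_dom {U : TF} {F : ℝ → R3 → R3 → ℝ} {T : ℝ} (hd : DomOn T F U) {t : ℝ}
    (ht : t ∈ Icc (0:ℝ) T) : ∀ᵐ x : R3, ∀ᵐ v : R3, up F t x v ≤ U t x v := by
  have h := hd t ht
  rw [Measure.volume_eq_prod] at h
  exact Measure.ae_ae_of_ae_prod h

lemma ent0_coll_eq {F : ℝ → R3 → R3 → ℝ} (hF : Dens F) (t : ℝ) (x v : R3) :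
    collGain F t x v + collLoss F t x v =
      gain (up F t x) (up F t x) v + up F t x v * freq (up F t x) v := by
  rw [collGain_eq (hF.nonneg t x), collLoss_eq (hF.meas.slice t x) (hF.nonneg t x)]

lemma ent0_weight_meas {α : Type} [MeasurableSpace α] {v : α → R3} (hv : Measurable v) (k : ℕ) :
    Measurable (fun a => ENNReal.ofReal ((1 + ‖v a‖) ^ k)) :=
  ENNReal.measurable_ofReal.comp ((measurable_const.add hv.norm).pow_const k)

lemma ent0_real {y a : ℝ} (hy : 0 ≤ y) (ha : 0 ≤ a) :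
    y * |Real.log y| ≤ 64 * y ^ (65 / 64 : ℝ) + y * a + Real.exp (-a) := by
  have hya : 0 ≤ y * a := mul_nonneg hy ha
  have hp : 0 ≤ y ^ (65 / 64 : ℝ) := Real.rpow_nonneg hy _
  have he : 0 < Real.exp (-a) := Real.exp_pos _
  rcases hy.eq_or_lt with h0 | h0
  · rw [← h0]; simp only [zero_mul]; rw [← h0] at hp; positivity
  rcases le_total 1 y with h1 | h1
  · rw [abs_of_nonneg (Real.log_nonneg h1)]
    have h2 : Real.log y ≤ y ^ (1 / 64 : ℝ) / (1 / 64) := Real.log_le_rpow_div hy (by norm_num)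
    have h3 : y ^ (65 / 64 : ℝ) = y * y ^ (1 / 64 : ℝ) := by
      rw [show (65 / 64 : ℝ) = 1 + 1 / 64 by norm_num, Real.rpow_add h0, Real.rpow_one]
    have h4 : y * Real.log y ≤ y * (y ^ (1 / 64 : ℝ) / (1 / 64)) := mul_le_mul_of_nonneg_left h2 hy
    have h5 : y * (y ^ (1 / 64 : ℝ) / (1 / 64)) = 64 * y ^ (65 / 64 : ℝ) := by rw [h3]; ring
    linarith
  · rw [abs_of_nonpos (Real.log_nonpos hy h1)]
    have h2 : Real.log (Real.exp (-a) / y) ≤ Real.exp (-a) / y - 1 :=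
      Real.log_le_sub_one_of_pos (div_pos he h0)
    rw [Real.log_div he.ne' h0.ne', Real.log_exp] at h2
    have h3 : y * (-a - Real.log y) ≤ y * (Real.exp (-a) / y - 1) := mul_le_mul_of_nonneg_left h2 hy
    have h4 : y * (Real.exp (-a) / y - 1) = Real.exp (-a) - y := by field_simp
    nlinarith

lemma ent0_pt {y : ℝ} (hy : 0 ≤ y) (v : R3) {u : ℝ≥0∞} (hu : ENNReal.ofReal y ≤ u) :
    ENNReal.ofReal (y * (1 + ‖v‖ ^ 2 + |Real.log y|)) ≤
      64 * (ENNReal.ofReal ((1 + ‖v‖) ^ 3) * (u + u ^ (65 / 64 : ℝ))) + gs 1 v := by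
  have hn := norm_nonneg v
  have hp : 0 ≤ y ^ (65 / 64 : ℝ) := Real.rpow_nonneg hy _
  have h1 := ent0_real hy (sq_nonneg ‖v‖)
  have hw1 : 1 ≤ (1 + ‖v‖) ^ 3 := one_le_pow₀ (by linarith)
  have hw2 : 1 + 2 * ‖v‖ ^ 2 ≤ 64 * (1 + ‖v‖) ^ 3 := by nlinarith [pow_nonneg hn 3, pow_nonneg hn 2]
  have h2 : y * (1 + ‖v‖ ^ 2 + |Real.log y|) ≤
      64 * ((1 + ‖v‖) ^ 3 * (y + y ^ (65 / 64 : ℝ))) + Real.exp (-(1 * ‖v‖ ^ 2)) := by
    rw [one_mul]
    have h3 : y * (1 + 2 * ‖v‖ ^ 2) ≤ y * (64 * (1 + ‖v‖) ^ 3) := mul_le_mul_of_nonneg_left hw2 hy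
    have h4 : y ^ (65 / 64 : ℝ) * 1 ≤ y ^ (65 / 64 : ℝ) * (1 + ‖v‖) ^ 3 :=
      mul_le_mul_of_nonneg_left hw1 hp
    nlinarith
  calc ENNReal.ofReal (y * (1 + ‖v‖ ^ 2 + |Real.log y|))
      ≤ ENNReal.ofReal (64 * ((1 + ‖v‖) ^ 3 * (y + y ^ (65 / 64 : ℝ))) + Real.exp (-(1 * ‖v‖ ^ 2))) :=
        ENNReal.ofReal_le_ofReal h2
    _ = 64 * (ENNReal.ofReal ((1 + ‖v‖) ^ 3) *
          (ENNReal.ofReal y + ENNReal.ofReal y ^ (65 / 64 : ℝ))) + gs 1 v := by
        rw [ENNReal.ofReal_add (by positivity) (Real.exp_pos _).le, ENNReal.ofReal_mul (by norm_num),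
          ENNReal.ofReal_mul (by positivity), ENNReal.ofReal_add hy hp,
          ENNReal.ofReal_rpow_of_nonneg hy (by norm_num)]
        simp [gs]
    _ ≤ _ := by gcongr

/-- collision terms of a dominated density are integrable with all weights -/
lemma coll_weight_lt_top {U : TF} (hU : Good U) {F : ℝ → R3 → R3 → ℝ} (hF : Dens F) {T : ℝ}
    (hd : DomOn T F U) (k : ℕ) :
    (∫⁻ p in Ioo (0:ℝ) T ×ˢ (cell ×ˢ univ), ENNReal.ofReal ((1 + ‖p.2.2‖) ^ k) *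
      (collGain F p.1 p.2.1 p.2.2 + collLoss F p.1 p.2.1 p.2.2) ∂(volume : Measure (ℝ × R3 × R3))) < ⊤ := by
  have hmeas : Measurable (fun p : ℝ × R3 × R3 => ENNReal.ofReal ((1 + ‖p.2.2‖) ^ k) *
      (collGain F p.1 p.2.1 p.2.2 + collLoss F p.1 p.2.1 p.2.2)) :=
    (ent0_weight_meas (measurable_snd.snd) k).mul
      ((measurable_collGain hF.meas).add (measurable_collLoss hF.meas))
  have hm2 : Measurable (fun p : ℝ × R3 =>
      (∫⁻ v, ENNReal.ofReal ((1 + ‖v‖) ^ (k + 1)) * U p.1 p.2 v) ^ 2) := by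
    refine Measurable.pow_const ?_ 2
    refine Measurable.lintegral_prod_right' (f := fun q : (ℝ × R3) × R3 =>
      ENNReal.ofReal ((1 + ‖q.2‖) ^ (k + 1)) * U q.1.1 q.1.2 q.2) ?_
    exact (ent0_weight_meas measurable_snd (k + 1)).mul
      (hU.meas.comp measurable_fst.fst measurable_fst.snd measurable_snd)
  have hfin := hU.mom T (k + 1)
  rw [ent0_tonelli2' _ _ hm2] at hfin
  rw [ent0_tonelli3 _ _ hmeas]
  refine lt_of_le_of_lt ?_ (ENNReal.mul_lt_top (a := ENNReal.ofReal (4 * Real.pi * 2 ^ k))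
    ENNReal.ofReal_lt_top hfin)
  rw [← lintegral_const_mul' _ _ ENNReal.ofReal_ne_top]
  refine setLIntegral_mono' measurableSet_Ioo fun t ht => ?_
  rw [← lintegral_const_mul' _ _ ENNReal.ofReal_ne_top]
  refine lintegral_mono_ae (ae_restrict_of_ae ?_)
  filter_upwards [ent0_dom hd (Ioo_subset_Icc_self ht)] with x hx
  simp only [ent0_coll_eq hF]
  have hs := hF.meas.up.slice t x
  refine (lintegral_gain_moment hs hs k).trans ?_
  have hle : (∫⁻ v, ENNReal.ofReal ((1 + ‖v‖) ^ (k + 1)) * up F t x v) ≤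
      ∫⁻ v, ENNReal.ofReal ((1 + ‖v‖) ^ (k + 1)) * U t x v := by
    refine lintegral_mono_ae ?_
    filter_upwards [hx] with v hv
    gcongr
  rw [sq]
  gcongr
/-- ... and with the weight `F^{1/64}` -/
lemma coll_ent_lt_top {U : TF} (hU : Good U) {F : ℝ → R3 → R3 → ℝ} (hF : Dens F) {T : ℝ}
    (hd : DomOn T F U) :
    (∫⁻ p in Ioo (0:ℝ) T ×ˢ (cell ×ˢ univ), (collGain F p.1 p.2.1 p.2.2 + collLoss F p.1 p.2.1 p.2.2) *
      up F p.1 p.2.1 p.2.2 ^ (1 / 64 : ℝ) ∂(volume : Measure (ℝ × R3 × R3))) < ⊤ := by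
  have hmeas : Measurable (fun p : ℝ × R3 × R3 =>
      (collGain F p.1 p.2.1 p.2.2 + collLoss F p.1 p.2.1 p.2.2) *
        up F p.1 p.2.1 p.2.2 ^ (1 / 64 : ℝ)) :=
    ((measurable_collGain hF.meas).add (measurable_collLoss hF.meas)).mul
      (Measurable.pow_const hF.meas.up _)
  have hm2 : Measurable (fun p : ℝ × R3 × R3 =>
      (gain (U p.1 p.2.1) (U p.1 p.2.1) p.2.2 + U p.1 p.2.1 p.2.2 * freq (U p.1 p.2.1) p.2.2) *
        U p.1 p.2.1 p.2.2 ^ (1 / 64 : ℝ)) :=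
    (Measurable.add (hU.meas.gain hU.meas) (Measurable.mul hU.meas hU.meas.freq)).mul
      (Measurable.pow_const hU.meas _)
  have hfin := hU.ent T
  rw [ent0_tonelli3 _ _ hm2] at hfin
  rw [ent0_tonelli3 _ _ hmeas]
  refine lt_of_le_of_lt ?_ hfin
  refine setLIntegral_mono' measurableSet_Ioo fun t ht => ?_
  refine lintegral_mono_ae (ae_restrict_of_ae ?_)
  filter_upwards [ent0_dom hd (Ioo_subset_Icc_self ht)] with x hx
  simp only [ent0_coll_eq hF]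
  have hs := hF.meas.up.slice t x
  have hs' := hU.meas.slice t x
  refine lintegral_mono_ae ?_
  filter_upwards [hx, gain_mono_ae hs hs' hs hs' hx hx] with v hv hg
  have hfr := freq_mono_ae hx v
  gcongr
/-- mass, energy, entropy bound -/
lemma ent_bound {U : TF} (hU : Good U) {F : ℝ → R3 → R3 → ℝ} (hF : Dens F) {T : ℝ} (hd : DomOn T F U) :
    ∃ C : ℝ≥0∞, C < ⊤ ∧ ∀ t ∈ Icc (0:ℝ) T, (∫⁻ q in cell ×ˢ univ,
      ENNReal.ofReal (F t q.1 q.2 * (1 + ‖q.2‖ ^ 2 + |Real.log (F t q.1 q.2)|))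
        ∂(volume : Measure (R3 × R3))) ≤ C := by
  obtain ⟨C, hC, hsup⟩ := hU.sup T
  have hg : (∫⁻ q in cell ×ˢ univ, gs 1 q.2 ∂(volume : Measure (R3 × R3))) < ⊤ := by
    rw [ent0_tonelli2 cell (f := fun q => gs 1 q.2) ((measurable_gs 1).comp measurable_snd)]
    have h1 := lintegral_gs (a := 1) one_pos (0 : R3)
    simp only [sub_zero] at h1
    simp only [h1, lintegral_const, Measure.restrict_apply MeasurableSet.univ, univ_inter,
      volume_cell, mul_one]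
    exact ENNReal.ofReal_lt_top
  refine ⟨64 * C + ∫⁻ q in cell ×ˢ univ, gs 1 q.2 ∂(volume : Measure (R3 × R3)),
    ENNReal.add_lt_top.2 ⟨ENNReal.mul_lt_top (by norm_num) hC, hg⟩, fun t ht => ?_⟩
  calc (∫⁻ q in cell ×ˢ univ,
      ENNReal.ofReal (F t q.1 q.2 * (1 + ‖q.2‖ ^ 2 + |Real.log (F t q.1 q.2)|))
        ∂(volume : Measure (R3 × R3)))
      ≤ ∫⁻ q in cell ×ˢ univ, (64 * (ENNReal.ofReal ((1 + ‖q.2‖) ^ 3) *
          (U t q.1 q.2 + U t q.1 q.2 ^ (65 / 64 : ℝ))) + gs 1 q.2) ∂(volume : Measure (R3 × R3)) := by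
        refine lintegral_mono_ae (ae_restrict_of_ae ?_)
        filter_upwards [hd t ht] with q hq
        exact ent0_pt (hF.nonneg _ _ _) q.2 hq
    _ = 64 * (∫⁻ q in cell ×ˢ univ, ENNReal.ofReal ((1 + ‖q.2‖) ^ 3) *
          (U t q.1 q.2 + U t q.1 q.2 ^ (65 / 64 : ℝ)) ∂(volume : Measure (R3 × R3))) +
          ∫⁻ q in cell ×ˢ univ, gs 1 q.2 ∂(volume : Measure (R3 × R3)) := by
        rw [lintegral_add_right _ (g := fun q : R3 × R3 => gs 1 q.2) ((measurable_gs 1).comp measurable_snd),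
          lintegral_const_mul' _ _ (by norm_num)]
    _ ≤ _ := by gcongr; exact hsup t ht

end Crest.Agent.R068
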