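import Crest.Agent.R068.Ent0

/-! Row 68: elementary real inequalities for the H-theorem. -/

set_option autoImplicit false
open MeasureTheory Set Filter Topology
open scoped ENNReal
open Crest.AnalysisR.VecCalc3 Crest.AnalysisR.PDE.Boltzmann

namespace Crest.Agent.R068

/-- regularised logarithm -/
noncomputable def entLam (d y : ℝ) (v : R3) : ℝ := Real.log (1 + y / (d * maxwellian v))
/-- its primitive -/
noncomputable def entP (d y : ℝ) (v : R3) : ℝ :=
  (y + d * maxwellian v) * Real.log (1 + y / (d * maxwellian v)) - y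
/-- regularised entropy density -/
noncomputable def entEta (d y : ℝ) (v : R3) : ℝ :=
  (y + d * maxwellian v) * Real.log ((y + d * maxwellian v) / ((1 + d) * maxwellian v)) - y +
    maxwellian v
/-- regularised pair dissipation -/
noncomputable def entS (A B A' B' : ℝ) : ℝ := (A - B) * Real.log (A' / B') + (A' - A) + (B' - B)

lemma ent_measurable_maxwellian : Measurable maxwellian := by
  unfold maxwellian; fun_prop

lemma ent_maxwellian_le_one (v : R3) : maxwellian v ≤ 1 := by
  unfold maxwellian
  have h1 : (2 * Real.pi) ^ (-(3 / 2 : ℝ)) ≤ 1 :=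
    Real.rpow_le_one_of_one_le_of_nonpos (by linarith [Real.pi_gt_three]) (by norm_num)
  have h2 : Real.exp (-‖v‖ ^ 2 / 2) ≤ 1 := by
    rw [Real.exp_le_one_iff]; nlinarith [sq_nonneg ‖v‖]
  have h3 : 0 ≤ (2 * Real.pi) ^ (-(3 / 2 : ℝ)) := by positivity
  nlinarith [Real.exp_pos (-‖v‖ ^ 2 / 2)]

lemma ent_log_maxwellian (v : R3) :
    Real.log (maxwellian v) = -(3 / 2) * Real.log (2 * Real.pi) - ‖v‖ ^ 2 / 2 := by
  unfold maxwellian
  rw [Real.log_mul (by positivity) (Real.exp_pos _).ne', Real.log_rpow (by positivity), Real.log_exp]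
  ring

lemma entLam_nonneg {d y : ℝ} (hd : 0 < d) (hy : 0 ≤ y) (v : R3) : 0 ≤ entLam d y v := by
  have := maxwellian_pos v
  exact Real.log_nonneg (by have : 0 ≤ y / (d * maxwellian v) := by positivity
                            linarith)

lemma entLam_eq {d y : ℝ} (hd : 0 < d) (hy : 0 ≤ y) (v : R3) :
    entLam d y v = Real.log (y + d * maxwellian v) - Real.log d - Real.log (maxwellian v) := by
  have hM := maxwellian_pos v
  unfold entLam
  have : 1 + y / (d * maxwellian v) = (y + d * maxwellian v) / (d * maxwellian v) := by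
    field_simp; ring
  rw [this, Real.log_div (by positivity) (by positivity), Real.log_mul hd.ne' hM.ne']
  ring

lemma measurable_entLam (d : ℝ) : Measurable (fun z : ℝ × R3 => entLam d z.1 z.2) := by
  have := ent_measurable_maxwellian
  unfold entLam; fun_prop

lemma measurable_entP (d : ℝ) : Measurable (fun z : ℝ × R3 => entP d z.1 z.2) := by
  have := ent_measurable_maxwellian
  unfold entP; fun_prop

lemma measurable_entEta (d : ℝ) : Measurable (fun z : ℝ × R3 => entEta d z.1 z.2) := by
  have := ent_measurable_maxwellian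
  unfold entEta; fun_prop

/-- `a log (a/b) ≥ a - b` -/
lemma ent_log_ineq {a b : ℝ} (ha : 0 < a) (hb : 0 < b) : a - b ≤ a * Real.log (a / b) := by
  have h := Real.one_sub_inv_le_log_of_pos (div_pos ha hb)
  have : a * (1 - (a / b)⁻¹) = a - b := by field_simp
  nlinarith [mul_le_mul_of_nonneg_left h ha.le]

lemma entP_nonneg {d y : ℝ} (hd : 0 < d) (hy : 0 ≤ y) (v : R3) : 0 ≤ entP d y v := by
  have hM := maxwellian_pos v
  unfold entP
  have : 1 + y / (d * maxwellian v) = (y + d * maxwellian v) / (d * maxwellian v) := by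
    field_simp; ring
  rw [this]
  have := ent_log_ineq (a := y + d * maxwellian v) (b := d * maxwellian v) (by positivity)
    (by positivity)
  linarith

lemma entEta_nonneg {d y : ℝ} (hd : 0 < d) (hy : 0 ≤ y) (v : R3) : 0 ≤ entEta d y v := by
  have hM := maxwellian_pos v
  unfold entEta
  have := ent_log_ineq (a := y + d * maxwellian v) (b := (1 + d) * maxwellian v) (by positivity)
    (by positivity)
  linarith

lemma entP_add {d y : ℝ} (hd : 0 < d) (hy : 0 ≤ y) (v : R3) :
    entP d y v + maxwellian v = entEta d y v + Real.log ((1 + d) / d) * y +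
      Real.log ((1 + d) / d) * d * maxwellian v := by
  have hM := maxwellian_pos v
  have h1 := entLam_eq hd hy v
  unfold entLam at h1
  unfold entP entEta
  rw [h1, Real.log_div (by positivity) (by positivity), Real.log_div (by positivity) hd.ne',
    Real.log_mul (by positivity) hM.ne']
  ring

lemma entEta_le {d y : ℝ} (hd : 0 < d) (hy : 0 ≤ y) (v : R3) :
    entEta d y v ≤ y * Real.log (y / maxwellian v) - y + maxwellian v := by
  have hM := maxwellian_pos v
  unfold entEta
  have hc := Real.convexOn_mul_log.2 (show y / maxwellian v ∈ Ici (0:ℝ) from div_nonneg hy hM.le)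
    (show (1:ℝ) ∈ Ici (0:ℝ) by simp) (show (0:ℝ) ≤ 1 / (1 + d) by positivity)
    (show (0:ℝ) ≤ d / (1 + d) by positivity) (by field_simp)
  simp only [smul_eq_mul, Real.log_one, mul_zero, add_zero, mul_one] at hc
  have h1 : 1 / (1 + d) * (y / maxwellian v) + d / (1 + d) =
      (y + d * maxwellian v) / ((1 + d) * maxwellian v) := by field_simp
  rw [h1] at hc
  have h2 := mul_le_mul_of_nonneg_left hc (by positivity : 0 ≤ (1 + d) * maxwellian v)
  have h3 : (1 + d) * maxwellian v * ((y + d * maxwellian v) / ((1 + d) * maxwellian v) *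
      Real.log ((y + d * maxwellian v) / ((1 + d) * maxwellian v))) =
      (y + d * maxwellian v) * Real.log ((y + d * maxwellian v) / ((1 + d) * maxwellian v)) := by
    field_simp
  have h4 : (1 + d) * maxwellian v * (1 / (1 + d) * (y / maxwellian v * Real.log (y / maxwellian v))) =
      y * Real.log (y / maxwellian v) := by field_simp
  linarith

lemma entEta_tendsto {d : ℕ → ℝ} (hd : Tendsto d atTop (𝓝 0)) (hd0 : ∀ n, 0 < d n) (y : ℝ) (v : R3) :
    Tendsto (fun n => entEta (d n) y v) atTop
      (𝓝 (y * Real.log (y / maxwellian v) - y + maxwellian v)) := by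
  have hM := maxwellian_pos v
  have h1 : ∀ n, entEta (d n) y v = (1 + d n) * maxwellian v *
      ((y + d n * maxwellian v) / ((1 + d n) * maxwellian v) *
        Real.log ((y + d n * maxwellian v) / ((1 + d n) * maxwellian v))) - y + maxwellian v := by
    intro n
    have := hd0 n
    unfold entEta; field_simp
  simp_rw [h1]
  have h2 : Tendsto (fun n => (y + d n * maxwellian v) / ((1 + d n) * maxwellian v)) atTop
      (𝓝 (y / maxwellian v)) := by
    have := ((hd.mul_const (maxwellian v)).const_add y).div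
      ((hd.const_add 1).mul_const (maxwellian v)) (by simp; exact hM.ne')
    simp only [zero_mul, add_zero, one_mul] at this
    exact this
  have h3 := (Real.continuous_mul_log.tendsto _).comp h2
  have h4 := ((((hd.const_add 1).mul_const (maxwellian v)).mul h3).sub_const y).add_const
    (maxwellian v)
  have h5 : (1 + 0) * maxwellian v * (y / maxwellian v * Real.log (y / maxwellian v)) - y +
      maxwellian v = y * Real.log (y / maxwellian v) - y + maxwellian v := by
    field_simp; ring
  rw [h5] at h4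
  exact h4

lemma entS_nonneg {A B A' B' : ℝ} (hA : 0 ≤ A) (hB : 0 ≤ B) (hA' : A ≤ A') (hB' : B ≤ B')
    (hA0 : 0 < A') (hB0 : 0 < B') : 0 ≤ entS A B A' B' := by
  unfold entS
  have h1 := Real.one_sub_inv_le_log_of_pos (div_pos hA0 hB0)
  have h2 := Real.log_le_sub_one_of_pos (div_pos hA0 hB0)
  have h3 : A * (A' / B')⁻¹ ≤ B' := by
    rw [inv_div, ← mul_div_assoc, div_le_iff₀ hA0]; nlinarith
  have h4 : B * (A' / B') ≤ A' := by
    rw [← mul_div_assoc, div_le_iff₀ hB0]; nlinarith
  nlinarith [mul_le_mul_of_nonneg_left h1 hA, mul_le_mul_of_nonneg_left h2 hB]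

lemma entS_symm (A B A' B' : ℝ) : entS A B A' B' = entS B A B' A' := by
  unfold entS
  rw [show B' / A' = (A' / B')⁻¹ by rw [inv_div], Real.log_inv]
  ring

lemma entS_tendsto_top {B : ℝ} (hB : 0 < B) {A' B' : ℕ → ℝ} (hA' : Tendsto A' atTop (𝓝 0))
    (hB' : Tendsto B' atTop (𝓝 B)) (hA0 : ∀ n, 0 < A' n) (hB0 : ∀ n, 0 < B' n) :
    Tendsto (fun n => ENNReal.ofReal (entS 0 B (A' n) (B' n))) atTop (𝓝 ⊤) := by
  refine ENNReal.tendsto_ofReal_atTop.comp ?_
  have h1 : Tendsto (fun n => Real.log (A' n)) atTop atBot :=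
    Real.tendsto_log_nhdsGT_zero.comp
      (tendsto_nhdsWithin_iff.2 ⟨hA', Eventually.of_forall hA0⟩)
  have h2 : Tendsto (fun n => (-B) * Real.log (A' n)) atTop atTop :=
    h1.const_mul_atBot_of_neg (by linarith)
  have h3 : Tendsto (fun n => B * Real.log (B' n) + A' n + (B' n - B)) atTop
      (𝓝 (B * Real.log B + 0 + (B - B))) :=
    (((hB'.log hB.ne').const_mul B).add hA').add (hB'.sub_const B)
  refine (h2.atTop_add h3).congr fun n => ?_
  unfold entS
  rw [Real.log_div (hA0 n).ne' (hB0 n).ne']; ring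

lemma entS_tendsto {A B : ℝ} (hA : 0 ≤ A) (hB : 0 ≤ B) {A' B' : ℕ → ℝ}
    (hA' : Tendsto A' atTop (𝓝 A)) (hB' : Tendsto B' atTop (𝓝 B)) (hA0 : ∀ n, 0 < A' n)
    (hB0 : ∀ n, 0 < B' n) :
    Tendsto (fun n => ENNReal.ofReal (entS A B (A' n) (B' n))) atTop (𝓝 (pairDissipation A B)) := by
  unfold pairDissipation
  split_ifs with h1 h2
  · obtain ⟨rfl, rfl⟩ := h1
    have := ENNReal.tendsto_ofReal (hA'.add hB')
    simpa [entS] using this
  · refine ENNReal.tendsto_ofReal ?_
    have := ((((hA'.div hB' h2.2.ne').log (div_pos h2.1 h2.2).ne').const_mul (A - B)).add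
      (hA'.sub_const A)).add (hB'.sub_const B)
    simpa [entS] using this
  · rcases hA.eq_or_lt with rfl | hA1
    · have hB1 : 0 < B := by
        rcases hB.eq_or_lt with rfl | h
        · exact absurd ⟨rfl, rfl⟩ h1
        · exact h
      exact entS_tendsto_top hB1 hA' hB' hA0 hB0
    · have hB1 : B = 0 := by
        rcases hB.eq_or_lt with rfl | h
        · rfl
        · exact absurd ⟨hA1, h⟩ h2
      subst hB1
      simp_rw [entS_symm A 0]
      exact entS_tendsto_top hA1 hB' hA' hB0 hA0

lemma entLam_le {d : ℝ} (hd : 0 < d) (hd1 : d ≤ 1) :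
    ∃ K : ℝ, 0 ≤ K ∧ ∀ y, 0 ≤ y → ∀ v : R3, entLam d y v ≤ 64 * y ^ (1 / 64 : ℝ) + K * (1 + ‖v‖) ^ 2 := by
  have hl : Real.log d ≤ 0 := Real.log_nonpos hd.le hd1
  have hp : 0 ≤ Real.log (2 * Real.pi) := Real.log_nonneg (by linarith [Real.pi_gt_three])
  refine ⟨2 - Real.log d + 3 / 2 * Real.log (2 * Real.pi), by linarith, fun y hy v => ?_⟩
  have hM := maxwellian_pos v
  have hM1 := ent_maxwellian_le_one v
  rw [entLam_eq hd hy, ent_log_maxwellian]
  have h1 : Real.log (y + d * maxwellian v) ≤ 1 + 64 * y ^ (1 / 64 : ℝ) := by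
    have hdm : d * maxwellian v ≤ 1 := by nlinarith
    have hr : 0 ≤ y ^ (1 / 64 : ℝ) := by positivity
    rcases le_total y 1 with h | h
    · have := Real.log_le_sub_one_of_pos (x := y + d * maxwellian v) (by positivity)
      linarith
    · have h2 : Real.log (y + d * maxwellian v) ≤ Real.log (2 * y) :=
        Real.log_le_log (by positivity) (by linarith)
      rw [Real.log_mul (by norm_num) (by linarith)] at h2
      have h3 := Real.log_le_sub_one_of_pos (x := 2) (by norm_num)
      have h4 := Real.log_le_rpow_div hy (ε := 1 / 64) (by norm_num)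
      have : y ^ (1 / 64 : ℝ) / (1 / 64) = 64 * y ^ (1 / 64 : ℝ) := by ring
      linarith
  have h2 : 1 + ‖v‖ ^ 2 ≤ (1 + ‖v‖) ^ 2 := by nlinarith [norm_nonneg v]
  have h3 : (1:ℝ) ≤ (1 + ‖v‖) ^ 2 := by nlinarith [norm_nonneg v]
  nlinarith [mul_le_mul_of_nonneg_left h3 (by linarith : 0 ≤ -Real.log d + 3 / 2 * Real.log (2 * Real.pi)),
    sq_nonneg ‖v‖]

/-- a global `C¹` extension of `entP` -/
lemma entP_ext {d : ℝ} (hd : 0 < d) (v : R3) : ∃ Ψ Ψ' : ℝ → ℝ, (∀ y, HasDerivAt Ψ (Ψ' y) y) ∧
    Continuous Ψ' ∧ ∀ y, 0 ≤ y → Ψ y = entP d y v ∧ Ψ' y = entLam d y v := by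
  have hM := maxwellian_pos v
  have hc : 0 < d * maxwellian v := by positivity
  have hcont : Continuous (fun y : ℝ => Real.log (1 + max y 0 / (d * maxwellian v))) := by
    refine Continuous.log (by fun_prop) fun y => ?_
    have : 0 ≤ max y 0 / (d * maxwellian v) := div_nonneg (le_max_right _ _) hc.le
    linarith
  refine ⟨fun y => ∫ u in (0:ℝ)..y, Real.log (1 + max u 0 / (d * maxwellian v)),
    fun y => Real.log (1 + max y 0 / (d * maxwellian v)), fun y => (hcont.integral_hasStrictDerivAt 0 y).hasDerivAt,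
    hcont, fun y hy => ⟨?_, by simp only [entLam, max_eq_left hy]⟩⟩
  have h := intervalIntegral.integral_eq_sub_of_hasDerivAt (f := fun y => entP d y v)
    (f' := fun y : ℝ => Real.log (1 + max y 0 / (d * maxwellian v))) (a := 0) (b := y) ?_
    (hcont.intervalIntegrable _ _)
  · simp only [h]; simp [entP]
  · intro u hu
    rw [uIcc_of_le hy] at hu
    have hu0 : 0 ≤ u := hu.1
    have hpos : 0 < 1 + u / (d * maxwellian v) := by positivity
    have h1 : HasDerivAt (fun y : ℝ => 1 + y / (d * maxwellian v)) (1 / (d * maxwellian v)) u :=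
      ((hasDerivAt_id u).div_const _).const_add 1
    have h2 := (((hasDerivAt_id u).add_const (d * maxwellian v)).mul (h1.log hpos.ne')).sub
      (hasDerivAt_id u)
    have h3 : 1 * Real.log (1 + u / (d * maxwellian v)) +
        (id u + d * maxwellian v) * (1 / (d * maxwellian v) / (1 + u / (d * maxwellian v))) - 1 =
        Real.log (1 + max u 0 / (d * maxwellian v)) := by
      simp only [max_eq_left hu0, id]
      have : (u + d * maxwellian v) * (1 / (d * maxwellian v) / (1 + u / (d * maxwellian v))) = 1 := by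
        field_simp; ring
      rw [this]; ring
    rw [h3] at h2
    exact h2

/-- superadditivity of `liminf` in the form needed -/
lemma ent_liminf_add {a b c : ℝ≥0∞} {u w e : ℕ → ℝ≥0∞} (ha : a ≤ liminf u atTop)
    (hb : b ≤ liminf w atTop) (h : ∀ n, u n + w n ≤ c + e n) (he : Tendsto e atTop (𝓝 0)) :
    a + b ≤ c := by
  refine (add_le_add ha hb).trans ?_
  rw [liminf_eq_iSup_iInf_of_nat, liminf_eq_iSup_iInf_of_nat, ENNReal.iSup_add_iSup_of_monotone]
  · refine iSup_le fun n => ?_
    have h1 : Tendsto (fun k => c + e k) atTop (𝓝 (c + 0)) := he.const_add c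
    rw [add_zero] at h1
    refine ge_of_tendsto h1 ?_
    filter_upwards [eventually_ge_atTop n] with k hk
    exact (add_le_add (iInf₂_le k hk) (iInf₂_le k hk)).trans (h k)
  · exact fun i j hij => biInf_mono fun k hk => le_trans hij hk
  · exact fun i j hij => biInf_mono fun k hk => le_trans hij hk

/-- Fatou in the form needed -/
lemma ent_fatou {α : Type} [MeasurableSpace α] {μ : Measure α} {f : α → ℝ≥0∞} {g : ℕ → α → ℝ≥0∞}
    (hg : ∀ n, Measurable (g n)) (h : ∀ a, f a ≤ liminf (fun n => g n a) atTop) :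
    ∫⁻ a, f a ∂μ ≤ liminf (fun n => ∫⁻ a, g n a ∂μ) atTop :=
  (lintegral_mono h).trans (lintegral_liminf_le hg)

end Crest.Agent.R068
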