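import Crest.Agent.R068.EntAux1

/-! Row 68: the symmetrised collision identity at a fixed point `(s,x)`. -/

set_option autoImplicit false
open MeasureTheory Set Filter Topology
open scoped ENNReal
open Crest.AnalysisR.VecCalc3 Crest.AnalysisR.PDE.Boltzmann

namespace Crest.Agent.R068

/-- the measure `dv dv⁎ dω` -/
noncomputable abbrev entMu : Measure (R3 × R3 × R3) :=
  (volume : Measure R3).prod ((volume : Measure R3).prod sphereMeasure)
/-- pre-post map -/
noncomputable def entPP (p : R3 × R3 × R3) : R3 × R3 × R3 :=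
  (postVel p.1 p.2.1 p.2.2, postVelStar p.1 p.2.1 p.2.2, p.2.2)
/-- exchange of the two particles -/
def entSw (p : R3 × R3 × R3) : R3 × R3 × R3 := (p.2.1, p.1, p.2.2)
/-- regularised dissipation integrand -/
noncomputable def entSI (d : ℝ) (f : R3 → ℝ) (v vs w : R3) : ℝ≥0∞ :=
  ENNReal.ofReal |inner ℝ (v - vs) w| * ENNReal.ofReal
    (entS (f (postVel v vs w) * f (postVelStar v vs w)) (f v * f vs)
      ((f (postVel v vs w) + d * maxwellian (postVel v vs w)) *
        (f (postVelStar v vs w) + d * maxwellian (postVelStar v vs w)))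
      ((f v + d * maxwellian v) * (f vs + d * maxwellian vs)))
/-- first moment of the Maxwellian -/
noncomputable def entm : ℝ≥0∞ := ∫⁻ v, ENNReal.ofReal ((1 + ‖v‖) * maxwellian v)

lemma ent_I3 {Φ : R3 × R3 × R3 → ℝ≥0∞} (hΦ : Measurable Φ) :
    ∫⁻ p, Φ p ∂entMu = ∫⁻ v, ∫⁻ vs, ∫⁻ w, Φ (v, vs, w) ∂sphereMeasure := by
  rw [lintegral_prod _ hΦ.aemeasurable]
  refine lintegral_congr fun v => ?_
  exact lintegral_prod _ (hΦ.comp measurable_prodMk_left).aemeasurable

lemma ent_ae_unit : ∀ᵐ p ∂entMu, ‖p.2.2‖ = 1 :=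
  Measure.quasiMeasurePreserving_snd.ae (Measure.quasiMeasurePreserving_snd.ae sphere_ae_unit)

lemma ent_mp_PP : MeasurePreserving entPP entMu entMu := measurePreserving_prepost
lemma ent_mp_Sw : MeasurePreserving entSw entMu entMu := measurePreserving_swap12

lemma ent_sym {T : R3 × R3 × R3 → ℝ≥0∞} (hT : Measurable T) :
    ∫⁻ p, (T p + T (entSw p) + T (entPP p) + T (entSw (entPP p))) ∂entMu = 4 * ∫⁻ p, T p ∂entMu := by
  have h1 := ent_mp_Sw.lintegral_comp hT
  have h2 := ent_mp_PP.lintegral_comp hT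
  have h3 := (ent_mp_Sw.comp ent_mp_PP).lintegral_comp hT
  have m1 : Measurable fun p => T (entSw p) := hT.comp ent_mp_Sw.measurable
  have m2 : Measurable fun p => T (entPP p) := hT.comp ent_mp_PP.measurable
  simp only [Function.comp] at h3
  have m3 : Measurable fun p => T p + T (entSw p) := hT.add m1
  have m4 : Measurable fun p => T p + T (entSw p) + T (entPP p) := m3.add m2
  rw [lintegral_add_left m4, lintegral_add_left m3, lintegral_add_left hT, h1, h2, h3]
  ring

lemma ent_meas_post : Measurable (fun p : R3 × R3 × R3 => postVel p.1 p.2.1 p.2.2) :=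
  continuous_postVel.measurable
lemma ent_meas_postStar : Measurable (fun p : R3 × R3 × R3 => postVelStar p.1 p.2.1 p.2.2) :=
  continuous_postVelStar.measurable
lemma ent_meas_inner : Measurable (fun p : R3 × R3 × R3 => |inner ℝ (p.1 - p.2.1) p.2.2|) := by
  have : Continuous (fun p : R3 × R3 × R3 => |inner ℝ (p.1 - p.2.1) p.2.2|) := by fun_prop
  exact this.measurable

lemma measurable_entS : Measurable (fun z : ℝ × ℝ × ℝ × ℝ => entS z.1 z.2.1 z.2.2.1 z.2.2.2) := by
  unfold entS; fun_prop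

/-- joint measurability of the regularised dissipation integrand -/
lemma measurable_entSI {α : Type} [MeasurableSpace α] (d : ℝ) {f : α → R3 → ℝ}
    (hf : Measurable (fun z : α × R3 => f z.1 z.2)) :
    Measurable (fun z : α × R3 × R3 × R3 => entSI d (f z.1) z.2.1 z.2.2.1 z.2.2.2) := by
  have hM := ent_measurable_maxwellian
  have a1 : Measurable (fun z : α × R3 × R3 × R3 => postVel z.2.1 z.2.2.1 z.2.2.2) :=
    ent_meas_post.comp measurable_snd
  have a2 : Measurable (fun z : α × R3 × R3 × R3 => postVelStar z.2.1 z.2.2.1 z.2.2.2) :=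
    ent_meas_postStar.comp measurable_snd
  have a3 : Measurable (fun z : α × R3 × R3 × R3 => z.2.1) := measurable_snd.fst
  have a4 : Measurable (fun z : α × R3 × R3 × R3 => z.2.2.1) := measurable_snd.snd.fst
  have b1 : Measurable (fun z : α × R3 × R3 × R3 => f z.1 (postVel z.2.1 z.2.2.1 z.2.2.2)) :=
    hf.comp (measurable_fst.prodMk a1)
  have b2 : Measurable (fun z : α × R3 × R3 × R3 => f z.1 (postVelStar z.2.1 z.2.2.1 z.2.2.2)) :=
    hf.comp (measurable_fst.prodMk a2)
  have b3 : Measurable (fun z : α × R3 × R3 × R3 => f z.1 z.2.1) := hf.comp (measurable_fst.prodMk a3)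
  have b4 : Measurable (fun z : α × R3 × R3 × R3 => f z.1 z.2.2.1) := hf.comp (measurable_fst.prodMk a4)
  unfold entSI
  refine (ent_meas_inner.comp measurable_snd).ennreal_ofReal.mul (Measurable.ennreal_ofReal ?_)
  exact measurable_entS.comp ((b1.mul b2).prodMk ((b3.mul b4).prodMk
    (((b1.add ((hM.comp a1).const_mul d)).mul (b2.add ((hM.comp a2).const_mul d))).prodMk
      ((b3.add ((hM.comp a3).const_mul d)).mul (b4.add ((hM.comp a4).const_mul d))))))

lemma entSI_tendsto {d : ℕ → ℝ} (hd : Tendsto d atTop (𝓝 0)) (hd0 : ∀ n, 0 < d n) {f : R3 → ℝ}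
    (h0 : ∀ v, 0 ≤ f v) (v vs w : R3) :
    Tendsto (fun n => entSI (d n) f v vs w) atTop (𝓝 (ENNReal.ofReal |inner ℝ (v - vs) w| *
      pairDissipation (f (postVel v vs w) * f (postVelStar v vs w)) (f v * f vs))) := by
  have key : ∀ a b : R3, Tendsto (fun n => (f a + d n * maxwellian a) * (f b + d n * maxwellian b))
      atTop (𝓝 (f a * f b)) := by
    intro a b
    have := ((hd.mul_const (maxwellian a)).const_add (f a)).mul
      ((hd.mul_const (maxwellian b)).const_add (f b))
    simpa using this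
  have pos : ∀ (a b : R3) n, 0 < (f a + d n * maxwellian a) * (f b + d n * maxwellian b) := by
    intro a b n
    have := h0 a; have := h0 b; have := hd0 n; have := maxwellian_pos a; have := maxwellian_pos b
    positivity
  exact ENNReal.Tendsto.const_mul (entS_tendsto (mul_nonneg (h0 _) (h0 _)) (mul_nonneg (h0 _) (h0 _))
    (key _ _) (key _ _) (pos _ _) (pos _ _)) (Or.inr ENNReal.ofReal_ne_top)

/-- gain side -/
noncomputable def entT (d : ℝ) (f : R3 → ℝ) (p : R3 × R3 × R3) : ℝ :=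
  |inner ℝ (p.1 - p.2.1) p.2.2| * f (postVel p.1 p.2.1 p.2.2) * f (postVelStar p.1 p.2.1 p.2.2) *
    entLam d (f p.1) p.1
/-- loss side -/
noncomputable def entT' (d : ℝ) (f : R3 → ℝ) (p : R3 × R3 × R3) : ℝ :=
  |inner ℝ (p.1 - p.2.1) p.2.2| * f p.1 * f p.2.1 * entLam d (f p.1) p.1
/-- error side -/
noncomputable def entY (d : ℝ) (f : R3 → ℝ) (p : R3 × R3 × R3) : ℝ :=
  |inner ℝ (p.1 - p.2.1) p.2.2| * (d * maxwellian p.1 * (f p.2.1 + d * maxwellian p.2.1 / 2))

lemma entT_nonneg {d : ℝ} (hd : 0 < d) {f : R3 → ℝ} (h0 : ∀ v, 0 ≤ f v) (p : R3 × R3 × R3) :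
    0 ≤ entT d f p :=
  mul_nonneg (mul_nonneg (mul_nonneg (abs_nonneg _) (h0 _)) (h0 _)) (entLam_nonneg hd (h0 _) _)
lemma entT'_nonneg {d : ℝ} (hd : 0 < d) {f : R3 → ℝ} (h0 : ∀ v, 0 ≤ f v) (p : R3 × R3 × R3) :
    0 ≤ entT' d f p :=
  mul_nonneg (mul_nonneg (mul_nonneg (abs_nonneg _) (h0 _)) (h0 _)) (entLam_nonneg hd (h0 _) _)
lemma entY_nonneg {d : ℝ} (hd : 0 < d) {f : R3 → ℝ} (h0 : ∀ v, 0 ≤ f v) (p : R3 × R3 × R3) :
    0 ≤ entY d f p := by
  have := h0 p.2.1; have := maxwellian_pos p.1; have := maxwellian_pos p.2.1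
  unfold entY; positivity

lemma ent_point {d : ℝ} (hd : 0 < d) {f : R3 → ℝ} (h0 : ∀ v, 0 ≤ f v) {p : R3 × R3 × R3}
    (hw : ‖p.2.2‖ = 1) :
    entSI d f p.1 p.2.1 p.2.2 + (ENNReal.ofReal (entT d f p) + ENNReal.ofReal (entT d f (entSw p)) +
      ENNReal.ofReal (entT d f (entPP p)) + ENNReal.ofReal (entT d f (entSw (entPP p)))) =
    ENNReal.ofReal (entT' d f p + entY d f p) +
      ENNReal.ofReal (entT' d f (entSw p) + entY d f (entSw p)) +
      ENNReal.ofReal (entT' d f (entPP p) + entY d f (entPP p)) +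
      ENNReal.ofReal (entT' d f (entSw (entPP p)) + entY d f (entSw (entPP p))) := by
  obtain ⟨v, vs, w⟩ := p
  have hT := entT_nonneg hd h0
  have hT' : ∀ p, 0 ≤ entT' d f p + entY d f p := fun p =>
    add_nonneg (entT'_nonneg hd h0 p) (entY_nonneg hd h0 p)
  have pos : ∀ a : R3, 0 < f a + d * maxwellian a := fun a => by
    have := h0 a; have := maxwellian_pos a; positivity
  have le : ∀ a b : R3, f a * f b ≤ (f a + d * maxwellian a) * (f b + d * maxwellian b) := fun a b => by
    have := maxwellian_pos a; have := maxwellian_pos b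
    exact mul_le_mul (by nlinarith) (by nlinarith) (h0 b) (pos a).le
  have hS := entS_nonneg (mul_nonneg (h0 (postVel v vs w)) (h0 (postVelStar v vs w)))
    (mul_nonneg (h0 v) (h0 vs)) (le _ _) (le _ _) (mul_pos (pos _) (pos _)) (mul_pos (pos _) (pos _))
  unfold entSI
  rw [← ENNReal.ofReal_mul (abs_nonneg _), ← ENNReal.ofReal_add (hT _) (hT _),
    ← ENNReal.ofReal_add (add_nonneg (hT _) (hT _)) (hT _),
    ← ENNReal.ofReal_add (add_nonneg (add_nonneg (hT _) (hT _)) (hT _)) (hT _),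
    ← ENNReal.ofReal_add (mul_nonneg (abs_nonneg _) hS)
      (add_nonneg (add_nonneg (add_nonneg (hT _) (hT _)) (hT _)) (hT _)),
    ← ENNReal.ofReal_add (hT' _) (hT' _),
    ← ENNReal.ofReal_add (add_nonneg (hT' _) (hT' _)) (hT' _),
    ← ENNReal.ofReal_add (add_nonneg (add_nonneg (hT' _) (hT' _)) (hT' _)) (hT' _)]
  congr 1
  simp only at hw
  have e1 : |inner ℝ (vs - v) w| = |inner ℝ (v - vs) w| := by
    rw [← neg_sub, inner_neg_left, abs_neg]
  have e2 : |inner ℝ (postVel v vs w - postVelStar v vs w) w| = |inner ℝ (v - vs) w| := by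
    rw [inner_post hw, abs_neg]
  have e3 : |inner ℝ (postVelStar v vs w - postVel v vs w) w| = |inner ℝ (v - vs) w| := by
    rw [← neg_sub, inner_neg_left, abs_neg, e2]
  have e4 : postVel (postVelStar v vs w) (postVel v vs w) w = vs := by
    rw [postVel_swap, postVelStar_post hw]
  have e5 : postVelStar (postVelStar v vs w) (postVel v vs w) w = v := by
    rw [postVelStar_swap, postVel_post hw]
  have e6 : Real.log (maxwellian (postVel v vs w)) + Real.log (maxwellian (postVelStar v vs w)) =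
      Real.log (maxwellian v) + Real.log (maxwellian vs) := by
    rw [← Real.log_mul (maxwellian_pos _).ne' (maxwellian_pos _).ne', maxwellian_post hw,
      Real.log_mul (maxwellian_pos _).ne' (maxwellian_pos _).ne']
  have e7 : Real.log ((f (postVel v vs w) + d * maxwellian (postVel v vs w)) *
        (f (postVelStar v vs w) + d * maxwellian (postVelStar v vs w)) /
      ((f v + d * maxwellian v) * (f vs + d * maxwellian vs))) =
      entLam d (f (postVel v vs w)) (postVel v vs w) +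
        entLam d (f (postVelStar v vs w)) (postVelStar v vs w) - entLam d (f v) v -
        entLam d (f vs) vs := by
    rw [Real.log_div (mul_pos (pos _) (pos _)).ne' (mul_pos (pos _) (pos _)).ne',
      Real.log_mul (pos _).ne' (pos _).ne', Real.log_mul (pos _).ne' (pos _).ne',
      entLam_eq hd (h0 _), entLam_eq hd (h0 _), entLam_eq hd (h0 _), entLam_eq hd (h0 _)]
    linarith
  simp only [entT, entT', entY, entSw, entPP, entS, e1, e2, e3, e4, e5, e7, postVel_post hw,
    postVelStar_post hw, postVel_swap v vs w, postVelStar_swap v vs w]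
  ring

lemma ent_prod3 {φ ψ : R3 → ℝ≥0∞} (hφ : Measurable φ) (hψ : Measurable ψ) :
    ∫⁻ p, φ p.1 * ψ p.2.1 ∂entMu = (∫⁻ v, φ v) * ((∫⁻ v, ψ v) * sphereMeasure univ) := by
  rw [lintegral_prod_mul hφ.aemeasurable (g := fun q : R3 × R3 => ψ q.1)
    (hψ.comp measurable_fst).aemeasurable]
  congr 1
  have := lintegral_prod_mul (μ := (volume : Measure R3)) (ν := sphereMeasure) hψ.aemeasurable
    (g := fun _ : R3 => (1:ℝ≥0∞)) aemeasurable_const
  simpa using this

lemma ent_err {d : ℝ} (hd : 0 < d) (hd1 : d ≤ 1) {f : R3 → ℝ} (hm : Measurable f)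
    (h0 : ∀ v, 0 ≤ f v) :
    ∫⁻ p, ENNReal.ofReal (entY d f p) ∂entMu ≤ ENNReal.ofReal d * (entm * sphereMeasure univ *
      ((∫⁻ v, ENNReal.ofReal ((1 + ‖v‖) * f v)) + entm)) := by
  have hM := ent_measurable_maxwellian
  have m1 : Measurable (fun v : R3 => ENNReal.ofReal ((1 + ‖v‖) * maxwellian v)) := by fun_prop
  have m2 : Measurable (fun v : R3 => ENNReal.ofReal ((1 + ‖v‖) * f v)) := by fun_prop
  calc ∫⁻ p, ENNReal.ofReal (entY d f p) ∂entMu
      ≤ ∫⁻ p, (ENNReal.ofReal d * ENNReal.ofReal ((1 + ‖p.1‖) * maxwellian p.1)) *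
          (ENNReal.ofReal ((1 + ‖p.2.1‖) * f p.2.1) +
            ENNReal.ofReal ((1 + ‖p.2.1‖) * maxwellian p.2.1)) ∂entMu := by
        refine lintegral_mono_ae ?_
        filter_upwards [ent_ae_unit] with p hp
        obtain ⟨v, vs, w⟩ := p
        simp only at hp ⊢
        have := h0 vs; have h1 := maxwellian_pos v; have h2 := maxwellian_pos vs
        rw [← ENNReal.ofReal_mul hd.le, ← ENNReal.ofReal_add (by positivity) (by positivity),
          ← ENNReal.ofReal_mul (by positivity)]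
        refine ENNReal.ofReal_le_ofReal ?_
        have h3 : |inner ℝ (v - vs) w| ≤ (1 + ‖v‖) * (1 + ‖vs‖) := by
          have h4 := abs_real_inner_le_norm (v - vs) w
          rw [hp, mul_one] at h4
          have h5 := norm_sub_le v vs
          nlinarith [norm_nonneg v, norm_nonneg vs]
        have h6 : f vs + d * maxwellian vs / 2 ≤ f vs + maxwellian vs := by nlinarith
        calc entY d f (v, vs, w) ≤ ((1 + ‖v‖) * (1 + ‖vs‖)) *
              (d * maxwellian v * (f vs + maxwellian vs)) := by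
              unfold entY
              exact mul_le_mul h3 (mul_le_mul_of_nonneg_left h6 (by positivity)) (by positivity)
                (by positivity)
          _ = _ := by ring
    _ = _ := by
        rw [ent_prod3 (φ := fun v => ENNReal.ofReal d * ENNReal.ofReal ((1 + ‖v‖) * maxwellian v))
          (ψ := fun v => ENNReal.ofReal ((1 + ‖v‖) * f v) + ENNReal.ofReal ((1 + ‖v‖) * maxwellian v))
          (m1.const_mul _) (m2.add m1), lintegral_const_mul _ m1, lintegral_add_left m2]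
        unfold entm
        ring

lemma ent_mL {f : R3 → ℝ} (hm : Measurable f) (d : ℝ) :
    Measurable (fun p : R3 × R3 × R3 => entLam d (f p.1) p.1) :=
  (measurable_entLam d).comp (f := fun p : R3 × R3 × R3 => (f p.1, p.1))
    ((hm.comp measurable_fst).prodMk measurable_fst)
lemma ent_mG {f : R3 → ℝ} (hm : Measurable f) :
    Measurable (fun p : R3 × R3 × R3 => |inner ℝ (p.1 - p.2.1) p.2.2| *
      f (postVel p.1 p.2.1 p.2.2) * f (postVelStar p.1 p.2.1 p.2.2)) :=
  (ent_meas_inner.mul (hm.comp ent_meas_post)).mul (hm.comp ent_meas_postStar)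
lemma ent_mLo {f : R3 → ℝ} (hm : Measurable f) :
    Measurable (fun p : R3 × R3 × R3 => |inner ℝ (p.1 - p.2.1) p.2.2| * f p.1 * f p.2.1) :=
  (ent_meas_inner.mul (hm.comp measurable_fst)).mul (hm.comp measurable_snd.fst)
lemma ent_mT {f : R3 → ℝ} (hm : Measurable f) (d : ℝ) : Measurable (entT d f) :=
  (ent_mG hm).mul (ent_mL hm d)
lemma ent_mT' {f : R3 → ℝ} (hm : Measurable f) (d : ℝ) : Measurable (entT' d f) :=
  (ent_mLo hm).mul (ent_mL hm d)
lemma ent_mY {f : R3 → ℝ} (hm : Measurable f) (d : ℝ) : Measurable (entY d f) := by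
  have hM := ent_measurable_maxwellian
  exact ent_meas_inner.mul (((hM.comp measurable_fst).const_mul d).mul
      ((hm.comp measurable_snd.fst).add (((hM.comp measurable_snd.fst).const_mul d).div_const 2)))
lemma ent_mS {f : R3 → ℝ} (hm : Measurable f) (d : ℝ) :
    Measurable (fun p : R3 × R3 × R3 => entSI d f p.1 p.2.1 p.2.2) := by
  have h := measurable_entSI (α := Unit) d (f := fun _ => f) (hm.comp measurable_snd)
  exact h.comp (f := fun p : R3 × R3 × R3 => (((), p) : Unit × R3 × R3 × R3))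
    (measurable_const.prodMk measurable_id)

lemma ent_pull {f : R3 → ℝ} (hm : Measurable f) (d : ℝ) {g : R3 × R3 × R3 → ℝ} (hg : Measurable g)
    (hg0 : ∀ p, 0 ≤ g p) :
    ∫⁻ p, ENNReal.ofReal (g p * entLam d (f p.1) p.1) ∂entMu =
      ∫⁻ v, (∫⁻ vs, ∫⁻ w, ENNReal.ofReal (g (v, vs, w)) ∂sphereMeasure) *
        ENNReal.ofReal (entLam d (f v) v) := by
  have hh : Measurable (fun p : R3 × R3 × R3 => ENNReal.ofReal (g p * entLam d (f p.1) p.1)) :=
    (hg.mul (ent_mL hm d)).ennreal_ofReal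
  rw [ent_I3 hh]
  refine lintegral_congr fun v => ?_
  rw [← lintegral_mul_const' _ _ ENNReal.ofReal_ne_top]
  refine lintegral_congr fun vs => ?_
  rw [← lintegral_mul_const' _ _ ENNReal.ofReal_ne_top]
  refine lintegral_congr fun w => ?_
  exact ENNReal.ofReal_mul (hg0 _)

lemma ent_local0 {f : R3 → ℝ} (hm : Measurable f) (h0 : ∀ v, 0 ≤ f v) {d : ℝ} (hd : 0 < d) :
    (∫⁻ p, entSI d f p.1 p.2.1 p.2.2 ∂entMu) + 4 * ∫⁻ p, ENNReal.ofReal (entT d f p) ∂entMu =
      4 * (∫⁻ p, ENNReal.ofReal (entT' d f p) ∂entMu + ∫⁻ p, ENNReal.ofReal (entY d f p) ∂entMu) := by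
  have m1 : Measurable (fun p => ENNReal.ofReal (entT d f p)) := (ent_mT hm d).ennreal_ofReal
  have m2 : Measurable (fun p => ENNReal.ofReal (entT' d f p)) := (ent_mT' hm d).ennreal_ofReal
  have m3 : Measurable (fun p => ENNReal.ofReal (entT' d f p + entY d f p)) :=
    ((ent_mT' hm d).add (ent_mY hm d)).ennreal_ofReal
  have h3 : ∫⁻ p, ENNReal.ofReal (entT' d f p + entY d f p) ∂entMu =
      ∫⁻ p, ENNReal.ofReal (entT' d f p) ∂entMu + ∫⁻ p, ENNReal.ofReal (entY d f p) ∂entMu := by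
    rw [← lintegral_add_left m2]
    exact lintegral_congr fun p => ENNReal.ofReal_add (entT'_nonneg hd h0 p) (entY_nonneg hd h0 p)
  rw [← ent_sym m1, ← h3, ← ent_sym m3, ← lintegral_add_left (ent_mS hm d)]
  exact lintegral_congr_ae (ent_ae_unit.mono fun p hp => ent_point hd h0 hp)

/-- the local identity -/
lemma ent_local {F : ℝ → R3 → R3 → ℝ} {s : ℝ} {x : R3} (hm : Measurable (F s x))
    (h0 : ∀ v, 0 ≤ F s x v) {d : ℝ} (hd : 0 < d) (hd1 : d ≤ 1) :
    (∫⁻ v, ∫⁻ vs, ∫⁻ w, entSI d (F s x) v vs w ∂sphereMeasure) +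
      4 * ∫⁻ v, collGain F s x v * ENNReal.ofReal (entLam d (F s x v) v) ≤
    4 * (∫⁻ v, collLoss F s x v * ENNReal.ofReal (entLam d (F s x v) v)) +
      ENNReal.ofReal d * (4 * entm * sphereMeasure univ *
        ((∫⁻ v, ENNReal.ofReal ((1 + ‖v‖) * F s x v)) + entm)) := by
  have hG : ∫⁻ p, ENNReal.ofReal (entT d (F s x) p) ∂entMu =
      ∫⁻ v, collGain F s x v * ENNReal.ofReal (entLam d (F s x v) v) :=
    ent_pull hm d (ent_mG hm) fun p => mul_nonneg (mul_nonneg (abs_nonneg _) (h0 _)) (h0 _)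
  have hL : ∫⁻ p, ENNReal.ofReal (entT' d (F s x) p) ∂entMu =
      ∫⁻ v, collLoss F s x v * ENNReal.ofReal (entLam d (F s x v) v) :=
    ent_pull hm d (ent_mLo hm) fun p => mul_nonneg (mul_nonneg (abs_nonneg _) (h0 _)) (h0 _)
  have h1 := ent_local0 hm h0 hd
  rw [ent_I3 (ent_mS hm d), hG, hL] at h1
  refine h1.le.trans ?_
  rw [mul_add]
  refine add_le_add le_rfl ?_
  calc _ ≤ 4 * (ENNReal.ofReal d * (entm * sphereMeasure univ *
      ((∫⁻ v, ENNReal.ofReal ((1 + ‖v‖) * F s x v)) + entm))) :=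
        mul_le_mul_right (ent_err hd hd1 hm h0) _
    _ = _ := by ring

lemma ent_local_mass {F : ℝ → R3 → R3 → ℝ} (hF : Dens F) (s : ℝ) (x : R3) :
    ∫⁻ v, collGain F s x v = ∫⁻ v, collLoss F s x v := by
  simp_rw [collGain_eq (hF.nonneg s x), collLoss_eq (hF.meas.slice s x) (hF.nonneg s x)]
  exact lintegral_gain (hF.meas.up.slice s x) (hF.meas.up.slice s x)

lemma entm_lt_top : entm < ⊤ := by
  refine lt_of_le_of_lt (lintegral_mono fun v => ?_) (lintegral_moment_gs (a := 1 / 2) (by norm_num) 1)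
  rw [pow_one, ENNReal.ofReal_mul (by positivity)]
  exact mul_le_mul_right (mu_le_gs v) _

end Crest.Agent.R068
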