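import Crest.Agent.R068.EntAux2

/-! Row 68: renormalisation along characteristics. -/

set_option autoImplicit false
open MeasureTheory Set Filter Topology
open scoped ENNReal
open Crest.AnalysisR.VecCalc3 Crest.AnalysisR.PDE.Boltzmann

namespace Crest.Agent.R068

lemma ent_lint_cell {φ : R3 × R3 → ℝ≥0∞} (hφ : Measurable φ) :
    ∫⁻ q in cell ×ˢ univ, φ q ∂(volume : Measure (R3 × R3)) = ∫⁻ x in cell, ∫⁻ v, φ (x, v) := by
  rw [Measure.volume_eq_prod, ← Measure.prod_restrict, Measure.restrict_univ,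
    lintegral_prod _ hφ.aemeasurable]

lemma ent_lint_I {φ : ℝ × R3 × R3 → ℝ≥0∞} (hφ : Measurable φ) (I : Set ℝ) :
    ∫⁻ p in I ×ˢ (cell ×ˢ univ), φ p ∂(volume : Measure (ℝ × R3 × R3)) =
      ∫⁻ s in I, ∫⁻ q in cell ×ˢ univ, φ (s, q) ∂(volume : Measure (R3 × R3)) := by
  rw [Measure.volume_eq_prod, ← Measure.prod_restrict, lintegral_prod _ hφ.aemeasurable]

lemma ent_lint_I' {φ : ℝ × R3 × R3 → ℝ≥0∞} (hφ : Measurable φ) (I : Set ℝ) :
    ∫⁻ p in I ×ˢ (cell ×ˢ univ), φ p ∂(volume : Measure (ℝ × R3 × R3)) =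
      ∫⁻ q in cell ×ˢ univ, (∫⁻ s in I, φ (s, q)) ∂(volume : Measure (R3 × R3)) := by
  rw [Measure.volume_eq_prod, ← Measure.prod_restrict, lintegral_prod_symm _ hφ.aemeasurable]

lemma ent_oneD {I : Set ℝ} {G L : ℝ → ℝ≥0∞} {b : ℝ → ℝ} (hG : Measurable G) (hL : Measurable L)
    (hb : Measurable b) (hb0 : ∀ s, 0 ≤ b s) (hGf : ∫⁻ s in I, G s * ENNReal.ofReal (b s) ≠ ⊤)
    (hLf : ∫⁻ s in I, L s * ENNReal.ofReal (b s) ≠ ⊤) {p₁ p₀ : ℝ} (h₁ : 0 ≤ p₁) (h₀ : 0 ≤ p₀)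
    (h : p₁ - p₀ = ∫ s in I, b s * ((G s).toReal - (L s).toReal)) :
    ENNReal.ofReal p₁ + ∫⁻ s in I, L s * ENNReal.ofReal (b s) =
      ENNReal.ofReal p₀ + ∫⁻ s in I, G s * ENNReal.ofReal (b s) := by
  have mG : Measurable (fun s => G s * ENNReal.ofReal (b s)) := hG.mul hb.ennreal_ofReal
  have mL : Measurable (fun s => L s * ENNReal.ofReal (b s)) := hL.mul hb.ennreal_ofReal
  have e : ∀ s, b s * ((G s).toReal - (L s).toReal) =
      (G s * ENNReal.ofReal (b s)).toReal - (L s * ENNReal.ofReal (b s)).toReal := fun s => by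
    rw [ENNReal.toReal_mul, ENNReal.toReal_mul, ENNReal.toReal_ofReal (hb0 s)]; ring
  simp_rw [e] at h
  rw [integral_sub (integrable_toReal_of_lintegral_ne_top mG.aemeasurable hGf)
    (integrable_toReal_of_lintegral_ne_top mL.aemeasurable hLf),
    integral_toReal mG.aemeasurable (ae_lt_top mG hGf),
    integral_toReal mL.aemeasurable (ae_lt_top mL hLf)] at h
  rw [← ENNReal.ofReal_toReal hGf, ← ENNReal.ofReal_toReal hLf,
    ← ENNReal.ofReal_add h₁ ENNReal.toReal_nonneg, ← ENNReal.ofReal_add h₀ ENNReal.toReal_nonneg]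
  congr 1; linarith

/-- renormalised identity -/
lemma ent_char {F : ℝ → R3 → R3 → ℝ} (hF : Dens F) {T₀ T : ℝ} (hT₀ : 0 ≤ T₀) (hm : Mild T₀ T F)
    {t : ℝ} (ht : t ∈ Icc (0:ℝ) T) {β P : ℝ → R3 → ℝ}
    (hβm : Measurable (fun z : ℝ × R3 => β z.1 z.2)) (hPm : Measurable (fun z : ℝ × R3 => P z.1 z.2))
    (hβ0 : ∀ y, 0 ≤ y → ∀ v, 0 ≤ β y v) (hP0 : ∀ y, 0 ≤ y → ∀ v, 0 ≤ P y v)
    (hext : ∀ v, ∃ Ψ Ψ' : ℝ → ℝ, (∀ y, HasDerivAt Ψ (Ψ' y) y) ∧ Continuous Ψ' ∧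
      ∀ y, 0 ≤ y → Ψ y = P y v ∧ Ψ' y = β y v)
    (hGf : (∫⁻ p in Ioo T₀ t ×ˢ (cell ×ˢ univ), collGain F p.1 p.2.1 p.2.2 *
      ENNReal.ofReal (β (F p.1 p.2.1 p.2.2) p.2.2) ∂(volume : Measure (ℝ × R3 × R3))) ≠ ⊤)
    (hLf : (∫⁻ p in Ioo T₀ t ×ˢ (cell ×ˢ univ), collLoss F p.1 p.2.1 p.2.2 *
      ENNReal.ofReal (β (F p.1 p.2.1 p.2.2) p.2.2) ∂(volume : Measure (ℝ × R3 × R3))) ≠ ⊤) :
    (∫⁻ q in cell ×ˢ univ, ENNReal.ofReal (P (F t q.1 q.2) q.2) ∂(volume : Measure (R3 × R3))) +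
      (∫⁻ p in Ioo T₀ t ×ˢ (cell ×ˢ univ), collLoss F p.1 p.2.1 p.2.2 *
        ENNReal.ofReal (β (F p.1 p.2.1 p.2.2) p.2.2) ∂(volume : Measure (ℝ × R3 × R3))) =
    (∫⁻ q in cell ×ˢ univ, ENNReal.ofReal (P (F 0 q.1 q.2) q.2) ∂(volume : Measure (R3 × R3))) +
      (∫⁻ p in Ioo T₀ t ×ˢ (cell ×ˢ univ), collGain F p.1 p.2.1 p.2.2 *
        ENNReal.ofReal (β (F p.1 p.2.1 p.2.2) p.2.2) ∂(volume : Measure (ℝ × R3 × R3))) := by
  have mβ : MeasT (fun s x v => β (F s x v) v) :=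
    hβm.comp (f := fun p : ℝ × R3 × R3 => (F p.1 p.2.1 p.2.2, p.2.2))
      (Measurable.prodMk hF.meas measurable_snd.snd)
  have mP : ∀ s, MeasP (fun x v => ENNReal.ofReal (P (F s x v) v)) := fun s =>
    (hPm.comp (f := fun q : R3 × R3 => (F s q.1 q.2, q.2))
      ((hF.meas.comp measurable_const measurable_fst measurable_snd).prodMk
        measurable_snd)).ennreal_ofReal
  have mG : MeasT (fun s x v => collGain F s x v * ENNReal.ofReal (β (F s x v) v)) :=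
    Measurable.mul (measurable_collGain hF.meas) (Measurable.ennreal_ofReal mβ)
  have mL : MeasT (fun s x v => collLoss F s x v * ENNReal.ofReal (β (F s x v) v)) :=
    Measurable.mul (measurable_collLoss hF.meas) (Measurable.ennreal_ofReal mβ)
  have pG : PerT (fun s x v => collGain F s x v * ENNReal.ofReal (β (F s x v) v)) := by
    intro s v x i
    have h1 := hF.per s v x i
    have h2 := hF.per.collGain s v x i
    simp only at h1 h2 ⊢
    rw [h1, h2]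
  have pL : PerT (fun s x v => collLoss F s x v * ENNReal.ofReal (β (F s x v) v)) := by
    intro s v x i
    have h1 := hF.per s v x i
    have h2 := hF.per.collLoss s v x i
    simp only at h1 h2 ⊢
    rw [h1, h2]
  have pP : PerP (fun x v => ENNReal.ofReal (P (F t x v) v)) := by
    intro v x i
    have h1 := hF.per t v x i
    simp only at h1 ⊢
    rw [h1]
  have sh : Measurable (fun p : ℝ × R3 × R3 => p.2.1 + p.1 • p.2.2) :=
    measurable_snd.fst.add (measurable_fst.smul measurable_snd.snd)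
  have mG' : Measurable (fun p : ℝ × R3 × R3 => collGain F p.1 (p.2.1 + p.1 • p.2.2) p.2.2 *
      ENNReal.ofReal (β (F p.1 (p.2.1 + p.1 • p.2.2) p.2.2) p.2.2)) :=
    mG.comp measurable_fst sh measurable_snd.snd
  have mL' : Measurable (fun p : ℝ × R3 × R3 => collLoss F p.1 (p.2.1 + p.1 • p.2.2) p.2.2 *
      ENNReal.ofReal (β (F p.1 (p.2.1 + p.1 • p.2.2) p.2.2) p.2.2)) :=
    mL.comp measurable_fst sh measurable_snd.snd
  have cG := lintegral_char mG pG (I := Ioo T₀ t) measurableSet_Ioo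
  have cL := lintegral_char mL pL (I := Ioo T₀ t) measurableSet_Ioo
  have cP := lintegral_phase_shift (mP t) pP t
  rw [ent_lint_I' mG'] at cG
  rw [ent_lint_I' mL'] at cL
  have nG : Measurable (fun q : R3 × R3 => ∫⁻ s in Ioo T₀ t, collGain F s (q.1 + s • q.2) q.2 *
      ENNReal.ofReal (β (F s (q.1 + s • q.2) q.2) q.2)) := mG'.lintegral_prod_left'
  have nL : Measurable (fun q : R3 × R3 => ∫⁻ s in Ioo T₀ t, collLoss F s (q.1 + s • q.2) q.2 *
      ENNReal.ofReal (β (F s (q.1 + s • q.2) q.2) q.2)) := mL'.lintegral_prod_left'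
  rw [← cG] at hGf ⊢
  rw [← cL] at hLf ⊢
  rw [← cP, ← lintegral_add_right _ nL, ← lintegral_add_right _ nG]
  refine lintegral_congr_ae ?_
  filter_upwards [ae_lt_top nG hGf, ae_lt_top nL hLf, ae_restrict_of_ae hm] with q h1 h2 h3
  obtain ⟨Ψ, Ψ', hΨ, hc, hE⟩ := hext q.2
  have sq : Measurable (fun s : ℝ => q.1 + s • q.2) :=
    measurable_const.add (measurable_id.smul measurable_const)
  refine ent_oneD (G := fun s => collGain F s (q.1 + s • q.2) q.2)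
    (L := fun s => collLoss F s (q.1 + s • q.2) q.2) (b := fun s => β (F s (q.1 + s • q.2) q.2) q.2)
    ((measurable_collGain hF.meas).comp measurable_id sq measurable_const)
    ((measurable_collLoss hF.meas).comp measurable_id sq measurable_const)
    (mβ.comp measurable_id sq measurable_const) (fun s => hβ0 _ (hF.nonneg _ _ _) _) h1.ne h2.ne
    (hP0 _ (hF.nonneg _ _ _) _) (hP0 _ (hF.nonneg _ _ _) _) ?_
  have hi : IntegrableOn (fun s => Rr F s (q.1 + s • q.2) q.2) (Ioo T₀ t) :=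
    h3.1.mono_set (Ioo_subset_Ioo_right ht.2)
  have hch := (chain_rule hi (F 0 q.1 q.2) hΨ hc).2
  rw [← h3.2 t ht, (hE _ (hF.nonneg _ _ _)).1, (hE _ (hF.nonneg _ _ _)).1] at hch
  rw [hch]
  refine setIntegral_congr_fun measurableSet_Ioo fun s hs => ?_
  rw [← h3.2 s ⟨hT₀.trans hs.1.le, hs.2.le.trans ht.2⟩, (hE _ (hF.nonneg _ _ _)).2]
  rfl

end Crest.Agent.R068
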