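import Crest.Agent.R068.OmS

/-! Row 68: collisions with a cold particle rarely come from the excluded velocities. -/

set_option autoImplicit false
open MeasureTheory Set Filter Topology
open scoped ENNReal
open Crest.AnalysisR.VecCalc3 Crest.AnalysisR.PDE.Boltzmann

namespace Crest.Agent.R068

lemma excl_V_ge {p : Par} (h : p.Std) : 8000 ≤ p.V := by linarith [h.R_ge, h.V_ge]

lemma excl_r0_le {p : Par} (h : p.Std) : p.r0 ≤ p.κ0 / 10 ^ 6 := by
  linarith [h.r0_δ1, h.δ1_le]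

lemma excl_t0_le {p : Par} (h : p.Std) : p.t0 ≤ 1 / 1000 := by
  have h1 := Par.t0_le_r0 h
  have h2 := excl_V_ge h
  have h3 := excl_r0_le h
  have h4 := h.κ0_le
  have h5 := Par.t0_pos h
  nlinarith

/-- from a plane bound to a gain bound -/
lemma excl_gain {p : Par} (h : p.Std) {n : ℕ∞} {s a β : ℝ} {y v : R3} {k : Fin 3 → ℤ} {j : ℕ}
    (hW : p.Wit n s y k j) (hs : 0 < s) (hs' : s ≤ p.t0) (ha : 1 / 8 ≤ a) (ha' : a ≤ 1 / 4)
    (hβ : 0 ≤ β) (hβ' : 12 * p.V ^ 105 * β ≤ 1) {g : R3 → ℝ≥0∞} (hg : Measurable g)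
    (hpl : ∀ (w : R3) (c : ℝ), ‖w‖ = 1 → p.B n s y (v - c • w) ≠ 0 →
      plane g v w ≤ ENNReal.ofReal (β * Real.exp (-(a * (inner ℝ v w) ^ 2)))) :
    gain (p.B n s y) g v ≤ ENNReal.ofReal (p.e0 / s) * p.W n a s y v := by
  have hV := excl_V_ge h
  have hV0 : 0 < p.V := by linarith
  have ht0 := excl_t0_le h
  have hB : Measurable (p.B n s y) := (p.meas_B n).slice s y
  have h1 : gain (p.B n s y) g v ≤
      2 * pot (fun η => p.B n s y η * (ENNReal.ofReal (3 * β) * gs a v)) v := by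
    refine gain_le_pot (Ψ := fun _ => ENNReal.ofReal (3 * β) * gs a v) hB hg measurable_const ?_
    intro w c hw _ hc
    refine (hpl w c hw hc).trans ?_
    unfold gs
    rw [← ENNReal.ofReal_mul (by positivity)]
    refine ENNReal.ofReal_le_ofReal ?_
    have h2 := exp_inner_le (a := a) (by linarith) v hw c
    have h3 : ‖v - c • w‖ ≤ 2 := (hW.supp _ hc).2
    have h4 : a * ‖v - c • w‖ ^ 2 ≤ 1 := by
      have : ‖v - c • w‖ ^ 2 ≤ 2 ^ 2 := pow_le_pow_left₀ (norm_nonneg _) h3 2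
      nlinarith [sq_nonneg ‖v - c • w‖]
    have h5 : Real.exp (a * ‖v - c • w‖ ^ 2) ≤ 3 :=
      (Real.exp_le_exp.2 h4).trans (by linarith [Real.exp_one_lt_d9])
    have h6 := Real.exp_pos (-(a * ‖v‖ ^ 2))
    calc β * Real.exp (-(a * (inner ℝ v w) ^ 2))
        ≤ β * (Real.exp (-(a * ‖v‖ ^ 2)) * 3) :=
          mul_le_mul_of_nonneg_left (h2.trans (mul_le_mul_of_nonneg_left h5 h6.le)) hβ
      _ = 3 * β * Real.exp (-(a * ‖v‖ ^ 2)) := by ring
  have h2 : pot (fun η => p.B n s y η * (ENNReal.ofReal (3 * β) * gs a v)) v =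
      (ENNReal.ofReal (3 * β) * gs a v) * pot (p.B n s y) v := by
    rw [← pot_const_mul hB]
    congr 1
    funext η
    rw [mul_comm]
  have h3 : p.rho s (y - lat k) ≤ 2 * p.V ^ 5 / s := by
    unfold Par.rho
    have h4 : (‖y - lat k‖ + s)⁻¹ ≤ s⁻¹ := inv_anti₀ hs (by linarith [norm_nonneg (y - lat k)])
    have h5 : 1 ≤ s⁻¹ := (one_le_inv₀ hs).2 (by linarith)
    rw [div_eq_mul_inv]
    have : 0 < p.V ^ 5 := by positivity
    nlinarith
  have h4 : 2 * (3 * β) * (2 * p.V ^ 5 / s) ≤ p.e0 / s := by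
    have : 2 * (3 * β) * (2 * p.V ^ 5 / s) = (12 * p.V ^ 5 * β) / s := by ring
    rw [this]
    refine div_le_div_of_nonneg_right ?_ hs.le
    unfold Par.e0
    rw [inv_eq_one_div, le_div_iff₀ (by positivity)]
    calc 12 * p.V ^ 5 * β * p.V ^ 100 = 12 * p.V ^ 105 * β := by ring
      _ ≤ 1 := hβ'
  calc gain (p.B n s y) g v
      ≤ 2 * ((ENNReal.ofReal (3 * β) * gs a v) *
          (ENNReal.ofReal (2 * p.V ^ 5 / s) * (1 + p.Y n s y v))) := by
        refine h1.trans ?_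
        rw [h2]
        gcongr
        exact (hW.pot v).trans (by gcongr)
    _ = (ENNReal.ofReal 2 * ENNReal.ofReal (3 * β) * ENNReal.ofReal (2 * p.V ^ 5 / s)) *
          p.W n a s y v := by
        rw [ENNReal.ofReal_ofNat]
        unfold Par.W Wf Par.Y
        ring
    _ ≤ ENNReal.ofReal (p.e0 / s) * p.W n a s y v := by
        rw [← ENNReal.ofReal_mul (by positivity), ← ENNReal.ofReal_mul (by positivity)]
        gcongr

lemma excl_meas_ball {f : R3 → ℝ≥0∞} (hf : Measurable f) (b : R3) (ρ : ℝ) :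
    Measurable fun ξ => if ‖ξ - b‖ ≤ ρ then f ξ else 0 :=
  Measurable.ite (measurableSet_le (by fun_prop) measurable_const) hf measurable_const

lemma excl_meas_ext (a ρ : ℝ) : Measurable fun ξ : R3 => if ρ < ‖ξ‖ then gs a ξ else 0 :=
  Measurable.ite (measurableSet_lt measurable_const (by fun_prop)) (measurable_gs a) measurable_const

/-- small balls -/
lemma excl_ball {η a t κ : ℝ} (ha : 0 ≤ a) (ht : 0 ≤ t) (ht' : t ≤ 1 / 20) (hκ : 0 < κ) (hκ' : κ ≤ 1)
    (x v b : R3) {w : R3} (hw : ‖w‖ = 1) :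
    plane (fun ξ => if ‖ξ - b‖ ≤ κ then Wf η a t x ξ else 0) v w ≤
      ENNReal.ofReal (3000 * κ * Real.exp (-(a * (inner ℝ v w) ^ 2))) := by
  have hS : MeasurableSet {ξ : R3 | ‖ξ - b‖ ≤ κ} := measurableSet_le (by fun_prop) measurable_const
  have h1 := plane_Wf_ind (η := η) ha ht x v hw hS hκ
  have e1 : (fun ξ => if ‖ξ - b‖ ≤ κ then Wf η a t x ξ else 0) =
      {ξ : R3 | ‖ξ - b‖ ≤ κ}.indicator (Wf η a t x) := by
    funext ξ; simp [Set.indicator_apply]
  have e2 : {ξ : R3 | ‖ξ - b‖ ≤ κ}.indicator (gs a) =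
      fun ξ => gs a ξ * (if ‖ξ - b‖ ≤ κ then (1:ℝ≥0∞) else 0) := by
    funext ξ; simp [Set.indicator_apply]
  have h2 := plane_gs_mul_le ha (excl_meas_ball (f := fun _ => 1) measurable_const b κ) v hw
  have h3 := plane_ball b v hw hκ.le
  have hC := CW_le ht ht'
  have hC1 := one_le_CW ht
  set E := Real.exp (-(a * (inner ℝ v w) ^ 2)) with hE
  have hE0 : 0 < E := Real.exp_pos _
  rw [e1]
  refine h1.trans ?_
  rw [e2]
  calc _ ≤ ENNReal.ofReal (1 + CW t / κ) * (ENNReal.ofReal E * ENNReal.ofReal (4 * κ ^ 2)) +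
        ENNReal.ofReal (20 * CW t * κ * E) := by
        gcongr
        exact h2.trans (by gcongr)
    _ = ENNReal.ofReal ((1 + CW t / κ) * (E * (4 * κ ^ 2)) + 20 * CW t * κ * E) := by
        rw [← ENNReal.ofReal_mul hE0.le, ← ENNReal.ofReal_mul (by positivity),
          ← ENNReal.ofReal_add (by positivity) (by positivity)]
    _ ≤ _ := by
        refine ENNReal.ofReal_le_ofReal ?_
        have e3 : (1 + CW t / κ) * (E * (4 * κ ^ 2)) + 20 * CW t * κ * E =
            (4 * κ + 24 * CW t) * (κ * E) := by field_simp; ring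
        rw [e3]
        have : 0 < κ * E := by positivity
        nlinarith

/-- the exterior of a large ball -/
lemma excl_ext {a V ρ : ℝ} (ha : 1 / 8 ≤ a) {v w : R3} (hw : ‖w‖ = 1) (hρ : ‖v‖ ≤ ρ)
    (hV : V ^ 2 / 25 ≤ ρ ^ 2 - ‖v‖ ^ 2) :
    plane (fun ξ => if ρ < ‖ξ‖ then gs a ξ else 0) v w ≤
      ENNReal.ofReal (64 * Real.exp (-(V ^ 2 / 400)) * Real.exp (-(a * (inner ℝ v w) ^ 2))) := by
  have ha0 : 0 < a := by linarith
  refine (plane_gs_ext ha0 v hw hρ).trans (ENNReal.ofReal_le_ofReal ?_)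
  refine mul_le_mul_of_nonneg_right ?_ (Real.exp_pos _).le
  refine mul_le_mul ?_ (Real.exp_le_exp.2 ?_) (Real.exp_pos _).le (by norm_num)
  · rw [div_le_iff₀ ha0]
    linarith [Real.pi_le_four]
  · have : 0 ≤ V ^ 2 := sq_nonneg V
    nlinarith

lemma excl_meas_strip {f : R3 → ℝ≥0∞} (hf : Measurable f) (δ V : ℝ) :
    Measurable fun ξ => if |nc ξ| < δ ∧ ‖ξ‖ ≤ V then f ξ else 0 :=
  Measurable.ite ((measurableSet_lt (continuous_nc.abs.measurable) measurable_const).inter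
    (measurableSet_le measurable_norm measurable_const)) hf measurable_const

/-- a strip on a tilted plane -/
lemma excl_strip {η a t δ β V : ℝ} (ha : 1 / 8 ≤ a) (ht : 0 ≤ t) (ht' : t ≤ 1 / 20) (hδ : 0 < δ)
    (hδ' : δ ≤ 1) (hβ : 0 < β) (hβ' : β ≤ 1) (x v : R3) {w : R3} (hw : ‖w‖ = 1)
    (htilt : nc w ^ 2 ≤ 1 - β ^ 2) :
    plane (fun ξ => if |nc ξ| < δ ∧ ‖ξ‖ ≤ V then Wf η a t x ξ else 0) v w ≤
      ENNReal.ofReal (4000 * Real.sqrt δ / β * Real.exp (-(a * (inner ℝ v w) ^ 2))) := by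
  have ha0 : 0 < a := by linarith
  have hS : MeasurableSet {ξ : R3 | |nc ξ| < δ} :=
    measurableSet_lt (continuous_nc.abs.measurable) measurable_const
  have hr : 0 < Real.sqrt δ := Real.sqrt_pos.2 hδ
  have hr1 : Real.sqrt δ ≤ 1 := Real.sqrt_le_one.2 hδ'
  have hr2 : Real.sqrt δ * Real.sqrt δ = δ := Real.mul_self_sqrt hδ.le
  have h1 := plane_Wf_ind (η := η) ha0.le ht x v hw hS hr
  have e2 : {ξ : R3 | |nc ξ| < δ}.indicator (gs a) =
      fun ξ => if |inner ℝ (fr 1) ξ| < δ then gs a ξ else 0 := by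
    funext ξ; simp [Set.indicator_apply, nc]
  have h2 := plane_gs_strip ha0 v hw (norm_fr 1) hβ hδ.le htilt
  have hC := CW_le ht ht'
  have hC1 := one_le_CW ht
  have hq : Real.sqrt (Real.pi / a) ≤ 6 := by
    refine Real.sqrt_le_iff.2 ⟨by norm_num, ?_⟩
    rw [div_le_iff₀ ha0]
    linarith [Real.pi_le_four]
  have hq0 := Real.sqrt_nonneg (Real.pi / a)
  set q := Real.sqrt (Real.pi / a)
  set E := Real.exp (-(a * (inner ℝ v w) ^ 2)) with hE
  have hE0 : 0 < E := Real.exp_pos _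
  calc _ ≤ plane ({ξ : R3 | |nc ξ| < δ}.indicator (Wf η a t x)) v w := by
        refine plane_mono (fun ξ => ?_) v w
        split_ifs with hξ
        · rw [Set.indicator_of_mem (show ξ ∈ {ξ : R3 | |nc ξ| < δ} from hξ.1)]
        · exact zero_le
    _ ≤ ENNReal.ofReal (1 + CW t / Real.sqrt δ) * ENNReal.ofReal (2 * δ / β * q * E) +
        ENNReal.ofReal (20 * CW t * Real.sqrt δ * E) := by
        refine h1.trans ?_
        rw [e2]
        gcongr
    _ = ENNReal.ofReal ((1 + CW t / Real.sqrt δ) * (2 * δ / β * q * E) +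
        20 * CW t * Real.sqrt δ * E) := by
        rw [← ENNReal.ofReal_mul (by positivity), ← ENNReal.ofReal_add (by positivity) (by positivity)]
    _ ≤ _ := by
        refine ENNReal.ofReal_le_ofReal ?_
        generalize Real.sqrt δ = r at hr hr1 hr2
        subst hr2
        have e3 : (1 + CW t / r) * (2 * (r * r) / β * q * E) + 20 * CW t * r * E =
            (2 * (r + CW t) * q + 20 * CW t * β) * (r / β * E) := by field_simp
        have e4 : 4000 * r / β * E = 4000 * (r / β * E) := by ring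
        rw [e3, e4]
        refine mul_le_mul_of_nonneg_right ?_ (by positivity)
        have h5 : (r + CW t) * q ≤ 101 * 6 := mul_le_mul (by linarith) hq hq0 (by norm_num)
        have h6 : CW t * β ≤ 100 * 1 := mul_le_mul hC hβ' hβ.le (by norm_num)
        nlinarith

lemma excl_inner_le (x : R3) {w : R3} (hw : ‖w‖ = 1) :
    |inner ℝ x w| ≤ |nc x| + ‖x‖ * ‖pl w‖ := by
  have e : inner ℝ x w = nc w * nc x + inner ℝ x (pl w) := by
    unfold pl
    rw [inner_sub_right, real_inner_smul_right, real_inner_comm]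
    unfold nc
    rw [real_inner_comm (fr 1) x]
    ring
  rw [e]
  refine (abs_add_le _ _).trans (add_le_add ?_ (abs_real_inner_le_norm _ _))
  rw [abs_mul]
  have := abs_nc_le w
  rw [hw] at this
  nlinarith [abs_nonneg (nc x), abs_nonneg (nc w)]

/-- the velocities that are not far lie in four balls -/
lemma excl_not_far {p : Par} (h : p.Std) {n : ℕ∞} {s : ℝ} {y : R3} {k : Fin 3 → ℤ} {j : ℕ}
    (hW : p.Wit n s y k j) (hs' : s ≤ p.t0) {ξ : R3} (hξ : ¬ p.Far (1 / 4) s y ξ) :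
    ∃ s', ‖ξ - uu s' s (y - lat k)‖ ≤ p.κ0 := by
  unfold Par.Far at hξ
  push Not at hξ
  obtain ⟨k', s', h1, h2⟩ := hξ
  have h3 : k' = k := lat_unique h1 hW.near (by
    linarith [excl_t0_le h, excl_r0_le h, h.κ0_le])
  subst h3
  exact ⟨s', h2.le⟩

lemma excl_plane_four {g : Fin 4 → R3 → ℝ≥0∞} (hg : ∀ i, Measurable (g i)) (v w : R3) {c : ℝ}
    (hc : 0 ≤ c) (h : ∀ i, plane (g i) v w ≤ ENNReal.ofReal c) :
    plane (fun ξ => ∑ i, g i ξ) v w ≤ ENNReal.ofReal (4 * c) := by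
  simp only [Fin.sum_univ_four]
  rw [plane_add (((hg 0).fun_add (hg 1)).fun_add (hg 2)) (hg 3),
    plane_add ((hg 0).fun_add (hg 1)) (hg 2),
    plane_add (hg 0) (hg 1)]
  have : 4 * c = c + c + c + c := by ring
  rw [this, ENNReal.ofReal_add (by positivity) hc, ENNReal.ofReal_add (by positivity) hc,
    ENNReal.ofReal_add hc hc]
  exact add_le_add (add_le_add (add_le_add (h 0) (h 1)) (h 2)) (h 3)

lemma excl_ev_V : ∀ᶠ p in PF, 2304 * p.V ^ 105 * Real.exp (-(p.V ^ 2 / 400)) ≤ 1 := by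
  refine ev_V (Q := fun _ x => 2304 * x ^ 105 * Real.exp (-(x ^ 2 / 400)) ≤ 1)
    (Eventually.of_forall fun _ => ?_)
  have h1 := (Real.tendsto_pow_mul_exp_neg_atTop_nhds_zero 105).eventually
    (ge_mem_nhds (show (0:ℝ) < 1 / 2304 by norm_num))
  filter_upwards [h1, eventually_ge_atTop (400:ℝ)] with x h1 h2
  have h3 : Real.exp (-(x ^ 2 / 400)) ≤ Real.exp (-x) := Real.exp_le_exp.2 (by nlinarith)
  have h4 : 0 ≤ x ^ 105 := by positivity
  have h5 := mul_le_mul_of_nonneg_left h3 h4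
  linarith

lemma excl_ev_k0 : ∀ᶠ p in PF, 540000 * p.V ^ 105 * p.κ0 ≤ 1 := by
  refine ev_k0 (Q := fun p x => 540000 * p.V ^ 105 * x ≤ 1) (Eventually.of_forall fun p => ?_)
  have h1 : Tendsto (fun x : ℝ => 540000 * p.V ^ 105 * x) (𝓝 0) (𝓝 (540000 * p.V ^ 105 * 0)) :=
    tendsto_id.const_mul _
  rw [mul_zero] at h1
  exact (h1.eventually (ge_mem_nhds one_pos)).filter_mono nhdsWithin_le_nhds

lemma excl_ev_d1 : ∀ᶠ p in PF,
    36 * p.V ^ 105 * (4000 * Real.sqrt p.δ1 / (p.κ0 / (8 * p.V))) ≤ 1 := by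
  refine ev_d1 (Q := fun p x => 36 * p.V ^ 105 * (4000 * Real.sqrt x / (p.κ0 / (8 * p.V))) ≤ 1)
    (Eventually.of_forall fun p => ?_)
  have h1 : Tendsto (fun x : ℝ => 36 * p.V ^ 105 * (4000 * Real.sqrt x / (p.κ0 / (8 * p.V)))) (𝓝 0)
      (𝓝 (36 * p.V ^ 105 * (4000 * Real.sqrt 0 / (p.κ0 / (8 * p.V))))) :=
    Continuous.tendsto (by fun_prop) 0
  rw [Real.sqrt_zero, mul_zero, zero_div, mul_zero] at h1
  exact (h1.eventually (ge_mem_nhds one_pos)).filter_mono nhdsWithin_le_nhds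

lemma excl_W_ext {p : Par} (n : ℕ∞) (a s : ℝ) (y : R3) {ξ : R3} (hξ : 3 ≤ ‖ξ‖) :
    p.W n a s y ξ = gs a ξ := by
  unfold Par.W Wf
  rw [Yf_eq_zero _ _ _ hξ, add_zero, mul_one]

open Classical in
theorem ev_excl1 : ∀ᶠ p in PF, ∀ (n : ℕ∞) (s a : ℝ) (y v : R3), 0 < s → s ≤ p.t0 → 1 / 8 ≤ a → a ≤ 1 / 4 →
    ‖v‖ ≤ p.R →
    gain (p.B n s y) (fun ξ => if p.G1 s y ξ then 0 else p.W n a s y ξ) v ≤
      ENNReal.ofReal (p.e0 / s) * p.W n a s y v := by
  filter_upwards [ev_std, ev_wit, excl_ev_V, excl_ev_k0] with p h hwit hV1 hk0 n s a y v hs hs' ha ha' hv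
  rcases hwit n s y hs.le with h0 | ⟨k, j, hW⟩
  · rw [show p.B n s y = fun _ => 0 from funext h0.1, gain_zero_left]
    exact zero_le
  have hV := excl_V_ge h
  have hV0 : 0 < p.V := by linarith
  have ht0 := excl_t0_le h
  have hκ := h.κ0_pos
  have hκ' := h.κ0_le
  have hmW : Measurable (Wf (p.etaS n) a s y) := measurable_Wf_v _ _ _ _
  have hm1 : ∀ s' : Fin 4, Measurable fun ξ =>
      if ‖ξ - uu s' s (y - lat k)‖ ≤ p.κ0 then Wf (p.etaS n) a s y ξ else 0 :=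
    fun s' => excl_meas_ball hmW _ _
  have hm1' := Finset.measurable_sum Finset.univ (fun s' _ => hm1 s')
  have hm2 := excl_meas_ext a (p.V / 4)
  refine le_trans (gain_mono (g' := fun ξ => (∑ s' : Fin 4,
      if ‖ξ - uu s' s (y - lat k)‖ ≤ p.κ0 then Wf (p.etaS n) a s y ξ else 0) +
      if p.V / 4 < ‖ξ‖ then gs a ξ else 0) (fun _ => le_rfl) (fun ξ => ?_) v) ?_
  · by_cases hG : p.G1 s y ξ
    · rw [if_pos hG]; exact zero_le
    rw [if_neg hG]
    by_cases hF : p.Far (1 / 4) s y ξ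
    · have h1 : p.V / 4 < ‖ξ‖ := by
        by_contra h1
        exact hG ⟨hF, not_lt.1 h1⟩
      rw [if_pos h1, excl_W_ext n a s y (by linarith)]
      exact le_add_self
    · obtain ⟨s', hs'⟩ := excl_not_far h hW hs' hF
      refine le_trans ?_ le_self_add
      refine le_trans ?_ (Finset.single_le_sum (f := fun s' : Fin 4 =>
        if ‖ξ - uu s' s (y - lat k)‖ ≤ p.κ0 then Wf (p.etaS n) a s y ξ else 0)
        (fun _ _ => zero_le) (Finset.mem_univ s'))
      simp only [if_pos hs']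
      exact le_rfl
  refine excl_gain h hW hs hs' ha ha' (β := 12000 * p.κ0 + 64 * Real.exp (-(p.V ^ 2 / 400)))
    (by positivity) (by nlinarith [pow_pos hV0 105]) (hm1'.add hm2) ?_
  intro w c hw _
  rw [plane_add hm1' hm2]
  have h1 := excl_plane_four hm1 v w (by positivity) fun s' =>
    excl_ball (η := p.etaS n) (a := a) (by linarith) hs.le (by linarith) hκ (by linarith) y v
      (uu s' s (y - lat k)) hw
  have hR := h.V_ge
  have h2 := excl_ext (V := p.V) (ρ := p.V / 4) ha hw (v := v) (by linarith) (by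
    have : ‖v‖ ^ 2 ≤ (p.V / 8) ^ 2 := pow_le_pow_left₀ (norm_nonneg _) (by linarith) 2
    nlinarith [sq_nonneg p.V])
  refine (add_le_add h1 h2).trans ?_
  rw [← ENNReal.ofReal_add (by positivity) (by positivity)]
  exact ENNReal.ofReal_le_ofReal (le_of_eq (by ring))

/-- an almost horizontal plane misses the strip -/
lemma excl_miss {p : Par} (h : p.Std) {n : ℕ∞} {s : ℝ} {y v : R3} {k : Fin 3 → ℤ} {j : ℕ}
    (hW : p.Wit n s y k j) (hs' : s ≤ p.t0) (hF : p.Far (1 / 8) s y v) {w : R3} {c : ℝ} (hw : ‖w‖ = 1)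
    (hc : p.B n s y (v - c • w) ≠ 0) (htilt : 1 - (p.κ0 / (8 * p.V)) ^ 2 < nc w ^ 2) {ξ : R3}
    (hξ : inner ℝ (ξ - v) w = (0:ℝ)) : ¬ (|nc ξ| < p.δ1 ∧ ‖ξ‖ ≤ p.V) := by
  rintro ⟨h1, h2⟩
  have hV := excl_V_ge h
  have hV0 : 0 < p.V := by linarith
  have ht0 := excl_t0_le h
  have hκ := h.κ0_pos
  have hκ' := h.κ0_le
  have hr0 := excl_r0_le h
  have hD := Par.DD_le h j
  have hδ := h.δ1_le
  set β := p.κ0 / (8 * p.V) with hβ
  have hβ0 : 0 < β := by positivity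
  have hβV : p.V * β = p.κ0 / 8 := by rw [hβ]; field_simp
  have hβ1 : β ≤ p.κ0 / 1000 := by nlinarith
  have hpl : ‖pl w‖ ≤ β := by
    have := norm_sq_pl w
    rw [hw] at this
    exact (sq_le_sq₀ (norm_nonneg _) hβ0.le).1 (by nlinarith)
  obtain ⟨s', hs'⟩ := hW.ctr
  have h3 := hs' _ hc
  have h4 := hF k s' (hW.near.trans (by linarith))
  obtain ⟨h5, h6⟩ := hW.supp _ hc
  unfold dd at h3 h4
  have h7 : ‖v - uu s' s (y - lat k)‖ ≤ |c| + ‖v - c • w - uu s' s (y - lat k)‖ := by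
    have e : v - uu s' s (y - lat k) = c • w + (v - c • w - uu s' s (y - lat k)) := by abel
    calc _ = ‖c • w + (v - c • w - uu s' s (y - lat k))‖ := by rw [← e]
      _ ≤ ‖c • w‖ + ‖v - c • w - uu s' s (y - lat k)‖ := norm_add_le _ _
      _ = _ := by rw [norm_smul, hw, mul_one, Real.norm_eq_abs]
  have h8 := excl_inner_le ξ hw
  have h9 := excl_inner_le (v - c • w) hw
  have e1 : c = inner ℝ ξ w - inner ℝ (v - c • w) w := by
    rw [inner_sub_left] at hξ
    rw [inner_sub_left, real_inner_smul_left, real_inner_self_eq_norm_sq, hw]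
    linarith
  have h10 : |c| ≤ |inner ℝ ξ w| + |inner ℝ (v - c • w) w| := by
    conv_lhs => rw [e1]
    exact abs_sub _ _
  have h11 : ‖ξ‖ * ‖pl w‖ ≤ p.V * β := mul_le_mul h2 hpl (norm_nonneg _) hV0.le
  have h12 : ‖v - c • w‖ * ‖pl w‖ ≤ 2 * β := mul_le_mul h6 hpl (norm_nonneg _) (by norm_num)
  linarith

open Classical in
theorem ev_excl2 : ∀ᶠ p in PF, ∀ (n : ℕ∞) (s a ρ : ℝ) (y v : R3), 0 < s → s ≤ p.t0 → 1 / 8 ≤ a →
    a ≤ 1 / 4 → p.V / 4 ≤ ρ → ρ ≤ 3 * p.V / 4 → ‖v‖ ≤ ρ → p.Far (1 / 8) s y v →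
    gain (p.B n s y) (fun ξ => if p.Gd (ρ + p.V / 4) s y ξ ∧ p.κ0 ≤ ‖v - ξ‖ then 0 else p.W n a s y ξ) v ≤
      ENNReal.ofReal (p.e0 / s) * p.W n a s y v := by
  filter_upwards [ev_std, ev_wit, excl_ev_V, excl_ev_k0, excl_ev_d1] with
    p h hwit hV1 hk0 hd1 n s a ρ y v hs hs' ha ha' hρ hρ' hv hFv
  rcases hwit n s y hs.le with h0 | ⟨k, j, hW⟩
  · rw [show p.B n s y = fun _ => 0 from funext h0.1, gain_zero_left]
    exact zero_le
  have hV := excl_V_ge h
  have hV0 : 0 < p.V := by linarith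
  have ht0 := excl_t0_le h
  have hκ := h.κ0_pos
  have hκ' := h.κ0_le
  have hδ := h.δ1_pos
  have hδ' := h.δ1_le
  have hmW : Measurable (Wf (p.etaS n) a s y) := measurable_Wf_v _ _ _ _
  have hm1 : ∀ s' : Fin 4, Measurable fun ξ =>
      if ‖ξ - uu s' s (y - lat k)‖ ≤ p.κ0 then Wf (p.etaS n) a s y ξ else 0 :=
    fun s' => excl_meas_ball hmW _ _
  have hm1' := Finset.measurable_sum Finset.univ (fun s' _ => hm1 s')
  have hm2 := excl_meas_ext a (ρ + p.V / 4)
  have hm3 := excl_meas_ball hmW v p.κ0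
  have hm4 := excl_meas_strip hmW p.δ1 p.V
  refine le_trans (gain_mono (g' := fun ξ => (((∑ s' : Fin 4,
      if ‖ξ - uu s' s (y - lat k)‖ ≤ p.κ0 then Wf (p.etaS n) a s y ξ else 0) +
      if ρ + p.V / 4 < ‖ξ‖ then gs a ξ else 0) +
      if ‖ξ - v‖ ≤ p.κ0 then Wf (p.etaS n) a s y ξ else 0) +
      if |nc ξ| < p.δ1 ∧ ‖ξ‖ ≤ p.V then Wf (p.etaS n) a s y ξ else 0)
      (fun _ => le_rfl) (fun ξ => ?_) v) ?_
  · by_cases hG : p.Gd (ρ + p.V / 4) s y ξ ∧ p.κ0 ≤ ‖v - ξ‖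
    · rw [if_pos hG]; exact zero_le
    rw [if_neg hG]
    by_cases hF : p.Far (1 / 4) s y ξ
    · by_cases h1 : ρ + p.V / 4 < ‖ξ‖
      · rw [if_pos h1, excl_W_ext n a s y (by linarith)]
        exact (le_add_self.trans le_self_add).trans le_self_add
      by_cases h2 : ‖ξ - v‖ ≤ p.κ0
      · rw [if_pos h2]
        exact le_add_self.trans le_self_add
      have h3 : |nc ξ| < p.δ1 ∧ ‖ξ‖ ≤ p.V := by
        refine ⟨?_, by linarith⟩
        by_contra h3
        refine hG ⟨⟨hF, not_lt.1 h3, not_lt.1 h1⟩, ?_⟩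
        rw [norm_sub_rev]
        exact (not_le.1 h2).le
      rw [if_pos h3]
      exact le_add_self
    · obtain ⟨s', hs'⟩ := excl_not_far h hW hs' hF
      refine le_trans ?_ ((le_self_add.trans le_self_add).trans le_self_add)
      refine le_trans ?_ (Finset.single_le_sum (f := fun s' : Fin 4 =>
        if ‖ξ - uu s' s (y - lat k)‖ ≤ p.κ0 then Wf (p.etaS n) a s y ξ else 0)
        (fun _ _ => zero_le) (Finset.mem_univ s'))
      simp only [if_pos hs']
      exact le_rfl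
  have hβ0 : 0 < p.κ0 / (8 * p.V) := by positivity
  have hβ1 : p.κ0 / (8 * p.V) ≤ 1 := by
    rw [div_le_one (by positivity)]; linarith
  refine excl_gain h hW hs hs' ha ha' (β := 15000 * p.κ0 + 64 * Real.exp (-(p.V ^ 2 / 400)) +
      4000 * Real.sqrt p.δ1 / (p.κ0 / (8 * p.V)))
    (by positivity) (by linarith) (((hm1'.add hm2).add hm3).add hm4) ?_
  intro w c hw hc
  rw [plane_add ((hm1'.fun_add hm2).fun_add hm3) hm4, plane_add (hm1'.fun_add hm2) hm3,
    plane_add hm1' hm2]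
  have h1 := excl_plane_four hm1 v w (by positivity) fun s' =>
    excl_ball (η := p.etaS n) (a := a) (by linarith) hs.le (by linarith) hκ (by linarith) y v
      (uu s' s (y - lat k)) hw
  have h2 := excl_ext (V := p.V) (ρ := ρ + p.V / 4) ha hw (v := v) (by linarith) (by
    have : ‖v‖ ^ 2 ≤ ρ ^ 2 := pow_le_pow_left₀ (norm_nonneg _) hv 2
    nlinarith [sq_nonneg p.V])
  have h3 := excl_ball (η := p.etaS n) (a := a) (by linarith) hs.le (by linarith) hκ (by linarith) y v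
      v hw
  have h4 : plane (fun ξ => if |nc ξ| < p.δ1 ∧ ‖ξ‖ ≤ p.V then Wf (p.etaS n) a s y ξ else 0) v w ≤
      ENNReal.ofReal (4000 * Real.sqrt p.δ1 / (p.κ0 / (8 * p.V)) *
        Real.exp (-(a * (inner ℝ v w) ^ 2))) := by
    by_cases htilt : nc w ^ 2 ≤ 1 - (p.κ0 / (8 * p.V)) ^ 2
    · exact excl_strip ha hs.le (by linarith) hδ (by linarith) hβ0 hβ1 y v hw htilt
    · refine le_trans (plane_mono_on (g' := fun _ => 0) hw fun ξ hξ => ?_) (by simp [plane])
      rw [if_neg (excl_miss h hW hs' hFv hw hc (not_le.1 htilt) hξ)]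
  refine (add_le_add (add_le_add (add_le_add h1 h2) h3) h4).trans ?_
  rw [← ENNReal.ofReal_add (by positivity) (by positivity),
    ← ENNReal.ofReal_add (by positivity) (by positivity),
    ← ENNReal.ofReal_add (by positivity) (by positivity)]
  exact ENNReal.ofReal_le_ofReal (le_of_eq (by ring))

/-- being far from the cold velocities propagates backwards -/
lemma Par.Far_back {p : Par} (h : p.Std) {s t : ℝ} {x v : R3} (hs : 0 ≤ s) (hst : s ≤ t) (ht : t ≤ p.t0)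
    (hv : ‖v‖ ≤ p.V) (hF : p.Far (1 / 4) t x v) : p.Far (1 / 8) s (x - (t - s) • v) v := by
  intro k s' hk
  have e : x - (t - s) • v - lat k = x - lat k - (t - s) • v := by abel
  rw [e] at hk ⊢
  refine (hF k s' ?_).trans (dd_mono s' hst _ _)
  have h1 : ‖x - lat k‖ ≤ ‖x - lat k - (t - s) • v‖ + ‖(t - s) • v‖ := by
    calc ‖x - lat k‖ = ‖(x - lat k - (t - s) • v) + (t - s) • v‖ := by rw [sub_add_cancel]
      _ ≤ _ := norm_add_le _ _
  rw [norm_smul, Real.norm_eq_abs, abs_of_nonneg (by linarith)] at h1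
  have h2 : (t - s) * ‖v‖ ≤ p.t0 * p.V :=
    mul_le_mul (by linarith) hv (norm_nonneg _) (Par.t0_pos h).le
  linarith [Par.t0_le_r0 h, excl_r0_le h, h.κ0_le]

end Crest.Agent.R068
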