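import Crest.Agent.R068.Basic

/-! Row 68: an orthonormal frame whose normal direction is Diophantine. -/

set_option autoImplicit false
open MeasureTheory Set Filter Topology
open scoped ENNReal
open Crest.AnalysisR.VecCalc3 Crest.AnalysisR.PDE.Boltzmann

namespace Crest.Agent.R068

lemma frame_step {a b c : ℤ} (h : a ^ 3 + 2 * b ^ 3 + 4 * c ^ 3 - 6 * a * b * c = 0) :
    ∃ a' : ℤ, a = 2 * a' ∧ b ^ 3 + 2 * c ^ 3 + 4 * a' ^ 3 - 6 * b * c * a' = 0 := by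
  have h1 : Even (a ^ 3) := ⟨3 * a * b * c - b ^ 3 - 2 * c ^ 3, by linarith⟩
  obtain ⟨a', ha'⟩ := (Int.even_pow.1 h1).1
  refine ⟨a', by omega, ?_⟩
  subst ha'
  nlinarith

lemma frame_descent (n : ℕ) : ∀ a b c : ℤ, a.natAbs + b.natAbs + c.natAbs ≤ n →
    a ^ 3 + 2 * b ^ 3 + 4 * c ^ 3 - 6 * a * b * c = 0 → a = 0 ∧ b = 0 ∧ c = 0 := by
  induction n with
  | zero => intro a b c h _; omega
  | succ n ih =>
    intro a b c hn h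
    obtain ⟨a', ha, h1⟩ := frame_step h
    obtain ⟨b', hb, h2⟩ := frame_step h1
    obtain ⟨c', hc, h3⟩ := frame_step h2
    have := ih a' b' c' (by omega) h3
    omega

lemma frame_bound {α : ℝ} (h3 : α ^ 3 = 2) (h1 : 1 ≤ α) (h2 : α ≤ 2) {a b c : ℤ}
    (h : ¬ (a = 0 ∧ b = 0 ∧ c = 0)) :
    1 ≤ |(a : ℝ) + b * α + c * α ^ 2| * (32 * ((a : ℝ) ^ 2 + b ^ 2 + c ^ 2)) := by
  have hN : a ^ 3 + 2 * b ^ 3 + 4 * c ^ 3 - 6 * a * b * c ≠ 0 := fun h0 => h (frame_descent _ a b c le_rfl h0)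
  have hN1 : (1 : ℝ) ≤ |((a ^ 3 + 2 * b ^ 3 + 4 * c ^ 3 - 6 * a * b * c : ℤ) : ℝ)| := by
    exact_mod_cast Int.one_le_abs hN
  set x : ℝ := (a : ℝ) with hx
  set y : ℝ := (b : ℝ) * α with hy
  set z : ℝ := (c : ℝ) * α ^ 2 with hz
  have e : ((a ^ 3 + 2 * b ^ 3 + 4 * c ^ 3 - 6 * a * b * c : ℤ) : ℝ) =
      (x + y + z) * (x ^ 2 + y ^ 2 + z ^ 2 - x * y - y * z - z * x) := by
    push_cast
    rw [hx, hy, hz]
    linear_combination (-(b : ℝ) ^ 3 - (c : ℝ) ^ 3 * (α ^ 3 + 2) + 3 * a * b * c) * h3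
  have hQ0 : 0 ≤ x ^ 2 + y ^ 2 + z ^ 2 - x * y - y * z - z * x := by
    nlinarith [sq_nonneg (x - y), sq_nonneg (y - z), sq_nonneg (z - x)]
  have hα2 : α ^ 2 ≤ 4 := by nlinarith
  have hα4 : (α ^ 2) ^ 2 ≤ 16 := by nlinarith [sq_nonneg α]
  have hy2 : y ^ 2 ≤ 16 * (b : ℝ) ^ 2 := by rw [hy, mul_pow]; nlinarith [sq_nonneg (b : ℝ)]
  have hz2 : z ^ 2 ≤ 16 * (c : ℝ) ^ 2 := by rw [hz, mul_pow]; nlinarith [sq_nonneg (c : ℝ)]
  have hQ : x ^ 2 + y ^ 2 + z ^ 2 - x * y - y * z - z * x ≤ 32 * (x ^ 2 + (b : ℝ) ^ 2 + (c : ℝ) ^ 2) := by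
    nlinarith [sq_nonneg (x + y), sq_nonneg (y + z), sq_nonneg (z + x), sq_nonneg x]
  rw [e, abs_mul, abs_of_nonneg hQ0] at hN1
  exact hN1.trans (mul_le_mul_of_nonneg_left hQ (abs_nonneg _))

/-- `e 1` is proportional to `(1, 2^{1/3}, 2^{2/3})` -/
theorem exists_frame : ∃ e : OrthonormalBasis (Fin 3) ℝ R3, ∃ c : ℝ, 0 < c ∧
    ∀ k : Fin 3 → ℤ, k ≠ 0 → c ≤ |inner ℝ (e 1) (lat k)| * ‖lat k‖ ^ 2 := by
  obtain ⟨α, ⟨h1, h2⟩, h3⟩ : ∃ α ∈ Icc (1 : ℝ) 2, α ^ 3 = 2 :=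
    intermediate_value_Icc (f := fun x : ℝ => x ^ 3) (by norm_num) (by fun_prop) (by norm_num)
  set w : R3 := WithLp.toLp 2 ![1, α, α ^ 2] with hw
  have hw0 : w ≠ 0 := by
    intro h
    have := congrArg (fun v : R3 => v 0) h
    simp [hw] at this
  have hwn : 0 < ‖w‖ := norm_pos_iff.2 hw0
  have hn : ‖‖w‖⁻¹ • w‖ = 1 := norm_smul_inv_norm hw0
  have ho : Orthonormal ℝ (({1} : Set (Fin 3)).domRestrict fun _ => ‖w‖⁻¹ • w) :=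
    ⟨fun _ => hn, fun i j hij => absurd (Subsingleton.elim i j) hij⟩
  obtain ⟨e, he⟩ := ho.exists_orthonormalBasis_extension_of_card_eq (by simp)
  refine ⟨e, ‖w‖⁻¹ / 32, by positivity, fun k hk => ?_⟩
  have hk' : ¬ (k 0 = 0 ∧ k 1 = 0 ∧ k 2 = 0) := by
    rintro ⟨a, b, c⟩
    apply hk
    funext i
    fin_cases i <;> assumption
  have hb := frame_bound h3 h1 h2 hk'
  have e1 : inner ℝ w (lat k) = (k 0 : ℝ) + k 1 * α + k 2 * α ^ 2 := by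
    simp [hw, lat, PiLp.inner_apply, Fin.sum_univ_three]
  have e2 : ‖lat k‖ ^ 2 = (k 0 : ℝ) ^ 2 + k 1 ^ 2 + k 2 ^ 2 := by
    simp [lat, EuclideanSpace.norm_sq_eq, Fin.sum_univ_three]
  rw [he 1 rfl, real_inner_smul_left, abs_mul, abs_of_pos (inv_pos.2 hwn), e1, e2, mul_assoc, div_eq_mul_inv]
  refine mul_le_mul_of_nonneg_left ?_ (by positivity)
  linarith

end Crest.Agent.R068
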