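import Crest.Agent.R068.Basic

/-! Row 68: integration of periodic functions. -/

set_option autoImplicit false
open MeasureTheory Set Filter Topology
open scoped ENNReal
open Crest.AnalysisR.VecCalc3 Crest.AnalysisR.PDE.Boltzmann

namespace Crest.Agent.R068

/-- integer part -/
noncomputable def per_fl (x : R3) : Fin 3 → ℤ := fun i => ⌊x i⌋

/-- fractional part -/
noncomputable def per_fr (x : R3) : R3 := x - lat (per_fl x)

lemma per_lat_apply (k : Fin 3 → ℤ) (i : Fin 3) : lat k i = (k i : ℝ) := rfl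

attribute [local simp] per_lat_apply

lemma per_lat_neg (k : Fin 3 → ℤ) : lat (-k) = -lat k := by
  ext i; simp

lemma per_mem_cell_iff (x : R3) (k : Fin 3 → ℤ) : x - lat k ∈ cell ↔ k = per_fl x := by
  constructor
  · intro h
    funext i
    have := h i
    simp only [PiLp.sub_apply, per_lat_apply, mem_Ico] at this
    symm
    rw [per_fl, Int.floor_eq_iff]
    constructor <;> linarith [this.1, this.2]
  · rintro rfl i
    simp only [PiLp.sub_apply, per_lat_apply, mem_Ico, per_fl]
    constructor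
    · linarith [Int.floor_le (x i)]
    · linarith [Int.lt_floor_add_one (x i)]

lemma per_fr_mem (x : R3) : per_fr x ∈ cell := (per_mem_cell_iff x _).2 rfl

lemma per_fr_of_mem {x : R3} (hx : x ∈ cell) : per_fr x = x := by
  have h0 : lat 0 = 0 := by ext i; simp
  have : (0 : Fin 3 → ℤ) = per_fl x := (per_mem_cell_iff x 0).1 (by rwa [h0, sub_zero])
  rw [per_fr, ← this, h0, sub_zero]

lemma per_single_int {α : Type*} {f : R3 → α} (hp : IsPeriodic3 f) (i : Fin 3) (m : ℤ) (x : R3) :
    f (x + EuclideanSpace.single i (m : ℝ)) = f x := by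
  induction m using Int.induction_on generalizing x with
  | zero =>
    congr 1
    ext j; by_cases h : j = i <;> simp [h]
  | succ m ih =>
    have e : x + EuclideanSpace.single i (((m : ℤ) + 1 : ℤ) : ℝ) =
        (x + EuclideanSpace.single i ((m : ℤ) : ℝ)) + EuclideanSpace.single i 1 := by
      ext j; by_cases h : j = i <;> simp [h, add_assoc]
    rw [e, hp, ih]
  | pred m ih =>
    have e : (x + EuclideanSpace.single i ((-(m : ℤ) - 1 : ℤ) : ℝ)) + EuclideanSpace.single i 1 =
        x + EuclideanSpace.single i ((-(m : ℤ) : ℤ) : ℝ) := by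
      ext j; by_cases h : j = i <;> simp [h, add_assoc]
    rw [← hp _ i, e, ih]

lemma perp_add_lat {α : Type*} {f : R3 → α} (hp : IsPeriodic3 f) (x : R3) (k : Fin 3 → ℤ) :
    f (x + lat k) = f x := by
  have e : x + lat k = x + EuclideanSpace.single 0 (k 0 : ℝ) + EuclideanSpace.single 1 (k 1 : ℝ) +
      EuclideanSpace.single 2 (k 2 : ℝ) := by
    ext j; fin_cases j <;> simp
  rw [e, per_single_int hp, per_single_int hp, per_single_int hp]

lemma perp_sub_lat {α : Type*} {f : R3 → α} (hp : IsPeriodic3 f) (x : R3) (k : Fin 3 → ℤ) :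
    f (x - lat k) = f x := by
  rw [sub_eq_add_neg, ← per_lat_neg, perp_add_lat hp]

lemma per_fr_eq {α : Type*} {f : R3 → α} (hp : IsPeriodic3 f) (x : R3) : f (per_fr x) = f x :=
  perp_sub_lat hp x _

lemma per_fr_periodic : IsPeriodic3 per_fr := by
  intro x i
  ext j
  by_cases h : j = i
  · subst h
    simp [per_fr, per_fl]
  · simp [per_fr, per_fl, h]

lemma per_measurable_fr : Measurable per_fr := by
  have h1 : Measurable fun x : R3 => (fun i => ((⌊x i⌋ : ℤ) : ℝ) : Fin 3 → ℝ) := by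
    refine measurable_pi_lambda _ fun i => ?_
    have : Measurable fun x : R3 => x i := by fun_prop
    exact (measurable_of_countable (fun m : ℤ => (m : ℝ))).comp this.floor
  have h2 : Measurable fun x : R3 => lat (per_fl x) :=
    (WithLp.measurable_toLp 2 (Fin 3 → ℝ)).comp h1
  exact measurable_id.sub h2

lemma measurableSet_cell : MeasurableSet cell := by
  have : cell = ⋂ i : Fin 3, (fun x : R3 => x i) ⁻¹' Ico 0 1 := by
    ext x; simp [cell]
  rw [this]
  exact MeasurableSet.iInter fun i => (by fun_prop : Measurable fun x : R3 => x i) measurableSet_Ico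
lemma volume_cell : (volume : Measure R3) cell = 1 := by
  have h := (PiLp.volume_preserving_toLp (Fin 3)).measure_preimage
    measurableSet_cell.nullMeasurableSet
  rw [← h]
  have : (WithLp.toLp 2 : (Fin 3 → ℝ) → R3) ⁻¹' cell = univ.pi fun _ => Ico (0 : ℝ) 1 := by
    ext x; simp [cell]
  rw [this, volume_pi_pi]
  simp
lemma norm_le_of_mem_cell {x : R3} (hx : x ∈ cell) : ‖x‖ ≤ 2 := by
  rw [EuclideanSpace.norm_eq]
  apply Real.sqrt_le_iff.2
  refine ⟨by norm_num, ?_⟩
  have h : ∀ i, ‖x i‖ ^ 2 ≤ 1 := fun i => by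
    have := hx i
    rw [Real.norm_eq_abs, sq_abs]
    nlinarith [this.1, this.2]
  rw [Fin.sum_univ_three]
  linarith [h 0, h 1, h 2]

lemma per_tsum_indicator (g : R3 → ℝ≥0∞) (c : ℝ≥0∞) (y : R3) :
    ∑' k : Fin 3 → ℤ, cell.indicator g (y - lat k) * c = g (per_fr y) * c := by
  rw [tsum_eq_single (per_fl y)]
  · exact congrArg (· * c) (indicator_of_mem (per_fr_mem y) g)
  · intro k hk
    rw [indicator_of_notMem (fun h => hk ((per_mem_cell_iff y k).1 h)), zero_mul]

/-- unfolding -/
lemma lintegral_cell_tsum {g : R3 → ℝ≥0∞} (hg : Measurable g) :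
    ∫⁻ x in cell, ∑' k : Fin 3 → ℤ, g (x - lat k) = ∫⁻ x, g x := by
  rw [lintegral_tsum (f := fun (k : Fin 3 → ℤ) x => g (x - lat k))
    fun k => (hg.comp (measurable_id.sub_const (lat k))).aemeasurable]
  have h1 : ∀ k : Fin 3 → ℤ, ∫⁻ x in cell, g (x - lat k) =
      ∫⁻ y, cell.indicator 1 (y + lat k) * g y := by
    intro k
    rw [← lintegral_indicator measurableSet_cell,
      ← lintegral_add_right_eq_self (μ := volume) _ (lat k)]
    refine lintegral_congr fun y => ?_
    by_cases h : y + lat k ∈ cell <;> simp [h]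
  simp only [h1]
  rw [← lintegral_tsum fun k => ?_]
  · refine lintegral_congr fun y => ?_
    rw [← (Equiv.neg (Fin 3 → ℤ)).tsum_eq]
    simp only [Equiv.neg_apply, per_lat_neg, ← sub_eq_add_neg]
    rw [per_tsum_indicator]
    simp
  · exact (((measurable_one.indicator measurableSet_cell).comp
      (measurable_id.add_const (lat k))).mul hg).aemeasurable
/-- every point has exactly one representative in the cell -/
lemma exists_lat_cell (x : R3) : ∃ k : Fin 3 → ℤ, x - lat k ∈ cell := ⟨_, per_fr_mem x⟩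
lemma lintegral_cell_shift {f : R3 → ℝ≥0∞} (hf : Measurable f) (hp : IsPeriodic3 f) (a : R3) :
    ∫⁻ x in cell, f (x + a) = ∫⁻ x in cell, f x := by
  have hg : Measurable fun y => cell.indicator f (y + a) :=
    (hf.indicator measurableSet_cell).comp (measurable_id.add_const a)
  have h1 := lintegral_cell_tsum hg
  rw [lintegral_add_right_eq_self (μ := volume) (cell.indicator f) a,
    lintegral_indicator measurableSet_cell] at h1
  rw [← h1]
  refine lintegral_congr fun x => ?_
  have h2 := per_tsum_indicator f 1 (x + a)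
  simp only [mul_one] at h2
  rw [per_fr_eq hp] at h2
  rw [← h2]
  refine tsum_congr fun k => ?_
  congr 1
  abel

lemma per_mp_shift (a : R3) :
    MeasurePreserving (fun x => per_fr (x + a)) ((volume : Measure R3).restrict cell)
      ((volume : Measure R3).restrict cell) := by
  have hm : Measurable fun x => per_fr (x + a) := per_measurable_fr.comp (measurable_id.add_const a)
  refine ⟨hm, ?_⟩
  ext s hs
  rw [Measure.map_apply hm hs, ← lintegral_indicator_one (hm hs), ← lintegral_indicator_one hs]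
  have h1 := lintegral_cell_shift (f := fun x => s.indicator 1 (per_fr x))
    ((measurable_one.indicator hs).comp per_measurable_fr)
    (fun x i => by simp only [per_fr_periodic x i]) a
  calc ∫⁻ x in cell, ((fun x => per_fr (x + a)) ⁻¹' s).indicator 1 x
      = ∫⁻ x in cell, s.indicator 1 (per_fr (x + a)) := rfl
    _ = ∫⁻ x in cell, s.indicator 1 (per_fr x) := h1
    _ = _ := setLIntegral_congr_fun measurableSet_cell fun x hx => by
        simp only [per_fr_of_mem hx]

lemma per_integral_comp {X : Type*} [MeasurableSpace X] {μ : Measure X} {T : X → X}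
    (hT : MeasurePreserving T μ μ) {f : X → ℝ} (hf : Measurable f) :
    ∫ x, f (T x) ∂μ = ∫ x, f x ∂μ := by
  rw [← integral_map hT.measurable.aemeasurable hf.aestronglyMeasurable, hT.map_eq]

lemma integral_cell_shift {f : R3 → ℝ} (hf : Measurable f) (hp : IsPeriodic3 f) (a : R3) :
    ∫ x in cell, f (x + a) = ∫ x in cell, f x := by
  rw [← per_integral_comp (per_mp_shift a) hf]
  simp only [per_fr_eq hp]

lemma per_restrict_prod : (volume : Measure (R3 × R3)).restrict (cell ×ˢ univ) =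
    ((volume : Measure R3).restrict cell).prod volume := by
  rw [Measure.volume_eq_prod, ← Measure.prod_restrict, Measure.restrict_univ]

lemma per_mp_phase (t : ℝ) :
    MeasurePreserving (fun q : R3 × R3 => (per_fr (q.1 + t • q.2), q.2))
      ((volume : Measure (R3 × R3)).restrict (cell ×ˢ univ))
      ((volume : Measure (R3 × R3)).restrict (cell ×ˢ univ)) := by
  rw [per_restrict_prod]
  have h1 : MeasurePreserving (fun q : R3 × R3 => (id q.1, per_fr (q.2 + t • q.1)))
      ((volume : Measure R3).prod ((volume : Measure R3).restrict cell))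
      ((volume : Measure R3).prod ((volume : Measure R3).restrict cell)) :=
    (MeasurePreserving.id volume).skew_product (g := fun v x => per_fr (x + t • v))
      (per_measurable_fr.comp (by fun_prop))
      (Eventually.of_forall fun v => (per_mp_shift (t • v)).map_eq)
  exact (Measure.measurePreserving_swap.comp h1).comp Measure.measurePreserving_swap

lemma per_mp_char (I : Set ℝ) :
    MeasurePreserving (fun p : ℝ × R3 × R3 => (p.1, per_fr (p.2.1 + p.1 • p.2.2), p.2.2))
      ((volume : Measure (ℝ × R3 × R3)).restrict (I ×ˢ (cell ×ˢ univ)))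
      ((volume : Measure (ℝ × R3 × R3)).restrict (I ×ˢ (cell ×ˢ univ))) := by
  rw [Measure.volume_eq_prod, ← Measure.prod_restrict]
  exact (MeasurePreserving.id (volume.restrict I)).skew_product
    (g := fun (t : ℝ) (q : R3 × R3) => (per_fr (q.1 + t • q.2), q.2))
    ((per_measurable_fr.comp (by fun_prop)).prodMk (by fun_prop))
    (Eventually.of_forall fun t => (per_mp_phase t).map_eq)

/-- free transport preserves integrals over `cell × ℝ³` -/
lemma lintegral_phase_shift {f : R3 → R3 → ℝ≥0∞} (hf : MeasP f) (hp : PerP f) (t : ℝ) :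
    ∫⁻ q in cell ×ˢ univ, f (q.1 + t • q.2) q.2 ∂(volume : Measure (R3 × R3)) =
      ∫⁻ q in cell ×ˢ univ, f q.1 q.2 ∂(volume : Measure (R3 × R3)) := by
  rw [← (per_mp_phase t).lintegral_comp hf]
  exact lintegral_congr fun q => (per_fr_eq (hp q.2) _).symm
lemma integral_phase_shift {f : R3 → R3 → ℝ} (hf : MeasP f) (hp : PerP f) (t : ℝ) :
    ∫ q in cell ×ˢ univ, f (q.1 + t • q.2) q.2 ∂(volume : Measure (R3 × R3)) =
      ∫ q in cell ×ˢ univ, f q.1 q.2 ∂(volume : Measure (R3 × R3)) := by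
  rw [← per_integral_comp (per_mp_phase t) hf]
  exact integral_congr_ae (Eventually.of_forall fun q => (per_fr_eq (hp q.2) _).symm)
/-- the same in space-time: `(s,x,v) ↦ (s, x + s v, v)` -/
lemma lintegral_char {f : ℝ → R3 → R3 → ℝ≥0∞} (hf : MeasT f) (hp : PerT f) {I : Set ℝ}
    (hI : MeasurableSet I) :
    ∫⁻ p in I ×ˢ (cell ×ˢ univ), f p.1 (p.2.1 + p.1 • p.2.2) p.2.2 ∂(volume : Measure (ℝ × R3 × R3)) =
      ∫⁻ p in I ×ˢ (cell ×ˢ univ), f p.1 p.2.1 p.2.2 ∂(volume : Measure (ℝ × R3 × R3)) := by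
  have _ := hI
  rw [← (per_mp_char I).lintegral_comp hf]
  exact lintegral_congr fun p => (per_fr_eq (hp p.1 p.2.2) _).symm
lemma integral_char {f : ℝ → R3 → R3 → ℝ} (hf : MeasT f) (hp : PerT f) {I : Set ℝ}
    (hI : MeasurableSet I) :
    ∫ p in I ×ˢ (cell ×ˢ univ), f p.1 (p.2.1 + p.1 • p.2.2) p.2.2 ∂(volume : Measure (ℝ × R3 × R3)) =
      ∫ p in I ×ˢ (cell ×ˢ univ), f p.1 p.2.1 p.2.2 ∂(volume : Measure (ℝ × R3 × R3)) := by
  have _ := hI
  rw [← per_integral_comp (per_mp_char I) hf]
  exact integral_congr_ae (Eventually.of_forall fun p => (per_fr_eq (hp p.1 p.2.2) _).symm)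
/-- the shear `(x,v) ↦ (x + t v, v)` preserves Lebesgue measure -/
lemma measurePreserving_shear (t : ℝ) :
    MeasurePreserving (fun q : R3 × R3 => (q.1 + t • q.2, q.2)) volume volume := by
  rw [Measure.volume_eq_prod]
  have h1 : MeasurePreserving (fun q : R3 × R3 => (id q.1, q.2 + t • q.1))
      ((volume : Measure R3).prod (volume : Measure R3))
      ((volume : Measure R3).prod (volume : Measure R3)) :=
    (MeasurePreserving.id volume).skew_product (g := fun v x => x + t • v) (by fun_prop)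
      (Eventually.of_forall fun v => (measurePreserving_add_right volume (t • v)).map_eq)
  exact (Measure.measurePreserving_swap.comp h1).comp Measure.measurePreserving_swap

lemma per_abs_coord_le (x : R3) (i : Fin 3) : |x i| ≤ ‖x‖ := by
  simpa using PiLp.norm_apply_le x i

/-- number of lattice points in a ball -/
lemma tsum_lat_ball (x : R3) {ρ : ℝ} (hρ : 0 ≤ ρ) :
    ∑' k : Fin 3 → ℤ, (if ‖x - lat k‖ ≤ ρ then (1:ℝ≥0∞) else 0) ≤ ENNReal.ofReal ((2 * ρ + 1) ^ 3) := by
  classical
  set S : Finset (Fin 3 → ℤ) := Fintype.piFinset fun i => Finset.Icc ⌈x i - ρ⌉ ⌊x i + ρ⌋ with hS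
  have h1 : ∀ k ∉ S, (if ‖x - lat k‖ ≤ ρ then (1:ℝ≥0∞) else 0) = 0 := by
    intro k hk
    rw [if_neg]
    intro h
    apply hk
    rw [hS, Fintype.mem_piFinset]
    intro i
    have h2 := abs_le.1 ((per_abs_coord_le (x - lat k) i).trans h)
    simp only [PiLp.sub_apply, per_lat_apply] at h2
    rw [Finset.mem_Icc, Int.ceil_le, Int.le_floor]
    constructor <;> linarith [h2.1, h2.2]
  rw [tsum_eq_sum h1]
  have h2 : ∀ i, ((Finset.Icc ⌈x i - ρ⌉ ⌊x i + ρ⌋).card : ℝ) ≤ 2 * ρ + 1 := by
    intro i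
    rw [Int.card_Icc]
    have a1 := Int.le_ceil (x i - ρ)
    have a2 := Int.floor_le (x i + ρ)
    rcases le_total (⌊x i + ρ⌋ + 1 - ⌈x i - ρ⌉) 0 with h | h
    · rw [Int.toNat_of_nonpos h]; push_cast; linarith
    · have : (((⌊x i + ρ⌋ + 1 - ⌈x i - ρ⌉).toNat : ℤ) : ℝ) = (⌊x i + ρ⌋ + 1 - ⌈x i - ρ⌉ : ℤ) := by
        rw [Int.toNat_of_nonneg h]
      push_cast at this
      rw [this]; linarith
  have h3 : (S.card : ℝ) ≤ (2 * ρ + 1) ^ 3 := by
    rw [hS, Fintype.card_piFinset]
    push_cast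
    calc ∏ i, ((Finset.Icc ⌈x i - ρ⌉ ⌊x i + ρ⌋).card : ℝ) ≤ ∏ _i : Fin 3, (2 * ρ + 1) :=
          Finset.prod_le_prod (fun i _ => Nat.cast_nonneg _) fun i _ => h2 i
      _ = _ := by simp
  calc ∑ k ∈ S, (if ‖x - lat k‖ ≤ ρ then (1:ℝ≥0∞) else 0) ≤ ∑ _k ∈ S, (1 : ℝ≥0∞) :=
        Finset.sum_le_sum fun k _ => by split_ifs <;> simp
    _ = ENNReal.ofReal (S.card : ℝ) := by simp
    _ ≤ _ := ENNReal.ofReal_le_ofReal h3
lemma lat_unique {x : R3} {k l : Fin 3 → ℤ} {a b : ℝ} (hk : ‖x - lat k‖ ≤ a) (hl : ‖x - lat l‖ ≤ b)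
    (hab : a + b < 1) : k = l := by
  funext i
  have h1 := abs_le.1 ((per_abs_coord_le (x - lat k) i).trans hk)
  have h2 := abs_le.1 ((per_abs_coord_le (x - lat l) i).trans hl)
  simp only [PiLp.sub_apply, per_lat_apply] at h1 h2
  have h3 : ((k i - l i : ℤ) : ℝ) < 1 := by push_cast; linarith [h1.1, h1.2, h2.1, h2.2]
  have h4 : ((l i - k i : ℤ) : ℝ) < 1 := by push_cast; linarith [h1.1, h1.2, h2.1, h2.2]
  have h5 : k i - l i < 1 := by exact_mod_cast h3
  have h6 : l i - k i < 1 := by exact_mod_cast h4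
  omega
/-- a ball is covered by few cells -/
lemma lintegral_ball_le {f : R3 → ℝ≥0∞} (hf : Measurable f) (hp : IsPeriodic3 f) (y : R3) {ρ : ℝ}
    (hρ : 0 ≤ ρ) :
    ∫⁻ x in Metric.closedBall y ρ, f x ≤ ENNReal.ofReal ((2 * ρ + 5) ^ 3) * ∫⁻ x in cell, f x := by
  rw [← lintegral_indicator measurableSet_closedBall,
    ← lintegral_cell_tsum (hf.indicator measurableSet_closedBall), ← lintegral_const_mul _ hf]
  refine lintegral_mono fun x => ?_
  have h1 : ∀ k : Fin 3 → ℤ, (Metric.closedBall y ρ).indicator f (x - lat k) =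
      (if ‖(x - y) - lat k‖ ≤ ρ then (1:ℝ≥0∞) else 0) * f x := by
    intro k
    have e : (x - y) - lat k = (x - lat k) - y := by abel
    by_cases h : ‖(x - y) - lat k‖ ≤ ρ
    · rw [if_pos h, one_mul, indicator_of_mem, perp_sub_lat hp]
      rwa [Metric.mem_closedBall, dist_eq_norm, ← e]
    · rw [if_neg h, zero_mul, indicator_of_notMem]
      rwa [Metric.mem_closedBall, dist_eq_norm, ← e]
  simp only [h1]
  rw [ENNReal.tsum_mul_right]
  refine mul_le_mul_left ((tsum_lat_ball (x - y) hρ).trans (ENNReal.ofReal_le_ofReal ?_)) _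
  exact pow_le_pow_left₀ (by linarith) (by linarith) 3
lemma per_mp_trans (a : R3) :
    MeasurePreserving (fun q : R3 × R3 => (q.1 - a, q.2)) volume volume :=
  (measurePreserving_sub_right (volume : Measure R3) a).prod
    (MeasurePreserving.id (volume : Measure R3))
/-- a.e. on the cell means a.e. everywhere, for periodic predicates -/
lemma ae_of_ae_cell {P : R3 → R3 → Prop} (hp : PerP P)
    (h : ∀ᵐ q ∂((volume : Measure (R3 × R3)).restrict (cell ×ˢ univ)), P q.1 q.2) :
    ∀ᵐ q : R3 × R3, P q.1 q.2 := by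
  rw [ae_restrict_iff' (measurableSet_cell.prod MeasurableSet.univ)] at h
  have h1 : ∀ k : Fin 3 → ℤ, ∀ᵐ q : R3 × R3, q.1 - lat k ∈ cell → P q.1 q.2 := by
    intro k
    have := (per_mp_trans (lat k)).quasiMeasurePreserving.ae h
    filter_upwards [this] with q hq hc
    exact (perp_sub_lat (hp q.2) q.1 k).mp (hq ⟨hc, mem_univ _⟩)
  filter_upwards [ae_all_iff.2 h1] with q hq
  exact hq _ (per_fr_mem q.1)
lemma ae_of_ae_cell3 {P : ℝ → R3 → R3 → Prop} (hp : PerT P) {I : Set ℝ} (hI : MeasurableSet I)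
    (h : ∀ᵐ p ∂((volume : Measure (ℝ × R3 × R3)).restrict (I ×ˢ (cell ×ˢ univ))), P p.1 p.2.1 p.2.2) :
    ∀ᵐ p ∂((volume : Measure (ℝ × R3 × R3)).restrict (I ×ˢ univ)), P p.1 p.2.1 p.2.2 := by
  rw [ae_restrict_iff' (hI.prod (measurableSet_cell.prod MeasurableSet.univ))] at h
  rw [ae_restrict_iff' (hI.prod MeasurableSet.univ)]
  have h1 : ∀ k : Fin 3 → ℤ, ∀ᵐ p : ℝ × R3 × R3, p.1 ∈ I → p.2.1 - lat k ∈ cell →
      P p.1 p.2.1 p.2.2 := by
    intro k
    have hm : MeasurePreserving (fun p : ℝ × R3 × R3 => (p.1, p.2.1 - lat k, p.2.2))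
        volume volume := (MeasurePreserving.id (volume : Measure ℝ)).prod (per_mp_trans (lat k))
    have := hm.quasiMeasurePreserving.ae h
    filter_upwards [this] with p hq hi hc
    exact (perp_sub_lat (hp p.1 p.2.2) p.2.1 k).mp (hq ⟨hi, hc, mem_univ _⟩)
  filter_upwards [ae_all_iff.2 h1] with p hq hi
  exact hq _ hi.1 (per_fr_mem p.2.1)
/-- collision terms of a periodic density are periodic -/
lemma PerT.gain {N N' : TF} (h : PerT N) (h' : PerT N') : PerT (fun t x v => gain (N t x) (N' t x) v) := by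
  intro t v x i
  have e : N t (x + EuclideanSpace.single i 1) = N t x := funext fun u => h t u x i
  have e' : N' t (x + EuclideanSpace.single i 1) = N' t x := funext fun u => h' t u x i
  simp only [e, e']
lemma PerT.freq {N : TF} (h : PerT N) : PerT (fun t x v => freq (N t x) v) := by
  intro t v x i
  have e : N t (x + EuclideanSpace.single i 1) = N t x := funext fun u => h t u x i
  simp only [e]
lemma PerT.collGain {F : ℝ → R3 → R3 → ℝ} (h : PerT F) : PerT (collGain F) := by
  intro t v x i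
  have e : F t (x + EuclideanSpace.single i 1) = F t x := funext fun u => h t u x i
  simp only [Crest.AnalysisR.PDE.Boltzmann.collGain, e]
lemma PerT.collLoss {F : ℝ → R3 → R3 → ℝ} (h : PerT F) : PerT (collLoss F) := by
  intro t v x i
  have e : F t (x + EuclideanSpace.single i 1) = F t x := funext fun u => h t u x i
  simp only [Crest.AnalysisR.PDE.Boltzmann.collLoss, e]
lemma PerT.Rr {F : ℝ → R3 → R3 → ℝ} (h : PerT F) : PerT (Rr F) := by
  intro t v x i
  have e1 := h.collGain t v x i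
  have e2 := h.collLoss t v x i
  simp only at e1 e2
  simp only [R068.Rr, e1, e2]
/-- a periodic density that is integrable on the cell is integrable against a weight -/
lemma integrable_mul_wt {f : R3 → R3 → ℝ} (hf : MeasP f) (hp : PerP f)
    (hi : (∫⁻ q in cell ×ˢ univ, ‖f q.1 q.2‖ₑ ∂(volume : Measure (R3 × R3))) < ⊤)
    {ψ : R3 × R3 → ℝ} (hψ : Wt ψ) : Integrable (fun q : R3 × R3 => f q.1 q.2 * ψ q) := by
  obtain ⟨C, hC⟩ := hψ.bdd
  obtain ⟨ρ, hρ⟩ := hψ.supp
  have hf' : Measurable fun q : R3 × R3 => f q.1 q.2 := hf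
  have he : Measurable fun q : R3 × R3 => ‖f q.1 q.2‖ₑ := hf'.enorm
  refine ⟨(hf'.mul hψ.meas).aestronglyMeasurable, ?_⟩
  set B : Set R3 := Metric.closedBall 0 |ρ| with hB
  have h1 : ∫⁻ q : R3 × R3, ‖f q.1 q.2 * ψ q‖ₑ ≤
      ENNReal.ofReal C * ∫⁻ q in B ×ˢ univ, ‖f q.1 q.2‖ₑ ∂(volume : Measure (R3 × R3)) := by
    rw [← lintegral_indicator (measurableSet_closedBall.prod MeasurableSet.univ),
      ← lintegral_const_mul _ (he.indicator (measurableSet_closedBall.prod MeasurableSet.univ))]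
    refine lintegral_mono fun q => ?_
    by_cases h : ψ q = 0
    · simp [h]
    · have hq : q ∈ B ×ˢ (univ : Set R3) :=
        ⟨by simpa [hB] using (hρ q h).1.trans (le_abs_self ρ), mem_univ _⟩
      show ‖f q.1 q.2 * ψ q‖ₑ ≤ ENNReal.ofReal C *
        (B ×ˢ (univ : Set R3)).indicator (fun q : R3 × R3 => ‖f q.1 q.2‖ₑ) q
      rw [indicator_of_mem hq, enorm_mul, mul_comm]
      refine mul_le_mul_left ?_ _
      rw [← ofReal_norm]
      exact ENNReal.ofReal_le_ofReal (hC q)
  have h2 : ∀ S : Set R3, ∫⁻ q in S ×ˢ univ, ‖f q.1 q.2‖ₑ ∂(volume : Measure (R3 × R3)) =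
      ∫⁻ v, ∫⁻ x in S, ‖f x v‖ₑ := by
    intro S
    rw [Measure.volume_eq_prod, ← Measure.prod_restrict, Measure.restrict_univ,
      lintegral_prod_symm' _ he]
  have h3 : ∫⁻ q in B ×ˢ univ, ‖f q.1 q.2‖ₑ ∂(volume : Measure (R3 × R3)) ≤
      ENNReal.ofReal ((2 * |ρ| + 5) ^ 3) *
        ∫⁻ q in cell ×ˢ univ, ‖f q.1 q.2‖ₑ ∂(volume : Measure (R3 × R3)) := by
    rw [h2, h2, ← lintegral_const_mul' _ _ ENNReal.ofReal_ne_top]
    refine lintegral_mono fun v => ?_
    exact lintegral_ball_le (f := fun x => ‖f x v‖ₑ) (he.comp measurable_prodMk_right)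
      (fun x i => by simp only [hp v x i]) 0 (abs_nonneg ρ)
  exact h1.trans_lt (ENNReal.mul_lt_top ENNReal.ofReal_lt_top
    (h3.trans_lt (ENNReal.mul_lt_top ENNReal.ofReal_lt_top hi)))

end Crest.Agent.R068
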