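import Crest.Agent.R068.Obj
import Crest.Agent.R068.Gauss
import Crest.Agent.R068.Per

/-! Row 68: the periodic distance `sn`, thin crossings, the hole and the gauge. -/

set_option autoImplicit false
open MeasureTheory Set Filter Topology
open scoped ENNReal
open Crest.AnalysisR.VecCalc3 Crest.AnalysisR.PDE.Boltzmann

namespace Crest.Agent.R068

lemma geoB_sin_sq (y : ℝ) (k : ℤ) :
    Real.sin (Real.pi * y) ^ 2 = Real.sin (Real.pi * (y - k)) ^ 2 := by
  have : Real.pi * (y - k) = Real.pi * y - k * Real.pi := by ring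
  rw [this, Real.sin_sub_int_mul_pi, mul_pow, ← sq_abs ((-1 : ℝ) ^ k), abs_zpow]
  simp

lemma geoB_sin_ge {y : ℝ} (h : |y| ≤ 1 / 2) : 4 * y ^ 2 ≤ Real.sin (Real.pi * y) ^ 2 := by
  have hp := Real.pi_pos
  have h1 : |Real.pi * y| ≤ Real.pi / 2 := by
    rw [abs_mul, abs_of_pos hp]
    nlinarith
  have h2 := Real.mul_abs_le_abs_sin h1
  rw [abs_mul, abs_of_pos hp] at h2
  have h3 : 2 / Real.pi * (Real.pi * |y|) = 2 * |y| := by field_simp
  rw [h3] at h2
  have h4 := pow_le_pow_left₀ (by positivity) h2 2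
  rwa [mul_pow, sq_abs, sq_abs, show (2 : ℝ) ^ 2 = 4 by norm_num] at h4

lemma geoB_norm_sq (x : R3) (k : Fin 3 → ℤ) : ‖x - lat k‖ ^ 2 = ∑ i, (x i - k i) ^ 2 := by
  rw [EuclideanSpace.real_norm_sq_eq]
  rfl

lemma geoB_continuous_sn : Continuous sn := by
  unfold sn
  fun_prop

lemma geoB_sn_periodic : IsPeriodic3 sn := by
  intro x i
  refine Finset.sum_congr rfl fun j _ => ?_
  by_cases h : j = i
  · subst h
    rw [geoB_sin_sq _ 1]
    simp
  · simp [h]

lemma geoB_sn_nonneg (x : R3) : 0 ≤ sn x := Finset.sum_nonneg fun _ _ => sq_nonneg _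

lemma geoB_sn_le_three (x : R3) : sn x ≤ 3 := by
  unfold sn
  rw [Fin.sum_univ_three]
  linarith [Real.sin_sq_le_one (Real.pi * x 0), Real.sin_sq_le_one (Real.pi * x 1),
    Real.sin_sq_le_one (Real.pi * x 2)]

lemma geoB_sqrt_sn_le (x : R3) (k : Fin 3 → ℤ) : Real.sqrt (sn x) ≤ Real.pi * ‖x - lat k‖ := by
  refine Real.sqrt_le_iff.2 ⟨by positivity, ?_⟩
  rw [mul_pow, geoB_norm_sq, Finset.mul_sum]
  refine Finset.sum_le_sum fun i _ => ?_
  rw [geoB_sin_sq _ (k i), ← mul_pow]
  exact Real.sin_sq_le_sq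

lemma geoB_le_sn' {x : R3} {k : Fin 3 → ℤ} (h : ∀ i, |x i - k i| ≤ 1 / 2) :
    4 * ‖x - lat k‖ ^ 2 ≤ sn x := by
  rw [geoB_norm_sq, Finset.mul_sum]
  refine Finset.sum_le_sum fun i _ => ?_
  rw [geoB_sin_sq _ (k i)]
  exact geoB_sin_ge (h i)

lemma geoB_le_sn {x : R3} {k : Fin 3 → ℤ} (h : ‖x - lat k‖ ≤ 1 / 2) :
    4 * ‖x - lat k‖ ^ 2 ≤ sn x :=
  geoB_le_sn' fun i => (per_abs_coord_le (x - lat k) i).trans h

lemma geoB_exists_lat_le_sn (x : R3) : ∃ k : Fin 3 → ℤ, 4 * ‖x - lat k‖ ^ 2 ≤ sn x :=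
  ⟨fun i => round (x i), geoB_le_sn' fun i => abs_sub_round (x i)⟩

lemma geoB_thin_crossing {ρ b κ s t : ℝ} (hρ : 0 ≤ ρ) (_hb : 0 ≤ b) (hκ : 0 < κ) (hst : s ≤ t)
    (x : R3) {v : R3} (hv : κ ≤ |nc v|) :
    volume {r : ℝ | r ∈ Ioo s t ∧ ∃ k : Fin 3 → ℤ, ‖x - (t - r) • v - lat k‖ ≤ ρ ∧
      |nc (x - (t - r) • v - lat k)| < b} ≤
      ENNReal.ofReal ((2 * (ρ + (t - s) * ‖v‖) + 1) ^ 3 * (2 * b / κ)) := by
  have hc : 0 < |nc v| := hκ.trans_le hv
  have hc' : nc v ≠ 0 := abs_pos.1 hc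
  have hR : 0 ≤ ρ + (t - s) * ‖v‖ := add_nonneg hρ (mul_nonneg (by linarith) (norm_nonneg _))
  set A : (Fin 3 → ℤ) → Set ℝ := fun k => if ‖x - lat k‖ ≤ ρ + (t - s) * ‖v‖ then
    Metric.ball (t - nc (x - lat k) / nc v) (b / κ) else ∅ with hA
  calc _ ≤ volume (⋃ k, A k) := by
        refine measure_mono fun r ⟨hr, k, h1, h2⟩ => mem_iUnion.2 ⟨k, ?_⟩
        have h3 : ‖x - lat k‖ ≤ ρ + (t - s) * ‖v‖ := by
          have e : x - lat k = (x - (t - r) • v - lat k) + (t - r) • v := by abel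
          rw [e]
          refine (norm_add_le _ _).trans (add_le_add h1 ?_)
          rw [norm_smul, Real.norm_of_nonneg (by linarith [hr.2])]
          exact mul_le_mul_of_nonneg_right (by linarith [hr.1]) (norm_nonneg _)
        have e : nc (x - (t - r) • v - lat k) = (r - (t - nc (x - lat k) / nc v)) * nc v := by
          simp only [nc, inner_sub_right, inner_smul_right] at hc' ⊢
          field_simp
          ring
        rw [e, abs_mul] at h2
        simp only [hA, if_pos h3, Metric.mem_ball, Real.dist_eq]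
        rw [lt_div_iff₀ hκ]
        exact (mul_le_mul_of_nonneg_left hv (abs_nonneg _)).trans_lt h2
    _ ≤ ∑' k, volume (A k) := measure_iUnion_le _
    _ = ∑' k : Fin 3 → ℤ, (if ‖x - lat k‖ ≤ ρ + (t - s) * ‖v‖ then (1:ℝ≥0∞) else 0) *
          ENNReal.ofReal (2 * b / κ) := by
        refine tsum_congr fun k => ?_
        simp only [hA]
        split_ifs
        · rw [Real.volume_ball, one_mul, mul_div_assoc]
        · simp
    _ ≤ _ := by
        rw [ENNReal.tsum_mul_right, ENNReal.ofReal_mul (by positivity)]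
        exact mul_le_mul_left (tsum_lat_ball x hR) _

lemma geoB_measurableSet_thin (ρ b t : ℝ) (x v : R3) :
    MeasurableSet {r : ℝ | ∃ k : Fin 3 → ℤ, ‖x - (t - r) • v - lat k‖ ≤ ρ ∧
      |nc (x - (t - r) • v - lat k)| < b} := by
  rw [setOf_exists]
  refine MeasurableSet.iUnion fun k => ?_
  rw [setOf_and]
  unfold nc
  exact (measurableSet_le (by fun_prop) measurable_const).inter
    (measurableSet_lt (by fun_prop) measurable_const)

/-- small `sn` forces the first coordinate to be close to an integer -/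
lemma geoB_near {ρ : ℝ} (hρ : 0 < ρ) {x : R3} (h : sn x < ρ ^ 2) :
    ∃ k : ℤ, |x 0 - k| < ρ / 2 := by
  obtain ⟨k, hk⟩ := geoB_exists_lat_le_sn x
  refine ⟨k 0, (per_abs_coord_le (x - lat k) 0).trans_lt ?_⟩
  refine lt_of_pow_lt_pow_left₀ 2 (by positivity) ?_
  linarith

/-- a periodic family of short intervals has small density -/
lemma geoB_dens {ρ t R : ℝ} (hρ : 0 < ρ) (hρ1 : ρ ≤ 1) (ht : 0 < t) (hR : 0 ≤ R) (c : ℝ) :
    volume (Ioo (-R) R ∩ {a : ℝ | ∃ k : ℤ, |c - t * a - k| < ρ / 2}) ≤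
      ENNReal.ofReal (ρ * (2 * R) + 2 * ρ / t) := by
  set S : Finset ℤ := Finset.Icc ⌈c - t * R - ρ / 2⌉ ⌊c + t * R + ρ / 2⌋ with hS
  have htR := mul_nonneg ht.le hR
  calc _ ≤ volume (⋃ k ∈ S, Metric.ball ((c - k) / t) (ρ / 2 / t)) := by
        refine measure_mono fun a ⟨ha, k, hk⟩ => mem_iUnion₂.2 ⟨k, ?_, ?_⟩
        · have h1 := abs_lt.1 hk
          have h2 := mul_lt_mul_of_pos_left ha.1 ht
          have h3 := mul_lt_mul_of_pos_left ha.2 ht
          rw [hS, Finset.mem_Icc, Int.ceil_le, Int.le_floor]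
          constructor <;> linarith
        · have e : a - (c - k) / t = -(c - t * a - k) / t := by
            field_simp
            ring
          rw [Metric.mem_ball, Real.dist_eq, e, abs_div, abs_neg, abs_of_pos ht]
          exact div_lt_div_of_pos_right hk ht
    _ ≤ ∑ k ∈ S, volume (Metric.ball ((c - k) / t) (ρ / 2 / t)) := measure_biUnion_finset_le _ _
    _ = ENNReal.ofReal (S.card * (ρ / t)) := by
        simp only [Real.volume_ball, Finset.sum_const, nsmul_eq_mul]
        rw [ENNReal.ofReal_mul (p := S.card) (by positivity), ENNReal.ofReal_natCast]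
        congr 2
        ring
    _ ≤ _ := by
        refine ENNReal.ofReal_le_ofReal ?_
        have h1 : (S.card : ℝ) ≤ 2 * t * R + 2 := by
          rw [hS, Int.card_Icc]
          have h2 := Int.floor_le (c + t * R + ρ / 2)
          have h3 := Int.le_ceil (c - t * R - ρ / 2)
          rcases le_total (⌊c + t * R + ρ / 2⌋ + 1 - ⌈c - t * R - ρ / 2⌉) 0 with h | h
          · rw [Int.toNat_of_nonpos h]
            push_cast
            linarith
          · have h4 : (((⌊c + t * R + ρ / 2⌋ + 1 - ⌈c - t * R - ρ / 2⌉).toNat : ℤ) : ℝ) =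
                ((⌊c + t * R + ρ / 2⌋ + 1 - ⌈c - t * R - ρ / 2⌉ : ℤ) : ℝ) := by
              rw [Int.toNat_of_nonneg h]
            push_cast at h4
            linarith
        calc (S.card : ℝ) * (ρ / t) ≤ (2 * t * R + 2) * (ρ / t) := by gcongr
          _ = _ := by field_simp

/-- layer cake over a Gaussian -/
lemma geoB_layer {α β a : ℝ} (hα : 0 ≤ α) (hβ : 0 ≤ β) (ha : 0 < a) {S : Set ℝ}
    (h : ∀ R, 0 ≤ R → volume (Ioo (-R) R ∩ S) ≤ ENNReal.ofReal (α * (2 * R) + β)) :
    ∫⁻ y in S, ENNReal.ofReal (Real.exp (-a * y ^ 2)) ≤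
      ENNReal.ofReal (α * √(Real.pi / a) + β) := by
  have hlev : ∀ l : ℝ, 0 < l → {y : ℝ | l < Real.exp (-a * y ^ 2)} =
      Ioo (-√(-Real.log l / a)) √(-Real.log l / a) := by
    intro l hl
    ext y
    rw [mem_setOf_eq, mem_Ioo, ← Real.sq_lt, ← Real.log_lt_iff_lt_exp hl, lt_div_iff₀ ha]
    constructor <;> intro <;> linarith
  have hm : Measurable fun y : ℝ => Real.exp (-a * y ^ 2) := by fun_prop
  have h0 : ∀ μ : Measure ℝ, 0 ≤ᵐ[μ] fun y : ℝ => Real.exp (-a * y ^ 2) := fun μ =>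
    Eventually.of_forall fun y => (Real.exp_pos _).le
  have h1 := lintegral_eq_lintegral_meas_lt volume (h0 _) hm.aemeasurable
  rw [pb_gauss ha] at h1
  rw [lintegral_eq_lintegral_meas_lt _ (h0 _) hm.aemeasurable]
  calc _ ≤ ∫⁻ l in Ioi (0:ℝ), (ENNReal.ofReal α * volume {y : ℝ | l < Real.exp (-a * y ^ 2)} +
        (Ioo (0:ℝ) 1).indicator (fun _ => ENNReal.ofReal β) l) := by
        refine setLIntegral_mono' measurableSet_Ioi fun l hl => ?_
        rw [hlev l hl, Measure.restrict_apply measurableSet_Ioo]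
        rcases lt_or_ge l 1 with h2 | h2
        · refine (h _ (Real.sqrt_nonneg _)).trans (le_of_eq ?_)
          rw [indicator_of_mem (show l ∈ Ioo (0:ℝ) 1 from ⟨hl, h2⟩), Real.volume_Ioo,
            ← ENNReal.ofReal_mul hα, ← ENNReal.ofReal_add (mul_nonneg hα (by
              linarith [Real.sqrt_nonneg (-Real.log l / a)])) hβ]
          congr 1
          ring
        · have h3 : √(-Real.log l / a) = 0 := Real.sqrt_eq_zero_of_nonpos
            (div_nonpos_of_nonpos_of_nonneg (by linarith [Real.log_nonneg h2]) ha.le)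
          simp [h3]
    _ ≤ _ := by
        rw [lintegral_add_right _ (measurable_const.indicator measurableSet_Ioo),
          lintegral_const_mul' _ _ ENNReal.ofReal_ne_top, ← h1,
          ENNReal.ofReal_add (by positivity) hβ, ENNReal.ofReal_mul hα]
        refine add_le_add le_rfl ((setLIntegral_le_lintegral _ _).trans (le_of_eq ?_))
        rw [lintegral_indicator measurableSet_Ioo]
        simp

/-- product form of an integral on `ℝ³` -/
lemma geoB_prod (e : OrthonormalBasis (Fin 3) ℝ R3) {f g h : ℝ → ℝ≥0∞} (hf : Measurable f)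
    (hg : Measurable g) (hh : Measurable h) :
    ∫⁻ u : R3, f (inner ℝ (e 0) u) * g (inner ℝ (e 1) u) * h (inner ℝ (e 2) u) =
      (∫⁻ a, f a) * (∫⁻ a, g a) * ∫⁻ a, h a := by
  rw [lintegral_onb e (by fun_prop)]
  simp only [pb_inner0, pb_inner1, pb_inner2]
  simp only [lintegral_const_mul _ hh]
  simp only [lintegral_mul_const _ (hg.const_mul _), lintegral_const_mul _ hg]
  rw [lintegral_mul_const _ (hf.mul_const _), lintegral_mul_const _ hf]

lemma geoB_hole_small {ρ t : ℝ} (hρ : 0 < ρ) (ht : 0 < t) (x : R3) :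
    ∫⁻ u, (if sn (x - t • u) < ρ ^ 2 then gs (3 / 8) u else 0) ≤
      ENNReal.ofReal (20 * ρ / t + 30 * ρ) := by
  have hπ := Real.pi_lt_d2
  have hπ0 := Real.pi_pos
  have hρt : 0 < ρ / t := by positivity
  have e20 : 20 * ρ / t = 20 * (ρ / t) := by ring
  rcases le_total 1 ρ with h1 | h1
  · calc _ ≤ ∫⁻ u, gs (3 / 8) u := lintegral_mono fun u => by split_ifs <;> simp
      _ ≤ _ := by
        rw [gaussA_lintegral_gs0 (by norm_num)]
        refine ENNReal.ofReal_le_ofReal ((gaussA_rpow_le (c := 30) (by positivity) (by norm_num)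
          ?_).trans (by linarith))
        have := gaussA_pi_cube
        rw [div_pow]
        norm_num
        linarith
  set S : Set ℝ := {a : ℝ | ∃ k : ℤ, |x 0 - t * a - k| < ρ / 2} with hS
  have hSm : MeasurableSet S := by
    rw [hS, setOf_exists]
    exact MeasurableSet.iUnion fun k => measurableSet_lt (by fun_prop) measurable_const
  set G : ℝ → ℝ≥0∞ := fun y => ENNReal.ofReal (Real.exp (-(3 / 8) * y ^ 2)) with hG
  have hGm : Measurable G := by rw [hG]; fun_prop
  set e := EuclideanSpace.basisFun (Fin 3) ℝ with he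
  have hs : √(Real.pi / (3 / 8)) ≤ 3 := Real.sqrt_le_iff.2 ⟨by norm_num, by linarith⟩
  have hs2 : √(Real.pi / (3 / 8)) * √(Real.pi / (3 / 8)) ≤ 9 := by
    rw [Real.mul_self_sqrt (by positivity)]
    linarith
  calc _ ≤ ∫⁻ u : R3, S.indicator G (inner ℝ (e 0) u) * G (inner ℝ (e 1) u) *
        G (inner ℝ (e 2) u) := by
        refine lintegral_mono fun u => ?_
        split_ifs with h
        · have hu : u 0 ∈ S := by simpa [hS] using geoB_near hρ h
          simp only [he, EuclideanSpace.basisFun_inner]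
          rw [indicator_of_mem hu, hG, gs, ← ENNReal.ofReal_mul (Real.exp_pos _).le,
            ← ENNReal.ofReal_mul (by positivity), ← Real.exp_add, ← Real.exp_add,
            EuclideanSpace.real_norm_sq_eq, Fin.sum_univ_three]
          exact le_of_eq (by congr 2; ring)
        · exact zero_le
    _ = (∫⁻ a in S, G a) * (∫⁻ a, G a) * ∫⁻ a, G a := by
        rw [geoB_prod e (hGm.indicator hSm) hGm hGm, lintegral_indicator hSm]
    _ ≤ ENNReal.ofReal (ρ * √(Real.pi / (3 / 8)) + 2 * ρ / t) *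
        ENNReal.ofReal √(Real.pi / (3 / 8)) * ENNReal.ofReal √(Real.pi / (3 / 8)) := by
        rw [hG, pb_gauss (by norm_num)]
        gcongr
        exact geoB_layer hρ.le (by positivity) (by norm_num) fun R hR => geoB_dens hρ h1 ht hR _
    _ ≤ _ := by
        rw [← ENNReal.ofReal_mul (by positivity), ← ENNReal.ofReal_mul (by positivity), mul_assoc]
        refine ENNReal.ofReal_le_ofReal ?_
        calc _ ≤ (ρ * 3 + 2 * ρ / t) * 9 := by gcongr
          _ = 27 * ρ + 18 * (ρ / t) := by ring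
          _ ≤ _ := by linarith

lemma geoB_volume_hole {ρ : ℝ} (hρ : 0 < ρ) :
    volume {x : R3 | x ∈ cell ∧ sn x < ρ ^ 2} ≤ ENNReal.ofReal ρ := by
  rcases le_total 1 ρ with h1 | h1
  · refine (measure_mono fun x hx => hx.1).trans ?_
    rw [volume_cell]
    exact ENNReal.one_le_ofReal.2 h1
  set e := EuclideanSpace.basisFun (Fin 3) ℝ with he
  set S : Set ℝ := Ico 0 (ρ / 2) ∪ Ioo (1 - ρ / 2) 1 with hS
  have hSm : MeasurableSet S := measurableSet_Ico.union measurableSet_Ioo
  have hm : MeasurableSet {x : R3 | x ∈ cell ∧ sn x < ρ ^ 2} :=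
    measurableSet_cell.inter (measurableSet_lt geoB_continuous_sn.measurable measurable_const)
  rw [← lintegral_indicator_one hm]
  calc _ ≤ ∫⁻ u : R3, S.indicator 1 (inner ℝ (e 0) u) *
        (Ico (0:ℝ) 1).indicator 1 (inner ℝ (e 1) u) *
        (Ico (0:ℝ) 1).indicator (1 : ℝ → ℝ≥0∞) (inner ℝ (e 2) u) := by
        refine lintegral_mono fun u => indicator_apply_le' (fun hu => ?_) fun _ => zero_le
        obtain ⟨k, hk⟩ := geoB_near hρ hu.2
        have h0 := hu.1 0
        have hk' := abs_lt.1 hk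
        have hu0 : u 0 ∈ S := by
          have k0 : (-1 : ℤ) < k := by
            have : (-1 : ℝ) < k := by linarith [h0.1]
            exact_mod_cast this
          have k1 : k < 2 := by
            have : (k : ℝ) < 2 := by linarith [h0.2]
            exact_mod_cast this
          have : k = 0 ∨ k = 1 := by omega
          rcases this with rfl | rfl
          · exact Or.inl ⟨h0.1, by simpa using hk'.2⟩
          · exact Or.inr ⟨by have := hk'.1; push_cast at this; linarith, h0.2⟩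
        simp only [he, EuclideanSpace.basisFun_inner]
        rw [indicator_of_mem hu0, indicator_of_mem (hu.1 1), indicator_of_mem (hu.1 2)]
        simp
    _ = volume S := by
        rw [geoB_prod e (measurable_one.indicator hSm) (measurable_one.indicator measurableSet_Ico)
          (measurable_one.indicator measurableSet_Ico), lintegral_indicator_one hSm,
          lintegral_indicator_one measurableSet_Ico]
        simp
    _ ≤ _ := by
        refine (measure_union_le _ _).trans (le_of_eq ?_)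
        rw [Real.volume_Ico, Real.volume_Ioo, ← ENNReal.ofReal_add (by linarith) (by linarith)]
        congr 1
        ring

lemma geoB_inv_sqrt {ρ : ℝ} (hρ : 0 ≤ ρ) :
    ∫⁻ b in Icc (-ρ) ρ, (ENNReal.ofReal √|b|)⁻¹ ≤ ENNReal.ofReal (4 * √ρ) := by
  have h1 : ∫⁻ b in Ioc 0 ρ, (ENNReal.ofReal √|b|)⁻¹ = ENNReal.ofReal (2 * √ρ) := by
    have hi : IntegrableOn (fun b : ℝ => b ^ (-(1 / 2) : ℝ)) (Ioc 0 ρ) :=
      (intervalIntegral.intervalIntegrable_rpow' (by norm_num)).1
    have h2 : ∫ b in Ioc 0 ρ, b ^ (-(1 / 2) : ℝ) = 2 * √ρ := by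
      rw [← intervalIntegral.integral_of_le hρ, integral_rpow (Or.inl (by norm_num)),
        Real.zero_rpow (by norm_num), Real.sqrt_eq_rpow]
      norm_num
      ring
    rw [← h2, ofReal_integral_eq_lintegral_ofReal hi ((ae_restrict_mem measurableSet_Ioc).mono
      fun b hb => Real.rpow_nonneg hb.1.le _)]
    refine setLIntegral_congr_fun measurableSet_Ioc fun b hb => ?_
    rw [abs_of_pos hb.1, Real.rpow_neg hb.1.le, ← Real.sqrt_eq_rpow,
      ENNReal.ofReal_inv_of_pos (Real.sqrt_pos.2 hb.1)]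
  have h2 : ∫⁻ b in Ico (-ρ) 0, (ENNReal.ofReal √|b|)⁻¹ = ENNReal.ofReal (2 * √ρ) := by
    rw [← h1, ← lintegral_indicator measurableSet_Ico, ← lintegral_indicator measurableSet_Ioc,
      ← lintegral_neg_eq_self]
    refine lintegral_congr fun b => ?_
    by_cases hb : b ∈ Ioc 0 ρ
    · rw [indicator_of_mem hb, indicator_of_mem (show -b ∈ Ico (-ρ) 0 from
        ⟨by linarith [hb.2], by linarith [hb.1]⟩), abs_neg]
    · rw [indicator_of_notMem hb, indicator_of_notMem fun h : -b ∈ Ico (-ρ) 0 =>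
        hb ⟨by linarith [h.2], by linarith [h.1]⟩]
  rw [← Ico_union_Icc_eq_Icc (by linarith : -ρ ≤ 0) hρ]
  refine (lintegral_union_le _ _ _).trans (le_of_eq ?_)
  rw [h2, ← restrict_Ioc_eq_restrict_Icc, h1, ← ENNReal.ofReal_add (by positivity) (by positivity)]
  congr 1
  ring

lemma geoB_lintegral_gauge {ρ : ℝ} (hρ : 0 ≤ ρ) :
    ∫⁻ X in Metric.closedBall (0:R3) ρ, (1 + (ENNReal.ofReal ‖X‖)⁻¹ ^ 2 +
      (ENNReal.ofReal (Real.sqrt |nc X|))⁻¹) ≤ ENNReal.ofReal (100 * (ρ + ρ ^ 3)) := by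
  have h1 : ∫⁻ _ in Metric.closedBall (0:R3) ρ, (1 : ℝ≥0∞) ≤ ENNReal.ofReal (5 * ρ ^ 3) := by
    rw [setLIntegral_one, EuclideanSpace.volume_closedBall_fin_three, ← ENNReal.ofReal_pow hρ,
      ← ENNReal.ofReal_mul (by positivity)]
    refine ENNReal.ofReal_le_ofReal ?_
    nlinarith [Real.pi_lt_d2, pow_nonneg hρ 3]
  have h2 := lintegral_inv_sq_ball 0 hρ
  simp only [sub_zero] at h2
  have hg : Measurable fun b : ℝ => (ENNReal.ofReal √|b|)⁻¹ := by fun_prop
  have hI : ∫⁻ a, (Icc (-ρ) ρ).indicator (1 : ℝ → ℝ≥0∞) a = ENNReal.ofReal (2 * ρ) := by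
    rw [lintegral_indicator_one measurableSet_Icc, Real.volume_Icc]
    congr 1
    ring
  have h3 : ∫⁻ X in Metric.closedBall (0:R3) ρ, (ENNReal.ofReal (Real.sqrt |nc X|))⁻¹ ≤
      ENNReal.ofReal (2 * ρ * (4 * √ρ) * (2 * ρ)) := by
    rw [← lintegral_indicator measurableSet_closedBall]
    calc _ ≤ ∫⁻ u : R3, (Icc (-ρ) ρ).indicator 1 (inner ℝ (fr 0) u) *
          (Icc (-ρ) ρ).indicator (fun b : ℝ => (ENNReal.ofReal √|b|)⁻¹) (inner ℝ (fr 1) u) *
          (Icc (-ρ) ρ).indicator (1 : ℝ → ℝ≥0∞) (inner ℝ (fr 2) u) := by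
          refine lintegral_mono fun u => indicator_apply_le' (fun hu => ?_) fun _ => zero_le
          have h : ∀ i, inner ℝ (fr i) u ∈ Icc (-ρ) ρ := fun i => by
            refine abs_le.1 ((abs_real_inner_le_norm _ _).trans ?_)
            rw [fr.orthonormal.1 i, one_mul]
            exact mem_closedBall_zero_iff.1 hu
          rw [indicator_of_mem (h 0), indicator_of_mem (h 1), indicator_of_mem (h 2)]
          simp [nc]
      _ ≤ _ := by
          rw [geoB_prod fr (measurable_one.indicator measurableSet_Icc)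
            (hg.indicator measurableSet_Icc) (measurable_one.indicator measurableSet_Icc), hI,
            lintegral_indicator measurableSet_Icc, ENNReal.ofReal_mul (p := 2 * ρ * (4 * √ρ))
            (by positivity), ENNReal.ofReal_mul (p := 2 * ρ) (by positivity)]
          gcongr
          exact geoB_inv_sqrt hρ
  rw [lintegral_add_left (by fun_prop), lintegral_add_left (by fun_prop)]
  refine (add_le_add (add_le_add h1 h2) h3).trans ?_
  rw [← ENNReal.ofReal_add (by positivity) (by positivity),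
    ← ENNReal.ofReal_add (by positivity) (by positivity)]
  refine ENNReal.ofReal_le_ofReal ?_
  have h4 : √ρ ≤ 1 + ρ := Real.sqrt_le_iff.2 ⟨by positivity, by nlinarith⟩
  have h5 : ρ ^ 2 * √ρ ≤ ρ ^ 2 * (1 + ρ) := by gcongr
  nlinarith [mul_nonneg hρ (sq_nonneg (ρ - 1)), pow_nonneg hρ 3]

end Crest.Agent.R068
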