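import Crest.Agent.R068.Obj
import Crest.Agent.R068.Gauss
import Crest.Agent.R068.Per
import Crest.Agent.R068.GeoAuxB

/-! Row 68: elementary geometry of the frame, the velocity fields and the lattice. -/

set_option autoImplicit false
open MeasureTheory Set Filter Topology
open scoped ENNReal
open Crest.AnalysisR.VecCalc3 Crest.AnalysisR.PDE.Boltzmann

namespace Crest.Agent.R068

lemma norm_fr (i : Fin 3) : ‖fr i‖ = 1 := by
  exact fr.orthonormal.1 i
lemma ga_fr_self (i : Fin 3) : inner ℝ (fr i) (fr i) = (1:ℝ) := by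
  rw [real_inner_self_eq_norm_sq, norm_fr]; norm_num
lemma ga_fr_ne {i j : Fin 3} (h : i ≠ j) : inner ℝ (fr i) (fr j) = (0:ℝ) := fr.orthonormal.2 h
lemma ga_inner (x y : R3) : inner ℝ x y = inner ℝ (fr 0) x * inner ℝ (fr 0) y +
    inner ℝ (fr 1) x * inner ℝ (fr 1) y + inner ℝ (fr 2) x * inner ℝ (fr 2) y := by
  rw [← fr.sum_inner_mul_inner x y, Fin.sum_univ_three, real_inner_comm x (fr 0),
    real_inner_comm x (fr 1), real_inner_comm x (fr 2)]
lemma ga_nc_fr0 : nc (fr 0) = 0 := ga_fr_ne (by decide)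
lemma ga_nc_fr1 : nc (fr 1) = 1 := ga_fr_self 1
lemma ga_nc_fr2 : nc (fr 2) = 0 := ga_fr_ne (by decide)
lemma ga_nc_neg (x : R3) : nc (-x) = - nc x := by simp only [nc, inner_neg_right]
lemma nc_add (x y : R3) : nc (x + y) = nc x + nc y := by
  simp only [nc, inner_add_right]
lemma nc_sub (x y : R3) : nc (x - y) = nc x - nc y := by
  simp only [nc, inner_sub_right]
lemma nc_smul (c : ℝ) (x : R3) : nc (c • x) = c * nc x := by
  simp only [nc, real_inner_smul_right]
lemma abs_nc_le (x : R3) : |nc x| ≤ ‖x‖ := by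
  have := abs_real_inner_le_norm (fr 1) x
  rwa [norm_fr, one_mul] at this
lemma continuous_nc : Continuous nc := by
  unfold nc; fun_prop
lemma continuous_pl : Continuous pl := by
  unfold pl
  exact continuous_id.sub (continuous_nc.smul continuous_const)
lemma continuous_Jr : Continuous Jr := by
  unfold Jr; fun_prop
lemma nc_pl (x : R3) : nc (pl x) = 0 := by
  rw [pl, nc_sub, nc_smul, ga_nc_fr1, mul_one, sub_self]
lemma nc_dir (s : Fin 4) : nc (dir s) = 0 := by
  fin_cases s <;> simp [dir, ga_nc_neg, ga_nc_fr0, ga_nc_fr2]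
lemma norm_dir (s : Fin 4) : ‖dir s‖ = 1 := by
  fin_cases s <;> simp [dir]
lemma norm_sq_pl (x : R3) : ‖x‖ ^ 2 = ‖pl x‖ ^ 2 + nc x ^ 2 := by
  have h : x = pl x + nc x • fr 1 := by rw [pl, sub_add_cancel]
  have h0 : inner ℝ (pl x) (nc x • fr 1) = (0:ℝ) := by
    rw [real_inner_smul_right, real_inner_comm]
    have := nc_pl x
    rw [nc] at this
    rw [this, mul_zero]
  conv_lhs => rw [h]
  rw [norm_add_sq_real, h0, norm_smul, norm_fr, mul_one, Real.norm_eq_abs, sq_abs]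
  ring
lemma norm_hat (y : R3) : ‖hat y‖ = 1 := by
  unfold hat
  split_ifs with h
  · exact norm_fr 0
  · rw [norm_smul, norm_inv, norm_norm, inv_mul_cancel₀ (norm_ne_zero_iff.2 h)]
lemma inner_hat_self (y : R3) : inner ℝ (hat y) y = ‖y‖ := by
  unfold hat
  split_ifs with h
  · rw [h, inner_zero_right, norm_zero]
  · rw [real_inner_smul_left, real_inner_self_eq_norm_sq]
    have := norm_ne_zero_iff.2 h
    field_simp
lemma ga_nc_hat {y : R3} (h : nc y = 0) : nc (hat y) = 0 := by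
  unfold hat
  split_ifs
  · exact ga_nc_fr0
  · rw [nc_smul, h, mul_zero]
lemma ga_inner_pl (x : R3) {y : R3} (h : nc y = 0) : inner ℝ (pl x) y = inner ℝ x y := by
  rw [pl, inner_sub_left, real_inner_smul_left]
  rw [nc] at h
  rw [h, mul_zero, sub_zero]
lemma ga_pl_sub_smul (X v : R3) (c : ℝ) : pl (X - c • v) = pl X - c • pl v := by
  simp only [pl, nc_sub, nc_smul, smul_sub, sub_smul, smul_smul]
  abel
lemma nc_yy (s : Fin 4) (t : ℝ) (X : R3) : nc (yy s t X) = 0 := by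
  rw [yy, nc_sub, nc_smul, nc_pl, nc_dir, mul_zero, sub_zero]
lemma nc_uu (s : Fin 4) (t : ℝ) (X : R3) : nc (uu s t X) = 0 := by
  rw [uu, nc_add, nc_smul, nc_dir, ga_nc_hat (nc_yy s t X), mul_zero, add_zero]
lemma norm_uu_sub_dir (s : Fin 4) (t : ℝ) (X : R3) : ‖uu s t X - dir s‖ = 1 / 4 := by
  rw [uu, add_sub_cancel_left, norm_smul, norm_hat]
  norm_num
lemma norm_uu_le (s : Fin 4) (t : ℝ) (X : R3) : ‖uu s t X‖ ≤ 5 / 4 := by
  have h := norm_add_le (uu s t X - dir s) (dir s)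
  rw [sub_add_cancel, norm_uu_sub_dir, norm_dir] at h
  linarith
lemma abs_nc_le_dd (s : Fin 4) (t : ℝ) (X v : R3) : |nc v| ≤ dd s t X v := by
  have h := abs_nc_le (v - uu s t X)
  rwa [nc_sub, nc_uu, sub_zero] at h
lemma norm_le_dd (s : Fin 4) (t : ℝ) (X v : R3) : ‖v‖ ≤ 5 / 4 + dd s t X v := by
  have h := norm_add_le (v - uu s t X) (uu s t X)
  rw [sub_add_cancel] at h
  have h2 := norm_uu_le s t X
  unfold dd
  linarith
lemma ga_hat_mono (y w : R3) {D : ℝ} (hD : 0 < D) :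
    inner ℝ (hat y) w ≤ inner ℝ (hat (y + D • w)) w := by
  have h1 := inner_hat_self (y + D • w)
  have h2 := inner_hat_self y
  have h3 := real_inner_le_norm (hat (y + D • w)) y
  have h4 := real_inner_le_norm (hat y) (y + D • w)
  rw [norm_hat, one_mul] at h3 h4
  rw [inner_add_right, real_inner_smul_right] at h1 h4
  refine le_of_mul_le_mul_left ?_ hD
  linarith
lemma ga_dd_sq (s : Fin 4) (t : ℝ) (X v : R3) : ‖v - uu s t X‖ ^ 2 = ‖v - dir s‖ ^ 2 + 1 / 16 -
    (inner ℝ v (hat (yy s t X)) - inner ℝ (hat (yy s t X)) (dir s)) / 2 := by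
  rw [uu, ← sub_sub, norm_sub_sq_real, norm_smul, norm_hat, real_inner_smul_right, inner_sub_left,
    real_inner_comm (dir s)]
  norm_num
  ring
/-- the distance to the cold velocity does not increase along free flights -/
lemma dd_mono (s : Fin 4) {r t : ℝ} (h : r ≤ t) (X v : R3) :
    dd s t X v ≤ dd s r (X - (t - r) • v) v := by
  rcases h.eq_or_lt with rfl | hlt
  · simp
  have hD : 0 < t - r := sub_pos.2 hlt
  have hy : yy s t X = yy s r (X - (t - r) • v) + (t - r) • (pl v - dir s) := by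
    rw [yy, yy, ga_pl_sub_smul]
    simp only [smul_sub, sub_smul]
    abel
  have h1 := ga_hat_mono (yy s r (X - (t - r) • v)) (pl v - dir s) hD
  rw [← hy, inner_sub_right, inner_sub_right, real_inner_comm (pl v), real_inner_comm (pl v),
    ga_inner_pl v (ga_nc_hat (nc_yy _ _ _)), ga_inner_pl v (ga_nc_hat (nc_yy _ _ _))] at h1
  unfold dd
  refine (abs_le_of_sq_le_sq' ?_ (norm_nonneg _)).2
  rw [ga_dd_sq, ga_dd_sq]
  linarith
lemma ga_measurable_hat : Measurable hat := by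
  unfold hat
  exact Measurable.ite (measurableSet_singleton 0) measurable_const
    (measurable_norm.inv.smul measurable_id)
lemma measurable_uu (s : Fin 4) : Measurable (fun q : ℝ × R3 => uu s q.1 q.2) := by
  have h1 : Measurable (fun q : ℝ × R3 => yy s q.1 q.2) := by
    unfold yy
    exact ((continuous_pl.comp continuous_snd).sub
      (continuous_fst.smul continuous_const)).measurable
  have h2 : Measurable (fun q : ℝ × R3 => hat (yy s q.1 q.2)) := ga_measurable_hat.comp h1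
  have h3 : Continuous (fun z : R3 => dir s + (1 / 4 : ℝ) • z) := by fun_prop
  exact h3.measurable.comp h2
lemma measurable_dd (s : Fin 4) : Measurable (fun q : ℝ × R3 × R3 => dd s q.1 q.2.1 q.2.2) := by
  have h1 : Measurable (fun q : ℝ × R3 × R3 => (q.1, q.2.1)) :=
    measurable_fst.prodMk measurable_snd.fst
  have h2 := (measurable_uu s).comp h1
  have h3 : Measurable (fun q : ℝ × R3 × R3 => q.2.2) := measurable_snd.snd
  have h4 := (h3.sub h2).norm
  unfold dd
  simpa only [Function.comp_def, Pi.sub_apply] using h4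
/-- the frame adapted to a unit vector of the slab plane -/
lemma exists_onb_plane {y : R3} (hy : ‖y‖ = 1) (h0 : nc y = 0) :
    ∃ e : OrthonormalBasis (Fin 3) ℝ R3, e 0 = y ∧ e 1 = fr 1 ∧ e 2 = Jr y := by
  have a0 : inner ℝ (fr 0) (Jr y) = - inner ℝ (fr 2) y := by
    rw [Jr, inner_sub_right, real_inner_smul_right, real_inner_smul_right, ga_fr_self,
      ga_fr_ne (by decide)]
    ring
  have a1 : inner ℝ (fr 1) (Jr y) = (0:ℝ) := by
    rw [Jr, inner_sub_right, real_inner_smul_right, real_inner_smul_right, ga_fr_ne (by decide),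
      ga_fr_ne (by decide)]
    ring
  have a2 : inner ℝ (fr 2) (Jr y) = inner ℝ (fr 0) y := by
    rw [Jr, inner_sub_right, real_inner_smul_right, real_inner_smul_right, ga_fr_self,
      ga_fr_ne (by decide)]
    ring
  rw [nc] at h0
  have hyy : inner ℝ y y = (1:ℝ) := by rw [real_inner_self_eq_norm_sq, hy]; norm_num
  have hJJ : inner ℝ (Jr y) (Jr y) = (1:ℝ) := by
    rw [ga_inner, h0] at hyy
    rw [ga_inner, a0, a1, a2]
    linarith
  have hyJ : inner ℝ y (Jr y) = (0:ℝ) := by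
    rw [ga_inner, a0, a1, a2]
    ring
  have h0' : inner ℝ y (fr 1) = (0:ℝ) := by rw [real_inner_comm, h0]
  have a1' : inner ℝ (Jr y) (fr 1) = (0:ℝ) := by rw [real_inner_comm, a1]
  have hJy : inner ℝ (Jr y) y = (0:ℝ) := by rw [real_inner_comm, hyJ]
  have ho : Orthonormal ℝ (![y, fr 1, Jr y] : Fin 3 → R3) := by
    rw [orthonormal_iff_ite]
    intro i j
    fin_cases i <;> fin_cases j <;>
      simp only [Fin.zero_eta, Fin.mk_one, Fin.reduceFinMk, Matrix.cons_val_zero,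
        Matrix.cons_val_one, Matrix.cons_val, Fin.isValue, Fin.reduceEq, if_true, if_false,
        hyy, hJJ, hyJ, h0, h0', a1, a1', hJy, ga_fr_self]
  have hc : Fintype.card (Fin 3) = Module.finrank ℝ R3 := by simp
  let b := basisOfOrthonormalOfCardEqFinrank ho hc
  have hb : (b : Fin 3 → R3) = ![y, fr 1, Jr y] := coe_basisOfOrthonormalOfCardEqFinrank ho hc
  refine ⟨b.toOrthonormalBasis (by rw [hb]; exact ho), ?_, ?_, ?_⟩ <;>
    rw [Module.Basis.coe_toOrthonormalBasis, hb] <;> rfl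
lemma ga_dir_s1 (v : R3) : dir (s1 v) = if 0 ≤ inner ℝ (fr 0) v then -fr 0 else fr 0 := by
  unfold s1
  split_ifs <;> rfl
lemma ga_dir_s3 (v : R3) : dir (s3 v) = if 0 ≤ inner ℝ (fr 2) v then -fr 2 else fr 2 := by
  unfold s3
  split_ifs <;> rfl
lemma ga_one_le (i : Fin 3) (v : R3) :
    1 ≤ ‖v - (if 0 ≤ inner ℝ (fr i) v then -fr i else fr i)‖ := by
  have h := abs_real_inner_le_norm (fr i) (v - (if 0 ≤ inner ℝ (fr i) v then -fr i else fr i))
  rw [norm_fr, one_mul] at h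
  refine le_trans ?_ h
  split_ifs with h1
  · rw [inner_sub_right, inner_neg_right, ga_fr_self]
    exact le_trans (by linarith) (le_abs_self _)
  · rw [inner_sub_right, ga_fr_self]
    exact le_trans (by linarith) (neg_le_abs _)
lemma one_le_norm_sub_s1 (v : R3) : 1 ≤ ‖v - dir (s1 v)‖ := by
  rw [ga_dir_s1]
  exact ga_one_le 0 v
lemma one_le_norm_sub_s3 (v : R3) : 1 ≤ ‖v - dir (s3 v)‖ := by
  rw [ga_dir_s3]
  exact ga_one_le 2 v
lemma s1_ne_s3 (v : R3) : s1 v ≠ s3 v := by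
  unfold s1 s3
  split_ifs <;> decide
lemma ga_inner13 (v : R3) : inner ℝ (dir (s1 v)) (dir (s3 v)) = (0:ℝ) := by
  rw [ga_dir_s1, ga_dir_s3]
  have : inner ℝ (fr 0) (fr 2) = (0:ℝ) := ga_fr_ne (by decide)
  split_ifs <;> simp only [inner_neg_left, inner_neg_right, this, neg_zero]
lemma ga_dir_self (s : Fin 4) : inner ℝ (dir s) (dir s) = (1:ℝ) := by
  rw [real_inner_self_eq_norm_sq, norm_dir]; norm_num
lemma ga_yy_inner (s : Fin 4) (t : ℝ) (x v : R3) :
    inner ℝ (yy s t x) (dir (s3 v) - dir (s1 v)) = inner ℝ x (dir (s3 v) - dir (s1 v)) -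
      t * inner ℝ (dir s) (dir (s3 v) - dir (s1 v)) := by
  rw [yy, inner_sub_left, real_inner_smul_left,
    ga_inner_pl x (by rw [nc_sub, nc_dir, nc_dir, sub_self])]
lemma ga_key {t : ℝ} (v y : R3)
    (h : t / 2 ≤ |inner ℝ y (dir (s3 v) - dir (s1 v))|) : 7 / 20 * t ≤ ‖y‖ := by
  have h1 := abs_real_inner_le_norm y (dir (s3 v) - dir (s1 v))
  have h2 : ‖dir (s3 v) - dir (s1 v)‖ ^ 2 = 2 := by
    rw [norm_sub_sq_real, real_inner_comm, ga_inner13, norm_dir, norm_dir]
    norm_num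
  have h3 : ‖dir (s3 v) - dir (s1 v)‖ ≤ 10 / 7 := by
    refine (abs_le_of_sq_le_sq' ?_ (by norm_num)).2
    rw [h2]
    norm_num
  have h4 := mul_le_mul_of_nonneg_left h3 (norm_nonneg y)
  linarith
lemma yy_s1_of_ph {t : ℝ} (ht : 0 < t) {x v : R3} (h : ph t x v ≠ 0) : 7 / 20 * t ≤ ‖yy (s1 v) t x‖ := by
  have h1 : 0 < 1 / 2 + inner ℝ x (dir (s3 v) - dir (s1 v)) / t := by
    by_contra hc
    exact h (Real.smoothTransition.zero_of_nonpos (not_lt.1 hc))
  have h2 : -(t / 2) < inner ℝ x (dir (s3 v) - dir (s1 v)) := by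
    have : -(1 / 2) < inner ℝ x (dir (s3 v) - dir (s1 v)) / t := by linarith
    rw [lt_div_iff₀ ht] at this
    linarith
  refine ga_key v _ ?_
  rw [ga_yy_inner, inner_sub_right (dir (s1 v)), ga_inner13, ga_dir_self]
  exact le_trans (by linarith) (le_abs_self _)
lemma yy_s3_of_ph {t : ℝ} (ht : 0 < t) {x v : R3} (h : ph t x v ≠ 1) : 7 / 20 * t ≤ ‖yy (s3 v) t x‖ := by
  have h1 : 1 / 2 + inner ℝ x (dir (s3 v) - dir (s1 v)) / t < 1 := by
    by_contra hc
    exact h (Real.smoothTransition.one_of_one_le (not_lt.1 hc))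
  have h2 : inner ℝ x (dir (s3 v) - dir (s1 v)) < t / 2 := by
    have : inner ℝ x (dir (s3 v) - dir (s1 v)) / t < 1 / 2 := by linarith
    rw [div_lt_iff₀ ht] at this
    linarith
  refine ga_key v _ ?_
  rw [ga_yy_inner, inner_sub_right (dir (s3 v)), real_inner_comm (dir (s1 v)), ga_inner13,
    ga_dir_self]
  exact le_trans (by linarith) (neg_le_abs _)
lemma measurable_ph : Measurable (fun q : ℝ × R3 × R3 => ph q.1 q.2.1 q.2.2) := by
  have m1 : Measurable (fun v : R3 => dir (s1 v)) := by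
    simp only [ga_dir_s1]
    exact Measurable.ite (measurableSet_le measurable_const (by fun_prop)) measurable_const
      measurable_const
  have m3 : Measurable (fun v : R3 => dir (s3 v)) := by
    simp only [ga_dir_s3]
    exact Measurable.ite (measurableSet_le measurable_const (by fun_prop)) measurable_const
      measurable_const
  unfold ph
  refine Real.smoothTransition.continuous.measurable.comp
    (measurable_const.add (Measurable.div ?_ measurable_fst))
  exact measurable_snd.fst.inner ((m3.comp measurable_snd.snd).sub (m1.comp measurable_snd.snd))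

lemma continuous_sn : Continuous sn :=
  geoB_continuous_sn
lemma sn_periodic : IsPeriodic3 sn :=
  geoB_sn_periodic
lemma sn_nonneg (x : R3) : 0 ≤ sn x :=
  geoB_sn_nonneg x
lemma sn_le_three (x : R3) : sn x ≤ 3 :=
  geoB_sn_le_three x
lemma sqrt_sn_le (x : R3) (k : Fin 3 → ℤ) : Real.sqrt (sn x) ≤ Real.pi * ‖x - lat k‖ :=
  geoB_sqrt_sn_le x k
lemma le_sn {x : R3} {k : Fin 3 → ℤ} (h : ‖x - lat k‖ ≤ 1 / 2) : 4 * ‖x - lat k‖ ^ 2 ≤ sn x :=
  geoB_le_sn h
lemma exists_lat_le_sn (x : R3) : ∃ k : Fin 3 → ℤ, 4 * ‖x - lat k‖ ^ 2 ≤ sn x :=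
  geoB_exists_lat_le_sn x
/-- time spent in thin slabs around lattice points -/
lemma thin_crossing {ρ b κ s t : ℝ} (hρ : 0 ≤ ρ) (hb : 0 ≤ b) (hκ : 0 < κ) (hst : s ≤ t) (x : R3) {v : R3}
    (hv : κ ≤ |nc v|) :
    volume {r : ℝ | r ∈ Ioo s t ∧ ∃ k : Fin 3 → ℤ, ‖x - (t - r) • v - lat k‖ ≤ ρ ∧
      |nc (x - (t - r) • v - lat k)| < b} ≤
      ENNReal.ofReal ((2 * (ρ + (t - s) * ‖v‖) + 1) ^ 3 * (2 * b / κ)) :=
  geoB_thin_crossing hρ hb hκ hst x hv
lemma measurableSet_thin (ρ b t : ℝ) (x v : R3) :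
    MeasurableSet {r : ℝ | ∃ k : Fin 3 → ℤ, ‖x - (t - r) • v - lat k‖ ≤ ρ ∧
      |nc (x - (t - r) • v - lat k)| < b} :=
  geoB_measurableSet_thin ρ b t x v
/-- the velocities that come from the hole have small Gaussian mass -/
lemma hole_small {ρ t : ℝ} (hρ : 0 < ρ) (ht : 0 < t) (x : R3) :
    ∫⁻ u, (if sn (x - t • u) < ρ ^ 2 then gs (3 / 8) u else 0) ≤ ENNReal.ofReal (20 * ρ / t + 30 * ρ) :=
  geoB_hole_small hρ ht x
lemma volume_hole {ρ : ℝ} (hρ : 0 < ρ) : volume {x : R3 | x ∈ cell ∧ sn x < ρ ^ 2} ≤ ENNReal.ofReal ρ :=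
  geoB_volume_hole hρ
/-- the gauge `1 + |X|⁻² + |X₂|^{-1/2}` is integrable on balls, with small integral on small balls -/
lemma lintegral_gauge {ρ : ℝ} (hρ : 0 ≤ ρ) :
    ∫⁻ X in Metric.closedBall (0:R3) ρ, (1 + (ENNReal.ofReal ‖X‖)⁻¹ ^ 2 +
      (ENNReal.ofReal (Real.sqrt |nc X|))⁻¹) ≤ ENNReal.ofReal (100 * (ρ + ρ ^ 3)) :=
  geoB_lintegral_gauge hρ

end Crest.Agent.R068
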