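import Crest.Agent.R068.OmS

/-! Row 68: auxiliary estimates for the dominating function (moments, supremum, integration). -/

set_option autoImplicit false
open MeasureTheory Set Filter Topology
open scoped ENNReal
open Crest.AnalysisR.VecCalc3 Crest.AnalysisR.PDE.Boltzmann

namespace Crest.Agent.R068

/-- the local gauge -/
noncomputable def gu1_g (X : R3) : ℝ≥0∞ :=
  1 + (ENNReal.ofReal ‖X‖)⁻¹ ^ 2 + (ENNReal.ofReal (Real.sqrt |nc X|))⁻¹

lemma gu1_meas_1d (ρ : ℝ) :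
    Measurable fun a : ℝ => if |a| ≤ ρ then (ENNReal.ofReal (Real.sqrt |a|))⁻¹ else 0 :=
  Measurable.ite (measurableSet_le (by fun_prop) measurable_const) (by fun_prop) measurable_const

lemma gu1_1d (ρ : ℝ) :
    (∫⁻ a : ℝ, if |a| ≤ ρ then (ENNReal.ofReal (Real.sqrt |a|))⁻¹ else 0) < ⊤ := by
  have h : IntegrableOn (fun a : ℝ => (Real.sqrt |a|)⁻¹) (Metric.ball 0 (ρ + 1)) volume := by
    refine integrableOn_ball_of_norm_le_rpow (C := 1) (α := 1 / 2) (by simp) (by norm_num)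
      (Eventually.of_forall fun a => ?_) (by fun_prop)
    rw [one_mul, Real.norm_eq_abs, Real.norm_eq_abs, abs_inv, abs_of_nonneg (Real.sqrt_nonneg _),
      Real.rpow_neg (abs_nonneg _), Real.sqrt_eq_rpow]
  have h2 := h.2
  rw [HasFiniteIntegral, ← lintegral_indicator measurableSet_ball] at h2
  refine lt_of_le_of_lt (lintegral_mono_ae ?_) h2
  have h0 : ∀ᵐ a : ℝ, a ≠ 0 := by simp [ae_iff]
  filter_upwards [h0] with a ha
  split_ifs with hρ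
  · rw [indicator_of_mem (by rw [mem_ball_zero_iff, Real.norm_eq_abs]; linarith),
      Real.enorm_eq_ofReal (by positivity),
      ENNReal.ofReal_inv_of_pos (Real.sqrt_pos.2 (abs_pos.2 ha))]
  · exact zero_le

lemma gu1_meas_nc (ρ : ℝ) :
    Measurable fun X : R3 => if ‖X‖ ≤ ρ then (ENNReal.ofReal (Real.sqrt |nc X|))⁻¹ else 0 := by
  have := continuous_nc.measurable
  exact Measurable.ite (measurableSet_le (by fun_prop) measurable_const) (by fun_prop)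
    measurable_const

lemma gu1_nc (ρ : ℝ) :
    (∫⁻ X : R3, if ‖X‖ ≤ ρ then (ENNReal.ofReal (Real.sqrt |nc X|))⁻¹ else 0) < ⊤ := by
  obtain ⟨e, he⟩ := exists_onb (norm_fr 1)
  rw [lintegral_onb e (gu1_meas_nc ρ)]
  have hi := pb_meas_ind 0 ρ
  have hI := pb_int_ind 0 ρ
  calc _ ≤ ∫⁻ a : ℝ, ∫⁻ b : ℝ, ∫⁻ c : ℝ,
        ((if |a| ≤ ρ then (ENNReal.ofReal (Real.sqrt |a|))⁻¹ else 0) *
          (if |b - 0| ≤ ρ then (1:ℝ≥0∞) else 0)) * (if |c - 0| ≤ ρ then (1:ℝ≥0∞) else 0) := by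
        refine lintegral_mono fun a => lintegral_mono fun b => lintegral_mono fun c => ?_
        by_cases h : ‖a • e 0 + b • e 1 + c • e 2‖ ≤ ρ
        · have h0 := abs_real_inner_le_norm (e 0) (a • e 0 + b • e 1 + c • e 2)
          have h1 := abs_real_inner_le_norm (e 1) (a • e 0 + b • e 1 + c • e 2)
          have h2 := abs_real_inner_le_norm (e 2) (a • e 0 + b • e 1 + c • e 2)
          rw [pb_inner0, e.orthonormal.1, one_mul] at h0
          rw [pb_inner1, e.orthonormal.1, one_mul] at h1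
          rw [pb_inner2, e.orthonormal.1, one_mul] at h2
          have hn : nc (a • e 0 + b • e 1 + c • e 2) = a := by rw [nc, ← he, pb_inner0]
          rw [if_pos h, hn, sub_zero, sub_zero, if_pos (h0.trans h), if_pos (h1.trans h),
            if_pos (h2.trans h), mul_one, mul_one]
        · rw [if_neg h]; exact zero_le
    _ = (∫⁻ a : ℝ, if |a| ≤ ρ then (ENNReal.ofReal (Real.sqrt |a|))⁻¹ else 0) *
          ENNReal.ofReal (2 * ρ) * ENNReal.ofReal (2 * ρ) := by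
        simp only [lintegral_const_mul _ hi, hI]
        rw [← lintegral_mul_const _ (gu1_meas_1d ρ), ← lintegral_mul_const _
          ((gu1_meas_1d ρ).mul_const _)]
        refine lintegral_congr fun a => ?_
        rw [lintegral_mul_const _ (hi.const_mul _), lintegral_const_mul _ hi, hI]
    _ < ⊤ := ENNReal.mul_lt_top (ENNReal.mul_lt_top (gu1_1d ρ) ENNReal.ofReal_lt_top)
        ENNReal.ofReal_lt_top

lemma gu1_meas_g (ρ : ℝ) : Measurable fun X : R3 => if ‖X‖ ≤ ρ then gu1_g X else 0 := by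
  have := continuous_nc.measurable
  unfold gu1_g
  exact Measurable.ite (measurableSet_le (by fun_prop) measurable_const) (by fun_prop)
    measurable_const

lemma gu1_int {ρ : ℝ} (hρ : 0 ≤ ρ) : (∫⁻ X : R3, if ‖X‖ ≤ ρ then gu1_g X else 0) < ⊤ := by
  have e : ∀ X : R3, (if ‖X‖ ≤ ρ then gu1_g X else 0) =
      (Metric.closedBall (0 : R3) ρ).indicator (fun X => 1 + (ENNReal.ofReal ‖X - 0‖)⁻¹ ^ 2) X +
        if ‖X‖ ≤ ρ then (ENNReal.ofReal (Real.sqrt |nc X|))⁻¹ else 0 := by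
    intro X
    by_cases h : ‖X‖ ≤ ρ
    · rw [if_pos h, if_pos h, indicator_of_mem (mem_closedBall_zero_iff.2 h), sub_zero, gu1_g]
    · rw [if_neg h, if_neg h, indicator_of_notMem (fun h' => h (mem_closedBall_zero_iff.1 h')),
        add_zero]
  simp only [e]
  rw [lintegral_add_right _ (gu1_meas_nc ρ), lintegral_indicator measurableSet_closedBall,
    lintegral_add_left measurable_const, setLIntegral_const, one_mul]
  exact ENNReal.add_lt_top.2 ⟨ENNReal.add_lt_top.2 ⟨measure_closedBall_lt_top,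
    (lintegral_inv_sq_ball 0 hρ).trans_lt ENNReal.ofReal_lt_top⟩, gu1_nc ρ⟩

lemma gu1_cell {ρ : ℝ} (hρ : 0 ≤ ρ) :
    (∫⁻ x in cell, (1 + ∑' k : Fin 3 → ℤ, if ‖x - lat k‖ ≤ ρ then gu1_g (x - lat k) else 0)) < ⊤ := by
  rw [lintegral_add_left measurable_const, setLIntegral_const, one_mul,
    lintegral_cell_tsum (gu1_meas_g ρ)]
  exact ENNReal.add_lt_top.2 ⟨gb_cell_lt_top, gu1_int hρ⟩

lemma gu1_meas_w (k : ℕ) : Measurable fun v : R3 => ENNReal.ofReal ((1 + ‖v‖) ^ k) := by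
  fun_prop

/-- moments of `W` and `W²` -/
lemma gu1_W (η T : ℝ) (k : ℕ) : ∃ C : ℝ≥0∞, C < ⊤ ∧ ∀ t ∈ Icc 0 T, ∀ x : R3,
    (∫⁻ v, ENNReal.ofReal ((1 + ‖v‖) ^ k) * (Wf η (1 / 8) t x v + Wf η (1 / 8) t x v ^ 2)) ≤ C := by
  refine ⟨2 * (∫⁻ v : R3, ENNReal.ofReal ((1 + ‖v‖) ^ k) * gs (1 / 8) v) +
    ENNReal.ofReal (4 ^ k) * (3 * ENNReal.ofReal (20 * CW T) + ENNReal.ofReal (20 * CW T ^ 3)),
    ENNReal.add_lt_top.2 ⟨ENNReal.mul_lt_top (by simp) (lintegral_moment_gs (by norm_num) k),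
      ENNReal.mul_lt_top ENNReal.ofReal_lt_top (ENNReal.add_lt_top.2
        ⟨ENNReal.mul_lt_top (by simp) ENNReal.ofReal_lt_top, ENNReal.ofReal_lt_top⟩)⟩,
    fun t ht x => ?_⟩
  have hY : Measurable (Yf η t x) := (measurable_Yf η).slice t x
  have hg := measurable_gs (1 / 8)
  have hpt : ∀ v : R3, ENNReal.ofReal ((1 + ‖v‖) ^ k) *
      (Wf η (1 / 8) t x v + Wf η (1 / 8) t x v ^ 2) ≤
      2 * (ENNReal.ofReal ((1 + ‖v‖) ^ k) * gs (1 / 8) v) +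
        ENNReal.ofReal (4 ^ k) * (3 * Yf η t x v + Yf η t x v ^ 2) := by
    intro v
    have h1 : gs (1 / 8) v ≤ 1 := gs_le_one (by norm_num) v
    have h2 : gs (1 / 8) v ^ 2 ≤ gs (1 / 8) v := by
      rw [sq]; exact mul_le_of_le_one_right' h1
    have h3 : ENNReal.ofReal ((1 + ‖v‖) ^ k) * (gs (1 / 8) v * (3 * Yf η t x v + Yf η t x v ^ 2)) ≤
        ENNReal.ofReal (4 ^ k) * (3 * Yf η t x v + Yf η t x v ^ 2) := by
      by_cases hv : 3 ≤ ‖v‖
      · rw [Yf_eq_zero η t x hv]; simp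
      · refine mul_le_mul' (ENNReal.ofReal_le_ofReal ?_) (mul_le_of_le_one_left' h1)
        exact pow_le_pow_left₀ (by positivity) (by linarith) k
    calc _ = ENNReal.ofReal ((1 + ‖v‖) ^ k) * (gs (1 / 8) v * (1 + Yf η t x v) +
          gs (1 / 8) v ^ 2 * (1 + Yf η t x v) ^ 2) := by rw [Wf, mul_pow]
      _ ≤ ENNReal.ofReal ((1 + ‖v‖) ^ k) * (gs (1 / 8) v * (1 + Yf η t x v) +
          gs (1 / 8) v * (1 + Yf η t x v) ^ 2) := by gcongr
      _ = 2 * (ENNReal.ofReal ((1 + ‖v‖) ^ k) * gs (1 / 8) v) +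
          ENNReal.ofReal ((1 + ‖v‖) ^ k) * (gs (1 / 8) v * (3 * Yf η t x v + Yf η t x v ^ 2)) := by
          ring
      _ ≤ _ := by gcongr
  refine (lintegral_mono hpt).trans ?_
  have hc := CW_mono ht.1 ht.2
  have hc1 := one_le_CW ht.1
  rw [lintegral_add_left (((gu1_meas_w k).fun_mul hg).const_mul _),
    lintegral_const_mul _ ((gu1_meas_w k).fun_mul hg),
    lintegral_const_mul _ ((hY.const_mul _).fun_add (hY.pow_const _)),
    lintegral_add_left (hY.const_mul _), lintegral_const_mul _ hY]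
  gcongr
  · exact (lintegral_Yf η ht.1 x).trans (ENNReal.ofReal_le_ofReal (by gcongr))
  · exact (lintegral_Yf_sq η ht.1 x).trans (ENNReal.ofReal_le_ofReal (by gcongr))

lemma gu1_rpow_le (a : ℝ≥0∞) : a ^ (65 / 64 : ℝ) ≤ a + a ^ 2 := by
  rcases le_total a 1 with h | h
  · exact (ENNReal.rpow_le_self_of_le_one h (by norm_num)).trans le_self_add
  · refine le_trans ?_ le_add_self
    rw [← ENNReal.rpow_natCast]
    exact ENNReal.rpow_le_rpow_of_exponent_le h (by norm_num)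

lemma gu1_add_sq (a b : ℝ≥0∞) : (a + b) ^ 2 ≤ 4 * (a ^ 2 + b ^ 2) := by
  rcases le_total a b with h | h
  · calc (a + b) ^ 2 ≤ (b + b) ^ 2 := by gcongr
      _ = 4 * b ^ 2 := by ring
      _ ≤ _ := by gcongr; exact le_add_self
  · calc (a + b) ^ 2 ≤ (a + a) ^ 2 := by gcongr
      _ = 4 * a ^ 2 := by ring
      _ ≤ _ := by gcongr; exact le_self_add

/-- moments of the cold barrier inside a cell -/
lemma gu1_B {p : Par} (hs : p.Std) {n : ℕ∞} {t : ℝ} {x : R3} {k : Fin 3 → ℤ} {j : ℕ} (ht : 0 ≤ t)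
    (hw : p.Wit n t x k j) (m : ℕ) :
    (∫⁻ v, ENNReal.ofReal ((1 + ‖v‖) ^ m) * p.B n t x v) ^ 2 ≤
        ENNReal.ofReal (2 * (3 ^ m * p.V ^ 5) ^ 2) * gu1_g (x - lat k) ∧
      (∫⁻ v, ENNReal.ofReal ((1 + ‖v‖) ^ m) * (p.B n t x v + p.B n t x v ^ (65 / 64 : ℝ))) ≤
        ENNReal.ofReal (3 * (3 ^ m * p.V ^ 5)) * gu1_g (x - lat k) := by
  set X := x - lat k with hX
  have hr := Par.r_pos hs j
  have hr1 : p.r j ≤ 1 := by
    have h1 := Par.r_le hs j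
    have h2 := hs.r0_κ
    have h3 := hs.κ_le
    have h4 := hs.t2_le
    linarith
  have hV : 0 < p.V := by have := hs.R_ge; have := hs.V_ge; linarith
  have hn0 : 0 < |nc X| := lt_trans (by linarith) hw.lo
  have hX0 : 0 < ‖X‖ := hn0.trans_le (abs_nc_le X)
  have hsq : 0 < Real.sqrt |nc X| := Real.sqrt_pos.2 hn0
  set α : ℝ := ‖X‖⁻¹ with hα
  set β : ℝ := (Real.sqrt |nc X|)⁻¹ with hβ
  set γ : ℝ := ((p.r j ^ 14)⁻¹) ^ (1 / 64 : ℝ) with hγ
  have hα0 : 0 < α := inv_pos.2 hX0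
  have hβ0 : 0 < β := inv_pos.2 hsq
  have hγ0 : 0 ≤ γ := by positivity
  have hg : gu1_g X = ENNReal.ofReal (1 + α ^ 2 + β) := by
    rw [gu1_g, ← ENNReal.ofReal_inv_of_pos hX0, ← ENNReal.ofReal_inv_of_pos hsq,
      ENNReal.ofReal_add (by positivity) hβ0.le, ENNReal.ofReal_add (by positivity) (by positivity),
      ENNReal.ofReal_one, ENNReal.ofReal_pow hα0.le]
  have hγβ : γ ^ 2 ≤ β := by
    have h1 : (γ ^ 2) ^ 32 = (p.r j ^ 14)⁻¹ := by
      rw [← pow_mul, hγ, ← Real.rpow_natCast, ← Real.rpow_mul (by positivity)]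
      norm_num
    have h2 : β ^ 32 = (|nc X| ^ 16)⁻¹ := by
      rw [hβ, inv_pow, show (32 : ℕ) = 2 * 16 from rfl, pow_mul, Real.sq_sqrt hn0.le]
    refine le_of_pow_le_pow_left₀ (n := 32) (by norm_num) hβ0.le ?_
    rw [h1, h2]
    refine inv_anti₀ (by positivity) ?_
    calc |nc X| ^ 16 ≤ p.r j ^ 16 := pow_le_pow_left₀ hn0.le hw.hi.le 16
      _ ≤ p.r j ^ 14 := pow_le_pow_of_le_one hr.le hr1 (by norm_num)
  have hρ : p.rho t X ≤ p.V ^ 5 * (1 + α) := by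
    rw [Par.rho]
    gcongr
    exact inv_anti₀ hX0 (by linarith)
  have hB : Measurable (p.B n t x) := (p.meas_B n).slice t x
  have hmass : (∫⁻ v, ENNReal.ofReal ((1 + ‖v‖) ^ m) * p.B n t x v) ≤
      ENNReal.ofReal (3 ^ m * p.V ^ 5 * (1 + α)) := by
    calc _ ≤ ∫⁻ v, ENNReal.ofReal (3 ^ m) * p.B n t x v := by
          refine lintegral_mono fun v => ?_
          by_cases h0 : p.B n t x v = 0
          · simp [h0]
          · refine mul_le_mul' (ENNReal.ofReal_le_ofReal ?_) le_rfl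
            exact pow_le_pow_left₀ (by positivity) (by linarith [(hw.supp v h0).2]) m
      _ = ENNReal.ofReal (3 ^ m) * ∫⁻ v, p.B n t x v := lintegral_const_mul _ hB
      _ ≤ ENNReal.ofReal (3 ^ m) * ENNReal.ofReal (p.V ^ 5 * (1 + α)) :=
          mul_le_mul' le_rfl (hw.mass.trans (ENNReal.ofReal_le_ofReal hρ))
      _ = _ := by rw [← ENNReal.ofReal_mul (by positivity), mul_assoc]
  have hA : 0 ≤ 3 ^ m * p.V ^ 5 := by positivity
  constructor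
  · refine (pow_le_pow_left' hmass 2).trans ?_
    rw [hg, ← ENNReal.ofReal_pow (by positivity), ← ENNReal.ofReal_mul (by positivity)]
    refine ENNReal.ofReal_le_ofReal ?_
    have : (1 + α) ^ 2 ≤ 2 * (1 + α ^ 2 + β) := by nlinarith [sq_nonneg (1 - α)]
    calc _ = (3 ^ m * p.V ^ 5) ^ 2 * (1 + α) ^ 2 := by ring
      _ ≤ (3 ^ m * p.V ^ 5) ^ 2 * (2 * (1 + α ^ 2 + β)) := by gcongr
      _ = _ := by ring
  · have hpt : ∀ v, p.B n t x v + p.B n t x v ^ (65 / 64 : ℝ) ≤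
        ENNReal.ofReal (1 + γ) * p.B n t x v := by
      intro v
      have h1 : p.B n t x v ^ (65 / 64 : ℝ) = p.B n t x v ^ (1 / 64 : ℝ) * p.B n t x v := by
        rw [show (65 / 64 : ℝ) = 1 / 64 + 1 by norm_num,
          ENNReal.rpow_add_of_nonneg _ _ (by norm_num) (by norm_num), ENNReal.rpow_one]
      have h2 : p.B n t x v ^ (1 / 64 : ℝ) ≤ ENNReal.ofReal γ := by
        rw [hγ, ← ENNReal.ofReal_rpow_of_nonneg (by positivity) (by norm_num)]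
        exact ENNReal.rpow_le_rpow (hw.sup v) (by norm_num)
      rw [h1, ENNReal.ofReal_add zero_le_one hγ0, ENNReal.ofReal_one, add_mul, one_mul]
      gcongr
    calc _ ≤ ∫⁻ v, ENNReal.ofReal (1 + γ) * (ENNReal.ofReal ((1 + ‖v‖) ^ m) * p.B n t x v) := by
          refine lintegral_mono fun v => ?_
          rw [mul_left_comm]
          exact mul_le_mul' le_rfl (hpt v)
      _ = ENNReal.ofReal (1 + γ) * ∫⁻ v, ENNReal.ofReal ((1 + ‖v‖) ^ m) * p.B n t x v :=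
          lintegral_const_mul _ ((gu1_meas_w m).fun_mul hB)
      _ ≤ ENNReal.ofReal (1 + γ) * ENNReal.ofReal (3 ^ m * p.V ^ 5 * (1 + α)) :=
          mul_le_mul' le_rfl hmass
      _ ≤ _ := by
          rw [hg, ← ENNReal.ofReal_mul (by positivity), ← ENNReal.ofReal_mul (by positivity)]
          refine ENNReal.ofReal_le_ofReal ?_
          have : (1 + γ) * (1 + α) ≤ 3 * (1 + α ^ 2 + β) := by
            nlinarith [sq_nonneg (1 - α), sq_nonneg (1 - γ), sq_nonneg (α - γ)]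
          calc _ = (3 ^ m * p.V ^ 5) * ((1 + γ) * (1 + α)) := by ring
            _ ≤ (3 ^ m * p.V ^ 5) * (3 * (1 + α ^ 2 + β)) := by gcongr
            _ = _ := by ring

/-- moments of the cold barrier against any upper bound `G` of the local gauges -/
lemma gu1_B' {p : Par} (hs : p.Std) {n : ℕ∞} {T t : ℝ} {x : R3} (ht : t ∈ Icc 0 T)
    (hw : ((∀ v, p.B n t x v = 0) ∧ ∀ v, p.Gr n t x v = 0) ∨ ∃ k j, p.Wit n t x k j) (m : ℕ)
    {G : ℝ≥0∞} (hG : ∀ l, ‖x - lat l‖ ≤ 1 + 2 * T → gu1_g (x - lat l) ≤ G) :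
    (∫⁻ v, ENNReal.ofReal ((1 + ‖v‖) ^ m) * p.B n t x v) ^ 2 ≤
        ENNReal.ofReal (2 * (3 ^ m * p.V ^ 5) ^ 2) * G ∧
      (∫⁻ v, ENNReal.ofReal ((1 + ‖v‖) ^ m) * (p.B n t x v + p.B n t x v ^ (65 / 64 : ℝ))) ≤
        ENNReal.ofReal (3 * (3 ^ m * p.V ^ 5)) * G := by
  rcases hw with ⟨h0, -⟩ | ⟨k, j, hw⟩
  · simp [h0]
  · have hk : ‖x - lat k‖ ≤ 1 + 2 * T := by
      have h1 := hw.near
      have h2 := hs.r0_κ
      have h3 := hs.κ_le
      have h4 := hs.t2_le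
      linarith [ht.2]
    obtain ⟨h1, h2⟩ := gu1_B hs ht.1 hw m
    exact ⟨h1.trans (mul_le_mul' le_rfl (hG k hk)), h2.trans (mul_le_mul' le_rfl (hG k hk))⟩

theorem gu1_mom : ∀ᶠ p in PF, ∀ (T : ℝ) (k : ℕ), ∃ C : ℝ≥0∞, C < ⊤ ∧ ∀ t ∈ Icc 0 T, ∀ x,
    ∀ G : ℝ≥0∞, 1 ≤ G → (∀ l, ‖x - lat l‖ ≤ 1 + 2 * T → gu1_g (x - lat l) ≤ G) →
    (∫⁻ v, ENNReal.ofReal ((1 + ‖v‖) ^ k) * p.Ust t x v) ^ 2 ≤ C * G := by
  filter_upwards [ev_std, ev_wit] with p hs hw T k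
  obtain ⟨C, hC, hCW⟩ := gu1_W (p.etaS ⊤) T k
  set c := ENNReal.ofReal (p.Cmax + p.C0 + 3) with hc
  refine ⟨4 * (ENNReal.ofReal (2 * (3 ^ k * p.V ^ 5) ^ 2) + (c * C) ^ 2),
    ENNReal.mul_lt_top (by simp) (ENNReal.add_lt_top.2 ⟨ENNReal.ofReal_lt_top,
      ENNReal.pow_lt_top (ENNReal.mul_lt_top ENNReal.ofReal_lt_top hC)⟩),
    fun t ht x G hG1 hG => ?_⟩
  have hB : Measurable (p.B ⊤ t x) := (p.meas_B ⊤).slice t x
  have hW : Measurable (Wf (p.etaS ⊤) (1 / 8) t x) := measurable_Wf_v _ _ _ _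
  have e : (∫⁻ v, ENNReal.ofReal ((1 + ‖v‖) ^ k) * p.Ust t x v) =
      (∫⁻ v, ENNReal.ofReal ((1 + ‖v‖) ^ k) * p.B ⊤ t x v) +
        c * ∫⁻ v, ENNReal.ofReal ((1 + ‖v‖) ^ k) * Wf (p.etaS ⊤) (1 / 8) t x v := by
    rw [← lintegral_const_mul _ ((gu1_meas_w k).fun_mul hW),
      ← lintegral_add_left ((gu1_meas_w k).fun_mul hB)]
    refine lintegral_congr fun v => ?_
    simp only [Par.Ust, Par.W, ← hc]
    ring
  have h2 : (∫⁻ v, ENNReal.ofReal ((1 + ‖v‖) ^ k) * Wf (p.etaS ⊤) (1 / 8) t x v) ≤ C :=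
    le_trans (lintegral_mono fun v => mul_le_mul' le_rfl le_self_add) (hCW t ht x)
  have h1 := (gu1_B' hs ht (hw ⊤ t x ht.1) k hG).1
  rw [e]
  refine (gu1_add_sq _ _).trans ?_
  rw [mul_assoc, add_mul]
  gcongr
  exact le_trans (by gcongr) (le_mul_of_one_le_right' hG1)

theorem gu1_sup : ∀ᶠ p in PF, ∀ T : ℝ, ∃ C : ℝ≥0∞, C < ⊤ ∧ ∀ t ∈ Icc 0 T, ∀ x,
    ∀ G : ℝ≥0∞, 1 ≤ G → (∀ l, ‖x - lat l‖ ≤ 1 + 2 * T → gu1_g (x - lat l) ≤ G) →
    (∫⁻ v, ENNReal.ofReal ((1 + ‖v‖) ^ 3) * (p.Ust t x v + p.Ust t x v ^ (65 / 64 : ℝ))) ≤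
      C * G := by
  filter_upwards [ev_std, ev_wit] with p hs hw T
  obtain ⟨C, hC, hCW⟩ := gu1_W (p.etaS ⊤) T 3
  set c := ENNReal.ofReal (p.Cmax + p.C0 + 3) with hc
  have hc' : c < ⊤ := ENNReal.ofReal_lt_top
  set d : ℝ≥0∞ := 2 ^ (65 / 64 : ℝ) with hd
  have hd' : d < ⊤ := ENNReal.rpow_lt_top_of_nonneg (by norm_num) (by simp)
  have hd1 : 1 ≤ d := ENNReal.one_le_rpow (by norm_num) (by norm_num)
  set c' := c + c ^ (65 / 64 : ℝ) with hc2
  have hc3 : c' < ⊤ := ENNReal.add_lt_top.2 ⟨hc', ENNReal.rpow_lt_top_of_nonneg (by norm_num) hc'.ne⟩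
  refine ⟨d * (ENNReal.ofReal (3 * (3 ^ 3 * p.V ^ 5)) + c' * C),
    ENNReal.mul_lt_top hd' (ENNReal.add_lt_top.2 ⟨ENNReal.ofReal_lt_top,
      ENNReal.mul_lt_top hc3 hC⟩), fun t ht x G hG1 hG => ?_⟩
  have hB : Measurable (p.B ⊤ t x) := (p.meas_B ⊤).slice t x
  have hW : Measurable (Wf (p.etaS ⊤) (1 / 8) t x) := measurable_Wf_v _ _ _ _
  have hm1 : Measurable fun v => ENNReal.ofReal ((1 + ‖v‖) ^ 3) *
      (p.B ⊤ t x v + p.B ⊤ t x v ^ (65 / 64 : ℝ)) :=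
    (gu1_meas_w 3).fun_mul (hB.fun_add (hB.pow_const _))
  have hm2 : Measurable fun v => ENNReal.ofReal ((1 + ‖v‖) ^ 3) *
      (Wf (p.etaS ⊤) (1 / 8) t x v + Wf (p.etaS ⊤) (1 / 8) t x v ^ 2) :=
    (gu1_meas_w 3).fun_mul (hW.fun_add (hW.pow_const _))
  have hpt : ∀ v, p.Ust t x v + p.Ust t x v ^ (65 / 64 : ℝ) ≤
      d * ((p.B ⊤ t x v + p.B ⊤ t x v ^ (65 / 64 : ℝ)) +
        c' * (Wf (p.etaS ⊤) (1 / 8) t x v + Wf (p.etaS ⊤) (1 / 8) t x v ^ 2)) := by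
    intro v
    simp only [Par.Ust, Par.W, ← hc]
    set b := p.B ⊤ t x v
    set w := Wf (p.etaS ⊤) (1 / 8) t x v
    have h1 := ENNReal.add_rpow_le_two_rpow_mul_rpow_add_rpow b (c * w) (p := 65 / 64) (by norm_num)
    rw [← hd, ENNReal.mul_rpow_of_nonneg _ _ (by norm_num)] at h1
    have h2 := gu1_rpow_le w
    calc b + c * w + (b + c * w) ^ (65 / 64 : ℝ)
        ≤ d * (b + c * (w + w ^ 2)) +
          d * (b ^ (65 / 64 : ℝ) + c ^ (65 / 64 : ℝ) * (w + w ^ 2)) := by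
          refine add_le_add (le_trans ?_ (le_mul_of_one_le_left' hd1)) (h1.trans (by gcongr))
          gcongr
          exact le_self_add
      _ = _ := by rw [hc2]; ring
  have h1 := (gu1_B' hs ht (hw ⊤ t x ht.1) 3 hG).2
  calc _ ≤ ∫⁻ v, d * (ENNReal.ofReal ((1 + ‖v‖) ^ 3) * (p.B ⊤ t x v + p.B ⊤ t x v ^ (65 / 64 : ℝ)) +
        c' * (ENNReal.ofReal ((1 + ‖v‖) ^ 3) *
          (Wf (p.etaS ⊤) (1 / 8) t x v + Wf (p.etaS ⊤) (1 / 8) t x v ^ 2))) := by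
        refine lintegral_mono fun v => (mul_le_mul' le_rfl (hpt v)).trans (le_of_eq ?_)
        ring
    _ = d * ((∫⁻ v, ENNReal.ofReal ((1 + ‖v‖) ^ 3) * (p.B ⊤ t x v + p.B ⊤ t x v ^ (65 / 64 : ℝ))) +
        c' * ∫⁻ v, ENNReal.ofReal ((1 + ‖v‖) ^ 3) *
          (Wf (p.etaS ⊤) (1 / 8) t x v + Wf (p.etaS ⊤) (1 / 8) t x v ^ 2)) := by
        rw [lintegral_const_mul _ (hm1.fun_add (hm2.const_mul _)), lintegral_add_left hm1,
          lintegral_const_mul _ hm2]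
    _ ≤ _ := by
        rw [mul_assoc d]
        refine mul_le_mul' le_rfl ?_
        refine le_trans (add_le_add h1 ?_) (add_mul _ (c' * C) G).ge
        exact le_trans (mul_le_mul' le_rfl (hCW t ht x)) (le_mul_of_one_le_right' hG1)

/-- admissibility from pointwise bounds by an integrable gauge -/
lemma gu1_good {U : TF} (hm : MeasT U) (hp : PerT U) {g : ℝ → R3 → ℝ≥0∞}
    (hg : ∀ T : ℝ, 0 ≤ T → (∫⁻ x in cell, g T x) < ⊤)
    (hmom : ∀ (T : ℝ) (k : ℕ), ∃ C : ℝ≥0∞, C < ⊤ ∧ ∀ t ∈ Icc 0 T, ∀ x,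
      (∫⁻ v, ENNReal.ofReal ((1 + ‖v‖) ^ k) * U t x v) ^ 2 ≤ C * g T x)
    (hsup : ∀ T : ℝ, ∃ C : ℝ≥0∞, C < ⊤ ∧ ∀ t ∈ Icc 0 T, ∀ x,
      (∫⁻ v, ENNReal.ofReal ((1 + ‖v‖) ^ 3) * (U t x v + U t x v ^ (65 / 64 : ℝ))) ≤ C * g T x)
    (hent : ∀ T : ℝ, ∃ C : ℝ≥0∞, C < ⊤ ∧ ∀ t ∈ Icc 0 T, ∀ x,
      (∫⁻ v, (gain (U t x) (U t x) v + U t x v * freq (U t x) v) * U t x v ^ (1 / 64 : ℝ)) ≤
        C * g T x) : Good U := by
  have key : ∀ (T : ℝ) (C : ℝ≥0∞) (f : ℝ → ℝ≥0∞), C < ⊤ →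
      (∀ t ∈ Icc 0 T, f t ≤ C * ∫⁻ x in cell, g T x) → (∫⁻ t in Ioo 0 T, f t) < ⊤ := by
    intro T C f hC h
    rcases le_or_gt 0 T with hT | hT
    · refine lt_of_le_of_lt (setLIntegral_mono' measurableSet_Ioo fun t ht =>
        h t (Ioo_subset_Icc_self ht)) ?_
      rw [setLIntegral_const]
      exact ENNReal.mul_lt_top (ENNReal.mul_lt_top hC (hg T hT)) (by simp)
    · rw [Ioo_eq_empty (by linarith)]; simp
  refine ⟨hm, hp, fun T k => ?_, fun T => ?_, fun T => ?_⟩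
  · obtain ⟨C, hC, h⟩ := hmom T k
    rw [Measure.volume_eq_prod, ← Measure.prod_restrict]
    refine lt_of_le_of_lt (lintegral_prod_le _) (key T C _ hC fun t ht => ?_)
    rw [← lintegral_const_mul' _ _ hC.ne]
    exact lintegral_mono fun x => h t ht x
  · obtain ⟨C, hC, h⟩ := hent T
    rw [Measure.volume_eq_prod, ← Measure.prod_restrict]
    refine lt_of_le_of_lt (lintegral_prod_le _) (key T C _ hC fun t ht => ?_)
    rw [← lintegral_const_mul' _ _ hC.ne, per_restrict_prod]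
    exact (lintegral_prod_le _).trans (lintegral_mono fun x => h t ht x)
  · obtain ⟨C, hC, h⟩ := hsup T
    rcases le_or_gt 0 T with hT | hT
    · refine ⟨C * ∫⁻ x in cell, g T x, ENNReal.mul_lt_top hC (hg T hT), fun t ht => ?_⟩
      rw [← lintegral_const_mul' _ _ hC.ne, per_restrict_prod]
      exact (lintegral_prod_le _).trans (lintegral_mono fun x => h t ht x)
    · exact ⟨0, by simp, fun t ht => absurd (ht.1.trans ht.2) (not_le.2 hT)⟩

end Crest.Agent.R068
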