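import Crest.Agent.R068.GoodUAux1

/-! Row 68: the entropy bound for the dominating function. -/

set_option autoImplicit false
open MeasureTheory Set Filter Topology
open scoped ENNReal
open Crest.AnalysisR.VecCalc3 Crest.AnalysisR.PDE.Boltzmann

namespace Crest.Agent.R068

lemma gu2_root_le {a b : ℝ≥0∞} (h : a ≤ b ^ 64) : a ^ (1 / 64 : ℝ) ≤ b := by
  refine (ENNReal.rpow_le_rpow h (by norm_num)).trans_eq ?_
  rw [← ENNReal.rpow_natCast, ← ENNReal.rpow_mul]; norm_num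

lemma gu2_root_pow (a : ℝ≥0∞) : (a ^ (1 / 64 : ℝ)) ^ 64 = a := by
  rw [← ENNReal.rpow_natCast, ← ENNReal.rpow_mul]; norm_num

/-- The pointwise inequality. -/
lemma gu2_pt {Q G B Y g w c D σ A : ℝ≥0∞} (hQ : Q ≤ G + D * B + A * (w * (g * (1 + Y))))
    (hσ : 1 ≤ σ) (hB : B ≤ σ ^ 56) (hG : G ≤ σ ^ 56) (hg : g ≤ 1) :
    Q * (B + c * (g * (1 + Y))) ^ (1 / 64 : ℝ) ≤
      (1 + 2 * c) * (σ * (G + D * B) + (1 + D) * Y + A * σ * (w * (g * (1 + Y) ^ 2))) := by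
  have hc : 1 + 2 * c ≤ (1 + 2 * c) ^ 64 := le_self_pow₀ le_self_add (by norm_num)
  have hU : ∀ L, B ≤ L → 1 ≤ L → Y ≤ L → B + c * (g * (1 + Y)) ≤ (1 + 2 * c) ^ 64 * L := by
    intro L h1 h2 h3
    calc _ ≤ L + c * (1 * (L + L)) := by gcongr
      _ = (1 + 2 * c) * L := by ring
      _ ≤ _ := by gcongr
  have h56 : σ ^ 56 ≤ σ ^ 64 := pow_le_pow_right₀ hσ (by norm_num)
  have hY2 : 1 + Y ≤ (1 + Y) ^ 2 := le_self_pow₀ le_self_add (by norm_num)
  rcases le_total Y (σ ^ 64) with h | h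
  · have h1 := gu2_root_le (b := (1 + 2 * c) * σ)
      ((hU _ (hB.trans h56) (one_le_pow₀ hσ) h).trans_eq (mul_pow _ _ _).symm)
    calc _ ≤ (G + D * B + A * (w * (g * (1 + Y) ^ 2))) * ((1 + 2 * c) * σ) := by
          refine mul_le_mul' (hQ.trans ?_) h1
          gcongr
      _ = (1 + 2 * c) * (σ * (G + D * B) + 0 + A * σ * (w * (g * (1 + Y) ^ 2))) := by ring
      _ ≤ _ := by gcongr; exact zero_le
  · obtain ⟨y, hy⟩ : ∃ y, y ^ 64 = Y := ⟨_, gu2_root_pow Y⟩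
    have hσy : σ ≤ y := (ENNReal.pow_le_pow_left_iff (n := 64) (by norm_num)).1 (hy ▸ h)
    have hy1 : 1 ≤ y := hσ.trans hσy
    have h1 := gu2_root_le (b := (1 + 2 * c) * y)
      ((hU _ (hB.trans (h56.trans h)) ((one_le_pow₀ hσ).trans h) le_rfl).trans_eq
        (by rw [mul_pow, hy]))
    have h2 : σ ^ 56 * y ≤ Y := by
      calc _ ≤ y ^ 56 * y := by gcongr
        _ = y ^ 57 := by ring
        _ ≤ y ^ 64 := pow_le_pow_right₀ hy1 (by norm_num)
        _ = Y := hy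
    have h3 : y ≤ σ * (1 + Y) := by
      calc y ≤ y ^ 64 := le_self_pow₀ hy1 (by norm_num)
        _ ≤ 1 * (1 + Y) := by rw [hy, one_mul]; exact le_add_self
        _ ≤ _ := by gcongr
    calc _ ≤ (σ ^ 56 + D * σ ^ 56 + A * (w * (g * (1 + Y)))) * ((1 + 2 * c) * y) := by
          refine mul_le_mul' (hQ.trans ?_) h1
          gcongr
      _ = (1 + 2 * c) * (0 + (1 + D) * (σ ^ 56 * y) + A * (w * (g * (1 + Y))) * y) := by ring
      _ ≤ (1 + 2 * c) * (σ * (G + D * B) + (1 + D) * Y +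
          A * (w * (g * (1 + Y))) * (σ * (1 + Y))) := by gcongr; exact zero_le
      _ = _ := by ring

lemma gu2_J (η T : ℝ) : ∃ J : ℝ≥0∞, J < ⊤ ∧ ∀ t ∈ Icc 0 T, ∀ x : R3,
    (∫⁻ v, ENNReal.ofReal (1 + ‖v‖) * (gs (1 / 8) v * (1 + Yf η t x v) ^ 2)) ≤ J := by
  refine ⟨(∫⁻ v : R3, ENNReal.ofReal ((1 + ‖v‖) ^ 1) * gs (1 / 8) v) +
    4 * (2 * ENNReal.ofReal (20 * CW T) + ENNReal.ofReal (20 * CW T ^ 3)),
    ENNReal.add_lt_top.2 ⟨lintegral_moment_gs (by norm_num) 1, by finiteness⟩, fun t ht x => ?_⟩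
  have hY : Measurable (Yf η t x) := (measurable_Yf η).slice t x
  have hg := measurable_gs (1 / 8)
  have hpt : ∀ v : R3, ENNReal.ofReal (1 + ‖v‖) * (gs (1 / 8) v * (1 + Yf η t x v) ^ 2) ≤
      ENNReal.ofReal ((1 + ‖v‖) ^ 1) * gs (1 / 8) v + 4 * (2 * Yf η t x v + Yf η t x v ^ 2) := by
    intro v
    rw [pow_one]
    by_cases hv : 3 ≤ ‖v‖
    · rw [Yf_eq_zero η t x hv]; simp
    · have h1 : gs (1 / 8) v ≤ 1 := gs_le_one (by norm_num) v
      have h2 : ENNReal.ofReal (1 + ‖v‖) ≤ 4 :=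
        (ENNReal.ofReal_le_ofReal (by push_cast; linarith : 1 + ‖v‖ ≤ (4 : ℕ))).trans_eq
          (ENNReal.ofReal_natCast 4)
      calc _ = ENNReal.ofReal (1 + ‖v‖) * gs (1 / 8) v +
            ENNReal.ofReal (1 + ‖v‖) * (gs (1 / 8) v * (2 * Yf η t x v + Yf η t x v ^ 2)) := by ring
        _ ≤ _ + 4 * (1 * (2 * Yf η t x v + Yf η t x v ^ 2)) := by gcongr
        _ = _ := by rw [one_mul]
  refine (lintegral_mono hpt).trans ?_
  have hc := CW_mono ht.1 ht.2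
  have hc1 := one_le_CW ht.1
  rw [lintegral_add_left ((gu1_meas_w 1).fun_mul hg),
    lintegral_const_mul _ ((hY.const_mul _).fun_add (hY.pow_const _)),
    lintegral_add_left (hY.const_mul _), lintegral_const_mul _ hY]
  gcongr
  · exact (lintegral_Yf η ht.1 x).trans (ENNReal.ofReal_le_ofReal (by gcongr))
  · exact (lintegral_Yf_sq η ht.1 x).trans (ENNReal.ofReal_le_ofReal (by gcongr))

/-- The collision term of `B + c W`. -/
lemma gu2_Q {η t : ℝ} (ht : 0 ≤ t) (x : R3) {B G : R3 → ℝ≥0∞} (hB : Measurable B) {c ρ D K : ℝ≥0∞}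
    (hK : ENNReal.ofReal (2 * 10 ^ 6 * CW t ^ 2) ≤ K)
    (hs : ∀ v, B v ≠ 0 → ‖v‖ ≤ 2) (hself : ∀ v, gain B B v ≤ G v + gs (1 / 8) v)
    (hpot : ∀ v, pot B v ≤ ρ * (1 + Yf η t x v)) (hm : ∫⁻ v, B v ≤ ρ)
    (hD : ∀ v, B v ≠ 0 → freq B v ≤ D) (v : R3) :
    gain (fun u => B u + c * Wf η (1 / 8) t x u) (fun u => B u + c * Wf η (1 / 8) t x u) v +
      (B v + c * Wf η (1 / 8) t x v) * freq (fun u => B u + c * Wf η (1 / 8) t x u) v ≤
      G v + (D + c * (K * 3)) * B v + (1 + 3 * c * K + 2 * c ^ 2 * K) * (1 + ρ) *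
        (ENNReal.ofReal (1 + ‖v‖) * (gs (1 / 8) v * (1 + Yf η t x v))) := by
  have hW : Measurable (Wf η (1 / 8) t x) := measurable_Wf_v _ _ _ _
  have hcW := hW.const_mul c
  have hc1 := one_le_CW ht
  set w := ENNReal.ofReal (1 + ‖v‖) with hw
  have hw1 : 1 ≤ w := ENNReal.one_le_ofReal.2 (by linarith [norm_nonneg v])
  have hWe : gs (1 / 8) v * (1 + Yf η t x v) = Wf η (1 / 8) t x v := rfl
  have hgW := gs_le_Wf η (1 / 8) t x v
  have hle : ∀ a : ℝ, a ≤ 2 * 10 ^ 6 * CW t ^ 2 → 0 ≤ a → ENNReal.ofReal (a * (1 + ‖v‖)) ≤ K * w :=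
    fun a ha h0 => by
      rw [ENNReal.ofReal_mul h0]
      exact mul_le_mul' ((ENNReal.ofReal_le_ofReal ha).trans hK) le_rfl
  have g1 : gain B (Wf η (1 / 8) t x) v ≤ K * ρ * Wf η (1 / 8) t x v := by
    refine (gain_Wf_pot le_rfl (by norm_num) ht x hB hs v).trans ?_
    calc _ ≤ K * gs (1 / 8) v * (ρ * (1 + Yf η t x v)) :=
          mul_le_mul' (mul_le_mul' ((ENNReal.ofReal_le_ofReal (by nlinarith)).trans hK) le_rfl)
            (hpot v)
      _ = _ := by rw [← hWe]; ring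
  have g2 : gain (Wf η (1 / 8) t x) (Wf η (1 / 8) t x) v ≤ K * w * Wf η (1 / 8) t x v :=
    (gain_Wf_Wf le_rfl (by norm_num) ht x v).trans
      (mul_le_mul' (hle _ (by nlinarith) (by positivity)) hgW)
  have f1 : freq (Wf η (1 / 8) t x) v ≤ K * w :=
    (freq_Wf_le le_rfl ht x v).trans (hle _ (by nlinarith) (by positivity))
  have f2 : freq B v ≤ K * w * ρ := by
    refine (freq_le_moment B hB v).trans ?_
    have h3 : (∫⁻ u, ENNReal.ofReal (1 + ‖u‖) * B u) ≤ ENNReal.ofReal 3 * ρ := by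
      refine le_trans (lintegral_mono fun u => ?_)
        ((lintegral_const_mul _ hB).trans_le (mul_le_mul' le_rfl hm))
      by_cases h0 : B u = 0
      · simp [h0]
      · exact mul_le_mul' (ENNReal.ofReal_le_ofReal (by linarith [hs u h0])) le_rfl
    refine (mul_le_mul' le_rfl h3).trans ?_
    rw [← mul_assoc, ← ENNReal.ofReal_mul (by positivity),
      show 2 * Real.pi * (1 + ‖v‖) * 3 = 6 * Real.pi * (1 + ‖v‖) by ring]
    exact mul_le_mul' (hle _ (by nlinarith [Real.pi_le_four]) (by positivity)) le_rfl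
  have f3 : B v * (freq B v + c * freq (Wf η (1 / 8) t x) v) ≤ (D + c * (K * 3)) * B v := by
    by_cases h0 : B v = 0
    · simp [h0]
    · have h3 : w ≤ 3 := (ENNReal.ofReal_le_ofReal (by push_cast; linarith [hs v h0] : 1 + ‖v‖ ≤ (3 : ℕ))).trans_eq
        (ENNReal.ofReal_natCast 3)
      rw [mul_comm]
      gcongr
      · exact hD v h0
      · exact f1.trans (by gcongr)
  rw [gain_add_left hB hcW (hB.fun_add hcW), gain_add_right hB hB hcW, gain_add_right hcW hB hcW,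
    gain_const_mul_right hB hW, gain_const_mul_left hW hB, gain_const_mul_left hW hcW,
    gain_const_mul_right hW hW, gain_comm hW hB, freq_add hB hcW, freq_const_mul hW, add_mul, hWe]
  set W := Wf η (1 / 8) t x v
  have hWw : W ≤ w * W := le_mul_of_one_le_left' hw1
  calc _ ≤ (G v + w * W) + c * (K * ρ * (w * W)) + (c * (K * ρ * (w * W)) + c * (c * (K * w * W))) +
        ((D + c * (K * 3)) * B v + c * W * (K * w * ρ + c * (K * w))) := by
        gcongr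
        · exact (hself v).trans (by gcongr; exact hgW.trans hWw)
        · exact g1.trans (by gcongr)
        · exact g1.trans (by gcongr)
    _ = G v + (D + c * (K * 3)) * B v + (1 + 3 * c * K * ρ + 2 * c ^ 2 * K) * (w * W) := by ring
    _ ≤ _ := by
        gcongr
        calc _ ≤ 1 * (1 + ρ) + 3 * c * K * (1 + ρ) + 2 * c ^ 2 * K * (1 + ρ) := by
              refine add_le_add (add_le_add ?_ (mul_le_mul' le_rfl le_add_self))
                (le_mul_of_one_le_right' le_self_add)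
              rw [one_mul]; exact le_self_add
          _ = _ := by ring

/-- The integrated bound. -/
lemma gu2_int (η T : ℝ) {c D : ℝ≥0∞} (hc : c < ⊤) (hD' : D < ⊤) : ∃ C : ℝ≥0∞, C < ⊤ ∧
    ∀ t ∈ Icc 0 T, ∀ (x : R3) (B G : R3 → ℝ≥0∞) (ρ σ : ℝ≥0∞), Measurable B → Measurable G →
    (∀ v, B v ≠ 0 → ‖v‖ ≤ 2) → (∀ v, gain B B v ≤ G v + gs (1 / 8) v) →
    (∀ v, pot B v ≤ ρ * (1 + Yf η t x v)) → ∫⁻ v, B v ≤ ρ → (∀ v, B v ≠ 0 → freq B v ≤ D) →
    ∫⁻ v, G v ≤ 6 → 1 ≤ σ → (∀ v, B v ≤ σ ^ 56) → (∀ v, G v ≤ σ ^ 56) →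
    (∫⁻ v, (gain (fun u => B u + c * Wf η (1 / 8) t x u) (fun u => B u + c * Wf η (1 / 8) t x u) v +
      (B v + c * Wf η (1 / 8) t x v) * freq (fun u => B u + c * Wf η (1 / 8) t x u) v) *
      (B v + c * Wf η (1 / 8) t x v) ^ (1 / 64 : ℝ)) ≤ C * ((1 + ρ) * σ) := by
  obtain ⟨J, hJ, hJ'⟩ := gu2_J η T
  set K := ENNReal.ofReal (2 * 10 ^ 6 * CW T ^ 2) with hK
  set D' := D + c * (K * 3) with hD2
  set A := 1 + 3 * c * K + 2 * c ^ 2 * K with hA
  have hK' : K < ⊤ := ENNReal.ofReal_lt_top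
  refine ⟨(1 + 2 * c) * (6 + D' + (1 + D') * ENNReal.ofReal (20 * CW T) + A * J), ?_,
    fun t ht x B G ρ σ hB hG hs hself hpot hm hD hmG hσ hBσ hGσ => ?_⟩
  · have := hc.ne; have := hD'.ne; have := hJ.ne; have := hK'.ne
    rw [hD2, hA]; finiteness
  have hc0 := CW_mono ht.1 ht.2
  have hc1 := one_le_CW ht.1
  have hY : Measurable (Yf η t x) := (measurable_Yf η).slice t x
  have hg := measurable_gs (1 / 8)
  have hm3 : Measurable fun v : R3 => ENNReal.ofReal (1 + ‖v‖) *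
      (gs (1 / 8) v * (1 + Yf η t x v) ^ 2) := by fun_prop
  refine (lintegral_mono fun v => gu2_pt (gu2_Q ht.1 x hB (K := K) (c := c)
    (ENNReal.ofReal_le_ofReal (by gcongr)) hs hself hpot hm hD v) hσ (hBσ v) (hGσ v)
    (gs_le_one (by norm_num) v)).trans ?_
  rw [lintegral_const_mul _ (by fun_prop), lintegral_add_right _ (hm3.const_mul _),
    lintegral_add_right _ (hY.const_mul _), lintegral_const_mul _ hm3, lintegral_const_mul _ hY,
    lintegral_const_mul _ (by fun_prop), lintegral_add_left hG, lintegral_const_mul _ hB,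
    mul_assoc (1 + 2 * c)]
  have h1 : 1 ≤ (1 + ρ) * σ := one_le_mul le_self_add hσ
  have h2 : ∫⁻ v, Yf η t x v ≤ ENNReal.ofReal (20 * CW T) :=
    (lintegral_Yf η ht.1 x).trans (ENNReal.ofReal_le_ofReal (by gcongr))
  refine mul_le_mul' le_rfl ?_
  calc _ ≤ σ * (6 * (1 + ρ) + D' * (1 + ρ)) + (1 + D') * (ENNReal.ofReal (20 * CW T) * ((1 + ρ) * σ)) +
        A * (1 + ρ) * σ * J := by
        gcongr
        · exact hmG.trans (le_mul_of_one_le_right' le_self_add)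
        · exact hm.trans le_add_self
        · exact h2.trans (le_mul_of_one_le_right' h1)
        · exact hJ' t ht x
    _ = _ := by ring

/-- The data inside a cell. -/
lemma gu2_wit {p : Par} (hs : p.Std) {n : ℕ∞} {t : ℝ} {x : R3} {k : Fin 3 → ℤ} {j : ℕ} (ht : 0 ≤ t)
    (hw : p.Wit n t x k j) : (∀ v, p.B n t x v ≠ 0 →
      freq (p.B n t x) v ≤ ENNReal.ofReal (48 * p.V ^ 5)) ∧
    ∃ σ : ℝ≥0∞, 1 ≤ σ ∧ (∀ v, p.B n t x v ≤ σ ^ 56) ∧ (∀ v, p.Gr n t x v ≤ σ ^ 56) ∧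
      (1 + ENNReal.ofReal (p.rho t (x - lat k))) * σ ≤
        ENNReal.ofReal (6 * p.V ^ 5) * gu1_g (x - lat k) := by
  set X := x - lat k with hX
  have hr := Par.r_pos hs j
  have hr1 : p.r j ≤ 1 := (Par.r_le hs j).trans (by linarith [Par.std_r0 hs])
  have hV : 1 ≤ p.V ^ 5 := one_le_pow₀ (by linarith [Par.std_V hs])
  have hn0 : 0 < |nc X| := lt_trans (by linarith) hw.lo
  have hX0 : 0 < ‖X‖ := hn0.trans_le (abs_nc_le X)
  have hsq : 0 < Real.sqrt |nc X| := Real.sqrt_pos.2 hn0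
  have hρ : p.rho t X ≤ p.V ^ 5 * (1 + ‖X‖⁻¹) := by
    rw [Par.rho]
    gcongr
    linarith
  have hρ0 : 0 ≤ p.rho t X := by rw [Par.rho]; positivity
  have hB : Measurable (p.B n t x) := (p.meas_B n).slice t x
  constructor
  · intro v hv
    obtain ⟨s, hs'⟩ := hw.ctr
    have hD0 : 0 < p.DD j := by unfold Par.DD; positivity
    have h1 : freq (p.B n t x) v ≤ ENNReal.ofReal (16 * p.DD j) * ENNReal.ofReal (p.rho t X) := by
      refine le_trans (lintegral_mono fun u => ?_)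
        ((lintegral_const_mul _ hB).trans_le (mul_le_mul' le_rfl hw.mass))
      by_cases h0 : p.B n t x u = 0
      · simp [h0]
      · refine mul_le_mul' (ENNReal.ofReal_le_ofReal ?_) le_rfl
        have h2 := norm_sub_le_norm_sub_add_norm_sub v (uu s t X) u
        have h3 : ‖v - uu s t X‖ ≤ p.DD j := hs' v hv
        have h4 : ‖u - uu s t X‖ ≤ p.DD j := hs' u h0
        rw [norm_sub_rev (uu s t X)] at h2
        nlinarith [Real.pi_le_four, Real.pi_pos, norm_nonneg (v - u)]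
    refine h1.trans ?_
    rw [← ENNReal.ofReal_mul (by positivity)]
    refine ENNReal.ofReal_le_ofReal ?_
    have h5 : p.r j * ‖X‖⁻¹ ≤ 2 := by
      rw [← div_eq_mul_inv, div_le_iff₀ hX0]
      linarith [hw.lo, abs_nc_le X]
    have h6 : p.DD j ≤ p.r j := pow_le_of_le_one hr.le hr1 (by norm_num)
    calc _ ≤ 16 * p.r j * (p.V ^ 5 * (1 + ‖X‖⁻¹)) := by gcongr
      _ = 16 * p.V ^ 5 * (p.r j + p.r j * ‖X‖⁻¹) := by ring
      _ ≤ 16 * p.V ^ 5 * (1 + 2) := by gcongr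
      _ = _ := by ring
  · set s := (Real.sqrt (Real.sqrt (p.r j)))⁻¹ with hs0
    have hs1 : 0 < Real.sqrt (p.r j) := Real.sqrt_pos.2 hr
    have hsp : 0 < s := inv_pos.2 (Real.sqrt_pos.2 hs1)
    have hs2 : s ^ 2 = (Real.sqrt (p.r j))⁻¹ := by rw [hs0, inv_pow, Real.sq_sqrt hs1.le]
    have hs4 : s ^ 56 = (p.r j ^ 14)⁻¹ := by
      rw [show 56 = 2 * (2 * 14) from rfl, pow_mul, hs2, inv_pow, pow_mul, Real.sq_sqrt hr.le]
    have hs5 : 1 ≤ s := (one_le_inv₀ (Real.sqrt_pos.2 hs1)).2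
      (Real.sqrt_le_one.2 (Real.sqrt_le_one.2 hr1))
    have hβ : s ^ 2 ≤ (Real.sqrt |nc X|)⁻¹ := by
      rw [hs2]; exact inv_anti₀ hsq (Real.sqrt_le_sqrt hw.hi.le)
    have e56 : ENNReal.ofReal s ^ 56 = ENNReal.ofReal (p.r j ^ 14)⁻¹ := by
      rw [← ENNReal.ofReal_pow hsp.le, hs4]
    refine ⟨ENNReal.ofReal s, ENNReal.one_le_ofReal.2 hs5, fun v => e56 ▸ hw.sup v,
      fun v => (hw.supG v).trans ?_, ?_⟩
    · rw [e56]
      exact ENNReal.ofReal_le_ofReal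
        (inv_anti₀ (by positivity) (pow_le_pow_of_le_one hr.le hr1 (by norm_num)))
    · have hα := inv_pos.2 hX0
      have hβ0 := inv_pos.2 hsq
      have hg : gu1_g X = ENNReal.ofReal (1 + ‖X‖⁻¹ ^ 2 + (Real.sqrt |nc X|)⁻¹) := by
        rw [gu1_g, ← ENNReal.ofReal_inv_of_pos hX0, ← ENNReal.ofReal_inv_of_pos hsq,
          ENNReal.ofReal_add (by positivity) hβ0.le,
          ENNReal.ofReal_add (by positivity) (by positivity), ENNReal.ofReal_one,
          ENNReal.ofReal_pow hα.le]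
      rw [hg, ← ENNReal.ofReal_one, ← ENNReal.ofReal_add zero_le_one hρ0,
        ← ENNReal.ofReal_mul (by positivity), ← ENNReal.ofReal_mul (by positivity)]
      refine ENNReal.ofReal_le_ofReal ?_
      have h7 : (1 + ‖X‖⁻¹) * s ≤ 3 * (1 + ‖X‖⁻¹ ^ 2 + (Real.sqrt |nc X|)⁻¹) := by
        nlinarith [sq_nonneg (1 - s), sq_nonneg (‖X‖⁻¹ - s), sq_nonneg ‖X‖⁻¹]
      calc _ ≤ (2 * (p.V ^ 5 * (1 + ‖X‖⁻¹))) * s := by gcongr; nlinarith
        _ = 2 * p.V ^ 5 * ((1 + ‖X‖⁻¹) * s) := by ring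
        _ ≤ 2 * p.V ^ 5 * (3 * (1 + ‖X‖⁻¹ ^ 2 + (Real.sqrt |nc X|)⁻¹)) := by gcongr
        _ = _ := by ring

theorem gu2_ent : ∀ᶠ p in PF, ∀ T : ℝ, ∃ C : ℝ≥0∞, C < ⊤ ∧ ∀ t ∈ Icc 0 T, ∀ x,
    ∀ G : ℝ≥0∞, 1 ≤ G → (∀ l, ‖x - lat l‖ ≤ 1 + 2 * T → gu1_g (x - lat l) ≤ G) →
    (∫⁻ v, (gain (p.Ust t x) (p.Ust t x) v + p.Ust t x v * freq (p.Ust t x) v) *
      p.Ust t x v ^ (1 / 64 : ℝ)) ≤ C * G := by
  filter_upwards [ev_std, ev_wit] with p hs hw T
  obtain ⟨C, hC, h⟩ := gu2_int (p.etaS ⊤) T (c := ENNReal.ofReal (p.Cmax + p.C0 + 3))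
    (D := ENNReal.ofReal (48 * p.V ^ 5)) ENNReal.ofReal_lt_top ENNReal.ofReal_lt_top
  refine ⟨C * ENNReal.ofReal (6 * p.V ^ 5), ENNReal.mul_lt_top hC ENNReal.ofReal_lt_top,
    fun t ht x G hG1 hG => ?_⟩
  have hB : Measurable (p.B ⊤ t x) := (p.meas_B ⊤).slice t x
  have hGr : Measurable (p.Gr ⊤ t x) := (p.meas_Gr ⊤).slice t x
  rw [mul_assoc]
  rcases hw ⊤ t x ht.1 with ⟨h0, h1⟩ | ⟨k, j, hw⟩
  · refine (h t ht x _ _ 0 1 hB hGr (fun v hv => (hv (h0 v)).elim)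
      (fun v => by rw [omsB_gain_zero h0]; exact zero_le) (fun v => by simp [pot, h0])
      (by simp [h0]) (fun v hv => (hv (h0 v)).elim) (by simp [h1]) le_rfl (by simp [h0])
      (by simp [h1])).trans (mul_le_mul' le_rfl ?_)
    have hV : 1 ≤ p.V ^ 5 := one_le_pow₀ (by linarith [Par.std_V hs])
    rw [add_zero, one_mul]
    exact one_le_mul (ENNReal.one_le_ofReal.2 (by linarith)) hG1
  · obtain ⟨hD, σ, hσ, h1, h2, h3⟩ := gu2_wit hs ht.1 hw
    have hk : ‖x - lat k‖ ≤ 1 + 2 * T := by linarith [hw.near, Par.std_r0 hs, ht.2]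
    refine (h t ht x _ _ _ σ hB hGr (fun v hv => (hw.supp v hv).2) (fun v => ?_) hw.pot hw.mass hD
      hw.massG hσ h1 h2).trans (mul_le_mul' le_rfl (h3.trans (mul_le_mul' le_rfl (hG k hk))))
    refine (hw.self v).trans (add_le_add le_rfl ?_)
    have hr1 : p.r j ≤ 1 := (Par.r_le hs j).trans (by linarith [Par.std_r0 hs])
    exact (mul_le_of_le_one_left' (ENNReal.ofReal_le_one.2
      (pow_le_one₀ (Par.r_pos hs j).le hr1))).trans (gs_anti (by norm_num) v)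

end Crest.Agent.R068
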