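import Crest.Agent.R068.OmS
import Crest.Agent.R068.GoodUAux1
import Crest.Agent.R068.GoodUAux2

/-! Row 68: the dominating function is admissible. -/

set_option autoImplicit false
open MeasureTheory Set Filter Topology
open scoped ENNReal
open Crest.AnalysisR.VecCalc3 Crest.AnalysisR.PDE.Boltzmann

namespace Crest.Agent.R068

/-- the periodised gauge -/
noncomputable def gauge (ρ : ℝ) (x : R3) : ℝ≥0∞ :=
  1 + ∑' k : Fin 3 → ℤ, if ‖x - lat k‖ ≤ ρ then (1 + (ENNReal.ofReal ‖x - lat k‖)⁻¹ ^ 2 +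
    (ENNReal.ofReal (Real.sqrt |nc (x - lat k)|))⁻¹) else 0
lemma lintegral_cell_gauge {ρ : ℝ} (hρ : 0 ≤ ρ) : (∫⁻ x in cell, gauge ρ x) < ⊤ :=
  gu1_cell hρ
lemma gu1_one_le_gauge (ρ : ℝ) (x : R3) : 1 ≤ gauge ρ x := le_self_add
lemma gu1_le_gauge {ρ : ℝ} {x : R3} (l : Fin 3 → ℤ) (hl : ‖x - lat l‖ ≤ ρ) :
    gu1_g (x - lat l) ≤ gauge ρ x := by
  refine le_trans ?_ (le_trans (ENNReal.le_tsum l) le_add_self)
  rw [if_pos hl, gu1_g]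
theorem ev_Ust_mom : ∀ᶠ p in PF, ∀ (T : ℝ) (k : ℕ), ∃ C : ℝ≥0∞, C < ⊤ ∧ ∀ t ∈ Icc 0 T, ∀ x,
    (∫⁻ v, ENNReal.ofReal ((1 + ‖v‖) ^ k) * p.Ust t x v) ^ 2 ≤ C * gauge (1 + 2 * T) x := by
  filter_upwards [gu1_mom] with p h T k
  obtain ⟨C, hC, h⟩ := h T k
  exact ⟨C, hC, fun t ht x => h t ht x _ (gu1_one_le_gauge _ x) gu1_le_gauge⟩
theorem ev_Ust_sup : ∀ᶠ p in PF, ∀ T : ℝ, ∃ C : ℝ≥0∞, C < ⊤ ∧ ∀ t ∈ Icc 0 T, ∀ x,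
    (∫⁻ v, ENNReal.ofReal ((1 + ‖v‖) ^ 3) * (p.Ust t x v + p.Ust t x v ^ (65 / 64 : ℝ))) ≤
      C * gauge (1 + 2 * T) x := by
  filter_upwards [gu1_sup] with p h T
  obtain ⟨C, hC, h⟩ := h T
  exact ⟨C, hC, fun t ht x => h t ht x _ (gu1_one_le_gauge _ x) gu1_le_gauge⟩
theorem ev_Ust_ent : ∀ᶠ p in PF, ∀ T : ℝ, ∃ C : ℝ≥0∞, C < ⊤ ∧ ∀ t ∈ Icc 0 T, ∀ x,
    (∫⁻ v, (gain (p.Ust t x) (p.Ust t x) v + p.Ust t x v * freq (p.Ust t x) v) *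
      p.Ust t x v ^ (1 / 64 : ℝ)) ≤ C * gauge (1 + 2 * T) x := by
  filter_upwards [gu2_ent] with p h T
  obtain ⟨C, hC, h⟩ := h T
  exact ⟨C, hC, fun t ht x => h t ht x _ (gu1_one_le_gauge _ x) gu1_le_gauge⟩
theorem ev_good : ∀ᶠ p in PF, Good p.Ust := by
  filter_upwards [ev_Ust_mom, ev_Ust_sup, ev_Ust_ent] with p h1 h2 h3
  exact gu1_good p.meas_Ust p.per_Ust (g := fun T => gauge (1 + 2 * T))
    (fun T hT => lintegral_cell_gauge (by linarith)) h1 h2 h3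

end Crest.Agent.R068
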