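import Crest.Agent.R068.Grow0Aux

/-! Row 68: abstract monotonicity of weighted mass. -/

set_option autoImplicit false
open MeasureTheory Set Filter Topology
open scoped ENNReal
open Crest.AnalysisR.VecCalc3 Crest.AnalysisR.PDE.Boltzmann

namespace Crest.Agent.R068

/-- weighted mass is monotone when the weight grows along characteristics at rate `ℓ` and the
collision term compensates `ℓ` -/
theorem weighted_mono {F : ℝ → R3 → R3 → ℝ} (hF : Dens F) {T₀ T s t : ℝ} (hT₀ : 0 ≤ T₀)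
    (hm : Mild T₀ T F) (hs : T₀ ≤ s) (hst : s ≤ t) (ht : t ≤ T) {C : ℝ≥0∞} (hC : C ≠ ⊤)
    (hb : ∀ r ∈ Icc s t, ∀ x v, up F r x v ≤ C * gs (1 / 8) v)
    {ψ ℓ : ℝ → R3 → R3 → ℝ} (hψm : MeasT ψ) (hℓm : MeasT ℓ) {K ρ : ℝ}
    (hψ0 : ∀ r ∈ Icc s t, ∀ x v, 0 ≤ ψ r x v) (hψK : ∀ r ∈ Icc s t, ∀ x v, ψ r x v ≤ K)
    (hℓK : ∀ r ∈ Icc s t, ∀ x v, |ℓ r x v| ≤ K)
    (hsupp : ∀ r ∈ Icc s t, ∀ x v, ψ r x v ≠ 0 → ‖x‖ ≤ ρ ∧ ‖v‖ ≤ ρ)
    (hchar : ∀ x v, ∀ r ∈ Icc s t, ∀ r' ∈ Icc s t, r ≤ r' →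
      ψ r (x + r • v) v * Real.exp (∫ σ in Ioo r r', ℓ σ (x + σ • v) v) ≤ ψ r' (x + r' • v) v)
    (hcoll : ∀ r ∈ Ioo s t, ∀ x, 0 ≤ ∫ v, (Rr F r x v * ψ r x v + ℓ r x v * F r x v * ψ r x v)) :
    ∫ q : R3 × R3, F s q.1 q.2 * ψ s q.1 q.2 ≤ ∫ q : R3 × R3, F t q.1 q.2 * ψ t q.1 q.2 := by
  obtain ⟨H, hH⟩ : ∃ H : ℝ → R3 → R3 → ℝ,
      H = fun r x v => Rr F r x v * ψ r x v + ℓ r x v * F r x v * ψ r x v := ⟨_, rfl⟩
  have hHm : MeasT H := by
    rw [hH]
    exact ((measurable_Rr hF.meas).mul hψm).add ((hℓm.mul hF.meas).mul hψm)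
  have hK : 0 ≤ K := (abs_nonneg _).trans (hℓK s ⟨le_rfl, hst⟩ 0 0)
  have hFC : ∀ r ∈ Icc s t, ∀ x v, F r x v ≤ C.toReal := fun r hr x v =>
    grow0_F_le hC (hb r hr x) v
  have hHs : ∀ r ∈ Icc s t, ∀ x v, H r x v ≠ 0 → ‖x‖ ≤ ρ ∧ ‖v‖ ≤ ρ := fun r hr x v h =>
    hsupp r hr x v fun h0 => h (by simp [hH, h0])
  have hHb : ∀ r ∈ Icc s t, ∀ x v,
      |H r x v| ≤ C.toReal ^ 2 * (10 ^ 6 * (1 + |ρ|)) * K + K * C.toReal * K := by
    intro r hr x v
    by_cases h : H r x v = 0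
    · rw [h, abs_zero]; positivity
    have h1 := grow0_Rr_le (hF.meas.slice r x) (hF.nonneg r x) hC (hb r hr x) v
    have h2 : ‖v‖ ≤ |ρ| := (hHs r hr x v h).2.trans (le_abs_self ρ)
    have h3 : |Rr F r x v| ≤ C.toReal ^ 2 * (10 ^ 6 * (1 + |ρ|)) := h1.trans (by gcongr)
    rw [hH]
    refine (abs_add_le _ _).trans (add_le_add ?_ ?_)
    · rw [abs_mul, abs_of_nonneg (hψ0 r hr x v)]
      exact mul_le_mul h3 (hψK r hr x v) (hψ0 r hr x v) (by positivity)
    · rw [abs_mul, abs_mul, abs_of_nonneg (hψ0 r hr x v), abs_of_nonneg (hF.nonneg r x v)]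
      exact mul_le_mul (mul_le_mul (hℓK r hr x v) (hFC r hr x v) (hF.nonneg r x v) hK)
        (hψK r hr x v) (hψ0 r hr x v) (by positivity)
  have hball : ∀ R : ℝ, (volume : Measure (R3 × R3)) (Metric.closedBall 0 R) ≠ ⊤ := fun R =>
    measure_closedBall_lt_top.ne
  have hFψm : ∀ r, Measurable fun q : R3 × R3 => F r q.1 q.2 * ψ r q.1 q.2 := fun r =>
    (hF.meas.comp measurable_const measurable_fst measurable_snd).mul
      (hψm.comp measurable_const measurable_fst measurable_snd)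
  have hFψ : ∀ r ∈ Icc s t, Integrable fun q : R3 × R3 => F r q.1 q.2 * ψ r q.1 q.2 := by
    intro r hr
    refine grow0_integrable (M := C.toReal * K) Metric.isClosed_closedBall.measurableSet (hball ρ)
      (hFψm r).aestronglyMeasurable (Eventually.of_forall fun q => ⟨?_, fun h => ?_⟩)
    · rw [abs_of_nonneg (mul_nonneg (hF.nonneg _ _ _) (hψ0 r hr _ _))]
      exact mul_le_mul (hFC r hr _ _) (hψK r hr _ _) (hψ0 r hr _ _) ENNReal.toReal_nonneg
    · have h1 := hsupp r hr _ _ (right_ne_zero_of_mul h)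
      rw [mem_closedBall_zero_iff, Prod.norm_def]
      exact max_le h1.1 h1.2
  have hHr : ∀ r, Measurable fun q : R3 × R3 => H r q.1 q.2 := fun r =>
    hHm.comp measurable_const measurable_fst measurable_snd
  have hpos : ∀ r ∈ Ioo s t, 0 ≤ ∫ q : R3 × R3, H r (q.1 + r • q.2) q.2 := by
    intro r hr
    have hr' := Ioo_subset_Icc_self hr
    have h1 : Integrable fun q : R3 × R3 => H r q.1 q.2 := by
      refine grow0_integrable Metric.isClosed_closedBall.measurableSet (hball ρ)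
        (hHr r).aestronglyMeasurable (Eventually.of_forall fun q => ⟨hHb r hr' _ _, fun h => ?_⟩)
      have h1 := hHs r hr' _ _ h
      rw [mem_closedBall_zero_iff, Prod.norm_def]
      exact max_le h1.1 h1.2
    rw [grow0_shear (hHr r) r, Measure.volume_eq_prod, integral_prod _ h1]
    refine integral_nonneg fun x => ?_
    rw [hH]
    exact hcoll r hr x
  have hprod : Integrable (fun p : ℝ × (R3 × R3) => H p.1 (p.2.1 + p.1 • p.2.2) p.2.2)
      ((volume.restrict (Ioo s t)).prod volume) := by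
    have h1 : Measurable fun p : ℝ × (R3 × R3) => H p.1 (p.2.1 + p.1 • p.2.2) p.2.2 :=
      hHm.comp measurable_fst (by fun_prop) (by fun_prop)
    refine grow0_integrable (S := univ ×ˢ Metric.closedBall 0 (ρ + t * ρ))
      (M := C.toReal ^ 2 * (10 ^ 6 * (1 + |ρ|)) * K + K * C.toReal * K)
      (MeasurableSet.univ.prod Metric.isClosed_closedBall.measurableSet) ?_
      h1.aestronglyMeasurable ?_
    · rw [Measure.prod_prod]
      exact ENNReal.mul_ne_top (by simp) (hball _)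
    · have h2 : ∀ᵐ p : ℝ × (R3 × R3) ∂((volume.restrict (Ioo s t)).prod volume), p.1 ∈ Ioo s t :=
        Measure.quasiMeasurePreserving_fst.ae (ae_restrict_mem measurableSet_Ioo)
      filter_upwards [h2] with p hp
      have hp' := Ioo_subset_Icc_self hp
      refine ⟨hHb _ hp' _ _, fun h => ⟨mem_univ _, ?_⟩⟩
      obtain ⟨h3, h4⟩ := hHs _ hp' _ _ h
      have h5 : 0 ≤ p.1 := hT₀.trans (hs.trans hp'.1)
      have h6 : 0 ≤ ρ := (norm_nonneg _).trans h4
      have h7 : 0 ≤ t * ρ := mul_nonneg (h5.trans hp'.2) h6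
      rw [mem_closedBall_zero_iff, Prod.norm_def]
      refine max_le ?_ (by linarith)
      have h8 := norm_sub_le (p.2.1 + p.1 • p.2.2) (p.1 • p.2.2)
      rw [add_sub_cancel_right, norm_smul, Real.norm_of_nonneg h5] at h8
      have h9 : p.1 * ‖p.2.2‖ ≤ t * ρ := mul_le_mul hp'.2 h4 (norm_nonneg _) (h5.trans hp'.2)
      linarith
  have hae : ∀ᵐ q : R3 × R3, F s (q.1 + s • q.2) q.2 * ψ s (q.1 + s • q.2) q.2 +
      ∫ r in Ioo s t, H r (q.1 + r • q.2) q.2 ≤
      F t (q.1 + t • q.2) q.2 * ψ t (q.1 + t • q.2) q.2 := by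
    filter_upwards [hm] with q hq
    obtain ⟨h1, h2⟩ := hq
    have h3 : ∀ r ∈ Icc s t, F s (q.1 + s • q.2) q.2 +
        ∫ σ in Ioo s r, Rr F σ (q.1 + σ • q.2) q.2 = F r (q.1 + r • q.2) q.2 := by
      intro r hr
      rw [h2 s ⟨hT₀.trans hs, hst.trans ht⟩, h2 r ⟨hT₀.trans (hs.trans hr.1), hr.2.trans ht⟩,
        grow0_split hs hr.1 (h1.mono_set (Ioo_subset_Ioo_right (hr.2.trans ht))), add_assoc]
    have h4 : IntegrableOn (fun r => ℓ r (q.1 + r • q.2) q.2) (Ioo s t) := by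
      have h5 : Measurable fun r : ℝ => ℓ r (q.1 + r • q.2) q.2 :=
        hℓm.comp measurable_id (by fun_prop) measurable_const
      refine Measure.integrableOn_of_bounded (M := K) (by simp) h5.aestronglyMeasurable ?_
      filter_upwards [ae_restrict_mem measurableSet_Ioo] with r hr
      exact hℓK r (Ioo_subset_Icc_self hr) _ _
    have h5 := (weight_parts (ψ := fun r => ψ r (q.1 + r • q.2) q.2)
      (c := F s (q.1 + s • q.2) q.2) hst (h1.mono_set (Ioo_subset_Ioo hs ht)) h4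
      (fun r hr => hψ0 r hr _ _) (hchar q.1 q.2)
      (fun r hr => by rw [h3 r hr]; exact hF.nonneg _ _ _)).2
    rw [h3 t ⟨hst, le_rfl⟩, setIntegral_congr_fun measurableSet_Ioo
      (g := fun r => H r (q.1 + r • q.2) q.2) fun r hr => by
        simp only [hH, h3 r (Ioo_subset_Icc_self hr)]] at h5
    linarith
  have hs' : Integrable fun q : R3 × R3 => F s (q.1 + s • q.2) q.2 * ψ s (q.1 + s • q.2) q.2 :=
    (measurePreserving_shear s).integrable_comp_of_integrable (hFψ s ⟨le_rfl, hst⟩)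
  have ht' : Integrable fun q : R3 × R3 => F t (q.1 + t • q.2) q.2 * ψ t (q.1 + t • q.2) q.2 :=
    (measurePreserving_shear t).integrable_comp_of_integrable (hFψ t ⟨hst, le_rfl⟩)
  have hi : Integrable fun q : R3 × R3 => ∫ r in Ioo s t, H r (q.1 + r • q.2) q.2 :=
    hprod.integral_prod_right
  have h1 := integral_mono_ae (hs'.add hi) ht' hae
  have h2 : 0 ≤ ∫ q : R3 × R3, ∫ r in Ioo s t, H r (q.1 + r • q.2) q.2 := by
    rw [← integral_integral_swap (f := fun (r : ℝ) (q : R3 × R3) => H r (q.1 + r • q.2) q.2) hprod]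
    exact setIntegral_nonneg measurableSet_Ioo hpos
  rw [← grow0_shear (hFψm s) s, ← grow0_shear (hFψm t) t]
  refine le_trans ?_ h1
  refine le_trans (le_add_of_nonneg_right h2) (le_of_eq ?_)
  exact (integral_add hs' hi).symm

/-- the collision inequality at a fixed `(t,x)`: a particle of the good set that hits the
concentrated part `c` of the gas produces two good particles. -/
theorem coll_gain_two {F : ℝ → R3 → R3 → ℝ} {t : ℝ} {x : R3} (hm : Measurable (F t x))
    (h0 : ∀ v, 0 ≤ F t x v) {C : ℝ≥0∞} (hC : C ≠ ⊤) (hb : ∀ v, up F t x v ≤ C * gs (1 / 8) v)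
    {n : R3} (hn : ‖n‖ = 1) {V δ : ℝ} (hV : 100 ≤ V) (hδ : 0 < δ) {ψ₀ : ℝ} (hψ₀ : 0 ≤ ψ₀)
    {χ ℓ : R3 → ℝ} (hχm : Measurable χ) (hℓm : Measurable ℓ) (hχ : ∀ v, |χ v| ≤ 1 / 20) {K : ℝ}
    (hℓK : ∀ v, |ℓ v| ≤ K)
    (hrate : ∀ v, δ ≤ |inner ℝ n v| → ‖v‖ ≤ V →
      30 * δ * (∫⁻ u, up F t x u).toReal +
        (freq (fun u => if |inner ℝ n u| < δ ∧ ‖u‖ ≤ 2 then 0 else up F t x u) v).toReal ≤
      ℓ v + 7 / 10 * (freq (fun u => if |inner ℝ n u| < δ ∧ ‖u‖ ≤ 2 then up F t x u else 0) v).toReal) :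
    0 ≤ ∫ v, (Rr F t x v * (if δ ≤ |inner ℝ n v| ∧ ‖v‖ ≤ V then ψ₀ * Real.exp (χ v) else 0) +
      ℓ v * F t x v * (if δ ≤ |inner ℝ n v| ∧ ‖v‖ ≤ V then ψ₀ * Real.exp (χ v) else 0)) := by
  obtain ⟨ψ, hψ⟩ : ∃ ψ : R3 → ℝ,
      ∀ v, ψ v = if δ ≤ |inner ℝ n v| ∧ ‖v‖ ≤ V then ψ₀ * Real.exp (χ v) else 0 := ⟨_, fun _ => rfl⟩
  simp only [← hψ]
  by_cases hI : Integrable fun v => Rr F t x v * ψ v + ℓ v * F t x v * ψ v
  swap
  · rw [integral_undef hI]
  obtain ⟨f, hf⟩ : ∃ f : R3 → ℝ≥0∞, f = up F t x := ⟨_, rfl⟩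
  have hfv : ∀ v, f v = ENNReal.ofReal (F t x v) := fun v => by rw [hf]; rfl
  have hfm : Measurable f := by rw [hf]; exact hm.ennreal_ofReal
  rw [← hf] at hrate hb
  obtain ⟨fc, hfc⟩ : ∃ fc : R3 → ℝ≥0∞,
      fc = fun u => if |inner ℝ n u| < δ ∧ ‖u‖ ≤ 2 then f u else 0 := ⟨_, rfl⟩
  obtain ⟨fr, hfr⟩ : ∃ fr : R3 → ℝ≥0∞,
      fr = fun u => if |inner ℝ n u| < δ ∧ ‖u‖ ≤ 2 then 0 else f u := ⟨_, rfl⟩
  rw [← hfc, ← hfr] at hrate
  have hcm : Measurable fc := by
    rw [hfc]; exact Measurable.ite (grow0_conc n δ) hfm measurable_const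
  have hrm : Measurable fr := by
    rw [hfr]; exact Measurable.ite (grow0_conc n δ) measurable_const hfm
  have hsum : f = fun u => fr u + fc u := by
    funext u
    rw [hfc, hfr]
    dsimp only
    split_ifs <;> simp
  have hcf : ∀ u, fc u ≤ f u := fun u => by rw [hsum]; exact le_add_self
  have hrf : ∀ u, fr u ≤ f u := fun u => by rw [hsum]; exact le_self_add
  have hψm : Measurable ψ := by
    rw [funext hψ]
    exact Measurable.ite (grow0_good n δ V) (hχm.exp.const_mul _) measurable_const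
  have hψ0 : ∀ v, 0 ≤ ψ v := fun v => by
    rw [hψ]; split_ifs <;> positivity
  have hψb : ∀ v, ψ v ≤ ψ₀ * Real.exp (1 / 20) := fun v => by
    rw [hψ]
    split_ifs
    · exact mul_le_mul_of_nonneg_left (Real.exp_le_exp.2 (le_of_abs_le (hχ v))) hψ₀
    · positivity
  have hψs : ∀ v, ψ v ≠ 0 → δ ≤ |inner ℝ n v| ∧ ‖v‖ ≤ V := fun v h => by
    by_contra h'
    exact h (by rw [hψ, if_neg h'])
  have hmass : ∫⁻ u, f u ≠ ⊤ := by
    refine ne_top_of_le_ne_top ?_ (lintegral_mono hb)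
    rw [lintegral_const_mul _ (measurable_gs _)]
    have h1 := lintegral_gs (a := 1 / 8) (by norm_num) 0
    simp only [sub_zero] at h1
    rw [h1]
    exact ENNReal.mul_ne_top hC ENNReal.ofReal_ne_top
  have hG := grow0_gain_le hb
  have hνc := grow0_freq_le fun u => (hcf u).trans (hb u)
  have hνr := grow0_freq_le fun u => (hrf u).trans (hb u)
  have hGt : ∀ v, gain f f v ≠ ⊤ := fun v => ne_top_of_le_ne_top
    (ENNReal.mul_ne_top (ENNReal.mul_ne_top hC hC) ENNReal.ofReal_ne_top) (hG v)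
  have hνct : ∀ v, freq fc v ≠ ⊤ := fun v => ne_top_of_le_ne_top
    (ENNReal.mul_ne_top hC ENNReal.ofReal_ne_top) (hνc v)
  have hνrt : ∀ v, freq fr v ≠ ⊤ := fun v => ne_top_of_le_ne_top
    (ENNReal.mul_ne_top hC ENNReal.ofReal_ne_top) (hνr v)
  have hFC : ∀ v, F t x v ≤ C.toReal := grow0_F_le hC (by rw [← hf]; exact hb)
  have hR : ∀ v, Rr F t x v = (gain f f v).toReal
      - F t x v * ((freq fr v).toReal + (freq fc v).toReal) := fun v => by
    have h1 : freq f v = freq fr v + freq fc v := by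
      conv_lhs => rw [hsum]
      exact freq_add hrm hcm v
    rw [Rr, collGain_eq h0, collLoss_eq hm h0, ← hf, ENNReal.toReal_mul, hfv,
      ENNReal.toReal_ofReal (h0 v), h1, ENNReal.toReal_add (hνrt v) (hνct v)]
  have hball : (volume : Measure R3) (Metric.closedBall 0 V) ≠ ⊤ := measure_closedBall_lt_top.ne
  have hGm : Measurable fun v => gain f f v :=
    measurable_gain (f := fun _ => f) (g := fun _ => f) (hfm.comp measurable_snd)
      (hfm.comp measurable_snd) measurable_id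
  have hνm : Measurable fun v => freq fc v :=
    measurable_freq (g := fun _ => fc) (hcm.comp measurable_snd) measurable_id
  have hV0 : 0 ≤ V := by linarith
  have hP0 : ∀ v, 0 ≤ (gain f f v).toReal * ψ v + 30 * δ * (∫⁻ u, f u).toReal * F t x v * ψ v :=
    fun v => by have := hψ0 v; have := h0 v; positivity
  have hQ0 : ∀ v, 0 ≤ 17 / 10 * (freq fc v).toReal * F t x v * ψ v :=
    fun v => by have := hψ0 v; have := h0 v; positivity
  have hP : Integrable fun v =>
      (gain f f v).toReal * ψ v + 30 * δ * (∫⁻ u, f u).toReal * F t x v * ψ v := by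
    refine grow0_integrable (M := (C * C * ENNReal.ofReal (10 ^ 6 * (1 + V))).toReal *
        (ψ₀ * Real.exp (1 / 20)) + 30 * δ * (∫⁻ u, f u).toReal * C.toReal * (ψ₀ * Real.exp (1 / 20)))
      Metric.isClosed_closedBall.measurableSet hball
      ((hGm.ennreal_toReal.mul hψm).add ((hm.const_mul _).mul hψm)).aestronglyMeasurable
      (Eventually.of_forall fun v => ?_)
    by_cases h : ψ v = 0
    · refine ⟨?_, fun h' => absurd (by simp [h]) h'⟩
      simp only [h, mul_zero, add_zero, abs_zero]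
      positivity
    have h1 := (hψs v h).2
    refine ⟨?_, fun _ => mem_closedBall_zero_iff.2 h1⟩
    rw [abs_of_nonneg (hP0 v)]
    have h2 : (gain f f v).toReal ≤ (C * C * ENNReal.ofReal (10 ^ 6 * (1 + V))).toReal :=
      ENNReal.toReal_mono (ENNReal.mul_ne_top (ENNReal.mul_ne_top hC hC) ENNReal.ofReal_ne_top)
        ((hG v).trans (by gcongr))
    have h3 := hψ0 v
    have h4 := h0 v
    gcongr
    · exact hψb v
    · exact hFC v
    · exact hψb v
  have hQ : Integrable fun v => 17 / 10 * (freq fc v).toReal * F t x v * ψ v := by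
    refine grow0_integrable (M := 17 / 10 * (C * ENNReal.ofReal (10 ^ 6 * (1 + V))).toReal *
        C.toReal * (ψ₀ * Real.exp (1 / 20)))
      Metric.isClosed_closedBall.measurableSet hball
      (((hνm.ennreal_toReal.const_mul _).mul hm).mul hψm).aestronglyMeasurable
      (Eventually.of_forall fun v => ?_)
    by_cases h : ψ v = 0
    · refine ⟨?_, fun h' => absurd (by simp [h]) h'⟩
      simp only [h, mul_zero, abs_zero]
      positivity
    have h1 := (hψs v h).2
    refine ⟨?_, fun _ => mem_closedBall_zero_iff.2 h1⟩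
    rw [abs_of_nonneg (hQ0 v)]
    have h2 : (freq fc v).toReal ≤ (C * ENNReal.ofReal (10 ^ 6 * (1 + V))).toReal :=
      ENNReal.toReal_mono (ENNReal.mul_ne_top hC ENNReal.ofReal_ne_top)
        ((hνc v).trans (by gcongr))
    have h3 := hψ0 v
    have h4 := h0 v
    gcongr
    · exact hFC v
    · exact hψb v
  have hQP : ∫ v, 17 / 10 * (freq fc v).toReal * F t x v * ψ v ≤
      ∫ v, ((gain f f v).toReal * ψ v + 30 * δ * (∫⁻ u, f u).toReal * F t x v * ψ v) := by
    rw [← ENNReal.ofReal_le_ofReal_iff (integral_nonneg hP0),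
      ofReal_integral_eq_lintegral_ofReal hQ (Eventually.of_forall hQ0),
      ofReal_integral_eq_lintegral_ofReal hP (Eventually.of_forall hP0)]
    have h1 := grow0_key hfm hn hV hδ hψ₀ hχ hψm hψ
    rw [← hfc] at h1
    refine le_trans (le_of_eq (lintegral_congr fun v => ?_))
      (h1.trans (le_of_eq (lintegral_congr fun v => ?_)))
    · have h3 := hψ0 v
      have h4 := h0 v
      rw [ENNReal.ofReal_mul (by positivity), ENNReal.ofReal_mul (by positivity),
        ENNReal.ofReal_mul (by positivity), ENNReal.ofReal_toReal (hνct v), hfv]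
    · have h3 := hψ0 v
      have h4 := h0 v
      rw [ENNReal.ofReal_add (by positivity) (by positivity),
        ENNReal.ofReal_mul (q := ψ v) (by positivity),
        ENNReal.ofReal_mul (q := ψ v) (by positivity),
        ENNReal.ofReal_mul (q := F t x v) (by positivity),
        ENNReal.ofReal_mul (p := 30 * δ) (by positivity), ENNReal.ofReal_toReal (hGt v),
        ENNReal.ofReal_toReal hmass, hfv]
  refine le_trans (sub_nonneg.2 hQP) ?_
  rw [← integral_sub hP hQ]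
  refine integral_mono (hP.sub hQ) hI fun v => ?_
  dsimp only
  by_cases h : ψ v = 0
  · simp [h]
  have h1 := hrate v (hψs v h).1 (hψs v h).2
  have h2 := mul_le_mul_of_nonneg_right h1 (mul_nonneg (h0 v) (hψ0 v))
  rw [hR]
  linarith

end Crest.Agent.R068
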