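import Crest.Agent.R068.St1

/-! Row 68: depletion of the cold gas and the rate condition (auxiliary to `Grow`). -/

set_option autoImplicit false
open MeasureTheory Set Filter Topology
open scoped ENNReal
open Crest.AnalysisR.VecCalc3 Crest.AnalysisR.PDE.Boltzmann

namespace Crest.Agent.R068

lemma g1_ev_mul_le (c : ℝ) : ∀ᶠ x in 𝓝[>] (0:ℝ), x * c ≤ 1 := by
  have h : Tendsto (fun x : ℝ => x * c) (𝓝[>] 0) (𝓝 (0 * c)) :=
    ((continuous_id.mul continuous_const).tendsto 0).mono_left nhdsWithin_le_nhds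
  exact h.eventually (eventually_le_nhds (by simp))

lemma g1_ev_r0 : ∀ᶠ p in PF, p.r0 * (10 ^ 10 * p.C0) ≤ 1 :=
  ev_r0 (Q := fun p x => x * (10 ^ 10 * p.C0) ≤ 1) (Eventually.of_forall fun _ => g1_ev_mul_le _)

lemma g1_ev_d1 : ∀ᶠ p in PF, p.δ1 * (120 * p.V ^ 5) ≤ 1 :=
  ev_d1 (Q := fun p x => x * (120 * p.V ^ 5) ≤ 1) (Eventually.of_forall fun _ => g1_ev_mul_le _)

namespace Par
variable {p : Par}

lemma g1_U1_le (h : p.Std) (n : ℕ∞) {ε t : ℝ} (hε : 0 ≤ ε) (hε' : ε ≤ p.eps) (h0 : 0 ≤ t)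
    (h1 : t ≤ p.t2) (x v : R3) :
    p.U1 n ε t x v ≤ p.B n t x v + ENNReal.ofReal p.C0 * p.W n (p.aa t) t x v := by
  unfold U1
  gcongr
  exact AA_Om_le h hε hε' h0 h1 x

lemma g1_freq_W (h : p.Std) (n : ℕ∞) {t : ℝ} (h0 : 0 ≤ t) (h1 : t ≤ p.t2) (x v : R3) :
    freq (fun u => ENNReal.ofReal p.C0 * p.W n (p.aa t) t x u) v ≤
      ENNReal.ofReal (2 * 10 ^ 8 * p.C0 * (1 + ‖v‖)) := by
  have hC := one_le_C0 h
  have ha := (aa_mem h h0 h1).1
  have hW := CW_le h0 (by linarith [h.t2_le])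
  rw [freq_const_mul ((p.meas_W n _).slice t x)]
  refine (mul_le_mul_right (freq_Wf_le (by linarith) h0 x v) _).trans ?_
  rw [← ENNReal.ofReal_mul (by linarith)]
  refine ENNReal.ofReal_le_ofReal ?_
  have : p.C0 * (1 + ‖v‖) * CW t ≤ p.C0 * (1 + ‖v‖) * 100 :=
    mul_le_mul_of_nonneg_left hW (by positivity)
  linarith

lemma g1_mass_W (h : p.Std) (n : ℕ∞) {t : ℝ} (h0 : 0 ≤ t) (h1 : t ≤ p.t2) (x : R3) :
    ∫⁻ u, ENNReal.ofReal p.C0 * p.W n (p.aa t) t x u ≤ ENNReal.ofReal (10 ^ 5 * p.C0) := by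
  have hC := one_le_C0 h
  have ha := (aa_mem h h0 h1).1
  have hW := CW_le h0 (by linarith [h.t2_le])
  rw [lintegral_const_mul _ ((p.meas_W n _).slice t x)]
  refine (mul_le_mul_right (lintegral_Wf_le (by linarith) h0 x) _).trans ?_
  rw [← ENNReal.ofReal_mul (by linarith)]
  refine ENNReal.ofReal_le_ofReal ?_
  have : p.C0 * CW t ≤ p.C0 * 100 := mul_le_mul_of_nonneg_left hW (by positivity)
  linarith

lemma g1_eta_le (h : p.Std) (j : ℕ) : p.eta j ≤ p.δ1 / 1000 ∧ p.δ1 ≤ 1 / 10 ^ 6 := by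
  have h1 := r_le h j
  have h2 := r_pos h j
  have h3 := h.r0_δ1
  have h4 := h.δ1_le
  have h5 := h.κ0_le
  have h6 : p.r j ^ 4 ≤ p.r j := pow_le_of_le_one h2.le (by linarith) (by norm_num)
  exact ⟨by unfold eta; linarith, by linarith⟩

lemma g1_t_small (h : p.Std) (hr : p.r0 * (10 ^ 10 * p.C0) ≤ 1) {t : ℝ} (h1 : t ≤ p.t0) :
    t * (10 ^ 13 * p.C0 * p.V) ≤ 1 := by
  have hC := one_le_C0 h
  have hV : 0 ≤ p.V := by linarith [h.V_ge, h.R_ge]
  have h2 := mul_le_mul_of_nonneg_right (t0_le_r0 h) (show 0 ≤ 10 ^ 10 * p.C0 by positivity)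
  have h3 := mul_le_mul_of_nonneg_right h1 (show 0 ≤ 10 ^ 13 * p.C0 * p.V by positivity)
  linarith

end Par

theorem g1_half_Sb : ∀ᶠ p in PF, ∀ (n : ℕ) (ε a : ℝ) (F : ℝ → R3 → R3 → ℝ), p.Sol n ε a F →
    ∀ t ∈ Icc (p.tn n) p.t0, ∀ j ≤ n, ∀ (s : Fin 4) (x u : R3),
      1 / 2 * p.Sb j s t x u ≤ up F t x u := by
  filter_upwards [ev_std, ev_freq_B_along, g1_ev_r0] with p hs hB hr n ε a F hF t ht j hj s x u
  by_cases h0 : p.Sb j s t x u = 0
  · simp [h0]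
  have htn := Par.tn_pos hs n
  have ht0 : 0 ≤ t := by linarith [ht.1]
  have ht2 : t ≤ p.t2 := ht.2.trans (Par.t0_lt_t2 hs).le
  have ht1 : t ≤ 1 := by linarith [hs.t2_le]
  have hu := (Par.Sb_supp hs ht0 (ht1.trans (Par.one_le_TT hs j)) h0).2.2.2.2
  have hj' : (j : ℕ∞) ≤ (n : ℕ∞) := by exact_mod_cast hj
  have hC := Par.one_le_C0 hs
  have hV : 1 ≤ p.V := by linarith [hs.V_ge, hs.R_ge]
  refine le_trans (mul_le_mul' (half_le_eneg ?_) ?_) (hF.mild.ge t x u)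
  · have hb : ∀ r ∈ Ioo (p.tn n) t, freq (p.Nn n ε F r (x - (t - r) • u)) u ≤
        ENNReal.ofReal (10 ^ 9 * p.C0) := fun r hr' => by
      have hr0 : 0 ≤ r := by linarith [hr'.1]
      have hr2 : r ≤ p.t2 := hr'.2.le.trans ht2
      refine (freq_mono (fun w => ?_) u).trans ((freq_add ((p.meas_B n).slice r (x - (t - r) • u))
        (((p.meas_W n (p.aa r)).slice r (x - (t - r) • u)).const_mul (ENNReal.ofReal p.C0))
          u).trans_le ?_)
      · rw [p.Nn_eq1 n ε F hr2]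
        exact (min_le_right _ _).trans (Par.g1_U1_le hs n hF.ε0 hF.ε1 hr0 hr2 _ _)
      · refine (add_le_add (hB n j s r t x u hj' hr0 hr'.2.le ht1 h0)
          (Par.g1_freq_W hs n hr0 hr2 _ u)).trans ?_
        rw [← ENNReal.ofReal_one, ← ENNReal.ofReal_add zero_le_one (by positivity)]
        refine ENNReal.ofReal_le_ofReal ?_
        have : p.C0 * ‖u‖ ≤ p.C0 * 2 := mul_le_mul_of_nonneg_left hu (by positivity)
        linarith
    refine (setLIntegral_mono' measurableSet_Ioo hb).trans ?_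
    rw [setLIntegral_const, Real.volume_Ioo, ← ENNReal.ofReal_mul (by positivity),
      show (1 / 2 : ℝ≥0∞) = ENNReal.ofReal (1 / 2) by
        rw [ENNReal.ofReal_div_of_pos two_pos]; simp]
    refine ENNReal.ofReal_le_ofReal ?_
    have h1 := Par.g1_t_small hs hr ht.2
    have h2 : t * p.C0 * 1 ≤ t * p.C0 * p.V := mul_le_mul_of_nonneg_left hV (by positivity)
    have h3 : 0 ≤ p.C0 * p.tn n := by positivity
    have h4 : 0 ≤ t * p.C0 := by positivity
    linarith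
  · exact (p.Sb_le_Sd hj' s t x u).trans (le_add_left le_rfl |>.trans le_self_add)

theorem g1_rate : ∀ᶠ p in PF, ∀ (n : ℕ) (ε a : ℝ) (F : ℝ → R3 → R3 → ℝ), p.Sol n ε a F → p.In1 n ε F →
    ∀ t ∈ Icc (p.tn n) p.t0, ∀ x v : R3, p.δ1 ≤ |nc v| → ‖v‖ ≤ p.V →
      30 * p.δ1 * (∫⁻ u, up F t x u).toReal +
        (freq (fun u => if |inner ℝ (fr 1) u| < p.δ1 ∧ ‖u‖ ≤ 2 then 0 else up F t x u) v).toReal ≤
      p.lrate n t x v +
        7 / 10 * (freq (fun u => if |inner ℝ (fr 1) u| < p.δ1 ∧ ‖u‖ ≤ 2 then up F t x u else 0) v).toReal := by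
  filter_upwards [ev_std, ev_wit, ev_bdd, ev_Sb_lower, g1_half_Sb, g1_ev_r0, g1_ev_d1] with
    p hs hw hbdd hlow hhalf hr hd n ε a F hF hin t ht x v _ hv
  have htn := Par.tn_pos hs n
  have ht0 : 0 < t := by linarith [ht.1]
  have ht2 : t ≤ p.t2 := ht.2.trans (Par.t0_lt_t2 hs).le
  have ht1 : t ≤ 1 := by linarith [hs.t2_le]
  have hC := Par.one_le_C0 hs
  have hV : 8000 ≤ p.V := by linarith [hs.V_ge, hs.R_ge]
  have hδ := hs.δ1_pos
  have hδ1 := (Par.g1_eta_le hs 0).2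
  have hsm := Par.g1_t_small hs hr ht.2
  have hU : ∀ u, up F t x u ≤ p.B n t x u + ENNReal.ofReal p.C0 * p.W n (p.aa t) t x u := fun u =>
    (hin t ⟨ht.1, ht2⟩ x u).trans (Par.g1_U1_le hs n hF.ε0 hF.ε1 ht0.le ht2 x u)
  have hBs : (∫⁻ u, p.B n t x u ≤ ENNReal.ofReal (2 * p.V ^ 5 / t)) ∧
      ∀ u, p.B n t x u ≠ 0 → |nc u| < p.δ1 ∧ ‖u‖ ≤ 2 := by
    rcases hw n t x ht0.le with h | ⟨k, j, h⟩
    · exact ⟨by simp [h.1], fun u hu => absurd (h.1 u) hu⟩
    · refine ⟨h.mass.trans (ENNReal.ofReal_le_ofReal ?_), fun u hu => ⟨?_, (h.supp u hu).2⟩⟩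
      · have h1 : (‖x - lat k‖ + t)⁻¹ ≤ t⁻¹ := inv_anti₀ ht0 (le_add_of_nonneg_left (norm_nonneg _))
        have h2 : 1 ≤ t⁻¹ := (one_le_inv₀ ht0).2 ht1
        have h3 : p.V ^ 5 * (1 + (‖x - lat k‖ + t)⁻¹) ≤ p.V ^ 5 * (2 * t⁻¹) :=
          mul_le_mul_of_nonneg_left (by linarith) (by positivity)
        unfold Par.rho
        rw [div_eq_mul_inv]
        linarith
      · linarith [(h.supp u hu).1, Par.DD_le hs j, hs.r0_δ1]
  have h1 : (∫⁻ u, up F t x u).toReal ≤ 2 * p.V ^ 5 / t + 10 ^ 5 * p.C0 := by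
    refine ENNReal.toReal_le_of_le_ofReal (by positivity) ((lintegral_mono hU).trans ?_)
    rw [lintegral_add_left ((p.meas_B n).slice t x), ENNReal.ofReal_add (by positivity) (by positivity)]
    exact add_le_add hBs.1 (Par.g1_mass_W hs n ht0.le ht2 x)
  have h2 : (freq (fun u => if |inner ℝ (fr 1) u| < p.δ1 ∧ ‖u‖ ≤ 2 then 0 else up F t x u) v).toReal ≤
      2 * 10 ^ 8 * p.C0 * (1 + ‖v‖) := by
    refine ENNReal.toReal_le_of_le_ofReal (by positivity)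
      ((freq_mono (fun u => ?_) v).trans (Par.g1_freq_W hs n ht0.le ht2 x v))
    split_ifs with hu
    · exact zero_le
    · have h0 : p.B n t x u = 0 := by
        by_contra h0
        exact hu (hBs.2 u h0)
      simpa [h0] using hU u
  have h3 : 30 * p.δ1 * (2 * p.V ^ 5 / t + 10 ^ 5 * p.C0) + 2 * 10 ^ 8 * p.C0 * (1 + ‖v‖) ≤ 2 / t := by
    rw [le_div_iff₀ ht0]
    have e : (30 * p.δ1 * (2 * p.V ^ 5 / t + 10 ^ 5 * p.C0) + 2 * 10 ^ 8 * p.C0 * (1 + ‖v‖)) * t =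
        p.δ1 * (120 * p.V ^ 5) / 2 + 3 * 10 ^ 6 * (t * p.C0 * p.δ1) +
          2 * 10 ^ 8 * (t * p.C0 * (1 + ‖v‖)) := by
      field_simp
      ring
    have h4 : t * p.C0 * p.δ1 ≤ t * p.C0 * p.V :=
      mul_le_mul_of_nonneg_left (by linarith) (by positivity)
    have h5 : t * p.C0 * (1 + ‖v‖) ≤ t * p.C0 * (2 * p.V) :=
      mul_le_mul_of_nonneg_left (by linarith) (by positivity)
    have h6 : 0 ≤ t * p.C0 * p.V := by positivity
    rw [e]
    linarith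
  have h4 := mul_le_mul_of_nonneg_left h1 (show 0 ≤ 30 * p.δ1 by positivity)
  set fc := (freq (fun u => if |inner ℝ (fr 1) u| < p.δ1 ∧ ‖u‖ ≤ 2 then up F t x u else 0) v)
    with hfc
  have hfin : fc ≠ ⊤ := by
    obtain ⟨C, hC'⟩ := hbdd n hF.tn0 ε a t
    have h5 := (hC' ε a hF.ε0 le_rfl le_rfl).2 t ⟨ht0.le, le_rfl⟩ x
    refine ne_top_of_le_ne_top (mild_freq_bound_ne_top (C := ENNReal.ofReal C)
      ENNReal.ofReal_ne_top v) (mild_freq_bound (fun u => ?_) v)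
    split_ifs
    · refine (hin t ⟨ht.1, ht2⟩ x u).trans (le_of_eq_of_le ?_ (h5 u).1)
      rw [Par.Up, if_pos ht2]
    · exact zero_le
  have hnear : ‖x‖ ≤ 2 * p.V * t → ∀ s : Fin 4, nc x ∈ p.bulk n s → 7 / 20 * t ≤ ‖yy s t x‖ →
      1 ≤ ‖v - dir s‖ → p.V / t ≤ fc.toReal := fun hx s ⟨j, hj, hz⟩ hy hvs => by
    rw [← ENNReal.ofReal_le_iff_le_toReal hfin]
    refine (hlow j s t x ht0 ht.2 hz hx hy).trans (lintegral_mono fun u => ?_)
    by_cases h0 : p.Sb j s t x u = 0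
    · simp [h0]
    obtain ⟨a1, -, -, a4, a5⟩ := Par.Sb_supp hs ht0.le (ht1.trans (Par.one_le_TT hs j)) h0
    have hη := (Par.g1_eta_le hs j).1
    have a6 : |inner ℝ (fr 1) u| < p.δ1 := by
      have : |nc u| < p.δ1 := by linarith
      exact this
    have a7 : 1 / 2 ≤ ‖v - u‖ := by
      have b1 := norm_uu_sub_dir s t x
      have b2 : ‖v - dir s‖ ≤ ‖v - u‖ + ‖u - uu s t x‖ + ‖uu s t x - dir s‖ := by
        simpa only [dist_eq_norm] using dist_triangle4 v u (uu s t x) (dir s)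
      unfold dd at a1
      linarith
    have a8 : (2 : ℝ≥0∞) ≤ ENNReal.ofReal (2 * Real.pi * ‖v - u‖) := by
      exact (ENNReal.ofReal_ofNat 2).symm.trans_le
        (ENNReal.ofReal_le_ofReal (by nlinarith [Real.pi_gt_three]))
    simp only [if_pos (And.intro a6 a5)]
    refine le_trans (le_of_eq ?_) (mul_le_mul' a8 (hhalf n ε a F hF t ht j hj s x u))
    rw [← mul_assoc, one_div, ENNReal.mul_inv_cancel (by simp) (by simp), one_mul]
  have hp0 : 0 ≤ ph t x v := Real.smoothTransition.nonneg _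
  have hp1 : ph t x v ≤ 1 := Real.smoothTransition.le_one _
  have hi : 0 < t⁻¹ := inv_pos.2 ht0
  have hfc0 : 0 ≤ fc.toReal := ENNReal.toReal_nonneg
  have key : 2 / t ≤ p.lrate n t x v + 7 / 10 * fc.toReal := by
    unfold Par.lrate
    set I1 := (p.bulk n (s1 v)).indicator (1 : ℝ → ℝ) (nc x) with hI1
    set I3 := (p.bulk n (s3 v)).indicator (1 : ℝ → ℝ) (nc x) with hI3
    have b1 : I1 ≤ 1 := indicator_apply_le' (fun _ => le_rfl) fun _ => zero_le_one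
    have b3 : I3 ≤ 1 := indicator_apply_le' (fun _ => le_rfl) fun _ => zero_le_one
    have b4 : ph t x v * I1 + (1 - ph t x v) * I3 ≤ 1 := by
      nlinarith [mul_le_mul_of_nonneg_left b1 hp0, mul_le_mul_of_nonneg_left b3 (sub_nonneg.2 hp1)]
    have b5 := mul_le_mul_of_nonneg_left b4 hi.le
    simp only [div_eq_mul_inv]
    split_ifs with hx
    · linarith
    · have b6 : ph t x v * I1 + (1 - ph t x v) * I3 = 0 ∨ p.V / t ≤ fc.toReal := by
        by_contra hc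
        rw [not_or] at hc
        refine hc.1 ?_
        have c1 : ph t x v * I1 = 0 := by
          by_contra c
          obtain ⟨c1, c2⟩ := mul_ne_zero_iff.1 c
          exact hc.2 (hnear (not_lt.1 hx) _ (mem_of_indicator_ne_zero c2) (yy_s1_of_ph ht0 c1)
            (one_le_norm_sub_s1 v))
        have c3 : (1 - ph t x v) * I3 = 0 := by
          by_contra c
          obtain ⟨c1, c2⟩ := mul_ne_zero_iff.1 c
          exact hc.2 (hnear (not_lt.1 hx) _ (mem_of_indicator_ne_zero c2)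
            (yy_s3_of_ph ht0 (sub_ne_zero.1 c1).symm) (one_le_norm_sub_s3 v))
        rw [c1, c3, add_zero]
      rcases b6 with b6 | b6
      · have b7 : t⁻¹ * (ph t x v * I1 + (1 - ph t x v) * I3) = 0 := by rw [b6, mul_zero]
        linarith
      · rw [div_eq_mul_inv] at b6
        have b7 := mul_le_mul_of_nonneg_right hV hi.le
        linarith
  linarith

end Crest.Agent.R068
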