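import Crest.Agent.R068.St1
import Crest.Agent.R068.Chi
import Crest.Agent.R068.Grow0

/-! Row 68: auxiliary lemmas for the growth of the weighted mass. -/

set_option autoImplicit false
open MeasureTheory Set Filter Topology
open scoped ENNReal
open Crest.AnalysisR.VecCalc3 Crest.AnalysisR.PDE.Boltzmann

namespace Crest.Agent.R068

lemma growB_exp_le : Real.exp (1 / 20) ≤ 2 := by
  have h := Real.exp_bound_div_one_sub_of_interval' (x := 1 / 20) (by norm_num) (by norm_num)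
  linarith

/-- Gaussian bound during the first stage -/
theorem ev_growB_bdd : ∀ᶠ p in PF, ∀ (n : ℕ) (ε a : ℝ) (F : ℝ → R3 → R3 → ℝ), p.Sol n ε a F →
    p.In1 n ε F → ∃ C : ℝ, (∀ x v, p.f0 n a x v ≤ ENNReal.ofReal C * gs (1 / 8) v) ∧
      ∀ t ∈ Icc (p.tn n) p.t2, ∀ x v, up F t x v ≤ ENNReal.ofReal C * gs (1 / 8) v := by
  filter_upwards [ev_std, ev_bdd] with p hs hb n ε a F hS hI
  obtain ⟨C, hC⟩ := hb n hS.tn0 ε a p.t2
  obtain ⟨h1, h2⟩ := hC ε a hS.ε0 le_rfl le_rfl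
  refine ⟨C, h1, fun t ht x v => (hI t ht x v).trans ?_⟩
  have := (h2 t ⟨(Par.tn_pos hs n).le.trans ht.1, ht.2⟩ x v).1
  simpa only [Par.Up, if_pos ht.2] using this

theorem ev_growB_psi : ∀ᶠ p in PF, ∀ (n : ℕ) (t : ℝ), p.tn n ≤ t → t ≤ p.t0 → ∀ x v : R3,
    0 ≤ p.psi n t x v ∧ p.psi n t x v ≤ 2 * p.psiO t (x, v) := by
  filter_upwards [ev_std, ev_chi_le] with p hs hχ n t h1 h2 x v
  have ht : 0 < t := (Par.tn_pos hs n).trans_le h1
  obtain ⟨b0, -, -, b3⟩ := Par.psi0_bounds hs ht x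
  simp only [Par.psi, Par.psiO]
  split_ifs with h
  · refine ⟨by positivity, ?_⟩
    by_cases h0 : p.psi0 t x = 0
    · simp [h0]
    rw [mul_comm 2]
    refine mul_le_mul_of_nonneg_left ?_ b0
    exact (Real.exp_le_exp.2 (le_of_abs_le (hχ n t x v h1 h2 (b3 h0) h.1))).trans growB_exp_le
  · simp

lemma growB_psiO {p : Par} (hs : p.Std) {t : ℝ} (ht : 0 < t) (q : R3 × R3) :
    0 ≤ p.psiO t q ∧ p.psiO t q ≤ (t ^ 20)⁻¹ ∧
      (p.psiO t q ≠ 0 → ‖q.1‖ ≤ t / p.h ^ 2 ∧ p.δ1 ≤ |nc q.2| ∧ ‖q.2‖ ≤ p.V) := by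
  obtain ⟨b0, b1, -, b3⟩ := Par.psi0_bounds hs ht q.1
  simp only [Par.psiO]
  split_ifs with h
  · exact ⟨b0, b1, fun h0 => ⟨b3 h0, h⟩⟩
  · exact ⟨le_rfl, by positivity, fun h0 => absurd rfl h0⟩

lemma growB_integrable {p : Par} (hs : p.Std) {t : ℝ} (ht : 0 < t) {F : ℝ → R3 → R3 → ℝ}
    (hF : Dens F) {C : ℝ≥0∞} (hC : C ≠ ⊤) (hb : ∀ x v, up F t x v ≤ C * gs (1 / 8) v) :
    Integrable fun q : R3 × R3 => F t q.1 q.2 * p.psiO t q := by
  refine grow0_integrable (S := Metric.closedBall 0 (max (t / p.h ^ 2) p.V))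
    (M := C.toReal * (t ^ 20)⁻¹) Metric.isClosed_closedBall.measurableSet
    measure_closedBall_lt_top.ne
    ((hF.meas.comp measurable_const measurable_fst measurable_snd).mul
      (Par.wt_psiO hs ht).meas).aestronglyMeasurable (Eventually.of_forall fun q => ?_)
  obtain ⟨b0, b1, b2⟩ := growB_psiO hs ht q
  refine ⟨?_, fun h => ?_⟩
  · rw [abs_of_nonneg (mul_nonneg (hF.nonneg _ _ _) b0)]
    exact mul_le_mul (grow0_F_le hC (hb _) _) b1 b0 ENNReal.toReal_nonneg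
  · obtain ⟨h1, -, h2⟩ := b2 (right_ne_zero_of_mul h)
    rw [mem_closedBall_zero_iff, Prod.norm_def]
    exact max_le_max h1 h2

/-- the constant in `ev_upper` -/
noncomputable def growBc (p : Par) : ℝ :=
  (20 / p.r1 ^ 2 + 2 * p.θ / p.r1) ^ p.K * (p.h ^ 40)⁻¹ * 10 ^ 5 *
    (volume (Metric.closedBall (0 : R3) 1)).toReal

theorem ev_growB_small : ∀ᶠ p in PF, growBc p * p.r0 ≤ 1 := by
  refine ev_r0 (Q := fun p x => growBc p * x ≤ 1) (Eventually.of_forall fun p => ?_)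
  have h : Tendsto (fun x : ℝ => growBc p * x) (𝓝 0) (𝓝 (growBc p * 0)) :=
    (continuous_const.mul continuous_id).tendsto 0
  rw [mul_zero] at h
  exact nhdsWithin_le_nhds (h.eventually (ge_mem_nhds one_pos))

end Crest.Agent.R068
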