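import Crest.Agent.R068.St1
import Crest.Agent.R068.Chi
import Crest.Agent.R068.Grow0
import Crest.Agent.R068.GrowAux1
import Crest.Agent.R068.GrowAuxB

/-! Row 68: growth of the weighted mass. -/

set_option autoImplicit false
open MeasureTheory Set Filter Topology
open scoped ENNReal
open Crest.AnalysisR.VecCalc3 Crest.AnalysisR.PDE.Boltzmann

namespace Crest.Agent.R068

/-- the cold gas is not depleted -/
theorem ev_half_Sb : ∀ᶠ p in PF, ∀ (n : ℕ) (ε a : ℝ) (F : ℝ → R3 → R3 → ℝ), p.Sol n ε a F →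
    ∀ t ∈ Icc (p.tn n) p.t0, ∀ j ≤ n, ∀ (s : Fin 4) (x u : R3), 1 / 2 * p.Sb j s t x u ≤ up F t x u :=
  g1_half_Sb
/-- the rate condition of `coll_gain_two` -/
theorem ev_rate : ∀ᶠ p in PF, ∀ (n : ℕ) (ε a : ℝ) (F : ℝ → R3 → R3 → ℝ), p.Sol n ε a F → p.In1 n ε F →
    ∀ t ∈ Icc (p.tn n) p.t0, ∀ x v : R3, p.δ1 ≤ |nc v| → ‖v‖ ≤ p.V →
      30 * p.δ1 * (∫⁻ u, up F t x u).toReal +
        (freq (fun u => if |inner ℝ (fr 1) u| < p.δ1 ∧ ‖u‖ ≤ 2 then 0 else up F t x u) v).toReal ≤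
      p.lrate n t x v +
        7 / 10 * (freq (fun u => if |inner ℝ (fr 1) u| < p.δ1 ∧ ‖u‖ ≤ 2 then up F t x u else 0) v).toReal :=
  g1_rate
theorem ev_mild1 : ∀ᶠ p in PF, ∀ (n : ℕ) (ε a : ℝ) (F : ℝ → R3 → R3 → ℝ), p.Sol n ε a F → p.In1 n ε F →
    Mild (p.tn n) p.t2 F := by
  filter_upwards [ev_std, ev_growB_bdd] with p hs hb n ε a F hS hI
  obtain ⟨C, h1, h2⟩ := hb n ε a F hS hI
  refine hS.mild.mild (Par.tn_pos hs n).le hS.dens (p.meas_Nn n ε hS.dens.meas)
    (fun x v => ne_top_of_le_ne_top (ENNReal.mul_ne_top ENNReal.ofReal_ne_top (gs_ne_top _ _)) (h1 x v))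
    (fun s hs' => Par.Nn_eq_of_In1 hI (Ioo_subset_Icc_self hs')) (C := ENNReal.ofReal C)
    ENNReal.ofReal_ne_top fun s hs' x v => ?_
  rw [Par.Nn_eq_of_In1 hI (Ioo_subset_Icc_self hs')]
  exact h2 s (Ioo_subset_Icc_self hs') x v
theorem ev_growth : ∀ᶠ p in PF, ∀ (n : ℕ) (ε a : ℝ) (F : ℝ → R3 → R3 → ℝ), p.Sol n ε a F → p.In1 n ε F →
    ∀ s ∈ Icc (p.tn n) p.t0, p.Phi n F s ≤ 2 * ∫ q : R3 × R3, F p.t0 q.1 q.2 * p.psiO p.t0 q := by
  filter_upwards [ev_std, ev_growB_bdd, ev_mild1, ev_growB_psi, ev_psi_char, ev_rate, ev_chi_le]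
    with p hs hb hm hψ hchar hrate hχ n ε a F hS hI s hs'
  obtain ⟨C, -, h2⟩ := hb n ε a F hS hI
  have h02 := (Par.t0_lt_t2 hs).le
  have hs0 : 0 < s := (Par.tn_pos hs n).trans_le hs'.1
  have hsub : ∀ r ∈ Icc s p.t0, r ∈ Icc (p.tn n) p.t2 := fun r hr =>
    ⟨hs'.1.trans hr.1, hr.2.trans h02⟩
  have hl : ∀ r ∈ Icc s p.t0, ∀ x v, |p.lrate n r x v| ≤ 1000 / s := fun r hr x v =>
    (Par.abs_lrate_le n (hs0.trans_le hr.1) x v).trans
      (div_le_div_of_nonneg_left (by norm_num) hs0 hr.1)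
  have key : p.Phi n F s ≤ p.Phi n F p.t0 := by
    refine weighted_mono hS.dens (Par.tn_pos hs n).le (hm n ε a F hS hI) hs'.1 hs'.2 h02
      (C := ENNReal.ofReal C) ENNReal.ofReal_ne_top (fun r hr => h2 r (hsub r hr))
      (p.meas_psi n) (p.meas_lrate n) (K := max (2 * (s ^ 20)⁻¹) (1000 / s))
      (ρ := max (p.t0 / p.h ^ 2) p.V)
      (fun r hr x v => (hψ n r (hs'.1.trans hr.1) hr.2 x v).1) (fun r hr x v => ?_)
      (fun r hr x v => (hl r hr x v).trans (le_max_right _ _)) (fun r hr x v h0 => ?_)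
      (fun x v r hr r' hr' hrr => hchar n r r' x v (hs'.1.trans hr.1) hrr hr'.2) (fun r hr x => ?_)
    · refine (hψ n r (hs'.1.trans hr.1) hr.2 x v).2.trans (le_trans ?_ (le_max_left _ _))
      refine mul_le_mul_of_nonneg_left ((growB_psiO hs (hs0.trans_le hr.1) _).2.1.trans ?_) two_pos.le
      exact inv_anti₀ (pow_pos hs0 _) (pow_le_pow_left₀ hs0.le hr.1 _)
    · obtain ⟨b0, b1⟩ := hψ n r (hs'.1.trans hr.1) hr.2 x v
      have h3 : p.psiO r (x, v) ≠ 0 := fun h => h0 (le_antisymm (by simpa [h] using b1) b0)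
      obtain ⟨c1, -, c2⟩ := (growB_psiO hs (hs0.trans_le hr.1) _).2.2 h3
      exact ⟨le_max_of_le_left (c1.trans (div_le_div_of_nonneg_right hr.2 (sq_nonneg _))),
        le_max_of_le_right c2⟩
    · have hr' := Ioo_subset_Icc_self hr
      have hr0 : 0 < r := hs0.trans hr.1
      obtain ⟨b0, -, -, b3⟩ := Par.psi0_bounds hs hr0 x
      by_cases h0 : p.psi0 r x = 0
      · simp [Par.psi, h0]
      have hV : 100 ≤ p.V := by linarith [hs.V_ge, hs.R_ge]
      have hmeas : MeasurableSet {v : R3 | p.δ1 ≤ |nc v|} :=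
        measurableSet_le measurable_const continuous_nc.abs.measurable
      have h := coll_gain_two (hS.dens.meas.slice r x) (hS.dens.nonneg r x) ENNReal.ofReal_ne_top
        (h2 r (hsub r hr') x) (norm_fr 1) hV hs.δ1_pos b0
        (χ := fun v => if p.δ1 ≤ |nc v| then p.chi n r x v else 0) (ℓ := p.lrate n r x)
        (Measurable.ite hmeas ((p.meas_chi n).slice r x) measurable_const)
        ((p.meas_lrate n).slice r x) (fun v => by
          split_ifs with hv
          · exact hχ n r x v (hs'.1.trans hr'.1) hr'.2 (b3 h0) hv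
          · norm_num) (hl r hr' x)
        (fun v hv hv' => hrate n ε a F hS hI r ⟨hs'.1.trans hr'.1, hr'.2⟩ x v hv hv')
      refine h.trans (le_of_eq (integral_congr_ae (Eventually.of_forall fun v => ?_)))
      have e : (if p.δ1 ≤ |inner ℝ (fr 1) v| ∧ ‖v‖ ≤ p.V then
          p.psi0 r x * Real.exp (if p.δ1 ≤ |nc v| then p.chi n r x v else 0) else 0) =
          p.psi n r x v := by
        unfold Par.psi
        by_cases h1 : p.δ1 ≤ |nc v| ∧ ‖v‖ ≤ p.V
        · rw [if_pos h1, if_pos h1.1]; exact if_pos h1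
        · rw [if_neg h1]; exact if_neg h1
      simp only [e]
  refine key.trans ?_
  rw [← integral_const_mul]
  refine integral_mono_of_nonneg (Eventually.of_forall fun q =>
    mul_nonneg (hS.dens.nonneg _ _ _) (hψ n p.t0 hS.tn0 le_rfl _ _).1)
    ((growB_integrable hs (Par.t0_pos hs) hS.dens ENNReal.ofReal_ne_top
      (h2 p.t0 ⟨hS.tn0, h02⟩)).const_mul 2) (Eventually.of_forall fun q => ?_)
  have := mul_le_mul_of_nonneg_left (hψ n p.t0 hS.tn0 le_rfl q.1 q.2).2 (hS.dens.nonneg p.t0 q.1 q.2)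
  dsimp only
  linarith
/-- the unperturbed solution carries almost no good mass -/
theorem ev_upper : ∀ᶠ p in PF, ∀ (n : ℕ) (F : ℝ → R3 → R3 → ℝ), p.Sol n 0 0 F → p.In1 n 0 F →
    ∫ q : R3 × R3, F p.t0 q.1 q.2 * p.psiO p.t0 q ≤ p.r0 ^ (p.Lam + 1) := by
  filter_upwards [ev_std, ev_wit, ev_growB_small] with p hs hw hsm n F hS hI
  have ht := Par.t0_pos hs
  have h02 := (Par.t0_lt_t2 hs).le
  have hr0 := hs.r0_pos
  have hh := hs.h_pos
  have hr1 := hs.r1_pos
  have hV : 8000 ≤ p.V := by linarith [hs.V_ge, hs.R_ge]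
  have ht0r : p.t0 ≤ p.r0 := by nlinarith [Par.t0_le_r0 hs]
  have hr01 : p.r0 ≤ 1 := by
    have := hs.r0_κ; have := hs.κ_le; have := hs.t2_le; linarith
  have hθ : 0 ≤ p.θ := by
    have : 0 ≤ p.R := by linarith [hs.R_ge]
    unfold Par.θ; positivity
  have hx0 : p.t0 / p.h ^ 2 = p.r0 := by unfold Par.t0; field_simp
  set c : ℝ := 20 / p.r1 ^ 2 + 2 * p.θ / p.r1 with hc
  have hc0 : 0 ≤ c := by positivity
  set A : ℝ := (c * p.r0) ^ p.K * (p.t0 ^ 20)⁻¹ with hA
  have hA0 : 0 ≤ A := by positivity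
  have hpt : ∀ q : R3 × R3, ENNReal.ofReal (F p.t0 q.1 q.2 * p.psiO p.t0 q) ≤
      (Metric.closedBall (0 : R3) 1).indicator (fun _ => ENNReal.ofReal A) q.1 *
        p.W n (p.aa p.t0) p.t0 q.1 q.2 := fun q => by
    obtain ⟨b0, b1, b2⟩ := growB_psiO hs ht q
    by_cases h0 : p.psiO p.t0 q = 0
    · simp [h0]
    obtain ⟨c1, c2, -⟩ := b2 h0
    rw [hx0] at c1
    rw [indicator_of_mem (mem_closedBall_zero_iff.2 (c1.trans hr01))]
    have hB : p.B n p.t0 q.1 q.2 = 0 := by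
      rcases hw n p.t0 q.1 ht.le with h | ⟨k, j, h⟩
      · exact h.1 _
      · by_contra hne
        have := (h.supp _ hne).1
        have := Par.DD_le hs j
        have := hs.r0_δ1
        have := hs.δ1_pos
        linarith
    have hOm : p.Om p.t0 q.1 ≤ (c * p.r0) ^ p.K := by
      refine (Par.Om_le_near hs ht.le q.1 0).trans (pow_le_pow_left₀ (by positivity) ?_ _)
      have e : lat 0 = 0 := by ext i; simp [lat]
      have h1 : ‖q.1‖ ^ 2 ≤ p.r0 := by nlinarith [norm_nonneg q.1]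
      rw [e, sub_zero, hc, add_mul, div_mul_eq_mul_div, div_mul_eq_mul_div]
      gcongr
    have hF := hI p.t0 ⟨hS.tn0, h02⟩ q.1 q.2
    simp only [Par.U1, hB, Par.AA_zero, zero_add] at hF
    rw [ENNReal.ofReal_mul (hS.dens.nonneg _ _ _), hA, ENNReal.ofReal_mul (by positivity),
      mul_right_comm]
    exact mul_le_mul' (hF.trans (mul_le_mul_left (ENNReal.ofReal_le_ofReal hOm) _))
      (ENNReal.ofReal_le_ofReal b1)
  have hW : ∀ x, ∫⁻ v, p.W n (p.aa p.t0) p.t0 x v ≤ ENNReal.ofReal (10 ^ 5) := fun x => by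
    refine (lintegral_Wf_le (by linarith [(Par.aa_mem hs ht.le h02).1]) ht.le x).trans
      (ENNReal.ofReal_le_ofReal ?_)
    have := CW_le ht.le (by linarith [hs.t2_le])
    linarith
  rw [integral_eq_lintegral_of_nonneg_ae (Eventually.of_forall fun q =>
    mul_nonneg (hS.dens.nonneg _ _ _) (growB_psiO hs ht q).1)
    ((hS.dens.meas.comp measurable_const measurable_fst measurable_snd).mul
      (Par.wt_psiO hs ht).meas).aestronglyMeasurable]
  refine ENNReal.toReal_le_of_le_ofReal (by positivity) ((lintegral_mono hpt).trans ?_)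
  rw [Measure.volume_eq_prod]
  refine (lintegral_prod_le _).trans ?_
  have h1 : ∀ x : R3, ∫⁻ v, (Metric.closedBall (0 : R3) 1).indicator (fun _ => ENNReal.ofReal A) x *
      p.W n (p.aa p.t0) p.t0 x v ≤
      (Metric.closedBall (0 : R3) 1).indicator (fun _ => ENNReal.ofReal (A * 10 ^ 5)) x := fun x => by
    by_cases hx : x ∈ Metric.closedBall (0 : R3) 1
    · rw [indicator_of_mem hx, indicator_of_mem hx, lintegral_const_mul' _ _ ENNReal.ofReal_ne_top,
        ENNReal.ofReal_mul hA0]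
      exact mul_le_mul_right (hW x) _
    · simp [indicator_of_notMem hx]
  refine (lintegral_mono h1).trans ?_
  rw [lintegral_indicator_const Metric.isClosed_closedBall.measurableSet,
    ← ENNReal.ofReal_toReal (measure_closedBall_lt_top (x := (0 : R3)) (r := 1)).ne,
    ← ENNReal.ofReal_mul (by positivity)]
  refine ENNReal.ofReal_le_ofReal ?_
  have e : A * 10 ^ 5 * (volume (Metric.closedBall (0 : R3) 1)).toReal =
      (growBc p * p.r0) * p.r0 ^ 8 * p.r0 ^ (p.Lam + 1) := by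
    rw [hA, growBc, ← hc, Par.t0, mul_pow, mul_pow]
    have : p.r0 ^ p.K = p.r0 ^ 20 * (p.r0 * p.r0 ^ 8 * p.r0 ^ (p.Lam + 1)) := by
      unfold Par.K; ring
    rw [this]
    field_simp
  rw [e]
  refine mul_le_of_le_one_left (by positivity) ?_
  exact mul_le_one₀ hsm (by positivity) (pow_le_one₀ hr0.le hr01)

end Crest.Agent.R068
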