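import Crest.Agent.R068.Mild

/-! Row 68: auxiliary lemmas for `Grow0`. -/

set_option autoImplicit false
open MeasureTheory Set Filter Topology
open scoped ENNReal
open Crest.AnalysisR.VecCalc3 Crest.AnalysisR.PDE.Boltzmann

namespace Crest.Agent.R068

lemma grow0_integrable {α : Type*} [MeasurableSpace α] {μ : Measure α} {S : Set α} {f : α → ℝ}
    {M : ℝ} (hS : MeasurableSet S) (hμ : μ S ≠ ⊤) (hf : AEStronglyMeasurable f μ)
    (hb : ∀ᵐ a ∂μ, |f a| ≤ M ∧ (f a ≠ 0 → a ∈ S)) : Integrable f μ := by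
  refine Integrable.mono' ((integrableOn_const (C := M) hμ).integrable_indicator hS) hf ?_
  filter_upwards [hb] with a ha
  by_cases h : a ∈ S
  · rw [indicator_of_mem h]
    exact ha.1
  · have h1 : f a = 0 := by
      by_contra h'
      exact h (ha.2 h')
    simp [h, h1]

lemma grow0_shear {f : R3 × R3 → ℝ} (hf : Measurable f) (r : ℝ) :
    ∫ q : R3 × R3, f (q.1 + r • q.2, q.2) = ∫ q : R3 × R3, f q := by
  have h := integral_map (μ := (volume : Measure (R3 × R3)))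
    (measurePreserving_shear r).measurable.aemeasurable (f := f) hf.aestronglyMeasurable
  rw [(measurePreserving_shear r).map_eq] at h
  exact h.symm

lemma grow0_split {g : ℝ → ℝ} {a b c : ℝ} (hab : a ≤ b) (hbc : b ≤ c)
    (hg : IntegrableOn g (Ioo a c)) :
    ∫ r in Ioo a c, g r = (∫ r in Ioo a b, g r) + ∫ r in Ioo b c, g r := by
  have h1 : IntegrableOn g (Ioc a c) := (integrableOn_Ioc_iff_integrableOn_Ioo).2 hg
  rw [← integral_Ioc_eq_integral_Ioo, ← integral_Ioc_eq_integral_Ioo,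
    ← integral_Ioc_eq_integral_Ioo, ← Ioc_union_Ioc_eq_Ioc hab hbc,
    setIntegral_union (Ioc_disjoint_Ioc_of_le le_rfl) measurableSet_Ioc
      (h1.mono_set (Ioc_subset_Ioc_right hbc)) (h1.mono_set (Ioc_subset_Ioc_left hab))]

lemma grow0_le_C {f : R3 → ℝ≥0∞} {C : ℝ≥0∞} (hb : ∀ v, f v ≤ C * gs (1 / 8) v) (v : R3) :
    f v ≤ C :=
  (hb v).trans (mul_le_of_le_one_right zero_le (gs_le_one (by norm_num) v))

lemma grow0_F_le {F : ℝ → R3 → R3 → ℝ} {t : ℝ} {x : R3} {C : ℝ≥0∞} (hC : C ≠ ⊤)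
    (hb : ∀ v, up F t x v ≤ C * gs (1 / 8) v) (v : R3) : F t x v ≤ C.toReal :=
  (ENNReal.ofReal_le_iff_le_toReal hC).1 (grow0_le_C hb v)

lemma grow0_freq_le {f : R3 → ℝ≥0∞} {C : ℝ≥0∞} (hb : ∀ v, f v ≤ C * gs (1 / 8) v) (v : R3) :
    freq f v ≤ C * ENNReal.ofReal (10 ^ 6 * (1 + ‖v‖)) := by
  refine (freq_mono hb v).trans ?_
  rw [freq_const_mul (measurable_gs _)]
  exact mul_le_mul_right (freq_gs_le (by norm_num) v) C

lemma grow0_gain_le {f : R3 → ℝ≥0∞} {C : ℝ≥0∞} (hb : ∀ v, f v ≤ C * gs (1 / 8) v) (v : R3) :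
    gain f f v ≤ C * C * ENNReal.ofReal (10 ^ 6 * (1 + ‖v‖)) := by
  refine (gain_mono hb hb v).trans ?_
  rw [gain_const_mul_left (measurable_gs _) ((measurable_gs _).const_mul C),
    gain_const_mul_right (measurable_gs _) (measurable_gs _), ← mul_assoc]
  exact mul_le_mul_right ((gain_gs_self_le (by norm_num) v).trans
    (mul_le_of_le_one_right zero_le (gs_le_one (by norm_num) v))) _

lemma grow0_Rr_le {F : ℝ → R3 → R3 → ℝ} {t : ℝ} {x : R3} (hm : Measurable (F t x))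
    (h0 : ∀ v, 0 ≤ F t x v) {C : ℝ≥0∞} (hC : C ≠ ⊤) (hb : ∀ v, up F t x v ≤ C * gs (1 / 8) v)
    (v : R3) : |Rr F t x v| ≤ C.toReal ^ 2 * (10 ^ 6 * (1 + ‖v‖)) := by
  have hfin : C * C * ENNReal.ofReal (10 ^ 6 * (1 + ‖v‖)) ≠ ⊤ :=
    ENNReal.mul_ne_top (ENNReal.mul_ne_top hC hC) ENNReal.ofReal_ne_top
  have h1 := ENNReal.toReal_mono hfin (grow0_gain_le hb v)
  have h2 : up F t x v * freq (up F t x) v ≤ C * C * ENNReal.ofReal (10 ^ 6 * (1 + ‖v‖)) := by
    rw [mul_assoc]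
    exact mul_le_mul' (grow0_le_C hb v) (grow0_freq_le hb v)
  have h3 := ENNReal.toReal_mono hfin h2
  have h4 : (C * C * ENNReal.ofReal (10 ^ 6 * (1 + ‖v‖))).toReal
      = C.toReal ^ 2 * (10 ^ 6 * (1 + ‖v‖)) := by
    rw [ENNReal.toReal_mul, ENNReal.toReal_mul, ENNReal.toReal_ofReal (by positivity), pow_two]
  rw [h4] at h1 h3
  rw [Rr, collGain_eq h0, collLoss_eq hm h0, abs_le]
  have h5 := ENNReal.toReal_nonneg (a := gain (up F t x) (up F t x) v)
  have h6 := ENNReal.toReal_nonneg (a := up F t x v * freq (up F t x) v)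
  constructor <;> linarith

lemma grow0_conc (n : R3) (δ : ℝ) : MeasurableSet {u : R3 | |inner ℝ n u| < δ ∧ ‖u‖ ≤ 2} :=
  (measurableSet_lt (f := fun u : R3 => |inner ℝ n u|) (by fun_prop) measurable_const).inter
    (measurableSet_le measurable_norm measurable_const)

lemma grow0_good (n : R3) (δ V : ℝ) : MeasurableSet {u : R3 | δ ≤ |inner ℝ n u| ∧ ‖u‖ ≤ V} :=
  (measurableSet_le (g := fun u : R3 => |inner ℝ n u|) measurable_const (by fun_prop)).inter
    (measurableSet_le measurable_norm measurable_const)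

/-- one collision of a good particle with a slow particle -/
lemma grow0_pair {n : R3} (hn : ‖n‖ = 1) {V δ : ℝ} (hV : 100 ≤ V) (hδ : 0 < δ) {ψ₀ : ℝ}
    (hψ₀ : 0 ≤ ψ₀) {χ ψ : R3 → ℝ} (hχ : ∀ v, |χ v| ≤ 1 / 20) (hψm : Measurable ψ)
    (hψ : ∀ v, ψ v = if δ ≤ |inner ℝ n v| ∧ ‖v‖ ≤ V then ψ₀ * Real.exp (χ v) else 0)
    {v vs : R3} (hv : δ ≤ |inner ℝ n v| ∧ ‖v‖ ≤ V) (hvs : ‖vs‖ ≤ 2) :
    ENNReal.ofReal (17 / 10) * ENNReal.ofReal (2 * Real.pi * ‖v - vs‖) * ENNReal.ofReal (ψ v) ≤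
      2 * (∫⁻ w, ENNReal.ofReal |inner ℝ (v - vs) w| * ENNReal.ofReal (ψ (postVel v vs w))
        ∂sphereMeasure) + ENNReal.ofReal (30 * δ) * ENNReal.ofReal (ψ v) := by
  have hpv : Measurable fun w => postVel v vs w :=
    (continuous_postVel.comp (f := fun w : R3 => (v, vs, w)) (by fun_prop)).measurable
  have ha : Measurable fun w : R3 => ENNReal.ofReal |inner ℝ (v - vs) w| := by fun_prop
  have hψ0 : 0 ≤ ψ v := by rw [hψ, if_pos hv]; positivity
  obtain ⟨J, hJ⟩ : ∃ J, J = ∫⁻ w, ENNReal.ofReal |inner ℝ (v - vs) w| *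
      ENNReal.ofReal (ψ (postVel v vs w)) ∂sphereMeasure := ⟨_, rfl⟩
  have h1 : ∀ u : R3, ENNReal.ofReal (9 / 10 * ψ v) ≤ ENNReal.ofReal (ψ u) +
      (ENNReal.ofReal (9 / 10 * ψ v) * (if |inner ℝ n u| < δ then (1 : ℝ≥0∞) else 0) +
        ENNReal.ofReal (9 / 10 * ψ v) * (if V < ‖u‖ then (1 : ℝ≥0∞) else 0)) := by
    intro u
    by_cases h2 : |inner ℝ n u| < δ
    · rw [if_pos h2, mul_one]
      exact le_add_left le_self_add
    by_cases h3 : V < ‖u‖
    · rw [if_pos h3, mul_one]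
      exact le_add_left le_add_self
    refine le_add_right (ENNReal.ofReal_le_ofReal ?_)
    rw [hψ u, if_pos ⟨not_lt.1 h2, not_lt.1 h3⟩, hψ v, if_pos hv, mul_left_comm]
    refine mul_le_mul_of_nonneg_left ?_ hψ₀
    have h4 : χ v - 1 / 10 ≤ χ u := by
      linarith [le_of_abs_le (hχ v), neg_le_of_abs_le (hχ u)]
    refine le_trans ?_ (Real.exp_le_exp.2 h4)
    rw [sub_eq_add_neg, Real.exp_add, mul_comm]
    refine mul_le_mul_of_nonneg_left ?_ (Real.exp_pos _).le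
    linarith [Real.add_one_le_exp (-(1 / 10) : ℝ)]
  have hm1 : Measurable fun w => ENNReal.ofReal |inner ℝ (v - vs) w| *
      (if |inner ℝ n (postVel v vs w)| < δ then (1 : ℝ≥0∞) else 0) :=
    ha.mul (Measurable.ite (measurableSet_lt (by fun_prop) measurable_const) measurable_const
      measurable_const)
  have hm2 : Measurable fun w => ENNReal.ofReal |inner ℝ (v - vs) w| *
      (if V < ‖postVel v vs w‖ then (1 : ℝ≥0∞) else 0) :=
    ha.mul (Measurable.ite (measurableSet_lt measurable_const hpv.norm) measurable_const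
      measurable_const)
  have h2 : ENNReal.ofReal (9 / 10 * ψ v) * ENNReal.ofReal (2 * Real.pi * ‖v - vs‖) ≤
      J + (ENNReal.ofReal (9 / 10 * ψ v) * ENNReal.ofReal (4 * Real.pi * δ) +
        ENNReal.ofReal (9 / 10 * ψ v) * ENNReal.ofReal (2 * Real.pi * ‖v - vs‖ / 20)) := by
    rw [← lintegral_abs_inner, ← lintegral_const_mul _ ha]
    refine le_trans (lintegral_mono (g := fun w =>
      ENNReal.ofReal |inner ℝ (v - vs) w| * ENNReal.ofReal (ψ (postVel v vs w)) +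
        (ENNReal.ofReal (9 / 10 * ψ v) * (ENNReal.ofReal |inner ℝ (v - vs) w| *
          (if |inner ℝ n (postVel v vs w)| < δ then (1 : ℝ≥0∞) else 0)) +
        ENNReal.ofReal (9 / 10 * ψ v) * (ENNReal.ofReal |inner ℝ (v - vs) w| *
          (if V < ‖postVel v vs w‖ then (1 : ℝ≥0∞) else 0)))) fun w => ?_) ?_
    · refine (mul_le_mul_left (h1 (postVel v vs w)) _).trans (le_of_eq ?_)
      ring
    · have hm0 : Measurable fun w => ENNReal.ofReal |inner ℝ (v - vs) w| *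
          ENNReal.ofReal (ψ (postVel v vs w)) := ha.mul (hψm.comp hpv).ennreal_ofReal
      rw [lintegral_add_left hm0,
        lintegral_add_left (hm1.const_mul _), lintegral_const_mul _ hm1, lintegral_const_mul _ hm2,
        hJ]
      gcongr
      · exact thin_out hn v vs hδ.le
      · exact fast_out hV hv.2 hvs
  rw [← hJ]
  by_cases hJt : J = ⊤
  · simp [hJt]
  lift J to NNReal using hJt
  have hpi := Real.pi_pos
  have hn0 := norm_nonneg (v - vs)
  rw [← ENNReal.ofReal_coe_nnreal] at h2 ⊢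
  rw [← ENNReal.ofReal_mul (by positivity), ← ENNReal.ofReal_mul (by positivity),
    ← ENNReal.ofReal_mul (by positivity), ← ENNReal.ofReal_add (by positivity) (by positivity),
    ← ENNReal.ofReal_add (by positivity) (by positivity),
    ENNReal.ofReal_le_ofReal_iff (by positivity)] at h2
  have h22 : 2 * ENNReal.ofReal (J : ℝ) = ENNReal.ofReal (2 * J) := by
    rw [ENNReal.ofReal_mul zero_le_two, ENNReal.ofReal_ofNat]
  rw [h22, ← ENNReal.ofReal_mul (by positivity), ← ENNReal.ofReal_mul (by positivity),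
    ← ENNReal.ofReal_mul (by positivity), ← ENNReal.ofReal_add (by positivity) (by positivity)]
  refine ENNReal.ofReal_le_ofReal ?_
  have h3 : Real.pi * (δ * ψ v) ≤ 4 * (δ * ψ v) :=
    mul_le_mul_of_nonneg_right Real.pi_le_four (by positivity)
  have h4 : 0 ≤ Real.pi * ‖v - vs‖ * ψ v := by positivity
  have h5 : 0 ≤ δ * ψ v := by positivity
  linarith

/-- the outgoing weight -/
noncomputable def grow0_J (ψ : R3 → ℝ) (v vs : R3) : ℝ≥0∞ :=
  ∫⁻ w, ENNReal.ofReal |inner ℝ (v - vs) w| * ENNReal.ofReal (ψ (postVel v vs w)) ∂sphereMeasure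

lemma grow0_J_meas {ψ : R3 → ℝ} (hψm : Measurable ψ) :
    Measurable fun p : R3 × R3 => grow0_J ψ p.1 p.2 := by
  have h1 : Measurable fun z : (R3 × R3) × R3 => postVel z.1.1 z.1.2 z.2 :=
    (continuous_postVel.comp (f := fun z : (R3 × R3) × R3 => (z.1.1, z.1.2, z.2))
      (by fun_prop)).measurable
  have h2 : Measurable fun z : (R3 × R3) × R3 => ENNReal.ofReal |inner ℝ (z.1.1 - z.1.2) z.2| := by
    fun_prop
  have h3 : Measurable fun z : (R3 × R3) × R3 => ENNReal.ofReal |inner ℝ (z.1.1 - z.1.2) z.2| *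
      ENNReal.ofReal (ψ (postVel z.1.1 z.1.2 z.2)) := h2.mul (hψm.comp h1).ennreal_ofReal
  exact h3.lintegral_prod_right'

lemma grow0_point {f : R3 → ℝ≥0∞} (hf : Measurable f) {n : R3} (hn : ‖n‖ = 1) {V δ : ℝ}
    (hV : 100 ≤ V) (hδ : 0 < δ) {ψ₀ : ℝ} (hψ₀ : 0 ≤ ψ₀) {χ ψ : R3 → ℝ} (hχ : ∀ v, |χ v| ≤ 1 / 20)
    (hψm : Measurable ψ)
    (hψ : ∀ v, ψ v = if δ ≤ |inner ℝ n v| ∧ ‖v‖ ≤ V then ψ₀ * Real.exp (χ v) else 0)
    {fc : R3 → ℝ≥0∞} (hcm : Measurable fc)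
    (hfc : ∀ u, fc u = if |inner ℝ n u| < δ ∧ ‖u‖ ≤ 2 then f u else 0) {v : R3}
    (hv : δ ≤ |inner ℝ n v| ∧ ‖v‖ ≤ V) :
    ENNReal.ofReal (17 / 10) * freq fc v * f v * ENNReal.ofReal (ψ v) ≤
      2 * (∫⁻ vs, f v * fc vs * grow0_J ψ v vs) +
        ENNReal.ofReal (30 * δ) * (∫⁻ u, f u) * f v * ENNReal.ofReal (ψ v) := by
  have h3 : Measurable fun vs => ENNReal.ofReal (2 * Real.pi * ‖v - vs‖) * fc vs :=
    Measurable.mul (by fun_prop) hcm
  have h0 : Measurable fun vs => grow0_J ψ v vs := (grow0_J_meas hψm).of_uncurry_left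
  have h4 : Measurable fun vs => f v * fc vs * grow0_J ψ v vs := (hcm.const_mul _).mul h0
  have e1 : ENNReal.ofReal (17 / 10) * freq fc v * f v * ENNReal.ofReal (ψ v) =
      ∫⁻ vs, (ENNReal.ofReal (17 / 10) * f v * ENNReal.ofReal (ψ v)) *
        (ENNReal.ofReal (2 * Real.pi * ‖v - vs‖) * fc vs) := by
    rw [lintegral_const_mul _ h3, freq]
    ring
  have e2 : ENNReal.ofReal (30 * δ) * (∫⁻ u, f u) * f v * ENNReal.ofReal (ψ v) =
      ∫⁻ vs, (ENNReal.ofReal (30 * δ) * f v * ENNReal.ofReal (ψ v)) * f vs := by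
    rw [lintegral_const_mul _ hf]
    ring
  rw [e1, e2, ← lintegral_const_mul _ h4, ← lintegral_add_left (h4.const_mul 2)]
  refine lintegral_mono fun vs => ?_
  by_cases hvs : |inner ℝ n vs| < δ ∧ ‖vs‖ ≤ 2
  swap
  · have h5 : fc vs = 0 := by rw [hfc, if_neg hvs]
    simp [h5]
  have h5 : fc vs = f vs := by rw [hfc, if_pos hvs]
  have h6 : ENNReal.ofReal (17 / 10) * ENNReal.ofReal (2 * Real.pi * ‖v - vs‖) *
      ENNReal.ofReal (ψ v) ≤ 2 * grow0_J ψ v vs + ENNReal.ofReal (30 * δ) * ENNReal.ofReal (ψ v) :=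
    grow0_pair hn hV hδ hψ₀ hχ hψm hψ hv hvs.2
  have h7 := mul_le_mul_right h6 (f v * f vs)
  rw [h5]
  refine le_trans (le_of_eq ?_) (h7.trans (le_of_eq ?_)) <;> ring

lemma grow0_key {f : R3 → ℝ≥0∞} (hf : Measurable f) {n : R3} (hn : ‖n‖ = 1) {V δ : ℝ}
    (hV : 100 ≤ V) (hδ : 0 < δ) {ψ₀ : ℝ} (hψ₀ : 0 ≤ ψ₀) {χ ψ : R3 → ℝ} (hχ : ∀ v, |χ v| ≤ 1 / 20)
    (hψm : Measurable ψ)
    (hψ : ∀ v, ψ v = if δ ≤ |inner ℝ n v| ∧ ‖v‖ ≤ V then ψ₀ * Real.exp (χ v) else 0) :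
    ∫⁻ v, ENNReal.ofReal (17 / 10) *
        freq (fun u => if |inner ℝ n u| < δ ∧ ‖u‖ ≤ 2 then f u else 0) v * f v *
        ENNReal.ofReal (ψ v) ≤
      ∫⁻ v, (gain f f v * ENNReal.ofReal (ψ v) +
        ENNReal.ofReal (30 * δ) * (∫⁻ u, f u) * f v * ENNReal.ofReal (ψ v)) := by
  obtain ⟨fc, hfc⟩ : ∃ fc : R3 → ℝ≥0∞,
      fc = fun u => if |inner ℝ n u| < δ ∧ ‖u‖ ≤ 2 then f u else 0 := ⟨_, rfl⟩
  obtain ⟨fg, hfg⟩ : ∃ fg : R3 → ℝ≥0∞,
      fg = fun u => if δ ≤ |inner ℝ n u| ∧ ‖u‖ ≤ V then f u else 0 := ⟨_, rfl⟩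
  have hcm : Measurable fc := by
    rw [hfc]; exact Measurable.ite (grow0_conc n δ) hf measurable_const
  have hgm : Measurable fg := by
    rw [hfg]; exact Measurable.ite (grow0_good n δ V) hf measurable_const
  have hΨ : Measurable fun v => ENNReal.ofReal (ψ v) := hψm.ennreal_ofReal
  have hle : ∀ u, fg u + fc u ≤ f u := fun u => by
    rw [hfc, hfg]
    dsimp only
    split_ifs with h1 h2
    · exact absurd h2.1 (not_lt.2 h1.1)
    all_goals simp
  have hG : ∀ v, 2 * gain fg fc v ≤ gain f f v := fun v => by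
    refine le_trans ?_ (gain_mono hle hle v)
    rw [gain_add_add hgm hcm]
    exact le_add_right le_add_self
  have hGm : Measurable fun v => gain fg fc v :=
    measurable_gain (f := fun _ => fg) (g := fun _ => fc) (hgm.comp measurable_snd)
      (hcm.comp measurable_snd) measurable_id
  have hGm' : Measurable fun v => gain f f v :=
    measurable_gain (f := fun _ => f) (g := fun _ => f) (hf.comp measurable_snd)
      (hf.comp measurable_snd) measurable_id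
  have hI0 : Measurable fun p : R3 × R3 => fg p.1 * fc p.2 * grow0_J ψ p.1 p.2 :=
    ((hgm.comp measurable_fst).mul (hcm.comp measurable_snd)).mul (grow0_J_meas hψm)
  have hIm : Measurable fun v => ∫⁻ vs, fg v * fc vs * grow0_J ψ v vs := hI0.lintegral_prod_right'
  have hGΨ' : Measurable fun v => gain f f v * ENNReal.ofReal (ψ v) := hGm'.mul hΨ
  have hGΨ : Measurable fun v => gain fg fc v * ENNReal.ofReal (ψ v) := hGm.mul hΨ
  have h0 : ∫⁻ v, gain fg fc v * ENNReal.ofReal (ψ v) =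
      ∫⁻ v, ∫⁻ vs, fg v * fc vs * grow0_J ψ v vs := lintegral_gain_mul hgm hcm hΨ
  rw [← hfc, lintegral_add_left hGΨ']
  have h1 : ∫⁻ v, 2 * ∫⁻ vs, fg v * fc vs * grow0_J ψ v vs ≤
      ∫⁻ v, gain f f v * ENNReal.ofReal (ψ v) := by
    rw [lintegral_const_mul _ hIm, ← h0, ← lintegral_const_mul _ hGΨ]
    refine lintegral_mono fun v => ?_
    rw [← mul_assoc]
    exact mul_le_mul_left (hG v) _
  refine le_trans ?_ (add_le_add h1 le_rfl)
  rw [← lintegral_add_left (hIm.const_mul 2)]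
  refine lintegral_mono fun v => ?_
  by_cases hv : δ ≤ |inner ℝ n v| ∧ ‖v‖ ≤ V
  swap
  · rw [hψ v, if_neg hv]
    simp
  have h2 : fg v = f v := by rw [hfg]; exact if_pos hv
  rw [h2]
  exact grow0_point hf hn hV hδ hψ₀ hχ hψm hψ hcm (fun u => by rw [hfc]) hv

end Crest.Agent.R068
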