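import Crest.Agent.R068.Per
import Crest.Agent.R068.Gauss

/-! Row 68: Guo's double Duhamel estimate. -/

set_option autoImplicit false
open MeasureTheory Set Filter Topology
open scoped ENNReal
open Crest.AnalysisR.VecCalc3 Crest.AnalysisR.PDE.Boltzmann

namespace Crest.Agent.R068

lemma guo_Kop_mono {g g' : R3 → ℝ≥0∞} (h : ∀ u, g u ≤ g' u) (v : R3) : Kop g v ≤ Kop g' v := by
  unfold Kop
  exact add_le_add (mul_le_mul_right (gain_mono (fun _ => le_rfl) h v) _)
    (mul_le_mul_right (freq_mono h v) _)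

lemma guo_Kop_const_mul {g : R3 → ℝ≥0∞} (hg : Measurable g) (c : ℝ≥0∞) (v : R3) :
    Kop (fun u => c * g u) v = c * Kop g v := by
  unfold Kop
  rw [gain_const_mul_right measurable_mu hg, freq_const_mul hg]
  ring

lemma guo_gain_mu_gs {a : ℝ} (ha : 1 / 100 ≤ a) (ha' : a ≤ 1 / 4) (v : R3) :
    gain mu (gs a) v ≤ 10 ^ 7 * gs a v :=
  (gain_mono mu_le_gs (fun _ => le_rfl) v).trans (gain_gs_gs_le ha (by linarith) v)

lemma Kop_gs_le (v : R3) : Kop (gs (1 / 8)) v ≤ 10 ^ 9 * gs (1 / 8) v := by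
  unfold Kop
  have h1 := guo_gain_mu_gs (a := 1 / 8) (by norm_num) (by norm_num) v
  have h2 : mu v * freq (gs (1 / 8)) v ≤ 10 ^ 6 * (100 * gs (1 / 8) v) := by
    calc mu v * freq (gs (1 / 8)) v
        ≤ gs (1 / 2) v * ENNReal.ofReal (10 ^ 6 * (1 + ‖v‖)) :=
          mul_le_mul' (mu_le_gs v) (freq_gs_le (by norm_num) v)
      _ = 10 ^ 6 * (ENNReal.ofReal (1 + ‖v‖) * gs (1 / 2) v) := by
          rw [ENNReal.ofReal_mul (by norm_num), ENNReal.ofReal_pow (by norm_num),
            ENNReal.ofReal_ofNat]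
          ring
      _ ≤ _ := mul_le_mul_right (weight_absorb (by norm_num) v) _
  calc _ ≤ 2 * (10 ^ 7 * gs (1 / 8) v) + 10 ^ 6 * (100 * gs (1 / 8) v) :=
        add_le_add (mul_le_mul_right h1 _) h2
    _ = (2 * 10 ^ 7 + 10 ^ 6 * 100) * gs (1 / 8) v := by ring
    _ ≤ _ := mul_le_mul_left (by norm_num) _

lemma guo_Kop_le {g : R3 → ℝ≥0∞} {β : ℝ≥0∞} (h : ∀ u, g u ≤ β * gs (1 / 8) u) (v : R3) :
    Kop g v ≤ β * (10 ^ 9 * gs (1 / 8) v) :=
  (guo_Kop_mono h v).trans (by
    rw [guo_Kop_const_mul (measurable_gs _)]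
    exact mul_le_mul_right (Kop_gs_le v) _)

lemma guo_gain_ball (v : R3) {κ : ℝ} (hκ : 0 ≤ κ) :
    gain mu (fun u => if ‖u - v‖ ≤ κ then (1:ℝ≥0∞) else 0) v ≤ ENNReal.ofReal (80000 * κ ^ 2) := by
  have hm : Measurable (fun u : R3 => if ‖u - v‖ ≤ κ then (1:ℝ≥0∞) else 0) :=
    Measurable.ite (measurableSet_le (by fun_prop) measurable_const) measurable_const
      measurable_const
  refine (gain_le_pot (Ψ := fun _ => ENNReal.ofReal (4 * κ ^ 2)) measurable_mu hm measurable_const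
    fun w a hw _ _ => plane_ball v v hw hκ).trans ?_
  calc 2 * pot (fun η => mu η * ENNReal.ofReal (4 * κ ^ 2)) v
      ≤ 2 * pot (fun η => ENNReal.ofReal (4 * κ ^ 2) * gs (1 / 2) η) v :=
        mul_le_mul_right (pot_mono (fun η => by
          rw [mul_comm]; exact mul_le_mul_right (mu_le_gs η) _) v) _
    _ ≤ 2 * (ENNReal.ofReal (4 * κ ^ 2) * 10000) := by
        rw [pot_const_mul (measurable_gs _)]
        exact mul_le_mul_right (mul_le_mul_right (pot_gs_le (by norm_num) v) _) _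
    _ = _ := by
        rw [show 80000 * κ ^ 2 = 2 * (4 * κ ^ 2 * 10000) by ring,
          ENNReal.ofReal_mul (p := 2) (by norm_num), ENNReal.ofReal_mul (p := 4 * κ ^ 2) (by positivity),
          ENNReal.ofReal_ofNat, ENNReal.ofReal_ofNat]

lemma guo_gain_far {g : R3 → ℝ≥0∞} (hg : Measurable g) {v : R3} {κ : ℝ} (hκ : 0 < κ)
    (h : ∀ u, g u ≠ 0 → κ ≤ ‖v - u‖) :
    gain mu g v ≤ ENNReal.ofReal (4 * Real.pi / κ) * ∫⁻ u, g u := by
  rw [gain_comm measurable_mu hg]
  refine (gain_le_pot (Ψ := fun _ => ENNReal.ofReal (2 * Real.pi)) hg measurable_mu measurable_const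
    fun w a hw _ _ => ?_).trans ?_
  · refine (plane_mono mu_le_gs v w).trans ?_
    rw [plane_gs (by norm_num) v hw]
    refine ENNReal.ofReal_le_ofReal ?_
    have h1 : Real.exp (-(1 / 2 * (inner ℝ v w) ^ 2)) ≤ 1 :=
      Real.exp_le_one_iff.2 (by have := sq_nonneg (inner ℝ v w : ℝ); linarith)
    have := Real.pi_pos
    nlinarith
  · have e : (fun η => g η * ENNReal.ofReal (2 * Real.pi)) =
        fun η => ENNReal.ofReal (2 * Real.pi) * g η := by funext η; rw [mul_comm]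
    rw [e, pot_const_mul hg]
    calc 2 * (ENNReal.ofReal (2 * Real.pi) * pot g v)
        ≤ 2 * (ENNReal.ofReal (2 * Real.pi) * (ENNReal.ofReal κ⁻¹ * ∫⁻ u, g u)) :=
          mul_le_mul_right (mul_le_mul_right (pot_le_of_far hg hκ h) _) _
      _ = _ := by
          have := Real.pi_pos
          rw [show 4 * Real.pi / κ = 2 * (2 * Real.pi * κ⁻¹) by ring,
            ENNReal.ofReal_mul (p := 2) (q := 2 * Real.pi * κ⁻¹) (by norm_num),
            ENNReal.ofReal_mul (p := 2 * Real.pi) (by positivity), ENNReal.ofReal_ofNat]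
          ring

lemma guo_split_aux {e ρ : ℝ} (he : 0 < e) (hρ : 0 ≤ ρ) : ∃ ρ' C : ℝ, 0 < ρ' ∧ 0 ≤ C ∧
    ∀ (β : ℝ≥0∞) (g : R3 → ℝ≥0∞), Measurable g → (∀ u, g u ≤ β * gs (1 / 8) u) → ∀ v : R3,
    ‖v‖ ≤ ρ → Kop g v ≤ ENNReal.ofReal e * β +
      ENNReal.ofReal C * ∫⁻ u in Metric.closedBall (0:R3) ρ', g u := by
  have hpi := Real.pi_pos
  set κ := Real.sqrt (e / 320000) with hκdef
  have hκ : 0 < κ := Real.sqrt_pos.2 (by positivity)
  have hκ2 : κ ^ 2 = e / 320000 := Real.sq_sqrt (by positivity)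
  set M : ℝ := 2 * 10 ^ 7 + 10 ^ 6 * (1 + ρ) with hM
  have hM0 : 0 < M := by positivity
  set ρ' := Real.sqrt (32 * M / e) with hρ'def
  have hρ' : 0 < ρ' := Real.sqrt_pos.2 (by positivity)
  have hρ'2 : ρ' ^ 2 = 32 * M / e := Real.sq_sqrt (by positivity)
  set E := Real.exp (-((1 / 8 - 1 / 16) * ρ' ^ 2)) with hE
  have hE0 : 0 < E := Real.exp_pos _
  have hEM : E * M ≤ e / 2 := by
    have h1 : (1 / 8 - 1 / 16) * ρ' ^ 2 = 2 * M / e := by rw [hρ'2]; ring
    have h2 : 2 * M / e ≤ Real.exp (2 * M / e) := by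
      have := Real.add_one_le_exp (2 * M / e); linarith
    rw [hE, h1, Real.exp_neg, inv_mul_le_iff₀ (Real.exp_pos _)]
    calc M = 2 * M / e * (e / 2) := by field_simp
      _ ≤ _ := by gcongr
  refine ⟨ρ', 8 * Real.pi / κ + 2 * Real.pi * (ρ + ρ'), hρ', by positivity,
    fun β g hg hgβ v hv => ?_⟩
  set I := ∫⁻ u in Metric.closedBall (0:R3) ρ', g u with hI
  have hext : ∀ u, ρ' < ‖u‖ → g u ≤ β * ENNReal.ofReal E * gs (1 / 16) u := fun u hu => by
    rw [mul_assoc]
    exact (hgβ u).trans (mul_le_mul_right (gs_tail (by norm_num) hρ'.le hu.le) _)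
  have hmb : Measurable (fun u : R3 => if ‖u - v‖ ≤ κ then (1:ℝ≥0∞) else 0) :=
    Measurable.ite (measurableSet_le (by fun_prop) measurable_const) measurable_const
      measurable_const
  have hm2 : Measurable (fun u : R3 => if κ < ‖u - v‖ ∧ ‖u‖ ≤ ρ' then g u else 0) :=
    Measurable.ite ((measurableSet_lt (f := fun _ : R3 => κ) (g := fun u => ‖u - v‖)
      measurable_const (by fun_prop)).inter
      (measurableSet_le (f := fun u : R3 => ‖u‖) (g := fun _ => ρ') (by fun_prop) measurable_const))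
      hg measurable_const
  have hm3 : Measurable ((Metric.closedBall (0:R3) ρ').indicator g) :=
    hg.indicator Metric.isClosed_closedBall.measurableSet
  have hI' : ∫⁻ u, (Metric.closedBall (0:R3) ρ').indicator g u = I :=
    lintegral_indicator Metric.isClosed_closedBall.measurableSet _
  have hgain : gain mu g v ≤ β * ENNReal.ofReal (80000 * κ ^ 2) + β * ENNReal.ofReal E * 10 ^ 7 +
      ENNReal.ofReal (4 * Real.pi / κ) * I := by
    have h1 : ∀ u, g u ≤ β * (if ‖u - v‖ ≤ κ then (1:ℝ≥0∞) else 0) +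
        β * ENNReal.ofReal E * gs (1 / 16) u + (if κ < ‖u - v‖ ∧ ‖u‖ ≤ ρ' then g u else 0) := by
      intro u
      by_cases h1 : ‖u - v‖ ≤ κ
      · rw [if_pos h1]
        exact le_add_right (le_add_right ((hgβ u).trans
          (mul_le_mul_right (gs_le_one (by norm_num) u) _)))
      · by_cases h2 : ‖u‖ ≤ ρ'
        · rw [if_pos (show κ < ‖u - v‖ ∧ ‖u‖ ≤ ρ' from ⟨not_le.1 h1, h2⟩)]
          exact le_add_left le_rfl
        · exact le_add_right (le_add_left (hext u (not_le.1 h2)))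
    refine (gain_mono (fun _ => le_rfl) h1 v).trans ?_
    rw [gain_add_right measurable_mu ((hmb.const_mul _).fun_add ((measurable_gs _).const_mul _)) hm2,
      gain_add_right measurable_mu (hmb.const_mul _) ((measurable_gs _).const_mul _),
      gain_const_mul_right measurable_mu hmb, gain_const_mul_right measurable_mu (measurable_gs _)]
    refine add_le_add (add_le_add (mul_le_mul_right (guo_gain_ball v hκ.le) _)
      (mul_le_mul_right ?_ _)) ?_
    · refine (guo_gain_mu_gs (by norm_num) (by norm_num) v).trans ?_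
      exact (mul_le_mul_right (gs_le_one (by norm_num) v) _).trans (mul_one _).le
    · refine (guo_gain_far hm2 hκ fun u hu => ?_).trans (mul_le_mul_right ?_ _)
      · by_contra hc
        refine hu (if_neg fun h => hc ?_)
        rw [norm_sub_rev]; exact h.1.le
      · rw [← hI']
        refine lintegral_mono fun u => ?_
        split_ifs with h
        · rw [indicator_of_mem (by simpa using h.2)]
        · exact zero_le
  have hfreq : mu v * freq g v ≤ β * ENNReal.ofReal E * ENNReal.ofReal (10 ^ 6 * (1 + ρ)) +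
      ENNReal.ofReal (2 * Real.pi * (ρ + ρ')) * I := by
    have h0 : mu v ≤ 1 := (mu_le_gs v).trans (gs_le_one (by norm_num) v)
    refine (mul_le_mul_left h0 _).trans ?_
    rw [one_mul]
    have h1 : ∀ u, g u ≤ β * ENNReal.ofReal E * gs (1 / 16) u +
        (Metric.closedBall (0:R3) ρ').indicator g u := by
      intro u
      by_cases h2 : ‖u‖ ≤ ρ'
      · rw [indicator_of_mem (by simpa using h2)]
        exact le_add_left le_rfl
      · exact le_add_right (hext u (not_le.1 h2))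
    refine (freq_mono h1 v).trans ?_
    rw [freq_add ((measurable_gs _).const_mul _) hm3, freq_const_mul (measurable_gs _)]
    refine add_le_add (mul_le_mul_right ((freq_gs_le (by norm_num) v).trans
      (ENNReal.ofReal_le_ofReal (by gcongr))) _) ?_
    rw [← hI', ← lintegral_const_mul _ hm3]
    refine lintegral_mono fun u => ?_
    by_cases h2 : ‖u‖ ≤ ρ'
    · refine mul_le_mul_left (ENNReal.ofReal_le_ofReal ?_) _
      have := norm_sub_le v u
      gcongr
      linarith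
    · rw [indicator_of_notMem (by simpa using h2), mul_zero, mul_zero]
  unfold Kop
  refine (add_le_add (mul_le_mul_right hgain _) hfreq).trans ?_
  have e1 : 2 * ENNReal.ofReal (80000 * κ ^ 2) + 2 * ENNReal.ofReal E * 10 ^ 7 +
      ENNReal.ofReal E * ENNReal.ofReal (10 ^ 6 * (1 + ρ)) ≤ ENNReal.ofReal e := by
    have : 2 * ENNReal.ofReal (80000 * κ ^ 2) + 2 * ENNReal.ofReal E * 10 ^ 7 +
      ENNReal.ofReal E * ENNReal.ofReal (10 ^ 6 * (1 + ρ)) =
        ENNReal.ofReal (2 * (80000 * κ ^ 2) + 2 * E * 10 ^ 7 + E * (10 ^ 6 * (1 + ρ))) := by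
      rw [ENNReal.ofReal_add (by positivity) (by positivity),
        ENNReal.ofReal_add (by positivity) (by positivity),
        ENNReal.ofReal_mul (p := 2) (by norm_num), ENNReal.ofReal_mul (p := 2 * E) (by positivity),
        ENNReal.ofReal_mul (p := 2) (by norm_num), ENNReal.ofReal_mul (p := E) hE0.le,
        ENNReal.ofReal_pow (by norm_num), ENNReal.ofReal_ofNat, ENNReal.ofReal_ofNat]
    rw [this]
    refine ENNReal.ofReal_le_ofReal ?_
    rw [hκ2]
    rw [hM] at hEM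
    linarith
  have e2 : ENNReal.ofReal (8 * Real.pi / κ + 2 * Real.pi * (ρ + ρ')) =
      2 * ENNReal.ofReal (4 * Real.pi / κ) + ENNReal.ofReal (2 * Real.pi * (ρ + ρ')) := by
    rw [ENNReal.ofReal_add (by positivity) (by positivity),
      show 8 * Real.pi / κ = 2 * (4 * Real.pi / κ) by ring,
      ENNReal.ofReal_mul (p := 2) (by norm_num), ENNReal.ofReal_ofNat]
  rw [e2]
  calc _ = (2 * ENNReal.ofReal (80000 * κ ^ 2) + 2 * ENNReal.ofReal E * 10 ^ 7 +
      ENNReal.ofReal E * ENNReal.ofReal (10 ^ 6 * (1 + ρ))) * β +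
      (2 * ENNReal.ofReal (4 * Real.pi / κ) + ENNReal.ofReal (2 * Real.pi * (ρ + ρ'))) * I := by ring
    _ ≤ _ := add_le_add (mul_le_mul_left e1 _) le_rfl

lemma guo_gs_ge {ρ : ℝ} {v : R3} (hv : ‖v‖ ≤ ρ) :
    ENNReal.ofReal (Real.exp (-(1 / 8 * ρ ^ 2))) ≤ gs (1 / 8) v := by
  refine ENNReal.ofReal_le_ofReal (Real.exp_le_exp.2 ?_)
  have : ‖v‖ ^ 2 ≤ ρ ^ 2 := by gcongr
  linarith

/-- on bounded velocities `𝒦` is a bounded kernel up to a small error -/
lemma Kop_split {e ρ : ℝ} (he : 0 < e) : ∃ ρ' C : ℝ, 0 < ρ' ∧ 0 ≤ C ∧ ∀ (β : ℝ≥0∞) (g : R3 → ℝ≥0∞),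
    Measurable g → (∀ u, g u ≤ β * gs (1 / 8) u) → ∀ v : R3, ‖v‖ ≤ ρ →
    Kop g v ≤ ENNReal.ofReal e * β * gs (1 / 8) v +
      ENNReal.ofReal C * ∫⁻ u in Metric.closedBall (0:R3) ρ', g u := by
  obtain ⟨ρ', C, h1, h2, h3⟩ := guo_split_aux (e := e * Real.exp (-(1 / 8 * ρ ^ 2))) (ρ := |ρ|)
    (by positivity) (abs_nonneg ρ)
  refine ⟨ρ', C, h1, h2, fun β g hg hb v hv => (h3 β g hg hb v (hv.trans (le_abs_self ρ))).trans ?_⟩
  refine add_le_add ?_ le_rfl
  rw [ENNReal.ofReal_mul he.le, mul_right_comm]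
  exact mul_le_mul_right (guo_gs_ge hv) _

lemma guo_Ed_le {s t : ℝ} (h : s ≤ t) (v : R3) : Ed s t v ≤ Ed s t 0 := by
  refine ENNReal.ofReal_le_ofReal (Real.exp_le_exp.2 ?_)
  have := mul_nonneg (norm_nonneg v) (sub_nonneg.2 h)
  rw [norm_zero]
  linarith

lemma guo_Ed_le_one {s t : ℝ} (h : s ≤ t) (v : R3) : Ed s t v ≤ 1 := by
  refine ENNReal.ofReal_le_one.2 (Real.exp_le_one_iff.2 ?_)
  have : 0 ≤ (1 + ‖v‖) * (t - s) := mul_nonneg (by positivity) (sub_nonneg.2 h)
  linarith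

lemma guo_meas_Ed (t : ℝ) (v : R3) : Measurable fun r => Ed r t v := by
  unfold Ed
  fun_prop

lemma guo_int_Ed (s t : ℝ) (v : R3) : ∫⁻ r in Ioo s t, Ed r t v ≤ 1 := by
  refine le_trans (lintegral_mono fun r => ?_) (lintegral_Ed s t v)
  refine le_mul_of_one_le_right' (ENNReal.one_le_ofReal.2 ?_)
  have := norm_nonneg v
  linarith

lemma guo_duh {s s' t : ℝ} (hs : s' ≤ t) {v : R3} {F : ℝ → ℝ≥0∞} {B : ℝ≥0∞}
    (h : ∀ r ∈ Ioo s s', F r ≤ Ed r t v * B) : ∫⁻ r in Ioo s s', F r ≤ B := by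
  refine (setLIntegral_mono' measurableSet_Ioo h).trans ?_
  rw [lintegral_mul_const _ (guo_meas_Ed t v)]
  refine (mul_le_mul_left ((lintegral_mono_set (Ioo_subset_Ioo_right hs)).trans
    (guo_int_Ed s t v)) _).trans (one_mul _).le

lemma guo_scale {F : R3 → ℝ≥0∞} (hF : Measurable F) (hp : IsPeriodic3 F) (y : R3) {τ ϑ R : ℝ}
    (hϑ : 0 < ϑ) (hτ : ϑ ≤ τ) (hR : 0 ≤ R) :
    ∫⁻ η in Metric.closedBall (0:R3) R, F (y - τ • η) ≤
      ENNReal.ofReal ((2 * R + 5 / ϑ) ^ 3) * ∫⁻ x in cell, F x := by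
  have hτ0 : 0 < τ := hϑ.trans_le hτ
  have hb : MeasurableSet (Metric.closedBall y (τ * R)) := Metric.isClosed_closedBall.measurableSet
  have hΦ : Measurable ((Metric.closedBall y (τ * R)).indicator F) := hF.indicator hb
  have h1 : ∫⁻ η in Metric.closedBall (0:R3) R, F (y - τ • η) ≤
      ∫⁻ η, (Metric.closedBall y (τ * R)).indicator F (y - τ • η) := by
    refine le_trans (setLIntegral_mono' Metric.isClosed_closedBall.measurableSet fun η hη => ?_)
      (setLIntegral_le_lintegral (Metric.closedBall (0:R3) R) _)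
    rw [indicator_of_mem]
    rw [mem_closedBall_zero_iff] at hη
    rw [Metric.mem_closedBall, dist_eq_norm, sub_sub_cancel_left, norm_neg, norm_smul,
      Real.norm_of_nonneg hτ0.le]
    gcongr
  have h2 : ∫⁻ η, (Metric.closedBall y (τ * R)).indicator F (y - τ • η) =
      ENNReal.ofReal (τ ^ 3)⁻¹ * ∫⁻ x in Metric.closedBall y (τ * R), F x := by
    have := lintegral_map (μ := (volume : Measure R3))
      (f := fun w => (Metric.closedBall y (τ * R)).indicator F (y - w)) (g := (τ • ·))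
      (hΦ.comp (by fun_prop)) (by fun_prop)
    rw [← this, Measure.map_addHaar_smul _ hτ0.ne', lintegral_smul_measure,
      lintegral_sub_left_eq_self _ y, lintegral_indicator hb, finrank_euclideanSpace_fin,
      abs_of_pos (by positivity), smul_eq_mul]
  refine h1.trans ?_
  rw [h2]
  refine (mul_le_mul_right (lintegral_ball_le hF hp y (by positivity)) _).trans ?_
  rw [← mul_assoc, ← ENNReal.ofReal_mul (by positivity)]
  refine mul_le_mul_left (ENNReal.ofReal_le_ofReal ?_) _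
  calc (τ ^ 3)⁻¹ * (2 * (τ * R) + 5) ^ 3 = (2 * R + 5 / τ) ^ 3 := by field_simp
    _ ≤ _ := by gcongr

lemma guo_J {c ϑ e₂ Cc Rb Rc δ t₂ T : ℝ} {h g : TF} (hϑ : 0 < ϑ) (hRb : 0 ≤ Rb)
    (hsplit : ∀ (β : ℝ≥0∞) (g : R3 → ℝ≥0∞), Measurable g → (∀ u, g u ≤ β * gs (1 / 8) u) →
      ∀ v : R3, ‖v‖ ≤ Rb → Kop g v ≤ ENNReal.ofReal e₂ * β * gs (1 / 8) v +
        ENNReal.ofReal Cc * ∫⁻ u in Metric.closedBall (0:R3) Rc, g u)
    (hg : MeasT g) (hp : PerT g)
    (h1 : ∀ s, t₂ < s → ∀ x v, g s x v ≤ ENNReal.ofReal δ * gs (1 / 8) v)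
    (h2 : ∀ s, t₂ < s → ∀ x v, g s x v ≤ h s x v)
    (h3 : ∀ t, t₂ < t → ∀ x v, h t x v ≤ ENNReal.ofReal (c * δ) * gs (1 / 8) v +
      ∫⁻ s in Ioo t₂ t, Ed s t v * Kop (g s (x - (t - s) • v)) v)
    (h4 : ∀ s ∈ Ioo t₂ T, (∫⁻ q in cell ×ˢ univ, g s q.1 q.2 ∂(volume : Measure (R3 × R3))) ≤
      ENNReal.ofReal (c * δ))
    {s : ℝ} (hs : t₂ < s) (hsT : s ≤ T + ϑ) (y : R3) :
    ∫⁻ η in Metric.closedBall (0:R3) Rb, g s y η ≤
      (ENNReal.ofReal (c * δ) + ENNReal.ofReal e₂ * ENNReal.ofReal δ +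
        ENNReal.ofReal δ * 10 ^ 9 * ENNReal.ofReal ϑ) * (∫⁻ u, gs (1 / 8) u) +
      ENNReal.ofReal Cc * (ENNReal.ofReal ((2 * Rb + 5 / ϑ) ^ 3) * ENNReal.ofReal (c * δ)) := by
  set G : ℝ → R3 → ℝ≥0∞ := fun r z => ∫⁻ ξ, g r z ξ with hG
  have hGm : Measurable fun p : ℝ × R3 => G p.1 p.2 :=
    Measurable.lintegral_prod_right' (f := fun q : (ℝ × R3) × R3 => g q.1.1 q.1.2 q.2)
      (hg.comp (by fun_prop) (by fun_prop) (by fun_prop))
  have hpt : ∀ η ∈ Metric.closedBall (0:R3) Rb, g s y η ≤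
      (ENNReal.ofReal (c * δ) + ENNReal.ofReal e₂ * ENNReal.ofReal δ +
        ENNReal.ofReal δ * 10 ^ 9 * ENNReal.ofReal ϑ) * gs (1 / 8) η +
      ENNReal.ofReal Cc * ∫⁻ r in Ioo t₂ (s - ϑ), Ed r s 0 * G r (y - (s - r) • η) := by
    intro η hη
    rw [mem_closedBall_zero_iff] at hη
    refine (h2 s hs y η).trans ((h3 s hs y η).trans ?_)
    have hsub : Ioo t₂ s ⊆ Ioo t₂ (s - ϑ) ∪ (Ioo t₂ s ∩ Ici (s - ϑ)) := fun r hr => by
      rcases lt_or_ge r (s - ϑ) with h | h
      · exact Or.inl ⟨hr.1, h⟩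
      · exact Or.inr ⟨hr, h⟩
    have hA : ∫⁻ r in Ioo t₂ (s - ϑ), Ed r s η * Kop (g r (y - (s - r) • η)) η ≤
        ENNReal.ofReal e₂ * ENNReal.ofReal δ * gs (1 / 8) η +
        ENNReal.ofReal Cc * ∫⁻ r in Ioo t₂ (s - ϑ), Ed r s 0 * G r (y - (s - r) • η) := by
      calc _ ≤ ∫⁻ r in Ioo t₂ (s - ϑ), (Ed r s 0 * (ENNReal.ofReal e₂ * ENNReal.ofReal δ *
            gs (1 / 8) η) + ENNReal.ofReal Cc * (Ed r s 0 * G r (y - (s - r) • η))) := by
            refine setLIntegral_mono' measurableSet_Ioo fun r hr => ?_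
            refine (mul_le_mul' (guo_Ed_le (by linarith [hr.2]) η)
              ((hsplit _ _ (hg.slice r _) (h1 r hr.1 _) η hη).trans (add_le_add le_rfl
                (mul_le_mul_right (setLIntegral_le_lintegral _ _) _)))).trans (le_of_eq ?_)
            rw [hG]
            ring
        _ ≤ _ := by
            rw [lintegral_add_left ((guo_meas_Ed s 0).mul_const _),
              lintegral_const_mul' _ _ ENNReal.ofReal_ne_top]
            exact add_le_add (guo_duh (t := s) (v := 0) (by linarith) fun r _ => le_rfl) le_rfl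
    have hB : ∫⁻ r in Ioo t₂ s ∩ Ici (s - ϑ), Ed r s η * Kop (g r (y - (s - r) • η)) η ≤
        ENNReal.ofReal δ * (10 ^ 9 * gs (1 / 8) η) * ENNReal.ofReal ϑ := by
      calc _ ≤ ∫⁻ _ in Ioo t₂ s ∩ Ici (s - ϑ), ENNReal.ofReal δ * (10 ^ 9 * gs (1 / 8) η) := by
            refine setLIntegral_mono' (measurableSet_Ioo.inter measurableSet_Ici) fun r hr => ?_
            exact (mul_le_mul' (guo_Ed_le_one hr.1.2.le η) (guo_Kop_le (h1 r hr.1.1 _) η)).trans
              (one_mul _).le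
        _ ≤ _ := by
            rw [setLIntegral_const]
            refine mul_le_mul_right ?_ _
            refine (measure_mono (t := Icc (s - ϑ) s) fun r hr => ⟨hr.2, hr.1.2.le⟩).trans ?_
            rw [Real.volume_Icc, sub_sub_cancel]
    refine (add_le_add le_rfl (((lintegral_mono_set hsub).trans (lintegral_union_le _ _ _)).trans
      (add_le_add hA hB))).trans (le_of_eq ?_)
    ring
  refine (setLIntegral_mono' Metric.isClosed_closedBall.measurableSet hpt).trans ?_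
  rw [lintegral_add_left ((measurable_gs _).const_mul _), lintegral_const_mul _ (measurable_gs _),
    lintegral_const_mul' _ _ ENNReal.ofReal_ne_top]
  refine add_le_add (mul_le_mul_right (setLIntegral_le_lintegral _ _) _) (mul_le_mul_right ?_ _)
  have hm : Measurable fun p : R3 × ℝ => Ed p.2 s 0 * G p.2 (y - (s - p.2) • p.1) :=
    ((guo_meas_Ed s 0).comp measurable_snd).mul
      (hGm.comp (f := fun p : R3 × ℝ => (p.2, y - (s - p.2) • p.1)) (by fun_prop))
  rw [lintegral_lintegral_swap hm.aemeasurable]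
  refine guo_duh (t := s) (v := 0) (by linarith) fun r hr => ?_
  have hGr : Measurable (G r) := hGm.comp (f := fun z : R3 => (r, z)) (by fun_prop)
  rw [lintegral_const_mul' _ _ (show Ed r s 0 ≠ ⊤ from ENNReal.ofReal_ne_top)]
  refine mul_le_mul_right ?_ _
  have hper : IsPeriodic3 (G r) := fun x i => by
    simp only [hG]
    exact lintegral_congr fun ξ => hp r ξ x i
  refine (guo_scale hGr hper y hϑ (by linarith [hr.2]) hRb).trans (mul_le_mul_right ?_ _)
  refine le_trans (le_of_eq ?_) (h4 r ⟨hr.1, by linarith [hr.2]⟩)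
  rw [Measure.volume_eq_prod, ← Measure.prod_restrict, Measure.restrict_univ,
    lintegral_prod _ (hg.comp measurable_const measurable_fst measurable_snd).aemeasurable]

theorem guo : ∃ c ϑ : ℝ, 0 < c ∧ 0 < ϑ ∧ ∀ (δ t₂ T : ℝ) (h g : TF), 0 < δ → MeasT g → PerT g →
    (∀ s, t₂ < s → ∀ x v, g s x v ≤ ENNReal.ofReal δ * gs (1 / 8) v) →
    (∀ s, t₂ < s → ∀ x v, g s x v ≤ h s x v) →
    (∀ t, t₂ < t → ∀ x v, h t x v ≤ ENNReal.ofReal (c * δ) * gs (1 / 8) v +
      ∫⁻ s in Ioo t₂ t, Ed s t v * Kop (g s (x - (t - s) • v)) v) →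
    (∀ s ∈ Ioo t₂ T, (∫⁻ q in cell ×ˢ univ, g s q.1 q.2 ∂(volume : Measure (R3 × R3))) ≤
      ENNReal.ofReal (c * δ)) →
    ∀ t, t₂ < t → t ≤ T + ϑ → ∀ x v, h t x v ≤ ENNReal.ofReal δ * gs (1 / 8) v := by
  set Ra : ℝ := 2 * 10 ^ 9 with hRa
  obtain ⟨Rb, Cb, hRb, hCb, sb⟩ := Kop_split (e := 1 / 4) (ρ := Ra) (by norm_num)
  set m₀ := Real.exp (-(1 / 8 * Ra ^ 2)) with hm₀
  have hm₀0 : 0 < m₀ := Real.exp_pos _
  set M₀ := (Real.pi / (1 / 8)) ^ (3 / 2 : ℝ) with hM₀
  have hM₀0 : 0 < M₀ := by have := Real.pi_pos; positivity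
  have hint : ∫⁻ u, gs (1 / 8) u = ENNReal.ofReal M₀ := by
    simpa only [sub_zero] using lintegral_gs (a := 1 / 8) (by norm_num) 0
  set A := m₀ / (8 * (Cb + 1) * M₀) with hA
  have hA0 : 0 < A := by positivity
  obtain ⟨Rc, Cc, -, hCc, sc⟩ := Kop_split (e := A) (ρ := Rb) hA0
  set ϑ := A / 10 ^ 9 with hϑ
  have hϑ0 : 0 < ϑ := by positivity
  set P := (2 * Rb + 5 / ϑ) ^ 3 with hP
  have hP0 : 0 < P := by positivity
  set c := min (1 / 4) (min A (m₀ / (8 * (Cb + 1) * (Cc + 1) * P))) with hc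
  have hc0 : 0 < c := by positivity
  have hc1 : c ≤ 1 / 4 := min_le_left _ _
  have hc2 : c ≤ A := (min_le_right _ _).trans (min_le_left _ _)
  have hc3 : c ≤ m₀ / (8 * (Cb + 1) * (Cc + 1) * P) := (min_le_right _ _).trans (min_le_right _ _)
  refine ⟨c, ϑ, hc0, hϑ0, fun δ t₂ T h g hδ hg hp h1 h2 h3 h4 t ht htT x v => ?_⟩
  refine (h3 t ht x v).trans ?_
  rcases le_total Ra ‖v‖ with hv | hv
  · have hI : ∫⁻ s in Ioo t₂ t, Ed s t v * Kop (g s (x - (t - s) • v)) v ≤
        ENNReal.ofReal (δ / 2) * gs (1 / 8) v := by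
      calc _ ≤ ∫⁻ s in Ioo t₂ t, Ed s t v * ENNReal.ofReal (1 + ‖v‖) *
            (ENNReal.ofReal (δ / 2) * gs (1 / 8) v) := by
            refine setLIntegral_mono' measurableSet_Ioo fun s hs => ?_
            rw [mul_assoc]
            refine mul_le_mul_right ((guo_Kop_le (h1 s hs.1 _) v).trans ?_) _
            rw [← mul_assoc, ← mul_assoc, ← ENNReal.ofReal_mul (by positivity)]
            refine mul_le_mul_left ?_ _
            rw [← ENNReal.ofReal_ofNat 10, ← ENNReal.ofReal_pow (by norm_num),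
              ← ENNReal.ofReal_mul hδ.le]
            refine ENNReal.ofReal_le_ofReal ?_
            rw [hRa] at hv
            nlinarith
        _ ≤ _ := by
            rw [lintegral_mul_const _ ((guo_meas_Ed t v).mul_const _)]
            exact (mul_le_mul_left (lintegral_Ed t₂ t v) _).trans (one_mul _).le
    refine (add_le_add le_rfl hI).trans ?_
    rw [← add_mul, ← ENNReal.ofReal_add (by positivity) (by positivity)]
    exact mul_le_mul_left (ENNReal.ofReal_le_ofReal (by nlinarith)) _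
  · have hI : ∫⁻ s in Ioo t₂ t, Ed s t v * Kop (g s (x - (t - s) • v)) v ≤
        ENNReal.ofReal (1 / 4) * ENNReal.ofReal δ * gs (1 / 8) v +
          ENNReal.ofReal (δ / 2) * gs (1 / 8) v := by
      refine guo_duh (t := t) (v := v) le_rfl fun s hs => mul_le_mul_right ?_ _
      refine (sb _ _ (hg.slice s _) (h1 s hs.1 _) v hv).trans (add_le_add le_rfl ?_)
      refine (mul_le_mul_right (guo_J hϑ0 hRb.le sc hg hp h1 h2 h3 h4 hs.1 (hs.2.le.trans htT) _)
        _).trans (le_trans ?_ (mul_le_mul_right (guo_gs_ge hv) _))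
      rw [hint, ← ENNReal.ofReal_ofNat 10, ← ENNReal.ofReal_pow (by norm_num),
        ← ENNReal.ofReal_mul hA0.le, ← ENNReal.ofReal_mul hδ.le,
        ← ENNReal.ofReal_mul (by positivity), ← ENNReal.ofReal_add (by positivity) (by positivity),
        ← ENNReal.ofReal_add (by positivity) (by positivity), ← ENNReal.ofReal_mul (by positivity),
        ← ENNReal.ofReal_mul (by positivity), ← ENNReal.ofReal_mul hCc,
        ← ENNReal.ofReal_add (by positivity) (by positivity), ← ENNReal.ofReal_mul hCb,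
        ← ENNReal.ofReal_mul (by positivity)]
      refine ENNReal.ofReal_le_ofReal ?_
      have e1 : Cb * (A * M₀) ≤ m₀ / 8 := by
        rw [hA]
        calc Cb * (m₀ / (8 * (Cb + 1) * M₀) * M₀) ≤ (Cb + 1) * (m₀ / (8 * (Cb + 1) * M₀) * M₀) := by
              gcongr; linarith
          _ = _ := by field_simp
      have e2 : Cb * (Cc * (P * c)) ≤ m₀ / 8 := by
        calc Cb * (Cc * (P * c))
            ≤ (Cb + 1) * ((Cc + 1) * (P * (m₀ / (8 * (Cb + 1) * (Cc + 1) * P)))) := by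
              gcongr <;> linarith
          _ = _ := by field_simp
      have e3 : Cb * (c * M₀) ≤ Cb * (A * M₀) := by gcongr
      have e4 : 10 ^ 9 * ϑ = A := by rw [hϑ]; field_simp
      calc Cb * ((c * δ + A * δ + δ * 10 ^ 9 * ϑ) * M₀ + Cc * (P * (c * δ)))
          = δ * (Cb * (c * M₀) + Cb * (A * M₀) + Cb * (10 ^ 9 * ϑ * M₀) + Cb * (Cc * (P * c))) := by
            ring
        _ ≤ δ * (m₀ / 2) := by
            rw [e4]
            gcongr
            linarith
        _ = δ / 2 * m₀ := by ring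
    refine (add_le_add le_rfl hI).trans ?_
    rw [← add_mul, ← add_mul, ← ENNReal.ofReal_mul (by norm_num),
      ← ENNReal.ofReal_add (by positivity) (by positivity),
      ← ENNReal.ofReal_add (by positivity) (by positivity)]
    exact mul_le_mul_left (ENNReal.ofReal_le_ofReal (by nlinarith)) _

end Crest.Agent.R068
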