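import Crest.Agent.R068.St1

/-! Row 68: normalisation of the seed by the intermediate value theorem. -/

set_option autoImplicit false
open MeasureTheory Set Filter Topology
open scoped ENNReal
open Crest.AnalysisR.VecCalc3 Crest.AnalysisR.PDE.Boltzmann

namespace Crest.Agent.R068

/-- a discrete continuation principle -/
lemma ivt_steps {P : ℝ → Prop} {A η : ℝ} (hA : 0 ≤ A) (hη : 0 < η) (h0 : P 0)
    (hstep : ∀ a ∈ Icc 0 A, ∀ b ∈ Icc 0 A, |b - a| ≤ η → P a → P b) : P A := by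
  obtain ⟨N, hN⟩ := exists_nat_ge (A / η)
  have key : ∀ k : ℕ, P (min (k * η) A) := by
    intro k
    induction k with
    | zero => simpa [hA] using h0
    | succ k ih =>
      refine hstep _ ⟨le_min (by positivity) hA, min_le_right _ _⟩ _
        ⟨le_min (by positivity) hA, min_le_right _ _⟩ ?_ ih
      refine (abs_min_sub_min_le_max _ _ _ _).trans ?_
      refine max_le ?_ (by simpa using hη.le)
      rw [show ((k + 1 : ℕ) : ℝ) * η - k * η = η by push_cast; ring, abs_of_pos hη]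
  have := key N
  rwa [min_eq_right ((div_le_iff₀ hη).1 hN)] at this

/-- Lipschitz dependence of the solutions on the amplitude of the seed -/
lemma ivt_lip {p : Par} (hs : p.Std) {n : ℕ} (hn : p.tn n ≤ p.t0) {C : ℝ}
    (hC : ∀ ε a : ℝ, 0 ≤ ε → ε ≤ p.eps → a ≤ 2 * p.eps * p.tn n →
      (∀ x v, p.f0 n a x v ≤ ENNReal.ofReal C * gs (1 / 8) v) ∧
      ∀ t ∈ Icc 0 p.t0, ∀ x v, p.Up n ε t x v ≤ ENNReal.ofReal C * gs (1 / 8) v ∧
        p.Lo n t x v ≤ ENNReal.ofReal C * gs (1 / 8) v) :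
    ∃ C' : ℝ, 0 ≤ C' ∧ ∀ (ε' a a' : ℝ) (F G : ℝ → R3 → R3 → ℝ), p.Sol n p.eps a F → p.Sol n ε' a' G →
      (∀ t ∈ Ioo (p.tn n) p.t0, p.Nn n ε' G t = p.Nn n p.eps G t) →
      ∀ t ≤ p.t0, ∀ x v, F t x v ≤ G t x v + C' * |a - a'| := by
  obtain ⟨C', hC'0, hC'⟩ := cut_stable C p.t0
  refine ⟨C' * 55, by positivity, fun ε' a a' F G hF hG hN t ht x v => ?_⟩
  have htn := Par.tn_pos hs n
  have ha' : a' ≤ 2 * p.eps * p.tn n := hG.a1.trans (by have := hG.ε1; gcongr)
  have hb := hC p.eps a hF.ε0 le_rfl hF.a1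
  have hb' := hC ε' a' hG.ε0 hG.ε1 ha'
  have hmem : ∀ t ∈ Ioo (p.tn n) p.t0, t ∈ Icc 0 p.t0 := fun t ht => ⟨htn.le.trans ht.1.le, ht.2.le⟩
  have h := hC' (p.tn n) (55 * |a - a'|) (p.f0 n a) (p.f0 n a') (p.Nn n p.eps F) (p.Nn n ε' G) F G
    htn.le (by positivity) hF.dens hG.dens (p.meas_Nn n _ hF.dens.meas) (p.meas_Nn n _ hG.dens.meas)
    hF.mild hG.mild hb.1 hb'.1
    (fun x v => by
      unfold Par.f0
      rw [add_assoc (p.amb x v + p.Sd n x v)]
      exact add_le_add le_rfl (Par.seed_lip hs hn a a' x v))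
    (fun x v => by
      unfold Par.f0
      rw [add_assoc (p.amb x v + p.Sd n x v), abs_sub_comm]
      exact add_le_add le_rfl (Par.seed_lip hs hn a' a x v))
    (fun t ht x v => (Par.Nn_le_Up n _ F t x v).trans (hb.2 t (hmem t ht) x v).1)
    (fun t ht x v => (Par.Nn_le_Up n _ G t x v).trans (hb'.2 t (hmem t ht) x v).1)
    (fun t ht x v => by
      rw [hN t ht]
      exact clamp_le_add _ _ F G t x v)
    (fun t ht x v => by
      rw [hN t ht, abs_sub_comm]
      exact clamp_le_add _ _ G F t x v)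
    t ht x v
  have he : Real.exp (-(1 / 16 * ‖v‖ ^ 2)) ≤ 1 := Real.exp_le_one_iff.2 (by
    have := sq_nonneg ‖v‖
    linarith)
  have h2 : C' * (55 * |a - a'|) * Real.exp (-(1 / 16 * ‖v‖ ^ 2)) ≤ C' * (55 * |a - a'|) :=
    mul_le_of_le_one_right (by positivity) he
  have := le_abs_self (F t x v - G t x v)
  nlinarith

/-- the source term at the origin is eventually negligible -/
lemma ivt_Om (p : Par) (hs : p.Std) : ∀ᶠ n : ℕ in atTop, p.Om (p.tn n) 0 ≤ p.eps * p.tn n := by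
  have heps := Par.eps_pos hs
  set c : ℝ := 2 * p.θ / p.r1 with hc
  have h1 : Tendsto (fun n => c ^ p.K * p.tn n ^ (p.Lam + 29)) atTop (𝓝 (c ^ p.K * 0 ^ (p.Lam + 29))) :=
    ((Par.tendsto_tn p).pow _).const_mul _
  rw [zero_pow (by omega), mul_zero] at h1
  filter_upwards [h1.eventually (gt_mem_nhds heps)] with n hn
  have htn := Par.tn_pos hs n
  have h2 := Par.Om_le_near hs htn.le 0 0
  rw [lat_zero, sub_zero, norm_zero] at h2
  refine h2.trans ?_
  have e : (20 * (0:ℝ) ^ 2 / p.r1 ^ 2 + 2 * p.θ * p.tn n / p.r1) ^ p.K =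
      c ^ p.K * p.tn n ^ (p.Lam + 29) * p.tn n := by
    rw [show 20 * (0:ℝ) ^ 2 / p.r1 ^ 2 + 2 * p.θ * p.tn n / p.r1 = c * p.tn n by rw [hc]; ring, mul_pow,
      mul_assoc, ← pow_succ]
    rfl
  rw [e]
  exact mul_le_mul_of_nonneg_right hn.le htn.le

theorem ev_ivt : ∀ᶠ p in PF, ∀ᶠ n : ℕ in atTop, ∃ (a : ℝ) (F : ℝ → R3 → R3 → ℝ), p.Sol n p.eps a F ∧
    p.In1 n p.eps F ∧ ∃ τ ∈ Icc (p.tn n) p.t0, ∃ x v : R3, ‖v‖ ≤ p.R ∧
      ENNReal.ofReal (p.eps * τ / 2) * p.W n (p.aa τ) τ x v < p.hh n F τ x v := by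
  filter_upwards [ev_std, ev_sol_exists, ev_In1, ev_In1_zero, ev_bdd, ev_wit]
    with p hs hex hin hin0 hbdd hwit
  have heps := Par.eps_pos hs
  have ht0 := Par.t0_pos hs
  have ht02 := Par.t0_lt_t2 hs
  filter_upwards [(Par.tendsto_tn p).eventually (gt_mem_nhds ht0), ivt_Om p hs] with n hn' hOm
  have hn : p.tn n ≤ p.t0 := hn'.le
  have htn := Par.tn_pos hs n
  set A : ℝ := 2 * p.eps * p.tn n with hA
  have hA0 : 0 ≤ A := by positivity
  obtain ⟨C, hC⟩ := hbdd n hn p.eps A p.t0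
  obtain ⟨L, hL0, hL⟩ := ivt_lip hs hn hC
  by_contra hcon
  push Not at hcon
  -- the property that is continued
  let P : ℝ → Prop := fun a => ∀ F, p.Sol n p.eps a F → ∀ t ∈ Icc (p.tn n) p.t0, ∀ x v, ‖v‖ ≤ p.R →
    up F t x v ≤ p.U1 n 0 t x v + ENNReal.ofReal (p.eps * t / 2) * p.W n (p.aa t) t x v
  set w : ℝ := Real.exp (-(1 / 4 * p.R ^ 2)) with hw
  have hw0 : 0 < w := Real.exp_pos _
  have hW : ∀ t ∈ Icc (p.tn n) p.t0, ∀ x v, ‖v‖ ≤ p.R → ENNReal.ofReal w ≤ p.W n (p.aa t) t x v := by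
    intro t ht x v hv
    have ha := Par.aa_mem hs (htn.le.trans ht.1) (ht.2.trans ht02.le)
    refine le_trans ?_ (gs_le_Wf _ _ _ _ _)
    refine ENNReal.ofReal_le_ofReal (Real.exp_le_exp.2 (neg_le_neg ?_))
    have : ‖v‖ ^ 2 ≤ p.R ^ 2 := by gcongr
    exact mul_le_mul ha.2 this (by positivity) (by norm_num)
  have h0 : P 0 := by
    intro F hF t ht x v _
    obtain ⟨G, hG⟩ := hex n 0 0 le_rfl heps.le le_rfl (by simp) hn
    have hG0 := hin0 n G hG
    have hG1 : p.In1 n p.eps G := fun s hs' y u => (hG0 s hs' y u).trans (by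
      rw [Par.U1_split hs n heps.le (htn.le.trans hs'.1)]
      exact le_self_add)
    have h := hL 0 0 0 F G hF hG (fun s hs' => by
      have hm : s ∈ Icc (p.tn n) p.t2 := ⟨hs'.1.le, hs'.2.le.trans ht02.le⟩
      rw [Par.Nn_eq_of_In1 hG0 hm, Par.Nn_eq_of_In1 hG1 hm]) t ht.2 x v
    rw [sub_self, abs_zero, mul_zero, add_zero] at h
    exact ((ENNReal.ofReal_le_ofReal h).trans (hG0 t ⟨ht.1, ht.2.trans ht02.le⟩ x v)).trans le_self_add
  set η : ℝ := p.eps * p.tn n / 2 * w / (L + 1) with hη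
  have hη0 : 0 < η := by positivity
  have hstep : ∀ a ∈ Icc 0 A, ∀ b ∈ Icc 0 A, |b - a| ≤ η → P a → P b := by
    intro a ha b _ hab hP G hG
    obtain ⟨F, hF⟩ := hex n p.eps a heps.le le_rfl ha.1 ha.2 hn
    have hQ : ∀ t ∈ Icc (p.tn n) p.t0, ∀ x v, ‖v‖ ≤ p.R →
        up G t x v ≤ p.U1 n 0 t x v + ENNReal.ofReal (p.eps * t) * p.W n (p.aa t) t x v := by
      intro t ht x v hv
      have h1 := hL p.eps b a G F hG hF (fun _ _ => rfl) t ht.2 x v
      have h2 : L * |b - a| ≤ p.eps * t / 2 * w := by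
        have h3 : L * |b - a| ≤ (L + 1) * η := mul_le_mul (by linarith) hab (abs_nonneg _) (by linarith)
        have h4 : (L + 1) * η = p.eps * p.tn n / 2 * w := by rw [hη]; field_simp
        have h5 : p.eps * p.tn n / 2 * w ≤ p.eps * t / 2 * w := by have := ht.1; gcongr
        linarith
      have htp : 0 ≤ p.eps * t / 2 := by have := htn.le.trans ht.1; positivity
      calc up G t x v ≤ ENNReal.ofReal (F t x v + p.eps * t / 2 * w) :=
            ENNReal.ofReal_le_ofReal (by linarith)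
        _ ≤ up F t x v + ENNReal.ofReal (p.eps * t / 2) * ENNReal.ofReal w := by
            rw [← ENNReal.ofReal_mul htp]
            exact ENNReal.ofReal_add_le
        _ ≤ (p.U1 n 0 t x v + ENNReal.ofReal (p.eps * t / 2) * p.W n (p.aa t) t x v) +
              ENNReal.ofReal (p.eps * t / 2) * p.W n (p.aa t) t x v :=
            add_le_add (hP F hF t ht x v hv) (mul_le_mul' le_rfl (hW t ht x v hv))
        _ = _ := by
            rw [add_assoc, ← add_mul, ← ENNReal.ofReal_add htp htp, add_halves]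
    intro t ht x v hv
    have := hcon b G hG (hin n p.eps b G hG hQ) t ht x v hv
    unfold Par.hh at this
    exact tsub_le_iff_left.1 this
  have hPA : P A := ivt_steps hA0 hη0 h0 hstep
  obtain ⟨F, hF⟩ := hex n p.eps A heps.le le_rfl hA0 le_rfl hn
  have hv3 : ‖(3:ℝ) • fr 1‖ = 3 := by rw [norm_smul, norm_fr]; norm_num
  have h1 := hPA F hF (p.tn n) ⟨le_rfl, hn⟩ 0 ((3:ℝ) • fr 1) (by rw [hv3]; linarith [hs.R_ge])
  have hlow : ENNReal.ofReal A ≤ up F (p.tn n) 0 ((3:ℝ) • fr 1) := by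
    rw [hF.mild.early le_rfl]
    unfold Par.f0
    refine le_trans ?_ le_add_self
    unfold Par.seed
    refine le_trans (le_of_eq ?_) (ENNReal.le_tsum 0)
    rw [if_pos]
    refine ⟨?_, by simp⟩
    rw [lat_zero, sub_add_cancel, sub_zero, norm_zero]
    exact htn.le
  have hB : p.B n (p.tn n) 0 ((3:ℝ) • fr 1) = 0 := by
    rcases hwit n (p.tn n) 0 htn.le with h | ⟨k, j, h⟩
    · exact h.1 _
    · by_contra hne
      have := (h.supp _ hne).2
      rw [hv3] at this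
      linarith
  have hW1 : p.W n (p.aa (p.tn n)) (p.tn n) 0 ((3:ℝ) • fr 1) ≤ 1 := by
    have ha := Par.aa_mem hs htn.le (hn.trans ht02.le)
    unfold Par.W Wf
    rw [Yf_eq_zero _ _ _ hv3.ge, add_zero, mul_one]
    exact gs_le_one (by linarith [ha.1]) _
  have hup : up F (p.tn n) 0 ((3:ℝ) • fr 1) ≤ ENNReal.ofReal (p.eps * p.tn n + p.eps * p.tn n / 2) := by
    refine h1.trans ?_
    unfold Par.U1
    rw [hB, zero_add, Par.AA_zero, zero_add, ENNReal.ofReal_add (by positivity) (by positivity)]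
    exact add_le_add ((mul_le_of_le_one_right' hW1).trans (ENNReal.ofReal_le_ofReal hOm))
      (mul_le_of_le_one_right' hW1)
  have h2 := (ENNReal.ofReal_le_ofReal_iff (by positivity)).1 (hlow.trans hup)
  have : 0 < p.eps * p.tn n := by positivity
  nlinarith

end Crest.Agent.R068
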