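import Crest.Agent.R068.OmS
import Crest.Agent.R068.Guo

/-! Row 68: auxiliary estimates for the source terms of the late stage. -/

set_option autoImplicit false
open MeasureTheory Set Filter Topology
open scoped ENNReal
open Crest.AnalysisR.VecCalc3 Crest.AnalysisR.PDE.Boltzmann

namespace Crest.Agent.R068

lemma la1_ev_le {c d : ℝ} (hd : 0 < d) : ∀ᶠ x in 𝓝[>] (0:ℝ), c * x ≤ d := by
  have h : Tendsto (fun x : ℝ => c * x) (𝓝[>] 0) (𝓝 (c * 0)) :=
    ((continuous_const.mul continuous_id).tendsto 0).mono_left nhdsWithin_le_nhds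
  rw [mul_zero] at h
  exact h.eventually (eventually_le_nhds hd)

lemma la1_ev_sqrt {c d : ℝ} (hd : 0 < d) : ∀ᶠ x in 𝓝[>] (0:ℝ), c * Real.sqrt x ≤ d := by
  have h : Tendsto (fun x : ℝ => c * Real.sqrt x) (𝓝[>] 0) (𝓝 (c * Real.sqrt 0)) :=
    ((continuous_const.mul Real.continuous_sqrt).tendsto 0).mono_left nhdsWithin_le_nhds
  rw [Real.sqrt_zero, mul_zero] at h
  exact h.eventually (eventually_le_nhds hd)

lemma la1_ev_div {c d : ℝ} (hd : 0 < d) : ∀ᶠ x in (atTop : Filter ℝ), c / x ≤ d :=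
  (tendsto_const_nhds.div_atTop tendsto_id).eventually (eventually_le_nhds hd)

lemma la1_mu_le (v : R3) : mu v ≤ gs (1 / 8) v := (mu_le_gs v).trans (gs_anti (by norm_num) v)

/-- estimates for a piece of the Maxwellian of small mass -/
lemma la1_piece {P : R3 → Prop} [DecidablePred P] (hP : MeasurableSet {u | P u}) {m e : ℝ}
    (he : 0 < e) (he' : e ≤ 1 / 10 ^ 7) (hm0 : 0 ≤ m) (hm : m ≤ e ^ 2 / 10 ^ 6)
    (hI : ∫⁻ u, (if P u then gs (3 / 8) u else 0) ≤ ENNReal.ofReal m) (v : R3) :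
    5 * gain (fun u => if P u then mu u else 0) (gs (1 / 8)) v +
        mu v * freq (fun u => if P u then mu u else 0) v ≤ ENNReal.ofReal e * gs (1 / 8) v ∧
      freq (fun u => if P u then mu u else 0) v ≤ ENNReal.ofReal ((1 + ‖v‖) / 4) := by
  have hh : Measurable (fun u => if P u then mu u else 0) :=
    Measurable.ite hP measurable_mu measurable_const
  have hH : Measurable (fun u => if P u then gs (3 / 8) u else 0) :=
    Measurable.ite hP (measurable_gs _) measurable_const
  have hpi := Real.pi_le_four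
  have hpi0 := Real.pi_pos
  have hv := norm_nonneg v
  have g1 : gain (fun u => if P u then mu u else 0) (gs (1 / 8)) v ≤
      ENNReal.ofReal (e / 10) * gs (1 / 8) v := by
    refine (gain_gs_le (by norm_num) hh v).trans ?_
    have p1 : pot (fun η => (if P η then mu η else 0) * gs (-(1 / 8)) η) v ≤
        pot (fun u => if P u then gs (3 / 8) u else 0) v := by
      refine pot_mono (fun u => ?_) v
      split_ifs
      · calc mu u * gs (-(1 / 8)) u ≤ gs (1 / 2) u * gs (-(1 / 8)) u := by gcongr; exact mu_le_gs u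
          _ = gs (3 / 8) u := by rw [← gs_add]; norm_num
      · simp
    have p2 := pot_le_split hH (C := 1) (fun u => by
      split_ifs
      · exact gs_le_one (by norm_num) u
      · simp) v he
    have p3 : pot (fun η => (if P η then mu η else 0) * gs (-(1 / 8)) η) v ≤
        ENNReal.ofReal (20 * e ^ 2 + e⁻¹ * m) := by
      refine (p1.trans p2).trans ?_
      rw [one_mul, ENNReal.ofReal_add (by positivity) (by positivity),
        ENNReal.ofReal_mul (inv_nonneg.2 he.le)]
      gcongr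
    calc _ ≤ ENNReal.ofReal (2 * Real.pi / (1 / 8)) * gs (1 / 8) v *
          ENNReal.ofReal (20 * e ^ 2 + e⁻¹ * m) := by gcongr
      _ = ENNReal.ofReal (2 * Real.pi / (1 / 8) * (20 * e ^ 2 + e⁻¹ * m)) * gs (1 / 8) v := by
          rw [ENNReal.ofReal_mul (by positivity)]; ring
      _ ≤ _ := by
          gcongr
          have h1 : e⁻¹ * m ≤ e / 10 ^ 6 := by
            rw [inv_mul_le_iff₀ he]; linarith [show e * (e / 10 ^ 6) = e ^ 2 / 10 ^ 6 by ring]
          have h2 : 20 * e ^ 2 ≤ 2 * e / 10 ^ 6 := by nlinarith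
          have h3 : 2 * Real.pi / (1 / 8) ≤ 64 := by linarith
          calc _ ≤ 64 * (2 * e / 10 ^ 6 + e / 10 ^ 6) := by gcongr
            _ ≤ e / 10 := by linarith
  have f1 : freq (fun u => if P u then mu u else 0) v ≤ ENNReal.ofReal (800 * m * (1 + ‖v‖)) := by
    refine (freq_le_moment _ hh v).trans ?_
    have i1 : ∫⁻ u, ENNReal.ofReal (1 + ‖u‖) * (if P u then mu u else 0) ≤
        100 * ENNReal.ofReal m := by
      calc _ ≤ ∫⁻ u, 100 * (if P u then gs (3 / 8) u else 0) := by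
            refine lintegral_mono fun u => ?_
            split_ifs
            · exact (mul_le_mul' le_rfl (mu_le_gs u)).trans (weight_absorb (by norm_num) u)
            · simp
        _ ≤ _ := by rw [lintegral_const_mul _ hH]; gcongr
    calc _ ≤ ENNReal.ofReal (2 * Real.pi * (1 + ‖v‖)) * (100 * ENNReal.ofReal m) := by gcongr
      _ = ENNReal.ofReal (2 * Real.pi * (1 + ‖v‖) * (100 * m)) := by
          rw [ENNReal.ofReal_mul (p := 2 * Real.pi * (1 + ‖v‖)) (by positivity),
            ENNReal.ofReal_mul (p := 100) (by norm_num), ENNReal.ofReal_ofNat]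
      _ ≤ _ := by
          refine ENNReal.ofReal_le_ofReal ?_
          have : 0 ≤ m * (1 + ‖v‖) := by positivity
          nlinarith
  have hm1 : m ≤ e / 10 ^ 6 := by nlinarith
  constructor
  · have f2 : mu v * freq (fun u => if P u then mu u else 0) v ≤
        ENNReal.ofReal (e / 2) * gs (1 / 8) v := by
      calc _ ≤ gs (1 / 2) v * ENNReal.ofReal (800 * m * (1 + ‖v‖)) := mul_le_mul' (mu_le_gs v) f1
        _ = ENNReal.ofReal (800 * m) * (ENNReal.ofReal (1 + ‖v‖) * gs (1 / 2) v) := by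
            rw [ENNReal.ofReal_mul (by positivity)]; ring
        _ ≤ ENNReal.ofReal (800 * m) * (100 * gs (1 / 8) v) :=
            mul_le_mul' le_rfl (weight_absorb (by norm_num) v)
        _ = ENNReal.ofReal (800 * m * 100) * gs (1 / 8) v := by
            rw [ENNReal.ofReal_mul (p := 800 * m) (by positivity), ENNReal.ofReal_ofNat]; ring
        _ ≤ _ := by gcongr; linarith
    calc _ ≤ 5 * (ENNReal.ofReal (e / 10) * gs (1 / 8) v) + ENNReal.ofReal (e / 2) * gs (1 / 8) v := by
          gcongr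
      _ = ENNReal.ofReal (5 * (e / 10) + e / 2) * gs (1 / 8) v := by
          rw [ENNReal.ofReal_add (by positivity) (by positivity), ENNReal.ofReal_mul (by norm_num),
            ENNReal.ofReal_ofNat]; ring
      _ = _ := by congr 2; ring
  · refine f1.trans (ENNReal.ofReal_le_ofReal ?_)
    have : 800 * m ≤ 1 / 4 := by linarith
    nlinarith

lemma la1_hol : ∀ᶠ p in PF, ∀ (t : ℝ) (x v : R3), p.t2 ≤ t →
    5 * gain (p.hol t x) (gs (1 / 8)) v + mu v * freq (p.hol t x) v ≤
      ENNReal.ofReal p.e * gs (1 / 8) v ∧ freq (p.hol t x) v ≤ ENNReal.ofReal ((1 + ‖v‖) / 4) := by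
  have h1 : ∀ᶠ p in PF, 20 / p.R ≤ p.e ^ 2 / (2 * 10 ^ 6) :=
    ev_R (Q := fun p x => 20 / x ≤ p.e ^ 2 / (2 * 10 ^ 6)) (by
      filter_upwards [ev_std] with p hp
      exact la1_ev_div (by have := hp.e_pos; positivity))
  have h2 : ∀ᶠ p in PF, 30 * p.r1 ≤ p.e ^ 2 / (2 * 10 ^ 6) :=
    ev_r1 (Q := fun p x => 30 * x ≤ p.e ^ 2 / (2 * 10 ^ 6)) (by
      filter_upwards [ev_std] with p hp
      exact la1_ev_le (by have := hp.e_pos; positivity))
  filter_upwards [ev_std, h1, h2] with p hp h1 h2 t x v ht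
  have ht0 : 0 < t := (Par.t2_pos hp).trans_le ht
  have hr := hp.r1_pos
  have hR : 0 < p.R := by linarith [hp.R_ge]
  have hP : MeasurableSet {u : R3 | sn (x - t • u) < p.r1 ^ 2} :=
    (isOpen_lt (continuous_sn.comp (by fun_prop)) continuous_const).measurableSet
  refine la1_piece hP hp.e_pos hp.e_le (by positivity) ?_ (hole_small hr ht0 x) v
  have : 20 * p.r1 / t ≤ 20 / p.R := by
    rw [div_le_div_iff₀ ht0 hR]
    have : p.R * p.r1 ≤ t := ht
    nlinarith
  linarith

lemma la1_CW_CK {p : Par} (hp : p.Std) {t : ℝ} (ht : p.t2 ≤ t) :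
    p.CK t * CW t ^ 2 ≤ p.Cmax * 10 ^ 16 ∧ p.CK t * CW t ≤ p.Cmax * 10 ^ 16 ∧ p.CK t ≤ p.Cmax := by
  have h0 := Par.t2_pos hp
  have h1 := CW_decay h0.le (hp.t2_le.trans (by norm_num)) (sub_nonneg.2 ht)
  rw [add_sub_cancel] at h1
  have h2 := Par.CK_le hp ht
  have h3 := one_le_CW (h0.le.trans ht)
  have h4 := Par.CK_nonneg hp t
  have hC : 0 ≤ p.Cmax := by
    have := Par.one_le_C0 hp
    unfold Par.Cmax; positivity
  have h5 : Real.exp (-((t - p.t2) / 4)) ≤ Real.exp (-((t - p.t2) / 16)) ^ 2 := by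
    rw [← Real.exp_nat_mul]
    exact Real.exp_le_exp.2 (by push_cast; linarith)
  have h6 : p.CK t * CW t ^ 2 ≤ p.Cmax * 10 ^ 16 := by
    calc p.CK t * CW t ^ 2 ≤ p.Cmax * Real.exp (-((t - p.t2) / 16)) ^ 2 * CW t ^ 2 := by
          gcongr; exact h2.trans (by gcongr)
      _ = p.Cmax * (CW t * Real.exp (-((t - p.t2) / 16))) ^ 2 := by ring
      _ ≤ p.Cmax * (10 ^ 8) ^ 2 := by gcongr
      _ = _ := by norm_num
  refine ⟨h6, le_trans ?_ h6, h2.trans ?_⟩
  · gcongr; nlinarith
  · exact mul_le_of_le_one_right hC (Real.exp_le_one_iff.2 (by linarith))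

lemma la1_Kh : ∀ᶠ p in PF, ∀ (n : ℕ∞) (t : ℝ) (x v : R3), p.t2 ≤ t →
    gain (p.Kh n t x) (fun u => ENNReal.ofReal (p.CK t + 6) * p.W n (1 / 8) t x u) v +
      mu v * freq (p.Kh n t x) v ≤ ENNReal.ofReal (p.e * (1 + ‖v‖)) * gs (1 / 8) v := by
  have h1 : ∀ᶠ p in PF, 10 ^ 24 * p.Cmax * (p.Cmax + 7) * Real.sqrt p.κ ≤ p.e :=
    ev_k (Q := fun p x => 10 ^ 24 * p.Cmax * (p.Cmax + 7) * Real.sqrt x ≤ p.e) (by
      filter_upwards [ev_std] with p hp
      exact la1_ev_sqrt hp.e_pos)
  filter_upwards [ev_std, h1] with p hp h1 n t x v ht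
  have ht0 : 0 ≤ t := (Par.t2_pos hp).le.trans ht
  have hκ1 : p.κ ≤ 1 := by linarith [hp.κ_le, hp.t2_le]
  obtain ⟨c1, c2, c3⟩ := la1_CW_CK hp ht
  have c0 := Par.CK_nonneg hp t
  have hW := one_le_CW ht0
  have hv := norm_nonneg v
  have hs := Real.sqrt_nonneg p.κ
  have hth : Measurable (fun u => if |nc u| < p.κ then Wf (p.etaS n) (1 / 8) t x u else 0) :=
    Measurable.ite (isOpen_lt continuous_nc.abs continuous_const).measurableSet
      (measurable_Wf_v _ _ _ _) measurable_const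
  have e : p.Kh n t x = fun u => ENNReal.ofReal (p.CK t) *
      (if |nc u| < p.κ then Wf (p.etaS n) (1 / 8) t x u else 0) := by
    funext u
    unfold Par.Kh Par.W
    split_ifs <;> simp
  rw [e, freq_const_mul hth]
  unfold Par.W
  rw [gain_const_mul_left hth ((measurable_Wf_v _ _ _ _).const_mul _),
    gain_const_mul_right hth (measurable_Wf_v _ _ _ _)]
  calc _ ≤ ENNReal.ofReal (p.CK t) * (ENNReal.ofReal (p.CK t + 6) *
        (ENNReal.ofReal (10 ^ 8 * CW t ^ 2 * Real.sqrt p.κ * (1 + ‖v‖)) * gs (1 / 8) v)) +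
        gs (1 / 8) v * (ENNReal.ofReal (p.CK t) *
          ENNReal.ofReal (10 ^ 8 * CW t * Real.sqrt p.κ * (1 + ‖v‖))) := by
        gcongr
        · exact gain_thin_Wf le_rfl (by norm_num) ht0 hp.κ_pos hκ1 x v
        · exact la1_mu_le v
        · exact freq_thin_Wf le_rfl ht0 hp.κ_pos hκ1 x v
    _ = ENNReal.ofReal (p.CK t * ((p.CK t + 6) * (10 ^ 8 * CW t ^ 2 * Real.sqrt p.κ * (1 + ‖v‖))) +
          p.CK t * (10 ^ 8 * CW t * Real.sqrt p.κ * (1 + ‖v‖))) * gs (1 / 8) v := by
        rw [ENNReal.ofReal_add (p := p.CK t * _) (by positivity) (by positivity), ENNReal.ofReal_mul c0,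
          ENNReal.ofReal_mul c0, ENNReal.ofReal_mul (p := p.CK t + 6) (by positivity)]
        ring
    _ ≤ _ := by
        gcongr ENNReal.ofReal ?_ * _
        calc _ = 10 ^ 8 * ((p.CK t * CW t ^ 2) * (p.CK t + 6) + p.CK t * CW t) * Real.sqrt p.κ *
              (1 + ‖v‖) := by ring
          _ ≤ 10 ^ 8 * ((p.Cmax * 10 ^ 16) * (p.Cmax + 6) + p.Cmax * 10 ^ 16) * Real.sqrt p.κ *
              (1 + ‖v‖) := by
              have : 0 ≤ p.Cmax := c0.trans c3
              gcongr
          _ = 10 ^ 24 * p.Cmax * (p.Cmax + 7) * Real.sqrt p.κ * (1 + ‖v‖) := by ring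
          _ ≤ _ := by gcongr

lemma la1_Dm_le {p : Par} {t : ℝ} (ht : p.t2 ≤ t) : ENNReal.ofReal (p.Dm t) ≤ 1 :=
  ENNReal.ofReal_le_one.2 (p.Dm_le_one ht)

lemma la1_freq : ∀ᶠ p in PF, ∀ (n : ℕ∞) (t : ℝ) (x v : R3), p.t2 < t →
    ENNReal.ofReal (1 + ‖v‖) ≤ freq (p.Lo n t x) v := by
  have h1 : ∀ᶠ p in PF, 10 ^ 6 * p.κ ≤ 1 / 4 :=
    ev_k (Q := fun _ x => 10 ^ 6 * x ≤ 1 / 4) (Eventually.of_forall fun _ => la1_ev_le (by norm_num))
  filter_upwards [ev_std, h1, la1_hol, ev_wit] with p hp h1 hh hw n t x v ht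
  have ht0 : 0 ≤ t := (Par.t2_pos hp).le.trans ht.le
  have hv := norm_nonneg v
  have hB : ∀ u, ¬ |nc u| < p.κ → p.B n t x u = 0 := by
    intro u hu
    rcases hw n t x ht0 with h | ⟨k, j, h⟩
    · exact h.1 u
    · by_contra h0
      have a1 := (h.supp u h0).1
      have a2 := Par.DD_le hp j
      have a3 := hp.r0_κ
      have a4 := hp.κ_pos
      exact hu (by linarith)
  have hth : Measurable (fun u => if |nc u| < p.κ then gs (1 / 2) u else 0) :=
    Measurable.ite (isOpen_lt continuous_nc.abs continuous_const).measurableSet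
      (measurable_gs _) measurable_const
  have hLo := (p.meas_Lo n).slice t x
  have hho := p.meas_hol.slice t x
  have hle : ∀ u, mu u ≤ p.Lo n t x u + ((if |nc u| < p.κ then gs (1 / 2) u else 0) +
      (p.hol t x u + ENNReal.ofReal p.δ * gs (1 / 8) u)) := by
    intro u
    split_ifs with hu
    · exact (mu_le_gs u).trans (le_add_left le_self_add)
    · unfold Par.Lo
      rw [if_neg (not_le.2 ht)]
      refine le_tsub_add.trans (add_le_add le_rfl ?_)
      unfold Par.Z Par.Xi Par.Kh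
      rw [hB u hu, if_neg hu, mul_zero, zero_add, zero_add, zero_add]
      gcongr
      exact mul_le_of_le_one_left' (la1_Dm_le ht.le)
  have h2 := (freq_mu_ge v).trans (freq_mono hle v)
  rw [freq_add hLo (hth.fun_add (hho.fun_add ((measurable_gs _).const_mul _))),
    freq_add hth (hho.fun_add ((measurable_gs _).const_mul _)),
    freq_add hho ((measurable_gs _).const_mul _), freq_const_mul (measurable_gs _)] at h2
  have h3 : freq (fun u => if |nc u| < p.κ then gs (1 / 2) u else 0) v + (freq (p.hol t x) v +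
      ENNReal.ofReal p.δ * freq (gs (1 / 8)) v) ≤ ENNReal.ofReal (1 + ‖v‖) := by
    have hκ := hp.κ_pos
    have hδ := hp.δ0
    have hδ' := hp.δ_le
    calc _ ≤ ENNReal.ofReal (10 ^ 6 * p.κ * (1 + ‖v‖)) + (ENNReal.ofReal ((1 + ‖v‖) / 4) +
          ENNReal.ofReal p.δ * ENNReal.ofReal (10 ^ 6 * (1 + ‖v‖))) := by
          gcongr
          · exact freq_thin_le (by norm_num) (norm_fr 1) hκ.le v
          · exact (hh t x v ht.le).2
          · exact freq_gs_le (by norm_num) v
      _ = ENNReal.ofReal (10 ^ 6 * p.κ * (1 + ‖v‖) + ((1 + ‖v‖) / 4 + p.δ * (10 ^ 6 * (1 + ‖v‖)))) := by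
          rw [ENNReal.ofReal_add (by positivity) (by positivity),
            ENNReal.ofReal_add (by positivity) (by positivity), ENNReal.ofReal_mul hδ.le]
      _ ≤ _ := by
          refine ENNReal.ofReal_le_ofReal ?_
          nlinarith
  have h4 : ENNReal.ofReal (1 + ‖v‖) + ENNReal.ofReal (1 + ‖v‖) ≤
      freq (p.Lo n t x) v + ENNReal.ofReal (1 + ‖v‖) := by
    rw [← ENNReal.ofReal_add (by positivity) (by positivity), ← two_mul]
    exact h2.trans (add_le_add le_rfl h3)
  exact (ENNReal.add_le_add_iff_right ENNReal.ofReal_ne_top).1 h4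

/-- the algebraic expansion -/
lemma la1_alg {b k h g : R3 → ℝ≥0∞} (hb : Measurable b) (hk : Measurable k) (hh : Measurable h)
    (hg : Measurable g) (v : R3) :
    Kop (fun u => b u + k u + h u + g u) v +
        gain (fun u => b u + k u + h u + g u) (fun u => b u + k u + h u + g u) v =
      Kop g v + gain b b v + (2 * gain b (fun u => mu u + k u + h u + g u) v + mu v * freq b v) +
        (gain k (fun u => 2 * mu u + k u + 2 * h u + 2 * g u) v + mu v * freq k v) +
        (gain h (fun u => 2 * mu u + h u + 2 * g u) v + mu v * freq h v) + gain g g v := by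
  have hm := measurable_mu
  unfold Kop
  simp (disch := fun_prop) only [gain_add_left, gain_add_right, gain_const_mul_right, freq_add]
  rw [gain_comm hm hb, gain_comm hm hk, gain_comm hm hh, gain_comm hk hb, gain_comm hh hb,
    gain_comm hg hb, gain_comm hh hk, gain_comm hg hk, gain_comm hg hh]
  ring

lemma la1_expand : ∀ᶠ p in PF, ∀ (n : ℕ∞) (t : ℝ) (x v : R3) (g : R3 → ℝ≥0∞), p.t2 ≤ t →
    Measurable g → (∀ u, g u ≤ ENNReal.ofReal p.δ * gs (1 / 8) u) →
    Kop (fun u => p.Xi n t x u + g u) v +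
        gain (fun u => p.Xi n t x u + g u) (fun u => p.Xi n t x u + g u) v ≤
      Kop g v + ENNReal.ofReal (p.Dm t ^ 2) * p.Gr n t x v +
        ENNReal.ofReal (p.Dm t) * (2 * gain (p.B n t x)
          (fun u => ENNReal.ofReal (p.CK t + 3) * p.W n (1 / 8) t x u) v + mu v * freq (p.B n t x) v) +
        ENNReal.ofReal ((3 * p.e + 10 ^ 6 * p.δ ^ 2) * (1 + ‖v‖)) * gs (1 / 8) v := by
  have h1 : ∀ᶠ p in PF, 1 * p.r0 ≤ p.e :=
    ev_r0 (Q := fun p x => 1 * x ≤ p.e) (by
      filter_upwards [ev_std] with p hp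
      exact la1_ev_le hp.e_pos)
  filter_upwards [ev_std, h1, la1_hol, la1_Kh, ev_src2] with p hp h1 hh hK hs n t x v g ht hg hgb
  have ht0 : 0 ≤ t := (Par.t2_pos hp).le.trans ht
  have hv := norm_nonneg v
  have hδ := hp.δ0
  have he := hp.e_pos
  have hD := la1_Dm_le ht
  have hD0 : 0 ≤ p.Dm t := (Real.exp_pos _).le
  have c0 := Par.CK_nonneg hp t
  have mB := (p.meas_B n).slice t x
  have mK := (p.meas_Kh n).slice t x
  have mH := p.meas_hol.slice t x
  have mW := (p.meas_W n (1 / 8)).slice t x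
  set D := ENNReal.ofReal (p.Dm t) with hDdef
  have hmW : ∀ u, gs (1 / 8) u ≤ p.W n (1 / 8) t x u := fun u => gs_le_Wf _ _ _ _ _
  have hH1 : ∀ u, D * p.hol t x u ≤ p.hol t x u := fun u => mul_le_of_le_one_left' hD
  have hH2 : ∀ u, D * p.hol t x u ≤ gs (1 / 8) u := fun u => (hH1 u).trans (by
    unfold Par.hol
    split_ifs
    · exact la1_mu_le u
    · exact zero_le)
  have hg1 : ∀ u, g u ≤ gs (1 / 8) u := fun u => (hgb u).trans (mul_le_of_le_one_left'
    (ENNReal.ofReal_le_one.2 (hp.δ_le.trans (by norm_num))))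
  have hK1 : ∀ u, p.Kh n t x u ≤ ENNReal.ofReal (p.CK t) * p.W n (1 / 8) t x u := fun u => by
    unfold Par.Kh
    split_ifs
    · exact le_rfl
    · exact zero_le
  have key := la1_alg (mB.const_mul D) mK (mH.const_mul D) hg v
  have tBB : gain (fun u => D * p.B n t x u) (fun u => D * p.B n t x u) v ≤
      ENNReal.ofReal (p.Dm t ^ 2) * p.Gr n t x v + ENNReal.ofReal p.e * gs (1 / 8) v := by
    rw [gain_const_mul_left mB (mB.const_mul D), gain_const_mul_right mB mB,
      ENNReal.ofReal_pow hD0, ← hDdef]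
    calc _ ≤ D * (D * (p.Gr n t x v + ENNReal.ofReal p.r0 * gs (1 / 4) v)) := by
          gcongr; exact hs n t x v ht0
      _ = D ^ 2 * p.Gr n t x v + D * (D * (ENNReal.ofReal p.r0 * gs (1 / 4) v)) := by ring
      _ ≤ _ := by
          refine add_le_add le_rfl ((mul_le_of_le_one_left' hD).trans
            ((mul_le_of_le_one_left' hD).trans ?_))
          exact mul_le_mul' (ENNReal.ofReal_le_ofReal (by linarith)) (gs_anti (by norm_num) v)
  have tB : 2 * gain (fun u => D * p.B n t x u)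
        (fun u => mu u + p.Kh n t x u + D * p.hol t x u + g u) v +
        mu v * freq (fun u => D * p.B n t x u) v ≤
      D * (2 * gain (p.B n t x) (fun u => ENNReal.ofReal (p.CK t + 3) * p.W n (1 / 8) t x u) v +
        mu v * freq (p.B n t x) v) := by
    have a1 : gain (fun u => D * p.B n t x u)
        (fun u => mu u + p.Kh n t x u + D * p.hol t x u + g u) v ≤
        gain (fun u => D * p.B n t x u)
          (fun u => ENNReal.ofReal (p.CK t + 3) * p.W n (1 / 8) t x u) v := by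
      refine gain_mono (fun _ => le_rfl) (fun u => ?_) v
      calc _ ≤ p.W n (1 / 8) t x u + ENNReal.ofReal (p.CK t) * p.W n (1 / 8) t x u +
            p.W n (1 / 8) t x u + p.W n (1 / 8) t x u :=
            add_le_add (add_le_add (add_le_add ((la1_mu_le u).trans (hmW u)) (hK1 u))
              ((hH2 u).trans (hmW u))) ((hg1 u).trans (hmW u))
        _ = _ := by rw [ENNReal.ofReal_add c0 (by norm_num), ENNReal.ofReal_ofNat]; ring
    rw [gain_const_mul_left mB (mW.const_mul _)] at a1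
    rw [freq_const_mul mB]
    calc _ ≤ 2 * (D * gain (p.B n t x)
          (fun u => ENNReal.ofReal (p.CK t + 3) * p.W n (1 / 8) t x u) v) +
          mu v * (D * freq (p.B n t x) v) := by gcongr
      _ = _ := by ring
  have tK : gain (p.Kh n t x) (fun u => 2 * mu u + p.Kh n t x u + 2 * (D * p.hol t x u) + 2 * g u) v +
      mu v * freq (p.Kh n t x) v ≤ ENNReal.ofReal (p.e * (1 + ‖v‖)) * gs (1 / 8) v := by
    refine le_trans (add_le_add (gain_mono (fun _ => le_rfl) (fun u => ?_) v) le_rfl) (hK n t x v ht)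
    calc _ ≤ 2 * p.W n (1 / 8) t x u + ENNReal.ofReal (p.CK t) * p.W n (1 / 8) t x u +
          2 * p.W n (1 / 8) t x u + 2 * p.W n (1 / 8) t x u :=
          add_le_add (add_le_add (add_le_add (mul_le_mul' le_rfl ((la1_mu_le u).trans (hmW u)))
            (hK1 u)) (mul_le_mul' le_rfl ((hH2 u).trans (hmW u))))
            (mul_le_mul' le_rfl ((hg1 u).trans (hmW u)))
      _ = _ := by rw [ENNReal.ofReal_add c0 (by norm_num), ENNReal.ofReal_ofNat]; ring
  have tH : gain (fun u => D * p.hol t x u) (fun u => 2 * mu u + D * p.hol t x u + 2 * g u) v +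
      mu v * freq (fun u => D * p.hol t x u) v ≤ ENNReal.ofReal p.e * gs (1 / 8) v := by
    refine le_trans (add_le_add ?_ (mul_le_mul' le_rfl (freq_mono hH1 v))) (hh t x v ht).1
    rw [← gain_const_mul_right mH (measurable_gs _)]
    refine gain_mono hH1 (fun u => ?_) v
    calc _ ≤ 2 * gs (1 / 8) u + gs (1 / 8) u + 2 * gs (1 / 8) u :=
          add_le_add (add_le_add (mul_le_mul' le_rfl (la1_mu_le u)) (hH2 u))
            (mul_le_mul' le_rfl (hg1 u))
      _ = _ := by ring
  have tg : gain g g v ≤ ENNReal.ofReal (10 ^ 6 * p.δ ^ 2 * (1 + ‖v‖)) * gs (1 / 8) v := by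
    refine (gain_mono hgb hgb v).trans ?_
    rw [gain_const_mul_left (measurable_gs _) ((measurable_gs _).const_mul _),
      gain_const_mul_right (measurable_gs _) (measurable_gs _)]
    calc _ ≤ ENNReal.ofReal p.δ * (ENNReal.ofReal p.δ *
          (ENNReal.ofReal (10 ^ 6 * (1 + ‖v‖)) * gs (1 / 8) v)) := by
          gcongr; exact gain_gs_self_le (by norm_num) v
      _ = ENNReal.ofReal (p.δ * (p.δ * (10 ^ 6 * (1 + ‖v‖)))) * gs (1 / 8) v := by
          rw [ENNReal.ofReal_mul hδ.le, ENNReal.ofReal_mul hδ.le]; ring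
      _ = _ := by congr 2; ring
  have fin : ENNReal.ofReal p.e + ENNReal.ofReal (p.e * (1 + ‖v‖)) + ENNReal.ofReal p.e +
      ENNReal.ofReal (10 ^ 6 * p.δ ^ 2 * (1 + ‖v‖)) ≤
      ENNReal.ofReal ((3 * p.e + 10 ^ 6 * p.δ ^ 2) * (1 + ‖v‖)) := by
    rw [← ENNReal.ofReal_add he.le (by positivity), ← ENNReal.ofReal_add (by positivity) he.le,
      ← ENNReal.ofReal_add (by positivity) (by positivity)]
    refine ENNReal.ofReal_le_ofReal ?_
    nlinarith [mul_nonneg he.le hv]
  refine (le_of_eq key).trans ((add_le_add (add_le_add (add_le_add (add_le_add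
    (add_le_add le_rfl tBB) tB) tK) tH) tg).trans ?_)
  calc _ = Kop g v + ENNReal.ofReal (p.Dm t ^ 2) * p.Gr n t x v +
        D * (2 * gain (p.B n t x) (fun u => ENNReal.ofReal (p.CK t + 3) * p.W n (1 / 8) t x u) v +
          mu v * freq (p.B n t x) v) +
        (ENNReal.ofReal p.e + ENNReal.ofReal (p.e * (1 + ‖v‖)) + ENNReal.ofReal p.e +
          ENNReal.ofReal (10 ^ 6 * p.δ ^ 2 * (1 + ‖v‖))) * gs (1 / 8) v := by ring
    _ ≤ _ := by gcongr

end Crest.Agent.R068
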