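import Crest.Agent.R068.OmS
import Crest.Agent.R068.OneD

/-! Row 68: auxiliary estimates for the source created by the cold barrier. -/

set_option autoImplicit false
open MeasureTheory Set Filter Topology
open scoped ENNReal
open Crest.AnalysisR.VecCalc3 Crest.AnalysisR.PDE.Boltzmann

namespace Crest.Agent.R068

lemma la2_ev_small (c : ℝ) {ε : ℝ} (hε : 0 < ε) : ∀ᶠ x in 𝓝[>] (0:ℝ), c * x ≤ ε := by
  have h : Tendsto (fun x : ℝ => c * x) (𝓝[>] 0) (𝓝 0) := by
    have : Tendsto (fun x : ℝ => c * x) (𝓝 0) (𝓝 (c * 0)) :=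
      (continuous_const.mul continuous_id).tendsto 0
    rw [mul_zero] at this
    exact this.mono_left nhdsWithin_le_nhds
  exact h.eventually (ge_mem_nhds hε)

lemma la2_ev_V : ∀ᶠ p in PF, 3 * 10 ^ 11 ≤ p.V :=
  ev_V (Q := fun _ x => 3 * 10 ^ 11 ≤ x) (Eventually.of_forall fun _ => eventually_ge_atTop _)

lemma la2_Ed_le {s t : ℝ} (hst : s ≤ t) (v : R3) :
    Ed s t v ≤ ENNReal.ofReal (Real.exp (-((t - s) / 4))) := by
  refine ENNReal.ofReal_le_ofReal (Real.exp_le_exp.2 ?_)
  nlinarith [norm_nonneg v, mul_nonneg (norm_nonneg v) (sub_nonneg.2 hst)]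

lemma la2_Ed_le_one {s t : ℝ} (hst : s ≤ t) (v : R3) : Ed s t v ≤ 1 := by
  refine (la2_Ed_le hst v).trans ?_
  rw [ENNReal.ofReal_le_one, Real.exp_le_one_iff]
  linarith

lemma la2_Ed_meas (t : ℝ) (v : R3) : Measurable (fun s => Ed s t v) := by
  unfold Ed
  fun_prop

namespace Par
variable {p : Par}

lemma la2_V_pos (h : p.Std) : 0 < p.V := by linarith [h.V_ge, h.R_ge]

lemma la2_lam0_pos (h : p.Std) : 0 < p.lam0 := by
  have := la2_V_pos h
  have := t2_pos h
  unfold lam0
  positivity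

lemma la2_Cmax_pos (h : p.Std) : 0 < p.Cmax := by
  have := one_le_C0 h
  unfold Cmax
  positivity

lemma la2_CK_le (h : p.Std) {t : ℝ} (ht : p.t2 ≤ t) : p.CK t ≤ p.Cmax := by
  refine (CK_le h ht).trans (mul_le_of_le_one_right (la2_Cmax_pos h).le ?_)
  rw [Real.exp_le_one_iff]
  linarith

lemma la2_rho_le (h : p.Std) {t : ℝ} (ht : p.t2 ≤ t) (X : R3) : p.rho t X ≤ p.V ^ 5 * (1 + p.t2⁻¹) := by
  have h1 := la2_V_pos h
  have h2 := t2_pos h
  unfold rho
  gcongr
  linarith [norm_nonneg X]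

/-- the basic bound for the source -/
lemma la2_src (h : p.Std) (hV : 3 * 10 ^ 11 ≤ p.V) {n : ℕ∞} {s : ℝ} (hs : p.t2 ≤ s) {y : R3}
    {k : Fin 3 → ℤ} {j : ℕ} (hw : p.Wit n s y k j) {v : R3} {Q : ℝ≥0∞} (hQ : 1 ≤ Q)
    (hpot : pot (p.B n s y) v ≤ ENNReal.ofReal (p.rho s (y - lat k)) * Q) :
    ENNReal.ofReal (p.Dm s) * (2 * gain (p.B n s y)
      (fun u => ENNReal.ofReal (p.CK s + 3) * p.W n (1 / 8) s y u) v + mu v * freq (p.B n s y) v) ≤
    ENNReal.ofReal (p.lam0 * Real.exp (-(3 * (s - p.t2) / 8)) * (1 + p.CK s)) * (gs (1 / 8) v * Q) := by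
  have ht2 := t2_pos h
  have hV0 := la2_V_pos h
  have hs0 : 0 ≤ s := ht2.le.trans hs
  have hB : Measurable (p.B n s y) := (p.meas_B n).slice s y
  have hCK := CK_nonneg h s
  have hCW := one_le_CW hs0
  set ρ : ℝ := p.V ^ 5 * (1 + p.t2⁻¹) with hρ
  have hρ0 : 0 ≤ ρ := by positivity
  have hρ1 : ENNReal.ofReal (p.rho s (y - lat k)) ≤ ENNReal.ofReal ρ :=
    ENNReal.ofReal_le_ofReal (la2_rho_le h hs _)
  have d4 : p.lam0 = p.V * ρ := by rw [hρ, lam0]; ring
  clear_value ρ
  have g1 : gain (p.B n s y) (fun u => ENNReal.ofReal (p.CK s + 3) * p.W n (1 / 8) s y u) v ≤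
      ENNReal.ofReal ((p.CK s + 3) * (140 * CW s) * ρ) * (gs (1 / 8) v * Q) := by
    rw [gain_const_mul_right hB ((p.meas_W n _).slice s y)]
    have := gain_Wf_pot (η := p.etaS n) (a := 1 / 8) le_rfl (by norm_num) hs0 y hB
      (fun u hu => (hw.supp u hu).2) v
    calc _ ≤ ENNReal.ofReal (p.CK s + 3) * (ENNReal.ofReal (140 * CW s) * gs (1 / 8) v *
          (ENNReal.ofReal ρ * Q)) := by
          gcongr
          refine this.trans ?_
          gcongr
          exact hpot.trans (by gcongr)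
      _ = _ := by
          rw [ENNReal.ofReal_mul (p := (p.CK s + 3) * (140 * CW s)) (by positivity),
            ENNReal.ofReal_mul (p := p.CK s + 3) (by positivity)]
          ring
  have g2 : mu v * freq (p.B n s y) v ≤ ENNReal.ofReal (1900 * ρ) * (gs (1 / 8) v * Q) := by
    have a1 : ∫⁻ u, ENNReal.ofReal (1 + ‖u‖) * p.B n s y u ≤ ENNReal.ofReal 3 * ENNReal.ofReal ρ := by
      calc _ ≤ ∫⁻ u, ENNReal.ofReal 3 * p.B n s y u := by
            refine lintegral_mono fun u => ?_
            by_cases hu : p.B n s y u = 0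
            · simp [hu]
            · gcongr
              linarith [(hw.supp u hu).2]
        _ ≤ _ := by
            rw [lintegral_const_mul _ hB]
            gcongr
            exact hw.mass.trans hρ1
    have a2 := weight_absorb (a := 1 / 2) (b := 1 / 8) (by norm_num) v
    calc mu v * freq (p.B n s y) v
        ≤ gs (1 / 2) v * (ENNReal.ofReal (2 * Real.pi * (1 + ‖v‖)) *
            (ENNReal.ofReal 3 * ENNReal.ofReal ρ)) := by
          gcongr
          · exact mu_le_gs v
          · exact (freq_le_moment _ hB v).trans (by gcongr)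
      _ = (ENNReal.ofReal (2 * Real.pi) * ENNReal.ofReal 3 * ENNReal.ofReal ρ) *
            (ENNReal.ofReal (1 + ‖v‖) * gs (1 / 2) v) := by
          rw [ENNReal.ofReal_mul (by positivity)]
          ring
      _ ≤ (ENNReal.ofReal (2 * Real.pi) * ENNReal.ofReal 3 * ENNReal.ofReal ρ) *
            (ENNReal.ofReal 100 * (gs (1 / 8) v * Q)) := by
          refine mul_le_mul_right ?_ _
          rw [ENNReal.ofReal_ofNat]
          exact a2.trans (by gcongr; exact le_mul_of_one_le_right zero_le hQ)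
      _ = ENNReal.ofReal (2 * Real.pi * 3 * ρ * 100) * (gs (1 / 8) v * Q) := by
          rw [ENNReal.ofReal_mul (p := 2 * Real.pi * 3 * ρ) (by positivity),
            ENNReal.ofReal_mul (p := 2 * Real.pi * 3) (by positivity),
            ENNReal.ofReal_mul (p := 2 * Real.pi) (by positivity)]
          ring
      _ ≤ _ := by
          refine mul_le_mul_left (ENNReal.ofReal_le_ofReal ?_) _
          nlinarith [Real.pi_lt_d2]
  have hDm : 0 ≤ p.Dm s := (Real.exp_pos _).le
  calc _ ≤ ENNReal.ofReal (p.Dm s) * (2 * (ENNReal.ofReal ((p.CK s + 3) * (140 * CW s) * ρ) *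
        (gs (1 / 8) v * Q)) + ENNReal.ofReal (1900 * ρ) * (gs (1 / 8) v * Q)) := by gcongr
    _ = ENNReal.ofReal (p.Dm s * (2 * ((p.CK s + 3) * (140 * CW s) * ρ) + 1900 * ρ)) *
        (gs (1 / 8) v * Q) := by
        rw [ENNReal.ofReal_mul hDm, ENNReal.ofReal_add (by positivity) (by positivity),
          ENNReal.ofReal_mul (p := 2) (by norm_num), ENNReal.ofReal_ofNat]
        ring
    _ ≤ _ := by
        refine mul_le_mul_left (ENNReal.ofReal_le_ofReal ?_) _
        have d1 := CW_decay (t := p.t2) (y := s - p.t2) ht2.le (by linarith [h.t2_le]) (by linarith)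
        rw [add_sub_cancel] at d1
        have d2 : p.Dm s ≤ Real.exp (-((s - p.t2) / 16)) * Real.exp (-(3 * (s - p.t2) / 8)) := by
          rw [← Real.exp_add]
          exact Real.exp_le_exp.2 (by linarith)
        have d3 : 2 * ((p.CK s + 3) * (140 * CW s) * ρ) + 1900 * ρ ≤ 3000 * CW s * ρ * (1 + p.CK s) := by
          have e1 : 0 ≤ ρ * (CW s - 1) := mul_nonneg hρ0 (by linarith)
          have e2 : 0 ≤ ρ * CW s * p.CK s := by positivity
          have e3 : 0 ≤ ρ * CW s := by positivity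
          nlinarith
        calc p.Dm s * (2 * ((p.CK s + 3) * (140 * CW s) * ρ) + 1900 * ρ)
            ≤ (Real.exp (-((s - p.t2) / 16)) * Real.exp (-(3 * (s - p.t2) / 8))) *
              (3000 * CW s * ρ * (1 + p.CK s)) := by gcongr
          _ = (3000 * (CW s * Real.exp (-((s - p.t2) / 16)))) *
              (ρ * Real.exp (-(3 * (s - p.t2) / 8)) * (1 + p.CK s)) := by ring
          _ ≤ p.V * (ρ * Real.exp (-(3 * (s - p.t2) / 8)) * (1 + p.CK s)) := by
              gcongr
              linarith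
          _ = _ := by rw [d4]; ring

lemma la2_zero {n : ℕ∞} {s : ℝ} {y : R3} (h0 : ∀ v, p.B n s y v = 0) (g : R3 → ℝ≥0∞) (c : ℝ≥0∞)
    (v : R3) : c * (2 * gain (p.B n s y) g v + mu v * freq (p.B n s y) v) = 0 := by
  have : p.B n s y = fun _ => 0 := funext h0
  rw [this, gain_zero_left]
  simp [freq]

/-- the growth of `CK` -/
lemma la2_ode (h : p.Std) {t : ℝ} (ht : p.t2 ≤ t) :
    ENNReal.ofReal (Real.exp (-((t - p.t2) / 4)) * p.C0) +
      ∫⁻ s in Ioo p.t2 t, ENNReal.ofReal (Real.exp (-((t - s) / 4)) *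
        (p.lam0 * Real.exp (-(3 * (s - p.t2) / 8)) * (1 + p.CK s))) ≤ ENNReal.ofReal (p.CK t) := by
  have hl := la2_lam0_pos h
  have hC := one_le_C0 h
  have key := lintegral_le_of_deriv (a := p.t2) (b := t)
    (u := fun s => Real.exp (-((t - p.t2) / 4)) *
      (p.C0 * Real.exp (16 * p.lam0 * (1 - Real.exp (-((s - p.t2) / 8))))))
    (u' := fun s => Real.exp (-((t - p.t2) / 4)) *
      (p.C0 * (Real.exp (16 * p.lam0 * (1 - Real.exp (-((s - p.t2) / 8)))) *
        (16 * p.lam0 * (Real.exp (-((s - p.t2) / 8)) / 8)))))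
    (ρ := fun s => ENNReal.ofReal (Real.exp (-((t - s) / 4)) *
        (p.lam0 * Real.exp (-(3 * (s - p.t2) / 8)) * (1 + p.CK s)))) ht
    (fun s _ => by
      have d1 : HasDerivAt (fun s : ℝ => -((s - p.t2) / 8)) (-(1 / 8)) s :=
        (((hasDerivAt_id s).sub_const p.t2).div_const 8).neg
      have d2 := ((((d1.exp.const_sub 1).const_mul (16 * p.lam0)).exp).const_mul p.C0).const_mul
        (Real.exp (-((t - p.t2) / 4)))
      refine d2.congr_deriv ?_
      ring)
    (by fun_prop) (by positivity)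
    (fun s hs => by
      refine ENNReal.ofReal_le_ofReal ?_
      set c := p.C0 * Real.exp (16 * p.lam0 * (1 - Real.exp (-((s - p.t2) / 8)))) with hc
      have y0 : 0 ≤ s - p.t2 := by linarith [hs.1]
      have c1 : 1 ≤ c := by
        have : Real.exp (-((s - p.t2) / 8)) ≤ 1 := by rw [Real.exp_le_one_iff]; linarith
        have : 1 ≤ Real.exp (16 * p.lam0 * (1 - Real.exp (-((s - p.t2) / 8)))) :=
          Real.one_le_exp (mul_nonneg (by positivity) (by linarith))
        nlinarith
      have c2 : p.CK s ≤ c := by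
        have : Real.exp (-((s - p.t2) / 4)) ≤ 1 := by rw [Real.exp_le_one_iff]; linarith
        exact mul_le_of_le_one_left (by linarith) this
      have e1 : Real.exp (-((t - s) / 4)) * Real.exp (-(3 * (s - p.t2) / 8)) =
          Real.exp (-((t - p.t2) / 4)) * Real.exp (-((s - p.t2) / 8)) := by
        rw [← Real.exp_add, ← Real.exp_add]; congr 1; ring
      calc Real.exp (-((t - s) / 4)) * (p.lam0 * Real.exp (-(3 * (s - p.t2) / 8)) * (1 + p.CK s))
          = (Real.exp (-((t - s) / 4)) * Real.exp (-(3 * (s - p.t2) / 8))) * p.lam0 * (1 + p.CK s) := by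
            ring
        _ ≤ (Real.exp (-((t - p.t2) / 4)) * Real.exp (-((s - p.t2) / 8))) * p.lam0 * (2 * c) := by
            rw [e1]
            gcongr
            linarith
        _ = _ := by rw [hc]; ring)
    (fun s _ => by positivity)
  simpa only [sub_self, zero_div, neg_zero, Real.exp_zero, mul_zero, mul_one, CK] using key

end Par

end Crest.Agent.R068
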