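import Crest.Agent.R068.OmS
import Crest.Agent.R068.Guo
import Crest.Agent.R068.LateAAux1
import Crest.Agent.R068.LateAAux2

/-! Row 68: source terms of the late stage. -/

set_option autoImplicit false
open MeasureTheory Set Filter Topology
open scoped ENNReal
open Crest.AnalysisR.VecCalc3 Crest.AnalysisR.PDE.Boltzmann

namespace Crest.Agent.R068

/-- the hole is filled -/
theorem ev_hol_small : ∀ᶠ p in PF, ∀ (t : ℝ) (x v : R3), p.t2 ≤ t →
    5 * gain (p.hol t x) (gs (1 / 8)) v + mu v * freq (p.hol t x) v ≤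
      ENNReal.ofReal p.e * gs (1 / 8) v ∧ freq (p.hol t x) v ≤ ENNReal.ofReal ((1 + ‖v‖) / 4) :=
  la1_hol
/-- the thin part -/
theorem ev_Kh_small : ∀ᶠ p in PF, ∀ (n : ℕ∞) (t : ℝ) (x v : R3), p.t2 ≤ t →
    gain (p.Kh n t x) (fun u => ENNReal.ofReal (p.CK t + 6) * p.W n (1 / 8) t x u) v +
      mu v * freq (p.Kh n t x) v ≤ ENNReal.ofReal (p.e * (1 + ‖v‖)) * gs (1 / 8) v :=
  la1_Kh
/-- the source created by the cold barrier -/
noncomputable def Par.srcB (p : Par) (n : ℕ∞) : TF := fun t x v =>
  ENNReal.ofReal (p.Dm t) * (2 * gain (p.B n t x)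
    (fun u => ENNReal.ofReal (p.CK t + 3) * p.W n (1 / 8) t x u) v + mu v * freq (p.B n t x) v)
/-- on thin velocities it is absorbed by the growth of `CK` -/
theorem ev_srcB_thin : ∀ᶠ p in PF, ∀ (n : ℕ∞) (t : ℝ) (x v : R3), p.t2 ≤ t → |nc v| < p.κ →
    Ed p.t2 t v * p.Kh n p.t2 (x - (t - p.t2) • v) v +
      ∫⁻ s in Ioo p.t2 t, Ed s t v * p.srcB n s (x - (t - s) • v) v ≤ p.Kh n t x v := by
  filter_upwards [ev_std, ev_wit, la2_ev_V] with p h hw hV n t x v ht hv
  have ht2 := Par.t2_pos h
  have hl := Par.la2_lam0_pos h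
  have hW : ∀ s, s ≤ t → p.W n (1 / 8) s (x - (t - s) • v) v ≤ p.W n (1 / 8) t x v :=
    fun s hs => Wf_mono _ le_rfl hs x v
  have a1 : Ed p.t2 t v * p.Kh n p.t2 (x - (t - p.t2) • v) v ≤
      ENNReal.ofReal (Real.exp (-((t - p.t2) / 4)) * p.C0) * p.W n (1 / 8) t x v := by
    simp only [Par.Kh, if_pos hv, Par.CK_t2]
    rw [ENNReal.ofReal_mul (Real.exp_pos _).le, mul_assoc]
    gcongr
    · exact la2_Ed_le ht v
    · exact hW _ ht
  have a2 : ∫⁻ s in Ioo p.t2 t, Ed s t v * p.srcB n s (x - (t - s) • v) v ≤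
      (∫⁻ s in Ioo p.t2 t, ENNReal.ofReal (Real.exp (-((t - s) / 4)) *
        (p.lam0 * Real.exp (-(3 * (s - p.t2) / 8)) * (1 + p.CK s)))) * p.W n (1 / 8) t x v := by
    rw [← lintegral_mul_const _ (by unfold Par.CK; fun_prop)]
    refine setLIntegral_mono' measurableSet_Ioo fun s hs => ?_
    rcases hw n s (x - (t - s) • v) (ht2.le.trans hs.1.le) with h0 | ⟨k, j, hk⟩
    · simp only [Par.srcB]
      rw [Par.la2_zero h0.1, mul_zero]
      exact zero_le
    · rw [ENNReal.ofReal_mul (Real.exp_pos _).le, mul_assoc]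
      refine mul_le_mul' (la2_Ed_le hs.2.le v) ?_
      refine (Par.la2_src h hV hs.1.le hk le_self_add (hk.pot v)).trans ?_
      exact mul_le_mul_right (hW s hs.2.le) _
  refine (add_le_add a1 a2).trans ?_
  simp only [Par.Kh, if_pos hv]
  rw [← add_mul]
  exact mul_le_mul_left (Par.la2_ode h ht) _
/-- on transversal velocities it is small -/
theorem ev_srcB_thick : ∀ᶠ p in PF, ∀ (n : ℕ∞) (t : ℝ) (x v : R3), p.t2 ≤ t → p.κ ≤ |nc v| →
    ∫⁻ s in Ioo p.t2 t, Ed s t v * p.srcB n s (x - (t - s) • v) v ≤ ENNReal.ofReal p.e * gs (1 / 8) v := by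
  have evS : ∀ᶠ p in PF, p.lam0 * (1 + p.Cmax) ≤ p.e * p.S :=
    ev_S (Q := fun p x => p.lam0 * (1 + p.Cmax) ≤ p.e * x) (by
      filter_upwards [ev_std] with p h
      exact (tendsto_id.const_mul_atTop h.e_pos).eventually_ge_atTop _)
  have evk : ∀ᶠ p in PF, p.lam0 * (1 + p.Cmax) * 29 * p.κ ≤ p.e / 2 :=
    ev_k (Q := fun p x => p.lam0 * (1 + p.Cmax) * 29 * x ≤ p.e / 2) (by
      filter_upwards [ev_std] with p h
      exact la2_ev_small _ (half_pos h.e_pos))
  have evr : ∀ᶠ p in PF, p.lam0 * (1 + p.Cmax) * (2 / p.κ) *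
      (2 * (3 + 2 * (p.t2 + p.κ⁻¹) + p.κ⁻¹ * p.S) + 1) ^ 3 * (2 / p.κ) * p.r0 ≤ p.e / 2 :=
    ev_r0 (Q := fun p x => p.lam0 * (1 + p.Cmax) * (2 / p.κ) *
      (2 * (3 + 2 * (p.t2 + p.κ⁻¹) + p.κ⁻¹ * p.S) + 1) ^ 3 * (2 / p.κ) * x ≤ p.e / 2) (by
      filter_upwards [ev_std] with p h
      exact la2_ev_small _ (half_pos h.e_pos))
  filter_upwards [ev_std, ev_wit, la2_ev_V, evS, evk, evr] with p h hw hV hS hk hr n t x v ht hv
  have ht2 := Par.t2_pos h
  have hl := Par.la2_lam0_pos h
  have hC := Par.la2_Cmax_pos h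
  have hκ := h.κ_pos
  have he := h.e_pos
  have hr0 := h.r0_pos
  have hκ1 : p.κ ≤ 1 := by linarith [h.κ_le, h.t2_le]
  have hEm : Measurable (fun s => Ed s t v * ENNReal.ofReal (1 + ‖v‖)) :=
    (la2_Ed_meas t v).mul_const _
  have hE := lintegral_Ed p.t2 t v
  have hexp : ∀ s, p.t2 ≤ s → Real.exp (-(3 * (s - p.t2) / 8)) ≤ 1 := fun s hs => by
    rw [Real.exp_le_one_iff]; linarith
  by_cases hvS : p.S < ‖v‖
  · calc _ ≤ ∫⁻ s in Ioo p.t2 t, (Ed s t v * ENNReal.ofReal (1 + ‖v‖)) *
          (ENNReal.ofReal p.e * gs (1 / 8) v) := by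
          refine setLIntegral_mono' measurableSet_Ioo fun s hs => ?_
          rcases hw n s (x - (t - s) • v) (ht2.le.trans hs.1.le) with h0 | ⟨k, j, hj⟩
          · simp only [Par.srcB]
            rw [Par.la2_zero h0.1, mul_zero]
            exact zero_le
          · rw [mul_assoc]
            refine mul_le_mul_right ?_ _
            have hp : pot (p.B n s (x - (t - s) • v)) v ≤
                ENNReal.ofReal (p.rho s (x - (t - s) • v - lat k)) * 1 := by
              refine (pot_le_of_far ((p.meas_B n).slice _ _) one_pos fun u hu => ?_).trans ?_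
              · have := norm_sub_norm_le v u
                linarith [(hj.supp u hu).2, h.S_ge]
              · simpa using hj.mass
            refine (Par.la2_src h hV hs.1.le hj le_rfl hp).trans ?_
            rw [mul_one, ← mul_assoc, ← ENNReal.ofReal_mul (by positivity)]
            refine mul_le_mul_left (ENNReal.ofReal_le_ofReal ?_) _
            have hCK := Par.CK_nonneg h s
            calc p.lam0 * Real.exp (-(3 * (s - p.t2) / 8)) * (1 + p.CK s)
                ≤ p.lam0 * 1 * (1 + p.Cmax) := by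
                  gcongr
                  · exact hexp s hs.1.le
                  · exact Par.la2_CK_le h hs.1.le
              _ ≤ _ := by nlinarith
      _ ≤ _ := by
          rw [lintegral_mul_const _ hEm]
          exact mul_le_of_le_one_left zero_le hE
  · push Not at hvS
    set t' := min t (p.t2 + p.κ⁻¹) with ht'
    have hκi : 0 < p.κ⁻¹ := inv_pos.2 hκ
    have h2t' : p.t2 ≤ t' := le_min ht (by linarith)
    have ht'1 : t' - p.t2 ≤ p.κ⁻¹ := by linarith [min_le_right t (p.t2 + p.κ⁻¹)]
    set ρ := 3 + 2 * (p.t2 + p.κ⁻¹) with hρ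
    have hρ0 : 0 ≤ ρ := by positivity
    have hth := thin_crossing hρ0 hr0.le hκ h2t' (x - (t - t') • v) hv
    set G := {r : ℝ | r ∈ Ioo p.t2 t' ∧ ∃ k : Fin 3 → ℤ, ‖x - (t - t') • v - (t' - r) • v - lat k‖ ≤ ρ ∧
      |nc (x - (t - t') • v - (t' - r) • v - lat k)| < p.r0} with hG
    set A := p.lam0 * (1 + p.Cmax) * (2 / p.κ) with hA
    have hA0 : 0 ≤ A := by positivity
    calc _ ≤ ∫⁻ s in Ioo p.t2 t, (G.indicator (fun _ => ENNReal.ofReal A * gs (1 / 8) v) s +
          (Ed s t v * ENNReal.ofReal (1 + ‖v‖)) * (ENNReal.ofReal (p.e / 2) * gs (1 / 8) v)) := by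
          refine setLIntegral_mono' measurableSet_Ioo fun s hs => ?_
          rcases hw n s (x - (t - s) • v) (ht2.le.trans hs.1.le) with h0 | ⟨k, j, hj⟩
          · simp only [Par.srcB]
            rw [Par.la2_zero h0.1, mul_zero]
            exact zero_le
          have hp : pot (p.B n s (x - (t - s) • v)) v ≤
              ENNReal.ofReal (p.rho s (x - (t - s) • v - lat k)) * ENNReal.ofReal (2 / p.κ) := by
            refine (pot_le_of_far ((p.meas_B n).slice _ _) (half_pos hκ) fun u hu => ?_).trans ?_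
            · have b1 := abs_nc_le (v - u)
              have b2 := abs_sub_abs_le_abs_sub (nc v) (nc u)
              rw [nc_sub] at b1
              linarith [(hj.supp u hu).1, Par.DD_le h j, h.r0_κ]
            · rw [inv_div, mul_comm]
              exact mul_le_mul_left hj.mass _
          have hQ : 1 ≤ ENNReal.ofReal (2 / p.κ) := by
            rw [ENNReal.one_le_ofReal, le_div_iff₀ hκ]
            linarith
          have hCK := Par.CK_nonneg h s
          have hsrc : p.srcB n s (x - (t - s) • v) v ≤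
              ENNReal.ofReal (A * Real.exp (-(3 * (s - p.t2) / 8))) * gs (1 / 8) v := by
            refine (Par.la2_src h hV hs.1.le hj hQ hp).trans ?_
            rw [mul_comm (gs _ _), ← mul_assoc, ← ENNReal.ofReal_mul (by positivity)]
            refine mul_le_mul_left (ENNReal.ofReal_le_ofReal ?_) _
            calc p.lam0 * Real.exp (-(3 * (s - p.t2) / 8)) * (1 + p.CK s) * (2 / p.κ)
                ≤ p.lam0 * Real.exp (-(3 * (s - p.t2) / 8)) * (1 + p.Cmax) * (2 / p.κ) := by
                  gcongr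
                  exact Par.la2_CK_le h hs.1.le
              _ = _ := by rw [hA]; ring
          by_cases hsk : s < p.t2 + p.κ⁻¹
          · have e : x - (t - t') • v - (t' - s) • v = x - (t - s) • v := by
              rw [sub_sub, ← add_smul]; congr 2; ring
            have hsG : s ∈ G := by
              refine ⟨⟨hs.1, lt_min hs.2 hsk⟩, k, ?_, ?_⟩
              · rw [e]
                have := hj.near
                have := h.r0_κ
                linarith
              · rw [e]
                exact hj.hi.trans_le (Par.r_le h j)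
            rw [indicator_of_mem hsG]
            refine le_trans ?_ le_self_add
            refine (mul_le_of_le_one_left zero_le (la2_Ed_le_one hs.2.le v)).trans (hsrc.trans ?_)
            exact mul_le_mul_left (ENNReal.ofReal_le_ofReal
              (mul_le_of_le_one_right hA0 (hexp s hs.1.le))) _
          · refine le_trans ?_ le_add_self
            rw [mul_assoc]
            refine mul_le_mul_right (hsrc.trans ?_) _
            rw [← mul_assoc, ← ENNReal.ofReal_mul (by positivity)]
            refine mul_le_mul_left (ENNReal.ofReal_le_ofReal ?_) _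
            push Not at hsk
            have c1 : Real.exp (-(3 * (s - p.t2) / 8)) ≤ Real.exp (-(3 * p.κ⁻¹ / 8)) :=
              Real.exp_le_exp.2 (by linarith)
            have c2 : Real.exp (-(3 * p.κ⁻¹ / 8)) ≤ 29 / 2 * p.κ ^ 2 := by
              have q := Real.quadratic_le_exp_of_nonneg (x := 3 * p.κ⁻¹ / 8) (by positivity)
              rw [Real.exp_neg, inv_le_comm₀ (Real.exp_pos _) (by positivity)]
              refine le_trans ?_ q
              have : (29 / 2 * p.κ ^ 2)⁻¹ = 2 / 29 * p.κ⁻¹ ^ 2 := by field_simp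
              rw [this]
              nlinarith [sq_nonneg p.κ⁻¹]
            calc A * Real.exp (-(3 * (s - p.t2) / 8)) ≤ A * (29 / 2 * p.κ ^ 2) := by
                  gcongr; exact c1.trans c2
              _ = p.lam0 * (1 + p.Cmax) * 29 * p.κ := by rw [hA]; field_simp
              _ ≤ _ := by nlinarith [norm_nonneg v]
      _ ≤ ENNReal.ofReal (p.e / 2) * gs (1 / 8) v + ENNReal.ofReal (p.e / 2) * gs (1 / 8) v := by
          rw [lintegral_add_right _ (hEm.mul_const _), lintegral_mul_const _ hEm]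
          refine add_le_add ?_ (mul_le_of_le_one_left zero_le hE)
          refine (lintegral_indicator_const_le _ _).trans ?_
          rw [mul_right_comm]
          refine mul_le_mul_left ?_ _
          refine (mul_le_mul_right ((Measure.restrict_apply_le _ _).trans hth) _).trans ?_
          rw [← ENNReal.ofReal_mul hA0]
          refine ENNReal.ofReal_le_ofReal (le_trans ?_ hr)
          have : (2 * (ρ + (t' - p.t2) * ‖v‖) + 1) ^ 3 ≤ (2 * (ρ + p.κ⁻¹ * p.S) + 1) ^ 3 := by
            have : 0 ≤ t' - p.t2 := by linarith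
            gcongr
          calc A * ((2 * (ρ + (t' - p.t2) * ‖v‖) + 1) ^ 3 * (2 * p.r0 / p.κ))
              ≤ A * ((2 * (ρ + p.κ⁻¹ * p.S) + 1) ^ 3 * (2 * p.r0 / p.κ)) := by gcongr
            _ = _ := by ring
      _ = _ := by
          rw [← add_mul, ← ENNReal.ofReal_add (by positivity) (by positivity), add_halves]
/-- the collision frequency of the clamped density -/
theorem ev_freq_late : ∀ᶠ p in PF, ∀ (n : ℕ∞) (t : ℝ) (x v : R3), p.t2 < t →
    ENNReal.ofReal (1 + ‖v‖) ≤ freq (p.Lo n t x) v := la1_freq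
/-- expansion of the quadratic and linear terms -/
theorem ev_expand : ∀ᶠ p in PF, ∀ (n : ℕ∞) (t : ℝ) (x v : R3) (g : R3 → ℝ≥0∞), p.t2 ≤ t → Measurable g →
    (∀ u, g u ≤ ENNReal.ofReal p.δ * gs (1 / 8) u) →
    Kop (fun u => p.Xi n t x u + g u) v + gain (fun u => p.Xi n t x u + g u) (fun u => p.Xi n t x u + g u) v ≤
      Kop g v + ENNReal.ofReal (p.Dm t ^ 2) * p.Gr n t x v + p.srcB n t x v +
        ENNReal.ofReal ((3 * p.e + 10 ^ 6 * p.δ ^ 2) * (1 + ‖v‖)) * gs (1 / 8) v :=
  la1_expand

end Crest.Agent.R068
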