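import Crest.Agent.R068.Tr2
import Crest.Agent.R068.LateA
import Crest.Agent.R068.Data
import Crest.Agent.R068.Grow

/-! Row 68: the late stage: the clamp stays inactive for all times. -/

set_option autoImplicit false
open MeasureTheory Set Filter Topology
open scoped ENNReal
open Crest.AnalysisR.VecCalc3 Crest.AnalysisR.PDE.Boltzmann

namespace Crest.Agent.R068

/-- deviation of the clamped density beyond the explicit barrier -/
noncomputable def Par.gl (p : Par) (n : ℕ) (ε : ℝ) (F : ℝ → R3 → R3 → ℝ) : TF := fun t x v =>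
  ((p.Nn n ε F t x v - mu v) + (mu v - p.Nn n ε F t x v)) - p.Xi n t x v
/-- deviation of the density beyond the explicit barrier -/
noncomputable def Par.hl (p : Par) (n : ℕ) (F : ℝ → R3 → R3 → ℝ) : TF := fun t x v =>
  ENNReal.ofReal |F t x v - maxwellian v| - p.Xi n t x v
lemma late_alg {m f X d A : ℝ≥0∞} (h1 : f ≤ m + A) (h2 : m ≤ f + A) {N : ℝ≥0∞}
    (hN : N = max (m - (X + d)) (min f (m + (X + d)))) :
    N - m + (m - N) - X ≤ d ∧ N - m + (m - N) - X ≤ A - X ∧ N ≤ m + (X + (N - m + (m - N) - X)) ∧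
      m ≤ N + (X + (N - m + (m - N) - X)) := by
  have a1 : m - (X + d) ≤ N := hN ▸ le_max_left _ _
  have a2 : min f (m + (X + d)) ≤ N := hN ▸ le_max_right _ _
  have a3 : N ≤ m + (X + d) := hN ▸ max_le (tsub_le_self.trans le_self_add) (min_le_right _ _)
  have a4 : N ≤ m + A := hN ▸ max_le (tsub_le_self.trans le_self_add) ((min_le_left _ _).trans h1)
  have a5 : m ≤ N + A := by
    rcases le_total f (m + (X + d)) with h | h
    · rw [min_eq_left h] at a2; exact h2.trans (add_le_add a2 le_rfl)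
    · rw [min_eq_right h] at a2; exact (le_self_add.trans a2).trans le_self_add
  have key : ∀ {Y : ℝ≥0∞}, N ≤ m + Y → m ≤ N + Y → N - m + (m - N) ≤ Y := by
    intro Y b1 b2
    rcases le_total N m with h | h
    · rw [tsub_eq_zero_of_le h, zero_add]; exact tsub_le_iff_left.2 b2
    · rw [tsub_eq_zero_of_le h, add_zero]; exact tsub_le_iff_left.2 b1
  refine ⟨tsub_le_iff_left.2 (key a3 (tsub_le_iff_right.1 a1)), tsub_le_tsub_right (key a4 a5) _, ?_, ?_⟩
  · exact le_add_tsub.trans (add_le_add le_rfl (le_self_add.trans le_add_tsub))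
  · exact le_add_tsub.trans (add_le_add le_rfl (le_add_self.trans le_add_tsub))
lemma Par.gl_props (p : Par) (n : ℕ) (ε : ℝ) {F : ℝ → R3 → R3 → ℝ} (hF : Dens F) :
    MeasT (p.gl n ε F) ∧ PerT (p.gl n ε F) ∧ ∀ t, p.t2 < t → ∀ x v,
      p.gl n ε F t x v ≤ ENNReal.ofReal p.δ * gs (1 / 8) v ∧ p.gl n ε F t x v ≤ p.hl n F t x v ∧
      p.Nn n ε F t x v ≤ mu v + (p.Xi n t x v + p.gl n ε F t x v) ∧
      mu v ≤ p.Nn n ε F t x v + (p.Xi n t x v + p.gl n ε F t x v) := by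
  have hN := p.meas_Nn n ε hF.meas
  have hm : Measurable fun q : ℝ × R3 × R3 => mu q.2.2 := measurable_mu.comp (by fun_prop)
  refine ⟨((Measurable.sub hN hm).add (hm.sub hN)).sub (p.meas_Xi n), fun t v x i => ?_,
    fun t ht x v => ?_⟩
  · simp only [Par.gl, Par.Nn, clamp, (p.per_Lo n t v x i : p.Lo _ _ (_ + _) _ = _),
      (p.per_Up n ε t v x i : p.Up _ _ _ (_ + _) _ = _), (hF.per t v x i : F _ (_ + _) _ = _),
      (p.per_Xi n t v x i : p.Xi _ _ (_ + _) _ = _)]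
  · refine late_alg (f := ENNReal.ofReal (F t x v)) (mild_ofReal_le_add_abs _ _) ?_ ?_
    · rw [abs_sub_comm]; exact mild_ofReal_le_add_abs _ _
    · simp only [Par.Nn, clamp, Par.Lo, Par.Up, if_neg ht.not_ge, Par.Z, mu]
theorem ev_late_ineq : ∀ᶠ p in PF, ∀ (n : ℕ) (ε a : ℝ) (F : ℝ → R3 → R3 → ℝ), p.Sol n ε a F →
    p.In1 n ε F → ∀ t, p.t2 < t → ∀ x v,
    p.hl n F t x v ≤ ENNReal.ofReal (20 * p.e + 10 ^ 6 * p.δ ^ 2) * gs (1 / 8) v +
      ∫⁻ s in Ioo p.t2 t, Ed s t v * Kop (p.gl n ε F s (x - (t - s) • v)) v := by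
  have hr0 : ∀ᶠ p in PF, p.r0 ≤ p.e := ev_r0 (Q := fun p x => x ≤ p.e) (by
    filter_upwards [ev_std] with p hp
    exact mem_nhdsWithin_of_mem_nhds (Iic_mem_nhds hp.e_pos))
  filter_upwards [ev_std, hr0, ev_bdd, ev_freq_late, ev_transition, ev_expand, ev_transport2,
    ev_srcB_thin, ev_srcB_thick] with p hs hr hbd hfr htr hex ht2 hthin hthick n ε a F hS hI t ht x v
  obtain ⟨mg, -, hg⟩ := p.gl_props n ε hS.dens
  obtain ⟨C, hC⟩ := hbd n hS.tn0 ε a t
  have hN := p.meas_Nn n ε hS.dens.meas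
  have hdev := hS.mild.dev (Z := fun r y u => p.Xi n r y u + p.gl n ε F r y u) hS.dens hN
    (Measurable.add (p.meas_Xi n) mg) (hS.tn0.trans (Par.t0_lt_t2 hs).le) ht.le ENNReal.ofReal_ne_top
    (fun r hr y u => (p.Nn_le_Up n ε F r y u).trans
      ((hC ε a hS.ε0 le_rfl le_rfl).2 r ⟨((Par.t2_pos hs).trans hr.1).le, hr.2.le⟩ y u).1)
    (fun r hr y u => (hg r hr.1 y u).2.2.1) (fun r hr y u => (hg r hr.1 y u).2.2.2) x v
  have hd : ∀ s, p.t2 ≤ s → s ≤ t → damp (p.Nn n ε F) s t x v ≤ Ed s t v := fun s h1 h2 =>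
    damp_le_Ed h2 fun r hr => (hfr n r _ v (h1.trans_lt hr.1)).trans
      (freq_mono (fun u => le_max_left _ _) v)
  set m := gs (1 / 8) v with hm
  set c := 3 * p.e + 10 ^ 6 * p.δ ^ 2 with hc
  have he := hs.e_pos
  have hc0 : 0 ≤ c := by positivity
  have hch : Measurable fun r : ℝ => x - (t - r) • v := by fun_prop
  have mE : Measurable fun r : ℝ => Ed r t v := by unfold Ed; fun_prop
  have mgl : Measurable fun q : ℝ × R3 => p.gl n ε F q.1 (x - (t - q.1) • v) q.2 :=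
    mg.comp measurable_fst (hch.comp measurable_fst) measurable_snd
  have m1 : Measurable fun r : ℝ => Ed r t v * Kop (p.gl n ε F r (x - (t - r) • v)) v :=
    mE.mul (((measurable_gain (f := fun _ : ℝ => mu) (g := fun r => p.gl n ε F r (x - (t - r) • v))
      (measurable_mu.comp measurable_snd) mgl measurable_const).const_mul 2).add
      ((measurable_freq (g := fun r => p.gl n ε F r (x - (t - r) • v)) mgl
        measurable_const).const_mul _))
  have m2 : Measurable fun r : ℝ =>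
      Ed r t v * (ENNReal.ofReal (p.Dm r ^ 2) * p.Gr n r (x - (t - r) • v) v) :=
    mE.mul (Measurable.mul (by unfold Par.Dm; fun_prop)
      ((p.meas_Gr n).comp measurable_id hch measurable_const))
  have hint : ∫⁻ r in Ioo p.t2 t, damp (p.Nn n ε F) r t x v *
      (Kop (fun u => p.Xi n r (x - (t - r) • v) u + p.gl n ε F r (x - (t - r) • v) u) v +
        gain (fun u => p.Xi n r (x - (t - r) • v) u + p.gl n ε F r (x - (t - r) • v) u)
          (fun u => p.Xi n r (x - (t - r) • v) u + p.gl n ε F r (x - (t - r) • v) u) v) ≤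
      (∫⁻ r in Ioo p.t2 t, Ed r t v * Kop (p.gl n ε F r (x - (t - r) • v)) v) +
      (∫⁻ r in Ioo p.t2 t, Ed r t v * (ENNReal.ofReal (p.Dm r ^ 2) * p.Gr n r (x - (t - r) • v) v)) +
      (∫⁻ r in Ioo p.t2 t, Ed r t v * p.srcB n r (x - (t - r) • v) v) + ENNReal.ofReal c * m := by
    have e4 : ∫⁻ r in Ioo p.t2 t, Ed r t v * ENNReal.ofReal (1 + ‖v‖) * (ENNReal.ofReal c * m) ≤
        ENNReal.ofReal c * m := by
      rw [lintegral_mul_const _ (mE.mul_const _)]
      exact mul_le_of_le_one_left' (lintegral_Ed _ _ _)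
    refine le_trans ?_ (add_le_add le_rfl e4)
    rw [← lintegral_add_left m1, ← lintegral_add_left (m1.fun_add m2),
      ← lintegral_add_right _ ((mE.mul_const _).mul_const _)]
    refine setLIntegral_mono' measurableSet_Ioo fun r hr => ?_
    refine (mul_le_mul' (hd r hr.1.le hr.2.le) (hex n r _ v _ hr.1.le (mg.slice _ _)
      fun u => (hg r hr.1 _ u).1)).trans (le_of_eq ?_)
    rw [ENNReal.ofReal_mul hc0]
    ring
  have hE1 : Ed p.t2 t v ≤ ENNReal.ofReal (p.Dm t) := by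
    refine ENNReal.ofReal_le_ofReal (Real.exp_le_exp.2 ?_)
    nlinarith [norm_nonneg v, sub_pos.2 ht]
  have hE2 : Ed p.t2 t v ≤ 1 := hE1.trans (ENNReal.ofReal_le_one.2 (p.Dm_le_one ht.le))
  have hhol : p.hol p.t2 (x - (t - p.t2) • v) v = p.hol t x v := by
    simp only [Par.hol, sub_sub, ← add_smul, sub_add_cancel]
  have hK : Ed p.t2 t v * p.Kh n p.t2 (x - (t - p.t2) • v) v +
      ∫⁻ r in Ioo p.t2 t, Ed r t v * p.srcB n r (x - (t - r) • v) v ≤
      p.Kh n t x v + ENNReal.ofReal p.e * m := by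
    rcases lt_or_ge |nc v| p.κ with h | h
    · exact (hthin n t x v ht.le h).trans le_self_add
    · rw [Par.Kh, if_neg h.not_gt, mul_zero, zero_add]
      exact (hthick n t x v ht.le h).trans le_add_self
  have h0 : damp (p.Nn n ε F) p.t2 t x v *
      ENNReal.ofReal |F p.t2 (x - (t - p.t2) • v) v - maxwellian v| ≤
      Ed p.t2 t v * p.B n p.t2 (x - (t - p.t2) • v) v + Ed p.t2 t v * p.Kh n p.t2 (x - (t - p.t2) • v) v +
        ENNReal.ofReal (p.Dm t) * p.hol t x v + ENNReal.ofReal (5 * p.e) * m := by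
    refine (mul_le_mul' (hd _ le_rfl ht.le) (htr n ε a F hS hI _ v)).trans ?_
    have : p.Dm p.t2 = 1 := by simp [Par.Dm]
    rw [Par.Xi, this, ENNReal.ofReal_one, one_mul, one_mul, hhol, mul_add, mul_add, mul_add]
    exact add_le_add (add_le_add le_rfl (mul_le_mul' hE1 le_rfl)) (mul_le_of_le_one_left' hE2)
  have hnum : ENNReal.ofReal (10 * p.r0) + ENNReal.ofReal p.e + ENNReal.ofReal (5 * p.e) +
      ENNReal.ofReal c ≤ ENNReal.ofReal (20 * p.e + 10 ^ 6 * p.δ ^ 2) := by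
    have := hs.r0_pos
    rw [← ENNReal.ofReal_add (by positivity) he.le, ← ENNReal.ofReal_add (by positivity) (by positivity),
      ← ENNReal.ofReal_add (by positivity) hc0]
    exact ENNReal.ofReal_le_ofReal (by linarith)
  refine tsub_le_iff_left.2 (hdev.trans ((add_le_add h0 hint).trans ?_))
  have h5 := add_le_add (ht2 n t x v ht.le) hK
  rw [← hm] at h5
  rw [Par.Xi]
  generalize ∫⁻ r in Ioo p.t2 t, Ed r t v * Kop (p.gl n ε F r (x - (t - r) • v)) v = I1
  generalize ∫⁻ r in Ioo p.t2 t, Ed r t v *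
    (ENNReal.ofReal (p.Dm r ^ 2) * p.Gr n r (x - (t - r) • v) v) = I2 at h5 ⊢
  generalize ∫⁻ r in Ioo p.t2 t, Ed r t v * p.srcB n r (x - (t - r) • v) v = I3 at h5 ⊢
  calc _ = (Ed p.t2 t v * p.B n p.t2 (x - (t - p.t2) • v) v + I2 +
        (Ed p.t2 t v * p.Kh n p.t2 (x - (t - p.t2) • v) v + I3)) +
        (ENNReal.ofReal (p.Dm t) * p.hol t x v + ENNReal.ofReal (5 * p.e) * m +
          ENNReal.ofReal c * m + I1) := by ring
    _ ≤ _ := add_le_add h5 le_rfl
    _ = ENNReal.ofReal (p.Dm t) * p.B n t x v + p.Kh n t x v + ENNReal.ofReal (p.Dm t) * p.hol t x v +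
        ((ENNReal.ofReal (10 * p.r0) + ENNReal.ofReal p.e + ENNReal.ofReal (5 * p.e) +
          ENNReal.ofReal c) * m + I1) := by ring
    _ ≤ _ := by gcongr
lemma glb_ev_dl {c : ℝ} (hc : 0 < c) : ∀ᶠ p in PF, 10 ^ 6 * p.δ ≤ c / 2 := by
  refine ev_dl (Q := fun _ x => 10 ^ 6 * x ≤ c / 2) (Eventually.of_forall fun _ => ?_)
  have : ∀ᶠ x in 𝓝[>] (0:ℝ), x ∈ Ioo (0:ℝ) (c / (2 * 10 ^ 6)) := Ioo_mem_nhdsGT (by positivity)
  filter_upwards [this] with x hx
  have := hx.2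
  rw [lt_div_iff₀ (by positivity)] at this
  linarith
lemma glb_ev_e {c : ℝ} (hc : 0 < c) : ∀ᶠ p in PF, 20 * p.e ≤ c * p.δ / 2 ∧
    ∀ f : R3 → R3 → ℝ, MeasP f → (∀ x v, 0 ≤ f x v) → relEntropy f ≤ ENNReal.ofReal p.e →
      (∫⁻ q in cell ×ˢ univ, ENNReal.ofReal |f q.1 q.2 - maxwellian q.2|
        ∂(volume : Measure (R3 × R3))) ≤ ENNReal.ofReal (c * p.δ) := by
  refine ev_e (Q := fun p y => 20 * y ≤ c * p.δ / 2 ∧
    ∀ f : R3 → R3 → ℝ, MeasP f → (∀ x v, 0 ≤ f x v) → relEntropy f ≤ ENNReal.ofReal y →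
      (∫⁻ q in cell ×ˢ univ, ENNReal.ofReal |f q.1 q.2 - maxwellian q.2|
        ∂(volume : Measure (R3 × R3))) ≤ ENNReal.ofReal (c * p.δ)) ?_
  filter_upwards [ev_std] with p hp
  have hβ : 0 < c * p.δ := mul_pos hc hp.δ0
  obtain ⟨e, he, h⟩ := l1_of_entropy hβ
  have h1 : ∀ᶠ y in 𝓝[>] (0:ℝ), y ∈ Ioo (0:ℝ) (c * p.δ / 40) := Ioo_mem_nhdsGT (by positivity)
  have h2 : ∀ᶠ y in 𝓝[>] (0:ℝ), y ∈ Ioo (0:ℝ) e := Ioo_mem_nhdsGT he
  filter_upwards [h1, h2] with y hy hy'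
  exact ⟨by linarith [hy.2], fun f hf h0 hr =>
    h f hf h0 (hr.trans (ENNReal.ofReal_le_ofReal hy'.2.le))⟩
theorem ev_global : ∀ᶠ p in PF, ∀ (n : ℕ) (ε a : ℝ) (F : ℝ → R3 → R3 → ℝ), p.Sol n ε a F →
    p.In1 n ε F → (∀ T, Mild (p.tn n) T F) ∧ ∀ t, p.tn n < t → ∀ x v, up F t x v ≤ p.Ust t x v := by
  obtain ⟨c, ϑ, hc, hϑ, hguo⟩ := guo
  filter_upwards [ev_std, glb_ev_dl hc, glb_ev_e hc, ev_bdd, ev_entropy0, ev_late_ineq] with
    p hs hδ he hbd hent hlate
  intro n ε a F hS hin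
  have htn := Par.tn_pos hs n
  have ht2 : p.tn n < p.t2 := hS.tn0.trans_lt (Par.t0_lt_t2 hs)
  have hδ0 := hs.δ0
  have ha : a ≤ p.r0 := by
    have h1 : p.AA ε (p.tn n) = 2 * ε * p.tn n := by rw [Par.AA, if_pos hS.tn0]
    have h2 := Par.AA_mono hs hS.ε0 hS.ε1 htn.le ht2.le
    linarith [hS.a1, hs.AA_le]
  have hF0 : F 0 = fun x v => (p.f0 n a x v).toReal := by
    funext x v
    have := hS.mild.early htn.le x v
    rw [zero_smul, sub_zero] at this
    rw [← this, up, ENNReal.toReal_ofReal (hS.dens.nonneg 0 x v)]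
  set H : ℝ → Prop := fun T => ∀ t, p.t2 < t → t ≤ T → ∀ x v,
    ENNReal.ofReal |F t x v - maxwellian v| ≤ p.Z n t x v with hH
  have hA : ∀ T, H T → ∀ s, p.tn n < s → s ≤ T → p.Nn n ε F s = up F s := by
    intro T hT s h1 h2
    rcases le_or_gt s p.t2 with h | h
    · exact Par.Nn_eq_of_In1 hin ⟨h1.le, h⟩
    · exact Par.Nn_eq_late h (hS.dens.nonneg s) (hT s h h2)
  have hB : ∀ T, H T → Mild (p.tn n) T F ∧
      ∃ C : ℝ, DomOn T F fun _ _ v => ENNReal.ofReal C * gs (1 / 8) v := by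
    intro T hT
    obtain ⟨C, hC⟩ := hbd n hS.tn0 ε a T
    obtain ⟨h1, h2⟩ := hC ε a hS.ε0 le_rfl le_rfl
    have hgs : ∀ v, ENNReal.ofReal C * gs (1 / 8) v ≠ ⊤ := fun v =>
      ENNReal.mul_ne_top ENNReal.ofReal_ne_top ENNReal.ofReal_ne_top
    refine ⟨hS.mild.mild htn.le hS.dens (p.meas_Nn n ε hS.dens.meas)
      (fun x v => ne_top_of_le_ne_top (hgs v) (h1 x v)) (fun s hs' => hA T hT s hs'.1 hs'.2.le)
      (C := ENNReal.ofReal C) ENNReal.ofReal_ne_top fun s hs' x v =>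
        (Par.Nn_le_Up n ε F s x v).trans (h2 s ⟨(htn.trans hs'.1).le, hs'.2.le⟩ x v).1,
      C, fun t ht => Eventually.of_forall fun q => ?_⟩
    rcases le_or_gt t (p.tn n) with h | h
    · exact (hS.mild.early h q.1 q.2).le.trans (h1 _ _)
    · have h3 : up F t q.1 q.2 = p.Nn n ε F t q.1 q.2 := by rw [hA T hT t h ht.2]
      exact h3.le.trans ((Par.Nn_le_Up n ε F t q.1 q.2).trans (h2 t ht q.1 q.2).1)
  have hC : ∀ T, H T → H (T + ϑ) := by
    intro T hT t h1 h2 x v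
    obtain ⟨hm, C, hd⟩ := hB T hT
    obtain ⟨g1, g2, g3⟩ := p.gl_props n ε hS.dens
    have := hguo p.δ p.t2 T (p.hl n F) (p.gl n ε F) hδ0 g1 g2 (fun s h x v => (g3 s h x v).1)
      (fun s h x v => (g3 s h x v).2.1)
      (fun s h x v => (hlate n ε a F hS hin s h x v).trans (add_le_add
        (mul_le_mul_left (ENNReal.ofReal_le_ofReal (by nlinarith [he.1])) _) le_rfl))
      (fun s h => ?_) t h1 h2 x v
    · exact tsub_le_iff_left.1 this
    · have hs0 : 0 ≤ s := (htn.trans (ht2.trans h.1)).le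
      have e1 := entropy_ineq (good_gs ENNReal.ofReal_ne_top (by norm_num)) hS.dens htn.le hm hd
        (t := s) ⟨hs0, h.2.le⟩
      have e2 : relEntropy (F s) ≤ ENNReal.ofReal p.e := by
        refine le_trans (le_self_add.trans e1) ?_
        rw [hF0]
        exact hent n a hS.tn0 ha
      refine le_trans (lintegral_mono fun q => ?_) (he.2 (F s)
        (Measurable.comp hS.dens.meas (measurable_const.prodMk measurable_id)) (hS.dens.nonneg s) e2)
      exact (g3 s h.1 q.1 q.2).2.1.trans tsub_le_self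
  have hD : ∀ i : ℕ, H (p.t2 + i * ϑ) := by
    intro i
    induction i with
    | zero => intro t h1 h2; simp at h2; linarith
    | succ i ih =>
      have := hC _ ih
      rwa [show p.t2 + (i : ℝ) * ϑ + ϑ = p.t2 + ((i + 1 : ℕ) : ℝ) * ϑ by push_cast; ring] at this
  have hE : ∀ T, H T := by
    intro T t h1 h2
    obtain ⟨i, hi⟩ := exists_nat_ge ((t - p.t2) / ϑ)
    rw [div_le_iff₀ hϑ] at hi
    exact hD i t h1 (by linarith)
  refine ⟨fun T => (hB T (hE T)).1, fun t ht x v => ?_⟩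
  have h3 : up F t x v = p.Nn n ε F t x v := by rw [hA t (hE t) t ht le_rfl]
  exact h3.le.trans ((Par.Nn_le_Up n ε F t x v).trans
    (Par.Up_le_Ust hs n hS.ε0 hS.ε1 (htn.trans ht).le x v))

end Crest.Agent.R068
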