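import Crest.Agent.R068.LimAAux1

/-! Row 68: the abstract bilinear limit. -/

set_option autoImplicit false
open MeasureTheory Set Filter Topology
open scoped ENNReal

namespace Crest.Agent.R068

section
variable {P V : Type*} [MeasurableSpace P] [MeasurableSpace V] {ν : Measure P} {lam : Measure V}
  [SFinite ν] [SFinite lam]

/-- the quadratic expression is integrable on the triple product -/
lemma lima_quad_bound {f : P → V → ℝ} {u : P → V → ℝ≥0∞}
    (hf : Measurable (fun z : P × V => f z.1 z.2)) (hu : Measurable (fun z : P × V => u z.1 z.2))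
    (hfu : ∀ᵐ p ∂ν, ∀ᵐ v ∂lam, ‖f p v‖ₑ ≤ u p v) :
    ∀ᵐ x ∂(ν.prod (lam.prod lam)),
      ‖f x.1 x.2.1 * f x.1 x.2.2‖ₑ ≤ u x.1 x.2.1 * u x.1 x.2.2 := by
  have m1 : Measurable (fun x : P × V × V => f x.1 x.2.1) :=
    hf.comp (measurable_fst.prodMk measurable_snd.fst)
  have m2 : Measurable (fun x : P × V × V => f x.1 x.2.2) :=
    hf.comp (measurable_fst.prodMk measurable_snd.snd)
  have m3 : Measurable (fun x : P × V × V => u x.1 x.2.1) :=
    hu.comp (measurable_fst.prodMk measurable_snd.fst)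
  have m4 : Measurable (fun x : P × V × V => u x.1 x.2.2) :=
    hu.comp (measurable_fst.prodMk measurable_snd.snd)
  rw [Measure.ae_prod_iff_ae_ae (measurableSet_le (m1.fun_mul m2).enorm (m3.fun_mul m4))]
  filter_upwards [hfu] with p hp
  filter_upwards [(Measure.quasiMeasurePreserving_fst (μ := lam) (ν := lam)).ae hp,
    (Measure.quasiMeasurePreserving_snd (μ := lam) (ν := lam)).ae hp] with q h1 h2
  rw [enorm_mul]
  exact mul_le_mul' h1 h2

lemma lima_W_lintegral {u : P → V → ℝ≥0∞} (hu : Measurable (fun z : P × V => u z.1 z.2)) :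
    ∫⁻ x, u x.1 x.2.1 * u x.1 x.2.2 ∂(ν.prod (lam.prod lam)) = ∫⁻ p, (∫⁻ v, u p v ∂lam) ^ 2 ∂ν := by
  have m3 : Measurable (fun x : P × V × V => u x.1 x.2.1) :=
    hu.comp (measurable_fst.prodMk measurable_snd.fst)
  have m4 : Measurable (fun x : P × V × V => u x.1 x.2.2) :=
    hu.comp (measurable_fst.prodMk measurable_snd.snd)
  rw [lintegral_prod _ (m3.fun_mul m4).aemeasurable]
  refine lintegral_congr fun p => ?_
  have m5 : Measurable (u p) := hu.comp measurable_prodMk_left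
  simp only
  rw [lintegral_prod_mul m5.aemeasurable m5.aemeasurable, sq]

lemma lima_quad_integrable {f : P → V → ℝ} {u : P → V → ℝ≥0∞}
    (hf : Measurable (fun z : P × V => f z.1 z.2)) (hu : Measurable (fun z : P × V => u z.1 z.2))
    (hu2 : ∫⁻ p, (∫⁻ v, u p v ∂lam) ^ 2 ∂ν ≠ ⊤)
    (hfu : ∀ᵐ p ∂ν, ∀ᵐ v ∂lam, ‖f p v‖ₑ ≤ u p v) :
    Integrable (fun x : P × V × V => f x.1 x.2.1 * f x.1 x.2.2) (ν.prod (lam.prod lam)) := by
  have m1 : Measurable (fun x : P × V × V => f x.1 x.2.1) :=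
    hf.comp (measurable_fst.prodMk measurable_snd.fst)
  have m2 : Measurable (fun x : P × V × V => f x.1 x.2.2) :=
    hf.comp (measurable_fst.prodMk measurable_snd.snd)
  refine ⟨(m1.mul m2).aestronglyMeasurable, ?_⟩
  refine lt_of_le_of_lt (lintegral_mono_ae (lima_quad_bound hf hu hfu)) ?_
  rw [lima_W_lintegral hu]
  exact lt_top_iff_ne_top.2 hu2

/-- Fubini for the tested quadratic expression -/
lemma lima_quad_fubini {f : P → V → ℝ} {u : P → V → ℝ≥0∞}
    (hf : Measurable (fun z : P × V => f z.1 z.2)) (hu : Measurable (fun z : P × V => u z.1 z.2))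
    (hu2 : ∫⁻ p, (∫⁻ v, u p v ∂lam) ^ 2 ∂ν ≠ ⊤)
    (hfu : ∀ᵐ p ∂ν, ∀ᵐ v ∂lam, ‖f p v‖ₑ ≤ u p v) {α : P → ℝ} (hα : Measurable α) {A : ℝ}
    (hαb : ∀ p, |α p| ≤ A) {a : V × V → ℝ} (ha : Measurable a) {B : ℝ} (hab : ∀ q, |a q| ≤ B) :
    Integrable (fun x : P × V × V => a x.2 * (α x.1 * (f x.1 x.2.1 * f x.1 x.2.2)))
      (ν.prod (lam.prod lam)) ∧
    ∫ p, α p * ∫ q, a q * (f p q.1 * f p q.2) ∂(lam.prod lam) ∂ν =
      ∫ x, a x.2 * (α x.1 * (f x.1 x.2.1 * f x.1 x.2.2)) ∂(ν.prod (lam.prod lam)) := by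
  have hi : Integrable (fun x : P × V × V => a x.2 * (α x.1 * (f x.1 x.2.1 * f x.1 x.2.2)))
      (ν.prod (lam.prod lam)) :=
    ((lima_quad_integrable hf hu hu2 hfu).bdd_mul (c := A)
      (hα.comp measurable_fst).aestronglyMeasurable
      (Eventually.of_forall fun x => hαb _)).bdd_mul (c := B)
      (ha.comp measurable_snd).aestronglyMeasurable (Eventually.of_forall fun x => hab _)
  refine ⟨hi, ?_⟩
  rw [integral_prod _ hi]
  refine integral_congr_ae (Eventually.of_forall fun p => ?_)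
  simp only
  rw [← integral_const_mul]
  refine integral_congr_ae (Eventually.of_forall fun q => ?_)
  simp only
  ring

omit [SFinite ν] in
lemma lima_avg_bound {f : P → V → ℝ} {u : P → V → ℝ≥0∞}
    (hfu : ∀ᵐ p ∂ν, ∀ᵐ v ∂lam, ‖f p v‖ₑ ≤ u p v) (S : Set V) :
    ∀ᵐ p ∂ν, ‖∫ v in S, f p v ∂lam‖ₑ ≤ ∫⁻ v, u p v ∂lam := by
  filter_upwards [hfu] with p hp
  calc ‖∫ v in S, f p v ∂lam‖ₑ ≤ ∫⁻ v in S, ‖f p v‖ₑ ∂lam := enorm_integral_le_lintegral_enorm _
    _ ≤ ∫⁻ v, ‖f p v‖ₑ ∂lam := setLIntegral_le_lintegral _ _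
    _ ≤ _ := lintegral_mono_ae hp

omit [SFinite ν] in
lemma lima_avg_meas {f : P → V → ℝ} (hf : Measurable (fun z : P × V => f z.1 z.2)) (S : Set V) :
    Measurable (fun p => ∫ v in S, f p v ∂lam) :=
  (hf.stronglyMeasurable.integral_prod_right' (ν := lam.restrict S)).measurable

/-- rectangles -/
lemma lima_rect {f : ℕ → P → V → ℝ} {g : P → V → ℝ} {u : P → V → ℝ≥0∞}
    (hf : ∀ n, Measurable (fun z : P × V => f n z.1 z.2))
    (hg : Measurable (fun z : P × V => g z.1 z.2)) (hu : Measurable (fun z : P × V => u z.1 z.2))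
    (hu2 : ∫⁻ p, (∫⁻ v, u p v ∂lam) ^ 2 ∂ν ≠ ⊤)
    (hfu : ∀ n, ∀ᵐ p ∂ν, ∀ᵐ v ∂lam, ‖f n p v‖ₑ ≤ u p v)
    (hgu : ∀ᵐ p ∂ν, ∀ᵐ v ∂lam, ‖g p v‖ₑ ≤ u p v) {α : P → ℝ} (hα : Measurable α) {A : ℝ}
    (hαb : ∀ p, |α p| ≤ A) {S S' : Set V}
    (h1 : Tendsto (fun n => ∫⁻ p, ‖∫ v in S, f n p v ∂lam - ∫ v in S, g p v ∂lam‖ₑ ∂ν) atTop (𝓝 0))
    (h2 : Tendsto (fun n => ∫⁻ p, ‖∫ v in S', f n p v ∂lam - ∫ v in S', g p v ∂lam‖ₑ ∂ν) atTop
      (𝓝 0)) :
    Tendsto (fun n => ∫ p, α p * ((∫ v in S, f n p v ∂lam) * ∫ v in S', f n p v ∂lam) ∂ν) atTop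
      (𝓝 (∫ p, α p * ((∫ v in S, g p v ∂lam) * ∫ v in S', g p v ∂lam) ∂ν)) := by
  set m : P → ℝ≥0∞ := fun p => ∫⁻ v, u p v ∂lam with hm
  have hmm : Measurable m := hu.lintegral_prod_right'
  have hD : ∀ T : Set V, Tendsto (fun n => ∫⁻ p,
      ‖∫ v in T, f n p v ∂lam - ∫ v in T, g p v ∂lam‖ₑ ∂ν) atTop (𝓝 0) →
      Tendsto (fun n => ∫⁻ p, ‖∫ v in T, f n p v ∂lam - ∫ v in T, g p v ∂lam‖ₑ * m p ∂ν) atTop
        (𝓝 0) := by
    intro T hT
    refine lima_l1_mul (fun n => ((lima_avg_meas (hf n) T).sub (lima_avg_meas hg T)).enorm) hmm hu2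
      (fun n => ?_) hT
    filter_upwards [lima_avg_bound (hfu n) T, lima_avg_bound hgu T] with p a1 a2
    calc _ ≤ ‖∫ v in T, f n p v ∂lam‖ₑ + ‖∫ v in T, g p v ∂lam‖ₑ := enorm_sub_le
      _ ≤ m p + m p := add_le_add a1 a2
      _ = 2 * m p := (two_mul _).symm
  have hαe : ∀ p, ‖α p‖ₑ ≤ ENNReal.ofReal A := fun p => by
    rw [← ofReal_norm_eq_enorm]; exact ENNReal.ofReal_le_ofReal (hαb p)
  refine tendsto_integral_of_L1 _
    (hα.fun_mul ((lima_avg_meas hg S).fun_mul (lima_avg_meas hg S'))).aestronglyMeasurable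
    (Eventually.of_forall fun n => ?_) ?_
  · refine ⟨(hα.mul ((lima_avg_meas (hf n) S).mul (lima_avg_meas (hf n) S'))).aestronglyMeasurable, ?_⟩
    refine lt_of_le_of_lt (lintegral_mono_ae (g := fun p => ENNReal.ofReal A * m p ^ 2) ?_) ?_
    · filter_upwards [lima_avg_bound (hfu n) S, lima_avg_bound (hfu n) S'] with p a1 a2
      rw [enorm_mul, enorm_mul, sq]
      exact mul_le_mul' (hαe p) (mul_le_mul' a1 a2)
    · rw [lintegral_const_mul _ (hmm.pow_const 2)]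
      exact ENNReal.mul_lt_top ENNReal.ofReal_lt_top (lt_top_iff_ne_top.2 hu2)
  · have h3 := ENNReal.Tendsto.const_mul (a := ENNReal.ofReal A) ((hD S h1).add (hD S' h2))
      (Or.inr ENNReal.ofReal_ne_top)
    rw [add_zero, mul_zero] at h3
    refine tendsto_of_tendsto_of_tendsto_of_le_of_le tendsto_const_nhds h3 (fun n => by simp)
      (fun n => ?_)
    have mS : ∀ T : Set V, Measurable (fun p =>
        ‖∫ v in T, f n p v ∂lam - ∫ v in T, g p v ∂lam‖ₑ * m p) :=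
      fun T => ((lima_avg_meas (hf n) T).sub (lima_avg_meas hg T)).enorm.mul hmm
    simp only
    rw [← lintegral_add_left (mS S), ← lintegral_const_mul _ ((mS S).fun_add (mS S'))]
    refine lintegral_mono_ae ?_
    filter_upwards [lima_avg_bound (hfu n) S', lima_avg_bound hgu S] with p a1 a2
    have e : α p * ((∫ v in S, f n p v ∂lam) * ∫ v in S', f n p v ∂lam) -
        α p * ((∫ v in S, g p v ∂lam) * ∫ v in S', g p v ∂lam) =
        α p * ((∫ v in S, f n p v ∂lam - ∫ v in S, g p v ∂lam) * (∫ v in S', f n p v ∂lam) +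
          (∫ v in S', f n p v ∂lam - ∫ v in S', g p v ∂lam) * ∫ v in S, g p v ∂lam) := by ring
    rw [e, enorm_mul]
    refine mul_le_mul' (hαe p) ((enorm_add_le _ _).trans ?_)
    rw [enorm_mul, enorm_mul]
    exact add_le_add (mul_le_mul' le_rfl a1) (mul_le_mul' le_rfl a2)

/-- the abstract bilinear limit -/
theorem lima_bil {f : ℕ → P → V → ℝ} {g : P → V → ℝ} {u : P → V → ℝ≥0∞}
    (hf : ∀ n, Measurable (fun z : P × V => f n z.1 z.2))
    (hg : Measurable (fun z : P × V => g z.1 z.2)) (hu : Measurable (fun z : P × V => u z.1 z.2))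
    (hu2 : ∫⁻ p, (∫⁻ v, u p v ∂lam) ^ 2 ∂ν ≠ ⊤)
    (hfu : ∀ n, ∀ᵐ p ∂ν, ∀ᵐ v ∂lam, ‖f n p v‖ₑ ≤ u p v)
    (hgu : ∀ᵐ p ∂ν, ∀ᵐ v ∂lam, ‖g p v‖ₑ ≤ u p v) {K : ℕ → Set V} (hK : ∀ k, MeasurableSet (K k))
    (hKm : ∀ v, ∀ᶠ k in atTop, v ∈ K k)
    (hav : ∀ k S, MeasurableSet S → S ⊆ K k →
      Tendsto (fun n => ∫⁻ p, ‖∫ v in S, f n p v ∂lam - ∫ v in S, g p v ∂lam‖ₑ ∂ν) atTop (𝓝 0))
    {α : P → ℝ} (hα : Measurable α) {A : ℝ} (hαb : ∀ p, |α p| ≤ A)
    {a : V × V → ℝ} (ha : Measurable a) {B : ℝ} (hab : ∀ q, |a q| ≤ B) :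
    Tendsto (fun n => ∫ p, α p * ∫ q, a q * (f n p q.1 * f n p q.2) ∂(lam.prod lam) ∂ν) atTop
      (𝓝 (∫ p, α p * ∫ q, a q * (g p q.1 * g p q.2) ∂(lam.prod lam) ∂ν)) := by
  set μ : Measure (P × V × V) := ν.prod (lam.prod lam) with hμ
  set H : ℕ → P × V × V → ℝ := fun n x =>
    α x.1 * (f n x.1 x.2.1 * f n x.1 x.2.2) - α x.1 * (g x.1 x.2.1 * g x.1 x.2.2) with hHdef
  -- the claim for `b` is equivalent to `∫ b H n → 0`
  have key : ∀ (b : V × V → ℝ) (C : ℝ), Measurable b → (∀ q, |b q| ≤ C) →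
      (Tendsto (fun n => ∫ p, α p * ∫ q, b q * (f n p q.1 * f n p q.2) ∂(lam.prod lam) ∂ν) atTop
        (𝓝 (∫ p, α p * ∫ q, b q * (g p q.1 * g p q.2) ∂(lam.prod lam) ∂ν)) ↔
      Tendsto (fun n => ∫ x, b x.2 * H n x ∂μ) atTop (𝓝 0)) := by
    intro b C hb hbC
    rw [← tendsto_sub_nhds_zero_iff]
    refine tendsto_congr fun n => ?_
    obtain ⟨i1, e1⟩ := lima_quad_fubini (hf n) hu hu2 (hfu n) hα hαb hb hbC
    obtain ⟨i2, e2⟩ := lima_quad_fubini hg hu hu2 hgu hα hαb hb hbC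
    rw [e1, e2, ← integral_sub i1 i2]
    refine integral_congr_ae (Eventually.of_forall fun x => ?_)
    simp only [hHdef]
    ring
  have m3 : Measurable (fun x : P × V × V => u x.1 x.2.1) :=
    hu.comp (measurable_fst.prodMk measurable_snd.fst)
  have m4 : Measurable (fun x : P × V × V => u x.1 x.2.2) :=
    hu.comp (measurable_fst.prodMk measurable_snd.snd)
  have hWfin : ∫⁻ x, u x.1 x.2.1 * u x.1 x.2.2 ∂μ ≠ ⊤ := by
    rw [hμ, lima_W_lintegral hu]; exact hu2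
  set W : P × V × V → ℝ := fun x => (2 * |A|) * (u x.1 x.2.1 * u x.1 x.2.2).toReal with hWdef
  have hW : Integrable W μ :=
    (integrable_toReal_of_lintegral_ne_top (m3.mul m4).aemeasurable hWfin).const_mul _
  have hHm : ∀ n, AEStronglyMeasurable (H n) μ := fun n =>
    (((hα.comp measurable_fst).aestronglyMeasurable).mul
      (lima_quad_integrable (hf n) hu hu2 (hfu n)).aestronglyMeasurable).sub
    (((hα.comp measurable_fst).aestronglyMeasurable).mul
      (lima_quad_integrable hg hu hu2 hgu).aestronglyMeasurable)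
  have hHW : ∀ n, ∀ᵐ x ∂μ, ‖H n x‖ ≤ W x := by
    intro n
    filter_upwards [lima_quad_bound (hf n) hu (hfu n), lima_quad_bound hg hu hgu,
      ae_lt_top (m3.mul m4) hWfin] with x a1 a2 a3
    have b1 : ‖f n x.1 x.2.1 * f n x.1 x.2.2‖ ≤ (u x.1 x.2.1 * u x.1 x.2.2).toReal := by
      rw [← toReal_enorm]; exact ENNReal.toReal_mono a3.ne a1
    have b2 : ‖g x.1 x.2.1 * g x.1 x.2.2‖ ≤ (u x.1 x.2.1 * u x.1 x.2.2).toReal := by
      rw [← toReal_enorm]; exact ENNReal.toReal_mono a3.ne a2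
    have b3 : ‖α x.1‖ ≤ |A| := (hαb _).trans (le_abs_self _)
    calc ‖H n x‖ ≤ ‖α x.1 * (f n x.1 x.2.1 * f n x.1 x.2.2)‖ +
          ‖α x.1 * (g x.1 x.2.1 * g x.1 x.2.2)‖ := norm_sub_le _ _
      _ ≤ |A| * (u x.1 x.2.1 * u x.1 x.2.2).toReal + |A| * (u x.1 x.2.1 * u x.1 x.2.2).toReal := by
        rw [norm_mul (α x.1), norm_mul (α x.1)]
        gcongr
      _ = W x := by simp only [hWdef]; ring
  -- rectangles inside `K k × K k`
  have hrect : ∀ k (S S' : Set V), MeasurableSet S → MeasurableSet S' → S ⊆ K k → S' ⊆ K k →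
      Tendsto (fun n => ∫ x, (S ×ˢ S').indicator (1 : V × V → ℝ) x.2 * H n x ∂μ) atTop (𝓝 0) := by
    intro k S S' hS hS' hSK hS'K
    have hind : ∀ q, |(S ×ˢ S').indicator (1 : V × V → ℝ) q| ≤ 1 := fun q => by
      by_cases hq : q ∈ S ×ˢ S' <;> simp [hq]
    rw [← key _ 1 (measurable_one.indicator (hS.prod hS')) hind]
    have e : ∀ h : V → ℝ, ∫ q, (S ×ˢ S').indicator (1 : V × V → ℝ) q * (h q.1 * h q.2) ∂(lam.prod lam) =
        (∫ v in S, h v ∂lam) * ∫ v in S', h v ∂lam := by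
      intro h
      rw [← integral_indicator hS, ← integral_indicator hS', ← integral_prod_mul]
      refine integral_congr_ae (Eventually.of_forall fun q => ?_)
      by_cases h1 : q.1 ∈ S <;> by_cases h2 : q.2 ∈ S' <;> simp [indicator, h1, h2]
    simp only [e]
    exact lima_rect hf hg hu hu2 hfu hgu hα hαb (hav k S hS hSK) (hav k S' hS' hS'K)
  -- truncated kernels
  have htr : ∀ k, Tendsto (fun n => ∫ x, a x.2 *
      ((K k ×ˢ K k).indicator (1 : V × V → ℝ) x.2 * H n x) ∂μ) atTop (𝓝 0) := by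
    intro k
    have hHm' : ∀ n, AEStronglyMeasurable
        (fun x : P × V × V => (K k ×ˢ K k).indicator (1 : V × V → ℝ) x.2 * H n x) μ := fun n =>
      ((measurable_one.indicator ((hK k).prod (hK k))).comp measurable_snd).aestronglyMeasurable.mul
        (hHm n)
    have hHW' : ∀ n, ∀ᵐ x ∂μ, ‖(K k ×ˢ K k).indicator (1 : V × V → ℝ) x.2 * H n x‖ ≤ W x := by
      intro n
      filter_upwards [hHW n] with x hx
      by_cases hq : x.2 ∈ K k ×ˢ K k
      · simpa [hq] using hx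
      · simpa [hq] using (norm_nonneg _).trans hx
    refine lima_pi_fun (π := fun x : P × V × V => x.2) measurable_snd hHm' hW hHW'
      (lima_pi_sets measurable_snd hHm' hW hHW' generateFrom_prod.symm isPiSystem_prod
        (hrect k _ _ (hK k) (hK k) Subset.rfl Subset.rfl) ?_) ha hab
    rintro _ ⟨S, hS, S', hS', rfl⟩
    have hS : MeasurableSet S := hS
    have hS' : MeasurableSet S' := hS'
    have := hrect k (S ∩ K k) (S' ∩ K k) (hS.inter (hK k)) (hS'.inter (hK k)) inter_subset_right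
      inter_subset_right
    refine this.congr fun n => ?_
    rw [← integral_indicator (measurable_snd (hS.prod hS'))]
    refine integral_congr_ae (Eventually.of_forall fun x => ?_)
    by_cases h1 : x.2.1 ∈ S <;> by_cases h2 : x.2.2 ∈ S' <;> by_cases h3 : x.2.1 ∈ K k <;>
      by_cases h4 : x.2.2 ∈ K k <;> simp [indicator, h1, h2, h3, h4]
  rw [key a B ha hab]
  refine lima_closure hHm hW hHW
    (a := fun k x => a x.2 * (K k ×ˢ K k).indicator (1 : V × V → ℝ) x.2) (b := fun x => a x.2)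
    (fun k => (ha.comp measurable_snd).mul
      ((measurable_one.indicator ((hK k).prod (hK k))).comp measurable_snd))
    (ha.comp measurable_snd) (B := B) (fun k x => ?_) (fun x => hab _) (fun x => ?_) (fun k => ?_)
  · by_cases hq : x.2 ∈ K k ×ˢ K k
    · simpa [hq] using hab x.2
    · simpa [hq] using (abs_nonneg _).trans (hab x.2)
  · refine tendsto_const_nhds.congr' ?_
    filter_upwards [hKm x.2.1, hKm x.2.2] with k h1 h2
    have hq : x.2 ∈ K k ×ˢ K k := ⟨h1, h2⟩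
    simp [hq]
  · simpa only [mul_assoc] using htr k

end

end Crest.Agent.R068
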