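import Crest.Agent.R068.Ent0
import Crest.Agent.R068.LimAAux2

/-! Row 68: auxiliary lemmas for `LimA` (reassociation, domination, the weak form). -/

set_option autoImplicit false
open MeasureTheory Set Filter Topology
open scoped ENNReal
open Crest.AnalysisR.VecCalc3 Crest.AnalysisR.PDE.Boltzmann

namespace Crest.Agent.R068

lemma lima_assoc (I : Set ℝ) (C : Set R3) :
    MeasurePreserving (MeasurableEquiv.prodAssoc : (ℝ × R3) × R3 ≃ᵐ ℝ × R3 × R3)
      (((volume : Measure (ℝ × R3)).restrict (I ×ˢ C)).prod (volume : Measure R3))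
      ((volume : Measure (ℝ × R3 × R3)).restrict (I ×ˢ (C ×ˢ univ))) := by
  have e1 : (volume : Measure (ℝ × R3)).restrict (I ×ˢ C) =
      ((volume : Measure ℝ).restrict I).prod ((volume : Measure R3).restrict C) := by
    rw [Measure.prod_restrict]; rfl
  have e2 : (volume : Measure (ℝ × R3 × R3)).restrict (I ×ˢ (C ×ˢ univ)) =
      ((volume : Measure ℝ).restrict I).prod (((volume : Measure R3).restrict C).prod volume) := by
    conv_rhs => rw [← Measure.restrict_univ (μ := (volume : Measure R3))]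
    rw [Measure.restrict_restrict_of_subset (subset_univ C), Measure.prod_restrict,
      Measure.prod_restrict]
    rfl
  rw [e1, e2]
  exact measurePreserving_prodAssoc _ _ _

lemma lima_dom_ae {U : TF} (hU : MeasT U) {F : ℝ → R3 → R3 → ℝ} (hF : MeasT F) {T : ℝ}
    (hd : DomOn T F U) :
    ∀ᵐ p ∂((volume : Measure (ℝ × R3)).restrict (Ioo (0:ℝ) T ×ˢ cell)), ∀ᵐ v,
      ENNReal.ofReal (F p.1 p.2 v) ≤ U p.1 p.2 v := by
  have h1 : ∀ᵐ z ∂((volume : Measure (ℝ × R3 × R3)).restrict (Ioo (0:ℝ) T ×ˢ (cell ×ˢ univ))),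
      ENNReal.ofReal (F z.1 z.2.1 z.2.2) ≤ U z.1 z.2.1 z.2.2 := by
    have e : (volume : Measure (ℝ × R3 × R3)).restrict (Ioo (0:ℝ) T ×ˢ (cell ×ˢ univ)) =
        ((volume : Measure ℝ).restrict (Ioo 0 T)).prod
          ((volume : Measure (R3 × R3)).restrict (cell ×ˢ univ)) := by
      rw [Measure.prod_restrict]; rfl
    have hm : MeasurableSet {z : ℝ × R3 × R3 | ENNReal.ofReal (F z.1 z.2.1 z.2.2) ≤ U z.1 z.2.1 z.2.2} :=
      measurableSet_le (Measurable.ennreal_ofReal hF) hU
    rw [e, Measure.ae_prod_iff_ae_ae hm]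
    refine ae_restrict_of_forall_mem measurableSet_Ioo fun t ht => ?_
    exact ae_restrict_of_ae (hd t (Ioo_subset_Icc_self ht))
  exact Measure.ae_ae_of_ae_prod ((lima_assoc _ _).quasiMeasurePreserving.ae h1)

lemma lima_finite (T : ℝ) :
    IsFiniteMeasure ((volume : Measure (ℝ × R3)).restrict (Ioo (0:ℝ) T ×ˢ cell)) := by
  refine ⟨?_⟩
  rw [Measure.restrict_apply_univ, Measure.volume_eq_prod, Measure.prod_prod, volume_cell]
  simp

/-- the weighted moment of `U` is square integrable, hence integrable -/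
lemma lima_mom {U : TF} (hU : Good U) (T : ℝ) :
    (∫⁻ p in Ioo (0:ℝ) T ×ˢ cell, (∫⁻ v, ENNReal.ofReal (1 + ‖v‖) * U p.1 p.2 v) ^ 2
      ∂(volume : Measure (ℝ × R3))) ≠ ⊤ := by
  have := hU.mom T 1
  simp only [pow_one] at this
  exact this.ne

lemma lima_u_meas {U : TF} (hU : MeasT U) :
    Measurable (fun z : (ℝ × R3) × R3 => ENNReal.ofReal (1 + ‖z.2‖) * U z.1.1 z.1.2 z.2) :=
  (Measurable.ennreal_ofReal (measurable_const.add measurable_snd.norm)).mul
    (hU.comp measurable_fst.fst measurable_fst.snd measurable_snd)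

lemma lima_mom1 {U : TF} (hU : Good U) (T : ℝ) :
    (∫⁻ p in Ioo (0:ℝ) T ×ˢ cell, (∫⁻ v, ENNReal.ofReal (1 + ‖v‖) * U p.1 p.2 v)
      ∂(volume : Measure (ℝ × R3))) ≠ ⊤ := by
  haveI := lima_finite T
  refine ne_top_of_le_ne_top ?_ (lintegral_mono
    (g := fun p : ℝ × R3 => 1 + (∫⁻ v, ENNReal.ofReal (1 + ‖v‖) * U p.1 p.2 v) ^ 2) fun p => ?_)
  · rw [lintegral_add_left measurable_const]
    refine ENNReal.add_ne_top.2 ⟨?_, lima_mom hU T⟩
    rw [lintegral_const, one_mul]
    exact measure_ne_top _ _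
  · simp only
    rcases le_total (∫⁻ v, ENNReal.ofReal (1 + ‖v‖) * U p.1 p.2 v) 1 with h | h
    · exact h.trans le_self_add
    · refine le_trans ?_ le_add_self
      rw [sq]
      exact le_mul_of_one_le_right' h

/-- the kernel of the weak form -/
noncomputable def limaK (β : R3 → ℝ) (q : R3 × R3) : ℝ :=
  ∫ w, |inner ℝ (q.1 - q.2) w| * (β (postVel q.1 q.2 w) - β q.1) ∂sphereMeasure

lemma lima_inner_meas : Measurable (fun z : (R3 × R3) × R3 => |inner ℝ (z.1.1 - z.1.2) z.2|) := by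
  have : Continuous (fun z : (R3 × R3) × R3 => |inner ℝ (z.1.1 - z.1.2) z.2|) := by fun_prop
  exact this.measurable

lemma limaK_meas {β : R3 → ℝ} (hβ : Measurable β) : Measurable (limaK β) := by
  have h1 : Measurable (fun z : (R3 × R3) × R3 => postVel z.1.1 z.1.2 z.2) := by
    have : Continuous (fun z : (R3 × R3) × R3 => postVel z.1.1 z.1.2 z.2) := by
      unfold postVel; fun_prop
    exact this.measurable
  have h2 : Measurable (fun z : (R3 × R3) × R3 =>
      |inner ℝ (z.1.1 - z.1.2) z.2| * (β (postVel z.1.1 z.1.2 z.2) - β z.1.1)) :=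
    lima_inner_meas.mul ((hβ.comp h1).sub (hβ.comp measurable_fst.fst))
  exact (h2.stronglyMeasurable.integral_prod_right' (ν := sphereMeasure)).measurable

lemma limaK_bound {β : R3 → ℝ} {B : ℝ} (hβb : ∀ v, |β v| ≤ B) (q : R3 × R3) :
    |limaK β q| ≤ (2 * B * sphereMeasure.real univ) * ((1 + ‖q.1‖) * (1 + ‖q.2‖)) := by
  have hB : 0 ≤ B := (abs_nonneg _).trans (hβb 0)
  have h := norm_integral_le_of_norm_le_const (μ := sphereMeasure)
    (f := fun w => |inner ℝ (q.1 - q.2) w| * (β (postVel q.1 q.2 w) - β q.1))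
    (C := ((1 + ‖q.1‖) * (1 + ‖q.2‖)) * (2 * B)) (by
      filter_upwards [sphere_ae_unit] with w hw
      rw [norm_mul, Real.norm_eq_abs, Real.norm_eq_abs, abs_abs]
      have h1 : |inner ℝ (q.1 - q.2) w| ≤ (1 + ‖q.1‖) * (1 + ‖q.2‖) := by
        have := abs_real_inner_le_norm (q.1 - q.2) w
        rw [hw, mul_one] at this
        have h3 := norm_sub_le q.1 q.2
        nlinarith [norm_nonneg q.1, norm_nonneg q.2, mul_nonneg (norm_nonneg q.1) (norm_nonneg q.2)]
      have h2 : |β (postVel q.1 q.2 w) - β q.1| ≤ 2 * B := by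
        have := abs_sub (β (postVel q.1 q.2 w)) (β q.1)
        linarith [hβb (postVel q.1 q.2 w), hβb q.1]
      exact mul_le_mul h1 h2 (abs_nonneg _) (by positivity))
  calc |limaK β q| ≤ _ := h
    _ = _ := by ring

end Crest.Agent.R068
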