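import Crest.Agent.R068.Ent0
import Crest.Agent.R068.LimAAux3

/-! Row 68: the collision term passes to the limit when velocity averages converge strongly. -/

set_option autoImplicit false
open MeasureTheory Set Filter Topology
open scoped ENNReal
open Crest.AnalysisR.VecCalc3 Crest.AnalysisR.PDE.Boltzmann

namespace Crest.Agent.R068

lemma lima_restrict {s : ℝ} (T : ℝ) (hs : 0 ≤ s) :
    ((volume : Measure (ℝ × R3)).restrict (Ioo (0:ℝ) T ×ˢ cell)).restrict {p | s < p.1} =
      (volume : Measure (ℝ × R3)).restrict (Ioo s T ×ˢ cell) := by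
  rw [Measure.restrict_restrict (measurableSet_lt measurable_const measurable_fst)]
  congr 1
  ext p
  simp only [mem_inter_iff, mem_setOf_eq, mem_prod, mem_Ioo]
  constructor
  · rintro ⟨h1, ⟨_, h2⟩, h3⟩; exact ⟨⟨h1, h2⟩, h3⟩
  · rintro ⟨⟨h1, h2⟩, h3⟩; exact ⟨h1, ⟨hs.trans_lt h1, h2⟩, h3⟩

lemma lima_enorm_le {r : ℝ} {y : ℝ≥0∞} (v : R3) (h0 : 0 ≤ r) (h : ENNReal.ofReal r ≤ y) :
    ‖(1 + ‖v‖) * r‖ₑ ≤ ENNReal.ofReal (1 + ‖v‖) * y := by
  rw [Real.enorm_eq_ofReal (by positivity), ENNReal.ofReal_mul (by positivity)]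
  exact mul_le_mul' le_rfl h

/-- products of two averages, tested against a bounded kernel -/
theorem bilinear_limit {U : TF} (hU : Good U) {F : ℕ → ℝ → R3 → R3 → ℝ} {G : ℝ → R3 → R3 → ℝ}
    {Ts : ℕ → ℝ} (hT0 : Tendsto Ts atTop (𝓝 0)) (hF : ∀ n, Dens (F n)) (hG : Dens G) {T : ℝ}
    (hd : ∀ n t, Ts n < t → ∀ x v, up (F n) t x v ≤ U t x v) (hGd : DomOn T G U)
    (hav : ∀ (φ : R3 → ℝ) (C ρ : ℝ), Measurable φ → (∀ v, |φ v| ≤ C) → (∀ v, φ v ≠ 0 → ‖v‖ ≤ ρ) →
      Tendsto (fun n => ∫⁻ p in Ioo (Ts n) T ×ˢ cell,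
        ‖(∫ v, φ v * F n p.1 p.2 v) - ∫ v, φ v * G p.1 p.2 v‖ₑ ∂(volume : Measure (ℝ × R3))) atTop (𝓝 0))
    (hTs : ∀ n, 0 ≤ Ts n) {α : ℝ × R3 → ℝ} (hα : Measurable α) {A : ℝ} (hαb : ∀ p, |α p| ≤ A)
    {a : R3 × R3 → ℝ} (ha : Measurable a) {B : ℝ} (hab : ∀ q, |a q| ≤ B * ((1 + ‖q.1‖) * (1 + ‖q.2‖))) :
    Tendsto (fun n => ∫ p in Ioo (Ts n) T ×ˢ cell,
        α p * ∫ q : R3 × R3, a q * (F n p.1 p.2 q.1 * F n p.1 p.2 q.2) ∂volume ∂(volume : Measure (ℝ × R3)))
      atTop (𝓝 (∫ p in Ioo (0:ℝ) T ×ˢ cell,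
        α p * ∫ q : R3 × R3, a q * (G p.1 p.2 q.1 * G p.1 p.2 q.2) ∂volume ∂(volume : Measure (ℝ × R3)))) := by
  set ν : Measure (ℝ × R3) := (volume : Measure (ℝ × R3)).restrict (Ioo (0:ℝ) T ×ˢ cell) with hν
  set f : ℕ → ℝ × R3 → R3 → ℝ := fun n p v =>
    if Ts n < p.1 then (1 + ‖v‖) * F n p.1 p.2 v else 0 with hfdef
  set g : ℝ × R3 → R3 → ℝ := fun p v => (1 + ‖v‖) * G p.1 p.2 v with hgdef
  set u : ℝ × R3 → R3 → ℝ≥0∞ := fun p v => ENNReal.ofReal (1 + ‖v‖) * U p.1 p.2 v with hudef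
  have hw : Measurable (fun z : (ℝ × R3) × R3 => 1 + ‖z.2‖) :=
    measurable_const.add measurable_snd.norm
  have hf : ∀ n, Measurable (fun z : (ℝ × R3) × R3 => f n z.1 z.2) := fun n =>
    Measurable.ite (measurableSet_lt measurable_const measurable_fst.fst)
      (hw.mul ((hF n).meas.comp measurable_fst.fst measurable_fst.snd measurable_snd))
      measurable_const
  have hg : Measurable (fun z : (ℝ × R3) × R3 => g z.1 z.2) :=
    hw.mul (hG.meas.comp measurable_fst.fst measurable_fst.snd measurable_snd)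
  have hu : Measurable (fun z : (ℝ × R3) × R3 => u z.1 z.2) := lima_u_meas hU.meas
  have hfu : ∀ n, ∀ᵐ p ∂ν, ∀ᵐ v, ‖f n p v‖ₑ ≤ u p v := by
    intro n
    refine Eventually.of_forall fun p => Eventually.of_forall fun v => ?_
    simp only [hfdef, hudef]
    split_ifs with h
    · exact lima_enorm_le v ((hF n).nonneg _ _ _) (hd n _ h _ _)
    · simp
  have hgu : ∀ᵐ p ∂ν, ∀ᵐ v, ‖g p v‖ₑ ≤ u p v := by
    filter_upwards [lima_dom_ae hU.meas hG.meas hGd] with p hp
    filter_upwards [hp] with v hv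
    exact lima_enorm_le v (hG.nonneg _ _ _) hv
  have hset : ∀ n, MeasurableSet {p : ℝ × R3 | Ts n < p.1} :=
    fun n => measurableSet_lt measurable_const measurable_fst
  have hmm : Measurable (fun p => ∫⁻ v, u p v) := hu.lintegral_prod_right'
  have htail : Tendsto (fun n => ∫⁻ p, {p : ℝ × R3 | Ts n < p.1}ᶜ.indicator (fun p => ∫⁻ v, u p v) p ∂ν)
      atTop (𝓝 (∫⁻ _, 0 ∂ν)) := by
    refine tendsto_lintegral_of_dominated_convergence (fun p => ∫⁻ v, u p v)
      (fun n => hmm.indicator (hset n).compl)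
      (fun n => Eventually.of_forall fun p => indicator_le_self _ _ p) (lima_mom1 hU T) ?_
    refine ae_restrict_of_forall_mem (measurableSet_Ioo.prod measurableSet_cell) fun p hp => ?_
    refine tendsto_const_nhds.congr' ?_
    filter_upwards [hT0.eventually (gt_mem_nhds hp.1.1)] with n hn
    rw [indicator_of_notMem]
    simpa using hn
  rw [lintegral_zero] at htail
  have hav' : ∀ (k : ℕ) (S : Set R3), MeasurableSet S → S ⊆ Metric.closedBall 0 (k : ℝ) →
      Tendsto (fun n => ∫⁻ p, ‖(∫ v in S, f n p v) - ∫ v in S, g p v‖ₑ ∂ν) atTop (𝓝 0) := by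
    intro k S hS hSK
    have h1 := hav (S.indicator fun v => 1 + ‖v‖) (1 + k) k
      ((measurable_const.add measurable_norm).indicator hS) (fun v => by
        by_cases hv : v ∈ S
        · have := hSK hv
          rw [mem_closedBall_zero_iff] at this
          rw [indicator_of_mem hv, abs_of_nonneg (by positivity)]
          linarith
        · rw [indicator_of_notMem hv, abs_zero]; positivity) (fun v hv => by
        have := hSK (mem_of_indicator_ne_zero hv)
        rwa [mem_closedBall_zero_iff] at this)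
    have h2 := h1.add htail
    rw [add_zero] at h2
    refine tendsto_of_tendsto_of_tendsto_of_le_of_le tendsto_const_nhds h2 (fun n => by simp)
      (fun n => ?_)
    have e : ∀ h : R3 → ℝ, ∫ v, S.indicator (fun v => 1 + ‖v‖) v * h v = ∫ v in S, (1 + ‖v‖) * h v := by
      intro h
      rw [← integral_indicator hS]
      refine integral_congr_ae (Eventually.of_forall fun v => ?_)
      by_cases hv : v ∈ S <;> simp [hv]
    simp only [e]
    rw [← lintegral_add_compl _ (hset n), lintegral_indicator (hset n).compl,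
      ← lima_restrict T (hTs n)]
    refine add_le_add (le_of_eq ?_) ?_
    · refine setLIntegral_congr_fun (hset n) fun p hp => ?_
      have hp : Ts n < p.1 := hp
      simp only [hfdef, hgdef, if_pos hp]
    · refine lintegral_mono_ae ?_
      filter_upwards [ae_restrict_mem (hset n).compl, ae_restrict_of_ae (lima_avg_bound hgu S)]
        with p hp hb
      have hp : ¬ Ts n < p.1 := hp
      simp only [hfdef, if_neg hp, integral_zero, zero_sub, enorm_neg]
      exact hb
  have hpos : ∀ q : R3 × R3, 0 < (1 + ‖q.1‖) * (1 + ‖q.2‖) := fun q => by positivity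
  have key := lima_bil (ν := ν) (lam := (volume : Measure R3)) hf hg hu (lima_mom hU T) hfu hgu
    (K := fun k : ℕ => Metric.closedBall (0 : R3) (k : ℝ)) (fun k => measurableSet_closedBall)
    (fun v => by
      filter_upwards [tendsto_natCast_atTop_atTop.eventually (eventually_ge_atTop ‖v‖)] with k hk
      rwa [mem_closedBall_zero_iff]) hav' hα hαb
    (a := fun q => a q / ((1 + ‖q.1‖) * (1 + ‖q.2‖)))
    (ha.div ((measurable_const.add measurable_fst.norm).mul (measurable_const.add measurable_snd.norm)))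
    (B := B) (fun q => by
      rw [abs_div, abs_of_pos (hpos q), div_le_iff₀ (hpos q)]
      exact hab q)
  have e : ∀ h : R3 → ℝ, ∫ q : R3 × R3, a q / ((1 + ‖q.1‖) * (1 + ‖q.2‖)) *
      ((1 + ‖q.1‖) * h q.1 * ((1 + ‖q.2‖) * h q.2)) ∂((volume : Measure R3).prod volume) =
      ∫ q : R3 × R3, a q * (h q.1 * h q.2) := by
    intro h
    refine integral_congr_ae (Eventually.of_forall fun q => ?_)
    have h1 : (1 + ‖q.1‖) ≠ 0 := by positivity
    have h2 : (1 + ‖q.2‖) ≠ 0 := by positivity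
    simp only
    field_simp
  simp only [hgdef, e] at key
  refine key.congr fun n => ?_
  rw [← lima_restrict T (hTs n), ← integral_indicator (hset n)]
  refine integral_congr_ae (Eventually.of_forall fun p => ?_)
  by_cases hp : Ts n < p.1
  · simp only [hfdef, if_pos hp, e]
    rw [indicator_of_mem (show p ∈ {p : ℝ × R3 | Ts n < p.1} from hp)]
  · simp only [hfdef, if_neg hp]
    rw [indicator_of_notMem (show p ∉ {p : ℝ × R3 | Ts n < p.1} from hp)]
    simp

/-- weak form of the collision term at a fixed `(t,x)` -/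
lemma integral_Rr_mul {F : ℝ → R3 → R3 → ℝ} {t : ℝ} {x : R3} (hm : Measurable (F t x))
    (h0 : ∀ v, 0 ≤ F t x v) (hfin : (∫⁻ v, ENNReal.ofReal (1 + ‖v‖) * up F t x v) < ⊤)
    {β : R3 → ℝ} (hβ : Measurable β) {B : ℝ} (hβb : ∀ v, |β v| ≤ B) :
    ∫ v, Rr F t x v * β v = ∫ q : R3 × R3,
      (∫ w, |inner ℝ (q.1 - q.2) w| * (β (postVel q.1 q.2 w) - β q.1) ∂sphereMeasure) *
        (F t x q.1 * F t x q.2) := by
  set τ : Measure (R3 × R3 × R3) := (volume : Measure R3).prod ((volume : Measure R3).prod sphereMeasure)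
    with hτ
  set f : R3 → ℝ := F t x with hf
  have hin : Measurable (fun z : R3 × R3 × R3 => |inner ℝ (z.1 - z.2.1) z.2.2|) := by
    have : Continuous (fun z : R3 × R3 × R3 => |inner ℝ (z.1 - z.2.1) z.2.2|) := by fun_prop
    exact this.measurable
  have hpv : Measurable (fun z : R3 × R3 × R3 => postVel z.1 z.2.1 z.2.2) :=
    continuous_postVel.measurable
  have hps : Measurable (fun z : R3 × R3 × R3 => postVelStar z.1 z.2.1 z.2.2) :=
    continuous_postVelStar.measurable
  set Φ : R3 × R3 × R3 → ℝ := fun z => |inner ℝ (z.1 - z.2.1) z.2.2| * f z.1 * f z.2.1 with hΦ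
  set Ψ : R3 × R3 × R3 → ℝ := fun z => |inner ℝ (z.1 - z.2.1) z.2.2| *
    f (postVel z.1 z.2.1 z.2.2) * f (postVelStar z.1 z.2.1 z.2.2) with hΨ
  have hΦm : Measurable Φ := (hin.mul (hm.comp measurable_fst)).mul (hm.comp measurable_snd.fst)
  have hΨm : Measurable Ψ := (hin.mul (hm.comp hpv)).mul (hm.comp hps)
  have hΦ0 : ∀ z, 0 ≤ Φ z := fun z => mul_nonneg (mul_nonneg (abs_nonneg _) (h0 _)) (h0 _)
  have hΨ0 : ∀ z, 0 ≤ Ψ z := fun z => mul_nonneg (mul_nonneg (abs_nonneg _) (h0 _)) (h0 _)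
  have hslice : ∀ Θ : R3 × R3 × R3 → ℝ, Measurable Θ → (∀ z, 0 ≤ Θ z) → ∀ v,
      ∫ r, Θ (v, r) ∂((volume : Measure R3).prod sphereMeasure) =
        (∫⁻ vs, ∫⁻ w, ENNReal.ofReal (Θ (v, vs, w)) ∂sphereMeasure).toReal := by
    intro Θ hΘ hΘ0 v
    have m1 : Measurable (fun r : R3 × R3 => Θ (v, r)) := hΘ.comp measurable_prodMk_left
    rw [integral_eq_lintegral_of_nonneg_ae (Eventually.of_forall fun r => hΘ0 _)
      m1.aestronglyMeasurable, lintegral_prod _ m1.ennreal_ofReal.aemeasurable]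
  have hupm : Measurable (up F t x) := hm.ennreal_ofReal
  have hΦi : Integrable Φ τ := by
    refine ⟨hΦm.aestronglyMeasurable, ?_⟩
    rw [hasFiniteIntegral_iff_ofReal (Eventually.of_forall hΦ0), hτ,
      lintegral_prod _ hΦm.ennreal_ofReal.aemeasurable]
    calc ∫⁻ v, ∫⁻ r, ENNReal.ofReal (Φ (v, r)) ∂((volume : Measure R3).prod sphereMeasure)
        ≤ ∫⁻ v, (ENNReal.ofReal (2 * Real.pi) * ∫⁻ u, ENNReal.ofReal (1 + ‖u‖) * up F t x u) *
            (ENNReal.ofReal (1 + ‖v‖) * up F t x v) := by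
          refine lintegral_mono fun v => ?_
          have m1 : Measurable (fun r : R3 × R3 => Φ (v, r)) := hΦm.comp measurable_prodMk_left
          simp only
          rw [lintegral_prod _ m1.ennreal_ofReal.aemeasurable]
          calc _ = collLoss F t x v := rfl
            _ = up F t x v * freq (up F t x) v := collLoss_eq hm h0 v
            _ ≤ up F t x v * (ENNReal.ofReal (2 * Real.pi * (1 + ‖v‖)) *
                  ∫⁻ u, ENNReal.ofReal (1 + ‖u‖) * up F t x u) :=
              mul_le_mul' le_rfl (freq_le_moment _ hupm v)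
            _ = _ := by
              rw [ENNReal.ofReal_mul (by positivity)]; ring
      _ = (ENNReal.ofReal (2 * Real.pi) * ∫⁻ u, ENNReal.ofReal (1 + ‖u‖) * up F t x u) *
            ∫⁻ v, ENNReal.ofReal (1 + ‖v‖) * up F t x v :=
          lintegral_const_mul _
            ((measurable_const.add measurable_norm).ennreal_ofReal.mul hupm)
      _ < ⊤ := ENNReal.mul_lt_top (ENNReal.mul_lt_top ENNReal.ofReal_lt_top hfin) hfin
  have hunit : ∀ᵐ z ∂τ, ‖z.2.2‖ = 1 :=
    (Measure.quasiMeasurePreserving_snd.comp Measure.quasiMeasurePreserving_snd).ae sphere_ae_unit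
  have hT := measurePreserving_prepost
  have hΨi : Integrable Ψ τ := by
    refine ((hT.integrable_comp_of_integrable hΦi)).congr ?_
    filter_upwards [hunit] with z hz
    simp only [hΦ, hΨ, Function.comp_apply, inner_post hz, abs_neg]
  have bdd : ∀ {Θ : R3 × R3 × R3 → ℝ} {c : R3 × R3 × R3 → R3}, Integrable Θ τ → Measurable c →
      Integrable (fun z => Θ z * β (c z)) τ := fun hΘ hc =>
    hΘ.mul_bdd (c := B) (hβ.comp hc).aestronglyMeasurable (Eventually.of_forall fun z => hβb _)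
  have i1 := bdd hΨi measurable_fst
  have i2 := bdd hΦi measurable_fst
  have i3 := bdd hΦi hpv
  have e1 : ∫ z, Ψ z * β z.1 ∂τ = ∫ z, Φ z * β (postVel z.1 z.2.1 z.2.2) ∂τ := by
    have h1 := integral_map (μ := τ) hT.measurable.aemeasurable
      (f := fun z => Φ z * β (postVel z.1 z.2.1 z.2.2))
      (hΦm.mul (hβ.comp hpv)).aestronglyMeasurable
    rw [hT.map_eq] at h1
    rw [h1]
    refine integral_congr_ae ?_
    filter_upwards [hunit] with z hz
    simp only [hΦ, hΨ, inner_post hz, abs_neg, postVel_post hz]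
  have e2 : ∫ v, Rr F t x v * β v = ∫ z, (Ψ z * β z.1 - Φ z * β z.1) ∂τ := by
    have i4 : Integrable (fun z => Ψ z * β z.1 - Φ z * β z.1) τ := i1.sub i2
    rw [hτ, integral_prod _ i4]
    refine integral_congr_ae ?_
    filter_upwards [hΨi.prod_right_ae, hΦi.prod_right_ae] with v a1 a2
    rw [integral_sub (a1.mul_const _) (a2.mul_const _), integral_mul_const, integral_mul_const,
      hslice Ψ hΨm hΨ0, hslice Φ hΦm hΦ0, ← sub_mul]
    rfl
  rw [e2, integral_sub i1 i2, e1, ← integral_sub i3 i2]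
  have hA := measurePreserving_prodAssoc (volume : Measure R3) (volume : Measure R3) sphereMeasure
  have i5 : Integrable (fun z => Φ z * β (postVel z.1 z.2.1 z.2.2) - Φ z * β z.1) τ := i3.sub i2
  rw [hτ, ← hA.integral_comp']
  refine (integral_prod _ (hA.integrable_comp_of_integrable i5)).trans ?_
  refine integral_congr_ae (Eventually.of_forall fun q => ?_)
  simp only
  rw [← integral_mul_const]
  refine integral_congr_ae (Eventually.of_forall fun w => ?_)
  simp only [hΦ, MeasurableEquiv.prodAssoc, MeasurableEquiv.coe_mk, Equiv.prodAssoc_apply,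
    Function.comp_apply, Pi.sub_apply]
  ring

/-- the collision term tested against a product, as a bilinear expression -/
lemma lima_Rr_eq {U : TF} (hU : Good U) {F : ℝ → R3 → R3 → ℝ} (hF : Dens F) {T : ℝ}
    (hd : DomOn T F U) {s : ℝ} (hs : 0 ≤ s) {α : ℝ × R3 → ℝ} (hα : Measurable α) {A : ℝ}
    (hαb : ∀ p, |α p| ≤ A) {β : R3 → ℝ} (hβ : Measurable β) {B : ℝ} (hβb : ∀ v, |β v| ≤ B) :
    ∫ p in Ioo s T ×ˢ (cell ×ˢ univ),
        Rr F p.1 p.2.1 p.2.2 * (α (p.1, p.2.1) * β p.2.2) ∂(volume : Measure (ℝ × R3 × R3)) =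
      ∫ p in Ioo s T ×ˢ cell, α p * ∫ q : R3 × R3, limaK β q * (F p.1 p.2 q.1 * F p.1 p.2 q.2)
        ∂volume ∂(volume : Measure (ℝ × R3)) := by
  have hRm : Measurable (fun p : ℝ × R3 × R3 => Rr F p.1 p.2.1 p.2.2) := measurable_Rr hF.meas
  have hRi : IntegrableOn (fun p : ℝ × R3 × R3 => Rr F p.1 p.2.1 p.2.2)
      (Ioo (0:ℝ) T ×ˢ (cell ×ˢ univ)) := by
    refine ⟨hRm.aestronglyMeasurable, lt_of_le_of_lt (lintegral_mono fun p => ?_)
      (coll_weight_lt_top hU hF hd 0)⟩
    simp only [pow_zero, ENNReal.ofReal_one, one_mul, Rr]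
    refine enorm_sub_le.trans (add_le_add ?_ ?_) <;>
    · rw [Real.enorm_eq_ofReal ENNReal.toReal_nonneg]
      exact ENNReal.ofReal_toReal_le
  have hRi' : IntegrableOn (fun p : ℝ × R3 × R3 => Rr F p.1 p.2.1 p.2.2 * (α (p.1, p.2.1) * β p.2.2))
      (Ioo s T ×ˢ (cell ×ˢ univ)) := by
    refine Integrable.mul_bdd (c := A * B)
      (hRi.mono_set (prod_mono (Ioo_subset_Ioo_left hs) Subset.rfl))
      ((hα.comp (measurable_fst.prodMk measurable_snd.fst)).mul
        (hβ.comp measurable_snd.snd)).aestronglyMeasurable (Eventually.of_forall fun p => ?_)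
    rw [norm_mul]
    exact mul_le_mul (hαb _) (hβb _) (norm_nonneg _) ((abs_nonneg _).trans (hαb (p.1, p.2.1)))
  have hA := lima_assoc (Ioo s T) cell
  rw [← hA.integral_comp']
  refine (integral_prod _ (hA.integrable_comp_of_integrable hRi')).trans ?_
  refine integral_congr_ae ?_
  have hsub : Ioo s T ×ˢ cell ⊆ Ioo (0:ℝ) T ×ˢ cell := prod_mono (Ioo_subset_Ioo_left hs) Subset.rfl
  have hmm : Measurable (fun p : ℝ × R3 => ∫⁻ v, ENNReal.ofReal (1 + ‖v‖) * U p.1 p.2 v) :=
    (lima_u_meas hU.meas).lintegral_prod_right'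
  filter_upwards [ae_restrict_of_ae_restrict_of_subset hsub (lima_dom_ae hU.meas hF.meas hd),
    ae_restrict_of_ae_restrict_of_subset hsub (ae_lt_top hmm (lima_mom1 hU T))] with p a1 a2
  have hfin : (∫⁻ v, ENNReal.ofReal (1 + ‖v‖) * up F p.1 p.2 v) < ⊤ := by
    refine lt_of_le_of_lt (lintegral_mono_ae ?_) a2
    filter_upwards [a1] with v hv
    exact mul_le_mul' le_rfl hv
  have := integral_Rr_mul (hF.meas.slice p.1 p.2) (hF.nonneg p.1 p.2) hfin hβ hβb
  unfold limaK
  rw [← this, ← integral_const_mul]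
  refine integral_congr_ae (Eventually.of_forall fun v => ?_)
  simp only [MeasurableEquiv.prodAssoc, MeasurableEquiv.coe_mk, Equiv.prodAssoc_apply,
    Function.comp_apply]
  ring

theorem Rr_limit {U : TF} (hU : Good U) {F : ℕ → ℝ → R3 → R3 → ℝ} {G : ℝ → R3 → R3 → ℝ}
    {Ts : ℕ → ℝ} (hT0 : Tendsto Ts atTop (𝓝 0)) (hF : ∀ n, Dens (F n)) (hG : Dens G) {T : ℝ}
    (hd : ∀ n t, Ts n < t → ∀ x v, up (F n) t x v ≤ U t x v) (hGd : DomOn T G U)
    (hav : ∀ (φ : R3 → ℝ) (C ρ : ℝ), Measurable φ → (∀ v, |φ v| ≤ C) → (∀ v, φ v ≠ 0 → ‖v‖ ≤ ρ) →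
      Tendsto (fun n => ∫⁻ p in Ioo (Ts n) T ×ˢ cell,
        ‖(∫ v, φ v * F n p.1 p.2 v) - ∫ v, φ v * G p.1 p.2 v‖ₑ ∂(volume : Measure (ℝ × R3))) atTop (𝓝 0))
    (hTs : ∀ n, 0 ≤ Ts n) {α : ℝ × R3 → ℝ} (hα : Measurable α) {A : ℝ} (hαb : ∀ p, |α p| ≤ A)
    {β : R3 → ℝ} (hβ : Measurable β) {B : ℝ} (hβb : ∀ v, |β v| ≤ B) :
    Tendsto (fun n => ∫ p in Ioo (Ts n) T ×ˢ (cell ×ˢ univ),
        Rr (F n) p.1 p.2.1 p.2.2 * (α (p.1, p.2.1) * β p.2.2) ∂(volume : Measure (ℝ × R3 × R3)))
      atTop (𝓝 (∫ p in Ioo (0:ℝ) T ×ˢ (cell ×ˢ univ),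
        Rr G p.1 p.2.1 p.2.2 * (α (p.1, p.2.1) * β p.2.2) ∂(volume : Measure (ℝ × R3 × R3)))) := by
  have key := bilinear_limit hU hT0 hF hG hd hGd hav hTs hα hαb (limaK_meas hβ) (limaK_bound hβb)
  rw [lima_Rr_eq hU hG hGd le_rfl hα hαb hβ hβb]
  refine key.congr fun n => ?_
  set F' : ℝ → R3 → R3 → ℝ := fun t x v => if Ts n < t then F n t x v else 0 with hF'
  have hD : Dens F' := by
    refine ⟨?_, fun t v x i => ?_, fun t x v => ?_⟩
    · exact Measurable.ite (measurableSet_lt measurable_const measurable_fst) (hF n).meas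
        measurable_const
    · simp only [hF']
      split_ifs
      · exact (hF n).per t v x i
      · rfl
    · simp only [hF']
      split_ifs
      · exact (hF n).nonneg t x v
      · exact le_rfl
  have hdom : DomOn T F' U := by
    intro t _
    refine Eventually.of_forall fun q => ?_
    simp only [hF']
    split_ifs with h
    · exact hd n t h _ _
    · simp
  have hFF : ∀ t, Ts n < t → F' t = F n t := by
    intro t ht
    funext x v
    simp only [hF', if_pos ht]
  have h1 := lima_Rr_eq hU hD hdom (hTs n) hα hαb hβ hβb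
  calc _ = ∫ p in Ioo (Ts n) T ×ˢ cell, α p * ∫ q : R3 × R3, limaK β q *
        (F' p.1 p.2 q.1 * F' p.1 p.2 q.2) ∂volume ∂(volume : Measure (ℝ × R3)) := by
        refine setIntegral_congr_fun (measurableSet_Ioo.prod measurableSet_cell) fun p hp => ?_
        simp only [hFF p.1 hp.1.1]
    _ = _ := h1.symm
    _ = _ := by
        refine setIntegral_congr_fun
          (measurableSet_Ioo.prod (measurableSet_cell.prod MeasurableSet.univ)) fun p hp => ?_
        simp only [Rr, collGain, collLoss, hFF p.1 hp.1.1]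

/-- an integrable function is determined by its integrals against products -/
lemma ae_zero_of_tensor {r : ℝ × R3 × R3 → ℝ} {S : Set (ℝ × R3 × R3)} (hS : MeasurableSet S)
    (hr : IntegrableOn r S)
    (h : ∀ (A : Set (ℝ × R3)) (B : Set R3), MeasurableSet A → MeasurableSet B →
      ∫ p in S, r p * (A.indicator 1 (p.1, p.2.1) * B.indicator 1 p.2.2) = 0) :
    ∀ᵐ p ∂(volume.restrict S), r p = 0 := by
  have hr' : Integrable r (volume.restrict S) := hr
  have hrect : ∀ (A : Set (ℝ × R3)) (B : Set R3), MeasurableSet A → MeasurableSet B →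
      ∫ p in (MeasurableEquiv.prodAssoc : (ℝ × R3) × R3 ≃ᵐ ℝ × R3 × R3).symm ⁻¹' (A ×ˢ B), r p
        ∂(volume.restrict S) = 0 := by
    intro A B hA hB
    rw [← h A B hA hB, ← integral_indicator (MeasurableEquiv.measurable _ (hA.prod hB))]
    refine integral_congr_ae (Eventually.of_forall fun p => ?_)
    by_cases h1 : (p.1, p.2.1) ∈ A <;> by_cases h2 : p.2.2 ∈ B <;>
      simp [indicator, MeasurableEquiv.prodAssoc, h1, h2]
  have key := lima_pi_sets (μ := volume.restrict S)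
    (π := (MeasurableEquiv.prodAssoc : (ℝ × R3) × R3 ≃ᵐ ℝ × R3 × R3).symm)
    (MeasurableEquiv.measurable _) (H := fun _ => r) (fun _ => hr'.aestronglyMeasurable) hr'.norm
    (fun _ => Eventually.of_forall fun _ => le_rfl) generateFrom_prod.symm isPiSystem_prod
    (by
      have := hrect univ univ MeasurableSet.univ MeasurableSet.univ
      rw [univ_prod_univ, preimage_univ, Measure.restrict_univ] at this
      rw [this]; exact tendsto_const_nhds)
    (by
      rintro _ ⟨A, hA, B, hB, rfl⟩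
      rw [hrect A B hA hB]; exact tendsto_const_nhds)
  refine hr'.ae_eq_zero_of_forall_setIntegral_eq_zero fun s hs _ => ?_
  have h1 := key ((MeasurableEquiv.prodAssoc : (ℝ × R3) × R3 ≃ᵐ ℝ × R3 × R3) ⁻¹' s)
    (MeasurableEquiv.measurable _ hs)
  rw [← preimage_comp, MeasurableEquiv.self_comp_symm, preimage_id] at h1
  exact tendsto_nhds_unique tendsto_const_nhds h1

end Crest.Agent.R068
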