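import Crest.Agent.R068.LimAux4

/-! Row 68: identification of the limit of the collision term. -/

set_option autoImplicit false
open MeasureTheory Set Filter Topology
open scoped ENNReal
open Crest.AnalysisR.VecCalc3 Crest.AnalysisR.PDE.Boltzmann

namespace Crest.Agent.R068

lemma lim_slice_int {f : R3 → R3 → ℝ} (hf : MeasP f)
    (hi : (∫⁻ q in cell ×ˢ univ, ‖f q.1 q.2‖ₑ ∂(volume : Measure (R3 × R3))) < ⊤) :
    ∀ᵐ x ∂(volume.restrict cell), Integrable (f x) := by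
  rw [lim_cell_iter (f := fun x v => ‖f x v‖ₑ) hf.enorm] at hi
  filter_upwards [ae_lt_top (Measurable.lintegral_prod_right' (f := fun q : R3 × R3 => ‖f q.1 q.2‖ₑ)
    hf.enorm) hi.ne] with x hx
  exact ⟨(hf.comp measurable_prodMk_left).aestronglyMeasurable, hx⟩

lemma lim_avg_meas {f : ℝ → R3 → R3 → ℝ} (hf : MeasT f) {φ : R3 → ℝ} (hφ : Measurable φ) :
    Measurable (fun p : ℝ × R3 => ∫ v, φ v * f p.1 p.2 v) := by
  have h1 : Measurable (fun z : (ℝ × R3) × R3 => φ z.2 * f z.1.1 z.1.2 z.2) :=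
    (hφ.comp measurable_snd).mul (hf.comp (by fun_prop) (by fun_prop) (by fun_prop))
  exact (h1.stronglyMeasurable.integral_prod_right' (ν := (volume : Measure R3))).measurable

lemma lim_iter2 {Φ : ℝ × R3 → ℝ≥0∞} (hΦ : Measurable Φ) (I : Set ℝ) :
    ∫⁻ p in I ×ˢ cell, Φ p ∂(volume : Measure (ℝ × R3)) = ∫⁻ t in I, ∫⁻ x in cell, Φ (t, x) := by
  rw [Measure.volume_eq_prod, ← Measure.prod_restrict, lintegral_prod _ hΦ.aemeasurable]

namespace LimData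

variable {U : TF} {F : ℕ → ℝ → R3 → R3 → ℝ} {Ts : ℕ → ℝ} {f₀ : R3 → R3 → ℝ} {k : ℝ → R3 → R3 → ℝ}

lemma avg_slice (h : LimData U F Ts f₀ k) {φ : R3 → ℝ} {C : ℝ} (hφ : Measurable φ)
    (hφb : ∀ v, |φ v| ≤ C) (n : ℕ) {t : ℝ} (ht : Ts n < t) :
    ∫⁻ x in cell, ‖(∫ v, φ v * F n t x v) - ∫ v, φ v * limL U f₀ k t x v‖ₑ ≤
      ENNReal.ofReal C * (∫⁻ q in cell ×ˢ univ, ‖F n 0 q.1 q.2 - f₀ q.1 q.2‖ₑ
        ∂(volume : Measure (R3 × R3))) +
      ∫⁻ x in cell, ‖∫ v, φ v * limI U (Ts n) (F n) k t x v‖ₑ := by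
  have ht0 : 0 ≤ t := (h.hTs n).trans ht.le
  have i1 := lim_slice_int (lim_measP (h.hF n).meas t) (lim_dom_cell h.hU ht0 ((h.hF n).nonneg t)
    (Eventually.of_forall fun q => h.hd n t ht q.1 q.2))
  have i2 := lim_slice_int (lim_measP h.Ld.meas t) (lim_dom_cell h.hU ht0 (h.Ld.nonneg t)
    (h.dom t t ⟨ht0, le_rfl⟩))
  have i3 := lim_slice_int (lim_measP (h.Im n) t) (h.Icell n t)
  have e1 : ∀ᵐ q : R3 × R3, F n t q.1 q.2 - limL U f₀ k t q.1 q.2 - limI U (Ts n) (F n) k t q.1 q.2 =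
      limH (F n) f₀ t q.1 q.2 := by
    filter_upwards [h.diff n ht0, h.L_eq ht0] with q h1 h2
    rw [h1, h2]; ring
  have e2 := ae_restrict_of_ae (s := cell) (Measure.ae_ae_of_ae_prod e1)
  have hHm : MeasP (fun x v => ‖limH (F n) f₀ t x v‖ₑ) := (lim_measP (h.Hm n) t).enorm
  rw [← h.Hcell n t, lim_cell_iter hHm, ← lintegral_const_mul' _ _ ENNReal.ofReal_ne_top,
    ← lintegral_add_left ((Measurable.lintegral_prod_right' hHm).const_mul _)]
  refine lintegral_mono_ae ?_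
  filter_upwards [i1, i2, i3, e2] with x j1 j2 j3 hx
  have b : ∀ {f : R3 → ℝ}, Integrable f → Integrable (fun v => φ v * f v) := fun hf =>
    hf.bdd_mul (c := C) hφ.aestronglyMeasurable (Eventually.of_forall hφb)
  have e3 : (∫ v, φ v * F n t x v) - ∫ v, φ v * limL U f₀ k t x v =
      (∫ v, φ v * limH (F n) f₀ t x v) + ∫ v, φ v * limI U (Ts n) (F n) k t x v := by
    have b12 : Integrable (fun v => φ v * F n t x v - φ v * limL U f₀ k t x v) := (b j1).sub (b j2)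
    rw [← sub_eq_iff_eq_add, ← integral_sub (b j1) (b j2), ← integral_sub b12 (b j3)]
    refine integral_congr_ae ?_
    filter_upwards [hx] with v hv
    rw [← hv]; ring
  rw [e3]
  refine (enorm_add_le _ _).trans (add_le_add ?_ le_rfl)
  refine (enorm_integral_le_lintegral_enorm _).trans ?_
  rw [← lintegral_const_mul' _ _ ENNReal.ofReal_ne_top]
  refine lintegral_mono fun v => ?_
  rw [enorm_mul]
  gcongr
  rw [← ofReal_norm_eq_enorm]
  exact ENNReal.ofReal_le_ofReal (hφb v)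

lemma avg (h : LimData U F Ts f₀ k) (T : ℝ) (φ : R3 → ℝ) (C ρ : ℝ) (hφ : Measurable φ)
    (hφb : ∀ v, |φ v| ≤ C) (hφs : ∀ v, φ v ≠ 0 → ‖v‖ ≤ ρ) :
    Tendsto (fun n => ∫⁻ p in Ioo (Ts n) T ×ˢ cell,
      ‖(∫ v, φ v * F n p.1 p.2 v) - ∫ v, φ v * limL U f₀ k p.1 p.2 v‖ₑ ∂(volume : Measure (ℝ × R3)))
      atTop (𝓝 0) := by
  have h1 := averaging_dom (g := fun n s x v => limG U (Ts n) (F n) s x v - k s x v) h.dm h.dp h.db h.dw
    (limW_meas h.hU) (limW_per h.hU) T (limW_fin h.hU T) hφ hφb hφs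
  have h2 := ENNReal.Tendsto.const_mul (a := ENNReal.ofReal T * ENNReal.ofReal C) h.hconv
    (Or.inr (ENNReal.mul_ne_top ENNReal.ofReal_ne_top ENNReal.ofReal_ne_top))
  have h3 := h2.add h1
  rw [mul_zero, add_zero] at h3
  refine tendsto_of_tendsto_of_tendsto_of_le_of_le tendsto_const_nhds h3 (fun n => zero_le) fun n => ?_
  have m1 : Measurable (fun p : ℝ × R3 =>
      ‖(∫ v, φ v * F n p.1 p.2 v) - ∫ v, φ v * limL U f₀ k p.1 p.2 v‖ₑ) :=
    ((lim_avg_meas (h.hF n).meas hφ).sub (lim_avg_meas h.Ld.meas hφ)).enorm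
  have m2 : Measurable (fun p : ℝ × R3 => ‖∫ v, φ v * limI U (Ts n) (F n) k p.1 p.2 v‖ₑ) :=
    (lim_avg_meas (h.Im n) hφ).enorm
  show _ ≤ _ + ∫⁻ p in Ioo (0:ℝ) T ×ˢ cell, ‖∫ v, φ v * limI U (Ts n) (F n) k p.1 p.2 v‖ₑ
    ∂(volume : Measure (ℝ × R3))
  rw [lim_iter2 m1, lim_iter2 m2]
  calc _ ≤ ∫⁻ t in Ioo (Ts n) T, (ENNReal.ofReal C * (∫⁻ q in cell ×ˢ univ,
          ‖F n 0 q.1 q.2 - f₀ q.1 q.2‖ₑ ∂(volume : Measure (R3 × R3))) +
        ∫⁻ x in cell, ‖∫ v, φ v * limI U (Ts n) (F n) k t x v‖ₑ) :=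
        setLIntegral_mono' measurableSet_Ioo fun t ht => h.avg_slice hφ hφb n ht.1
    _ ≤ ∫⁻ t in Ioo (0:ℝ) T, (ENNReal.ofReal C * (∫⁻ q in cell ×ˢ univ,
          ‖F n 0 q.1 q.2 - f₀ q.1 q.2‖ₑ ∂(volume : Measure (R3 × R3))) +
        ∫⁻ x in cell, ‖∫ v, φ v * limI U (Ts n) (F n) k t x v‖ₑ) :=
        lintegral_mono_set (Ioo_subset_Ioo_left (h.hTs n))
    _ = _ := by
        rw [lintegral_add_left measurable_const, setLIntegral_const, Real.volume_Ioo, sub_zero]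
        ring

lemma Rr_eq (h : LimData U F Ts f₀ k) (T : ℝ) :
    ∀ᵐ p ∂((volume : Measure (ℝ × R3 × R3)).restrict (Ioo (0:ℝ) T ×ˢ (cell ×ˢ univ))),
      Rr (limL U f₀ k) p.1 p.2.1 p.2.2 - k p.1 p.2.1 p.2.2 * limW U p.1 p.2.1 p.2.2 = 0 := by
  have hS : MeasurableSet (Ioo (0:ℝ) T ×ˢ (cell ×ˢ (univ : Set R3))) :=
    measurableSet_Ioo.prod lim_cellset
  have hW : IntegrableOn (fun p : ℝ × R3 × R3 => limW U p.1 p.2.1 p.2.2)
      (Ioo (0:ℝ) T ×ˢ (cell ×ˢ univ)) := ⟨(limW_meas h.hU).aestronglyMeasurable, limW_fin h.hU T⟩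
  have i1 : IntegrableOn (fun p : ℝ × R3 × R3 => Rr (limL U f₀ k) p.1 p.2.1 p.2.2)
      (Ioo (0:ℝ) T ×ˢ (cell ×ˢ univ)) := by
    refine ⟨(measurable_Rr h.Ld.meas).aestronglyMeasurable, ?_⟩
    refine lt_of_le_of_lt (lintegral_mono fun p => ?_) (coll_weight_lt_top h.hU h.Ld (h.dom T) 0)
    simp only [pow_zero, ENNReal.ofReal_one, one_mul, Rr]
    refine (enorm_sub_le).trans (add_le_add ?_ ?_) <;>
    · rw [← ofReal_norm_eq_enorm, Real.norm_of_nonneg ENNReal.toReal_nonneg]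
      exact ENNReal.ofReal_toReal_le
  have i2 : IntegrableOn (fun p : ℝ × R3 × R3 => k p.1 p.2.1 p.2.2 * limW U p.1 p.2.1 p.2.2)
      (Ioo (0:ℝ) T ×ˢ (cell ×ˢ univ)) :=
    Integrable.bdd_mul (c := 1) hW h.km.aestronglyMeasurable (Eventually.of_forall fun p => h.kb _ _ _)
  refine ae_zero_of_tensor hS (i1.sub i2) fun A B hA hB => ?_
  set χ : ℝ × R3 × R3 → ℝ := fun p => A.indicator 1 (p.1, p.2.1) * B.indicator 1 p.2.2 with hχ
  have hA1 : ∀ p, |A.indicator (1 : ℝ × R3 → ℝ) p| ≤ 1 := fun p => by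
    by_cases hp : p ∈ A <;> simp [hp]
  have hB1 : ∀ p, |B.indicator (1 : R3 → ℝ) p| ≤ 1 := fun p => by
    by_cases hp : p ∈ B <;> simp [hp]
  have hχm : Measurable χ :=
    ((measurable_one.indicator hA).comp (by fun_prop)).mul
      ((measurable_one.indicator hB).comp (by fun_prop))
  have hχb : ∀ p, ‖χ p‖ ≤ 1 := fun p => by
    rw [hχ, Real.norm_eq_abs, abs_mul]
    exact mul_le_one₀ (hA1 _) (abs_nonneg _) (hB1 _)
  have l1 := Rr_limit h.hU h.hT0 h.hF h.Ld h.hd (h.dom T) (h.avg T) h.hTs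
    (measurable_one.indicator hA) hA1 (measurable_one.indicator hB) hB1
  have hΨ : Integrable ((Ioo (0:ℝ) T ×ˢ (cell ×ˢ (univ : Set R3))).indicator
      (fun p : ℝ × R3 × R3 => limW U p.1 p.2.1 p.2.2 * χ p)) := by
    rw [integrable_indicator_iff hS]
    exact Integrable.mul_bdd (c := 1) hW hχm.aestronglyMeasurable (Eventually.of_forall hχb)
  have l2 := h.kw _ hΨ
  have ei : ∀ a : ℝ → R3 → R3 → ℝ, ∫ p : ℝ × R3 × R3, a p.1 p.2.1 p.2.2 *
      (Ioo (0:ℝ) T ×ˢ (cell ×ˢ (univ : Set R3))).indicator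
        (fun p : ℝ × R3 × R3 => limW U p.1 p.2.1 p.2.2 * χ p) p =
      ∫ p in Ioo (0:ℝ) T ×ˢ (cell ×ˢ univ), a p.1 p.2.1 p.2.2 * (limW U p.1 p.2.1 p.2.2 * χ p)
        ∂(volume : Measure (ℝ × R3 × R3)) := by
    intro a
    rw [← integral_indicator hS]
    congr 1
    funext p
    rw [← indicator_mul_right _ (fun p : ℝ × R3 × R3 => a p.1 p.2.1 p.2.2)]
  simp only [ei] at l2
  have hfin : ∀ᵐ p ∂((volume : Measure (ℝ × R3 × R3)).restrict (Ioo (0:ℝ) T ×ˢ (cell ×ˢ univ))),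
      limR U p.1 p.2.1 p.2.2 < ⊤ := ae_lt_top (limR_meas h.hU) (limR_fin h.hU T).ne
  have e : ∀ n, ∫ p in Ioo (0:ℝ) T ×ˢ (cell ×ˢ univ),
      limG U (Ts n) (F n) p.1 p.2.1 p.2.2 * (limW U p.1 p.2.1 p.2.2 * χ p) ∂(volume : Measure (ℝ × R3 × R3)) =
      ∫ p in Ioo (Ts n) T ×ˢ (cell ×ˢ univ), Rr (F n) p.1 p.2.1 p.2.2 * χ p
        ∂(volume : Measure (ℝ × R3 × R3)) := by
    intro n
    have hT : MeasurableSet (Ioi (Ts n) ×ˢ (univ : Set (R3 × R3))) :=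
      measurableSet_Ioi.prod MeasurableSet.univ
    have : Ioo (Ts n) T ×ˢ (cell ×ˢ (univ : Set R3)) =
        (Ioo (0:ℝ) T ×ˢ (cell ×ˢ (univ : Set R3))) ∩ (Ioi (Ts n) ×ˢ (univ : Set (R3 × R3))) := by
      ext p
      simp only [mem_prod, mem_Ioo, mem_inter_iff, mem_Ioi, mem_univ, and_true]
      constructor
      · rintro ⟨⟨a, b⟩, c⟩; exact ⟨⟨⟨(h.hTs n).trans_lt a, b⟩, c⟩, a⟩
      · rintro ⟨⟨⟨_, b⟩, c⟩, a⟩; exact ⟨⟨a, b⟩, c⟩
    rw [this, ← setIntegral_indicator hT]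
    refine integral_congr_ae ?_
    filter_upwards [hfin] with p hp
    rw [← mul_assoc, limG_mul (h.hF n) (h.hd n) hp.ne]
    by_cases hp' : p.1 ∈ Ioi (Ts n)
    · rw [indicator_of_mem hp', indicator_of_mem (show p ∈ Ioi (Ts n) ×ˢ univ from ⟨hp', trivial⟩)]
    · rw [indicator_of_notMem hp', indicator_of_notMem (fun hh => hp' hh.1), zero_mul]
  simp only [e] at l2
  have := tendsto_nhds_unique l1 l2
  show ∫ p in Ioo (0:ℝ) T ×ˢ (cell ×ˢ univ), (Rr (limL U f₀ k) p.1 p.2.1 p.2.2 -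
    k p.1 p.2.1 p.2.2 * limW U p.1 p.2.1 p.2.2) * χ p ∂(volume : Measure (ℝ × R3 × R3)) = 0
  simp only [sub_mul]
  rw [integral_sub (Integrable.mul_bdd (c := 1) i1 hχm.aestronglyMeasurable (Eventually.of_forall hχb))
    (Integrable.mul_bdd (c := 1) i2 hχm.aestronglyMeasurable (Eventually.of_forall hχb)), sub_eq_zero]
  simp only [mul_assoc]
  exact this

lemma mild (h : LimData U F Ts f₀ k) (T : ℝ) : Mild 0 T (limL U f₀ k) := by
  have h1 := ae_of_ae_cell3 (P := fun s x v => Rr (limL U f₀ k) s x v - k s x v * limW U s x v = 0)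
    (fun t v x i => by
      have := lim_per_sub h.Ld.per.Rr (lim_per_mul h.kp (limW_per h.hU)) t v x i
      simp only at this
      simp only [this]) measurableSet_Ioo (h.Rr_eq T)
  rw [ae_restrict_iff' (measurableSet_Ioo.prod MeasurableSet.univ)] at h1
  have h2 := lim_ae_char h1
  have h3 := lim_fwd_fin (limR_meas h.hU) (limR_per h.hU) (limR_fin h.hU T)
  have h4 : ∀ᵐ q : R3 × R3, ∀ r : ℚ, 0 ≤ (r:ℝ) → 0 ≤ limP U f₀ k r (q.1 + (r:ℝ) • q.2) q.2 := by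
    rw [ae_all_iff]
    intro r
    by_cases hr : 0 ≤ (r:ℝ)
    · filter_upwards [(measurePreserving_shear (r:ℝ)).quasiMeasurePreserving.ae (h.P_nonneg hr)]
        with q hq _ using hq
    · exact Eventually.of_forall fun q hq => absurd hq hr
  filter_upwards [h2, h3, h4] with q a1 a2 a3
  have hX : Measurable (fun s : ℝ => q.1 + s • q.2) := by fun_prop
  have i1 := lim_int_back h.hU h.km h.kb hX a2
  have hP : ∀ t : ℝ, limP U f₀ k t (q.1 + t • q.2) q.2 =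
      f₀ q.1 q.2 + ∫ s in Ioo (0:ℝ) t, k s (q.1 + s • q.2) q.2 * limW U s (q.1 + s • q.2) q.2 := by
    intro t
    rw [limP, limBk_fwd, add_sub_cancel_right]
  have e : ∀ t ≤ T, (fun s => Rr (limL U f₀ k) s (q.1 + s • q.2) q.2) =ᵐ[volume.restrict (Ioo (0:ℝ) t)]
      fun s => k s (q.1 + s • q.2) q.2 * limW U s (q.1 + s • q.2) q.2 := by
    intro t ht
    rw [EventuallyEq, ae_restrict_iff' measurableSet_Ioo]
    filter_upwards [a1] with s hs hs'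
    exact sub_eq_zero.1 (hs ⟨⟨hs'.1, hs'.2.trans_le ht⟩, trivial⟩)
  refine ⟨i1.congr (e T le_rfl).symm, fun t ht => ?_⟩
  have hn := lim_prim_nonneg i1 (h.f0 q.1 q.2) (fun r hr => by rw [← hP]; exact a3 r hr.1.le) t ht
  rw [h.L_zero, integral_congr_ae (e t ht.2), limL, hP, max_eq_right hn]

end LimData

end Crest.Agent.R068
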