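import Crest.Agent.R068.AvgDom
import Crest.Agent.R068.LimA
import Crest.Agent.R068.LimAux5

/-! Row 68: passing to the limit in dominated mild solutions. -/

set_option autoImplicit false
open MeasureTheory Set Filter Topology
open scoped ENNReal
open Crest.AnalysisR.VecCalc3 Crest.AnalysisR.PDE.Boltzmann

namespace Crest.Agent.R068

theorem limit_exists {U : TF} (hU : Good U) {F : ℕ → ℝ → R3 → R3 → ℝ} {Ts : ℕ → ℝ}
    (hTs : ∀ n, 0 ≤ Ts n) (hT0 : Tendsto Ts atTop (𝓝 0)) (hF : ∀ n, Dens (F n))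
    (hm : ∀ n T, Mild (Ts n) T (F n))
    (hd : ∀ n t, Ts n < t → ∀ x v, up (F n) t x v ≤ U t x v)
    {f₀ : R3 → R3 → ℝ} (hf₀ : MeasP f₀) (hf₀p : PerP f₀) (hf₀0 : ∀ x v, 0 ≤ f₀ x v)
    (hf₀U : ∀ᵐ q : R3 × R3, ENNReal.ofReal (f₀ q.1 q.2) ≤ U 0 q.1 q.2)
    (hconv : Tendsto (fun n => ∫⁻ q in cell ×ˢ univ, ‖F n 0 q.1 q.2 - f₀ q.1 q.2‖ₑ
      ∂(volume : Measure (R3 × R3))) atTop (𝓝 0)) :
    ∃ (φ : ℕ → ℕ) (G : ℝ → R3 → R3 → ℝ), StrictMono φ ∧ Dens G ∧ G 0 = f₀ ∧ (∀ T, Mild 0 T G) ∧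
      (∀ T, DomOn T G U) ∧ ∀ t, 0 < t → ∀ ψ : R3 × R3 → ℝ, Wt ψ →
        Tendsto (fun n => ∫ q : R3 × R3, F (φ n) t q.1 q.2 * ψ q) atTop
          (𝓝 (∫ q : R3 × R3, G t q.1 q.2 * ψ q)) := by
  obtain ⟨φ, k, hφ, km, kp, kb, kw⟩ := weak_subseq (g := fun n => limG U (Ts n) (F n))
    (fun n => limG_meas hU _ (hF n)) (fun n => limG_per hU _ (hF n)) (fun n => limG_le (hF n) (hd n))
  have h : LimData U (fun n => F (φ n)) (fun n => Ts (φ n)) f₀ k :=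
    ⟨hU, fun n => hTs _, hT0.comp hφ.tendsto_atTop, fun n => hF _, fun n => hm _, fun n => hd _,
      hf₀, hf₀p, hf₀0, hf₀U, hconv.comp hφ.tendsto_atTop, km, kp, kb, kw⟩
  exact ⟨φ, limL U f₀ k, hφ, h.Ld, h.L_zero, h.mild, h.dom, fun t ht ψ hψ => h.weakL ht.le hψ⟩

end Crest.Agent.R068
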