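import Crest.Agent.R068.Defs

/-! Row 68: abstract measure theory for `LimA` (weak convergence of dominated sequences). -/

set_option autoImplicit false
open MeasureTheory Set Filter Topology
open scoped ENNReal

namespace Crest.Agent.R068

/-- closure of the class of good test functions under bounded pointwise limits -/
lemma lima_closure {X : Type*} [MeasurableSpace X] {μ : Measure X} {H : ℕ → X → ℝ}
    (hH : ∀ n, AEStronglyMeasurable (H n) μ) {W : X → ℝ} (hW : Integrable W μ)
    (hHW : ∀ n, ∀ᵐ x ∂μ, ‖H n x‖ ≤ W x) {a : ℕ → X → ℝ} {b : X → ℝ}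
    (ha : ∀ k, Measurable (a k)) (hb : Measurable b) {B : ℝ} (haB : ∀ k x, |a k x| ≤ B)
    (hbB : ∀ x, |b x| ≤ B) (hab : ∀ x, Tendsto (fun k => a k x) atTop (𝓝 (b x)))
    (h : ∀ k, Tendsto (fun n => ∫ x, a k x * H n x ∂μ) atTop (𝓝 0)) :
    Tendsto (fun n => ∫ x, b x * H n x ∂μ) atTop (𝓝 0) := by
  have hHi : ∀ n, Integrable (H n) μ := fun n => hW.mono' (hH n) (hHW n)
  have hW0 : ∀ᵐ x ∂μ, 0 ≤ W x := by
    filter_upwards [hHW 0] with x hx using (norm_nonneg _).trans hx
  have he : Tendsto (fun k => ∫ x, |b x - a k x| * W x ∂μ) atTop (𝓝 (∫ x, (0:ℝ) ∂μ)) := by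
    refine tendsto_integral_of_dominated_convergence (fun x => (2 * B) * W x) (fun k => ?_)
      (hW.const_mul _) (fun k => ?_) ?_
    · exact ((hb.sub (ha k)).abs.aestronglyMeasurable).mul hW.aestronglyMeasurable
    · filter_upwards [hW0] with x hx
      rw [Real.norm_eq_abs, abs_mul, abs_abs, abs_of_nonneg hx]
      refine mul_le_mul_of_nonneg_right ?_ hx
      have h1 := haB k x
      have h2 := hbB x
      have h3 := abs_sub (b x) (a k x)
      linarith
    · refine Eventually.of_forall fun x => ?_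
      have h1 : Tendsto (fun k => |b x - a k x| * W x) atTop (𝓝 (|b x - b x| * W x)) :=
        ((tendsto_const_nhds.sub (hab x)).abs).mul_const _
      simpa using h1
  rw [integral_zero] at he
  have hbd : ∀ k n, |∫ x, b x * H n x ∂μ| ≤
      |∫ x, a k x * H n x ∂μ| + ∫ x, |b x - a k x| * W x ∂μ := by
    intro k n
    have i1 : Integrable (fun x => a k x * H n x) μ :=
      (hHi n).bdd_mul (c := B) (ha k).aestronglyMeasurable (Eventually.of_forall fun x => haB k x)
    have i2 : Integrable (fun x => b x * H n x) μ :=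
      (hHi n).bdd_mul (c := B) hb.aestronglyMeasurable (Eventually.of_forall fun x => hbB x)
    have i3 : Integrable (fun x => |b x - a k x| * W x) μ := by
      refine hW.bdd_mul (c := 2 * B) (hb.sub (ha k)).abs.aestronglyMeasurable
        (Eventually.of_forall fun x => ?_)
      rw [Real.norm_eq_abs, abs_abs]
      have h1 := haB k x
      have h2 := hbB x
      have h3 := abs_sub (b x) (a k x)
      linarith
    have e : ∫ x, b x * H n x ∂μ = ∫ x, a k x * H n x ∂μ + ∫ x, (b x * H n x - a k x * H n x) ∂μ := by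
      rw [integral_sub i2 i1]; ring
    have h4 : ‖∫ x, (b x * H n x - a k x * H n x) ∂μ‖ ≤ ∫ x, |b x - a k x| * W x ∂μ := by
      refine norm_integral_le_of_norm_le i3 ?_
      filter_upwards [hHW n] with x hx
      rw [← sub_mul, norm_mul, Real.norm_eq_abs]
      exact mul_le_mul_of_nonneg_left hx (abs_nonneg _)
    rw [e]
    exact (abs_add_le _ _).trans (add_le_add le_rfl h4)
  rw [Metric.tendsto_atTop]
  intro ε hε
  obtain ⟨k, hk⟩ := (Metric.tendsto_atTop.1 he) (ε / 2) (by positivity)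
  obtain ⟨N, hN⟩ := (Metric.tendsto_atTop.1 (h k)) (ε / 2) (by positivity)
  refine ⟨N, fun n hn => ?_⟩
  have h1 := hk k le_rfl
  have h2 := hN n hn
  rw [Real.dist_eq, sub_zero] at h1 h2 ⊢
  have h3 := hbd k n
  have h4 := le_abs_self (∫ x, |b x - a k x| * W x ∂μ)
  linarith

/-- from a generating π-system to all measurable sets -/
lemma lima_pi_sets {X Y : Type*} [MeasurableSpace X] [mY : MeasurableSpace Y] {μ : Measure X}
    {π : X → Y} (hπ : Measurable π) {H : ℕ → X → ℝ}
    (hH : ∀ n, AEStronglyMeasurable (H n) μ) {W : X → ℝ} (hW : Integrable W μ)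
    (hHW : ∀ n, ∀ᵐ x ∂μ, ‖H n x‖ ≤ W x) {𝒞 : Set (Set Y)}
    (h𝒞 : mY = MeasurableSpace.generateFrom 𝒞) (hpi : IsPiSystem 𝒞)
    (huniv : Tendsto (fun n => ∫ x, H n x ∂μ) atTop (𝓝 0))
    (hC : ∀ S ∈ 𝒞, Tendsto (fun n => ∫ x in π ⁻¹' S, H n x ∂μ) atTop (𝓝 0))
    (S : Set Y) (hS : MeasurableSet S) :
    Tendsto (fun n => ∫ x in π ⁻¹' S, H n x ∂μ) atTop (𝓝 0) := by
  have hHi : ∀ n, Integrable (H n) μ := fun n => hW.mono' (hH n) (hHW n)
  induction S, hS using MeasurableSpace.induction_on_inter h𝒞 hpi with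
  | empty => simp
  | basic t ht => exact hC t ht
  | compl t htm ih =>
    have e : ∀ n, ∫ x in π ⁻¹' tᶜ, H n x ∂μ = ∫ x, H n x ∂μ - ∫ x in π ⁻¹' t, H n x ∂μ := by
      intro n
      rw [preimage_compl, ← integral_add_compl (hπ htm) (hHi n)]; ring
    simp only [e]
    simpa using huniv.sub ih
  | iUnion f hd hfm ih =>
    have hd' : Pairwise (Function.onFun Disjoint (fun i => π ⁻¹' f i)) :=
      fun i j hij => (hd hij).preimage π
    have e : ∀ n, ∫ x in π ⁻¹' (⋃ i, f i), H n x ∂μ = ∑' i, ∫ x in π ⁻¹' f i, H n x ∂μ := by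
      intro n
      rw [preimage_iUnion]
      exact integral_iUnion (fun i => hπ (hfm i)) hd' (hHi n).integrableOn
    simp only [e]
    have hs : Summable (fun i => ∫ x in π ⁻¹' f i, W x ∂μ) :=
      (hasSum_integral_iUnion (fun i => hπ (hfm i)) hd' hW.integrableOn).summable
    have := tendsto_tsum_of_dominated_convergence (𝓕 := atTop)
      (f := fun n i => ∫ x in π ⁻¹' f i, H n x ∂μ) (g := fun _ => (0:ℝ)) hs ih
      (Eventually.of_forall fun n i =>
        norm_integral_le_of_norm_le hW.integrableOn (ae_restrict_of_ae (hHW n)))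
    simpa using this

/-- from sets to bounded measurable functions -/
lemma lima_pi_fun {X Y : Type*} [MeasurableSpace X] [MeasurableSpace Y] {μ : Measure X}
    {π : X → Y} (hπ : Measurable π) {H : ℕ → X → ℝ}
    (hH : ∀ n, AEStronglyMeasurable (H n) μ) {W : X → ℝ} (hW : Integrable W μ)
    (hHW : ∀ n, ∀ᵐ x ∂μ, ‖H n x‖ ≤ W x)
    (hS : ∀ S : Set Y, MeasurableSet S → Tendsto (fun n => ∫ x in π ⁻¹' S, H n x ∂μ) atTop (𝓝 0))
    {a : Y → ℝ} (ha : Measurable a) {B : ℝ} (hB : ∀ y, |a y| ≤ B) :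
    Tendsto (fun n => ∫ x, a (π x) * H n x ∂μ) atTop (𝓝 0) := by
  have hHi : ∀ n, Integrable (H n) μ := fun n => hW.mono' (hH n) (hHW n)
  have hsimple : ∀ s : SimpleFunc Y ℝ, Tendsto (fun n => ∫ x, s (π x) * H n x ∂μ) atTop (𝓝 0) := by
    intro s
    induction s using SimpleFunc.induction with
    | @const c t ht =>
      have e : ∀ n, ∫ x, (SimpleFunc.piecewise t ht (SimpleFunc.const Y c) (SimpleFunc.const Y 0))
          (π x) * H n x ∂μ = c * ∫ x in π ⁻¹' t, H n x ∂μ := by
        intro n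
        rw [← integral_indicator (hπ ht), ← integral_const_mul]
        refine integral_congr_ae (Eventually.of_forall fun x => ?_)
        by_cases hx : π x ∈ t
        · simp [hx, Set.indicator_of_mem (show x ∈ π ⁻¹' t from hx)]
        · simp [hx, Set.indicator_of_notMem (show x ∉ π ⁻¹' t from hx)]
      simp only [e]
      simpa using (hS t ht).const_mul c
    | @add f g _ ihf ihg =>
      have hi : ∀ (s : SimpleFunc Y ℝ) n, Integrable (fun x => s (π x) * H n x) μ := by
        intro s n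
        obtain ⟨C, hC⟩ := s.exists_forall_norm_le
        exact (hHi n).bdd_mul (c := C) (s.measurable.comp hπ).aestronglyMeasurable
          (Eventually.of_forall fun x => hC _)
      have e : ∀ n, ∫ x, (f + g) (π x) * H n x ∂μ =
          ∫ x, f (π x) * H n x ∂μ + ∫ x, g (π x) * H n x ∂μ := by
        intro n
        rw [← integral_add (hi f n) (hi g n)]
        refine integral_congr_ae (Eventually.of_forall fun x => ?_)
        simp [add_mul]
      simp only [e]
      simpa using ihf.add ihg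
  have hsm := ha.stronglyMeasurable
  have hB' : ∀ y, |a y| ≤ max B 0 := fun y => (hB y).trans (le_max_left _ _)
  refine lima_closure hH hW hHW (a := fun k x => hsm.approxBounded (max B 0) k (π x))
    (b := fun x => a (π x)) (fun k => (hsm.approxBounded (max B 0) k).measurable.comp hπ)
    (ha.comp hπ) (B := max B 0)
    (fun k x => hsm.norm_approxBounded_le (le_max_right _ _) k (π x)) (fun x => hB' _)
    (fun x => hsm.tendsto_approxBounded_of_norm_le (hB' _)) (fun k => hsimple _)

/-- `L¹` convergence of a sequence dominated by an `L²` function survives multiplication by it -/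
lemma lima_l1_mul {P : Type*} [MeasurableSpace P] {ν : Measure P} {D : ℕ → P → ℝ≥0∞}
    (hD : ∀ n, Measurable (D n)) {m : P → ℝ≥0∞} (hm : Measurable m)
    (hm2 : ∫⁻ p, m p ^ 2 ∂ν ≠ ⊤) (hDm : ∀ n, ∀ᵐ p ∂ν, D n p ≤ 2 * m p)
    (h : Tendsto (fun n => ∫⁻ p, D n p ∂ν) atTop (𝓝 0)) :
    Tendsto (fun n => ∫⁻ p, D n p * m p ∂ν) atTop (𝓝 0) := by
  have hfin : ∀ᵐ p ∂ν, m p ^ 2 < ⊤ := ae_lt_top (hm.pow_const 2) hm2
  have hset : ∀ L : ℕ, MeasurableSet {p | (L : ℝ≥0∞) < m p} :=
    fun L => measurableSet_lt measurable_const hm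
  have htail : Tendsto (fun L : ℕ => ∫⁻ p, {p | (L : ℝ≥0∞) < m p}.indicator (fun p => 2 * m p ^ 2) p ∂ν)
      atTop (𝓝 (∫⁻ _, 0 ∂ν)) := by
    refine tendsto_lintegral_of_dominated_convergence (fun p => 2 * m p ^ 2) (fun L => ?_)
      (fun L => Eventually.of_forall fun p => indicator_le_self _ _ p) ?_ ?_
    · exact ((hm.pow_const 2).const_mul 2).indicator (hset L)
    · rw [lintegral_const_mul _ (hm.pow_const 2)]
      exact ENNReal.mul_ne_top (by simp) hm2
    · filter_upwards [hfin] with p hp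
      have hp' : m p ≠ ⊤ := by
        intro h0; rw [h0] at hp; simp at hp
      obtain ⟨N, hN⟩ := ENNReal.exists_nat_gt hp'
      refine tendsto_const_nhds.congr' ?_
      filter_upwards [eventually_ge_atTop N] with L hL
      rw [indicator_of_notMem]
      simp only [mem_setOf_eq, not_lt]
      exact hN.le.trans (by exact_mod_cast hL)
  rw [lintegral_zero] at htail
  rw [ENNReal.tendsto_nhds_zero]
  intro ε hε
  have hε2 : 0 < ε / 2 := ENNReal.half_pos hε.ne'
  obtain ⟨L, hL⟩ := ((ENNReal.tendsto_nhds_zero.1 htail) (ε / 2) hε2).exists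
  have h1 : Tendsto (fun n => (L : ℝ≥0∞) * ∫⁻ p, D n p ∂ν) atTop (𝓝 0) := by
    have := ENNReal.Tendsto.const_mul (a := (L : ℝ≥0∞)) h (Or.inr (by simp))
    simpa using this
  filter_upwards [(ENNReal.tendsto_nhds_zero.1 h1) (ε / 2) hε2] with n hn
  calc ∫⁻ p, D n p * m p ∂ν
      ≤ ∫⁻ p, ((L : ℝ≥0∞) * D n p +
          {p | (L : ℝ≥0∞) < m p}.indicator (fun p => 2 * m p ^ 2) p) ∂ν := by
        refine lintegral_mono_ae ?_
        filter_upwards [hDm n] with p hp
        by_cases hc : (L : ℝ≥0∞) < m p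
        · rw [indicator_of_mem (show p ∈ {p | (L : ℝ≥0∞) < m p} from hc)]
          calc D n p * m p ≤ 2 * m p * m p := by gcongr
            _ = 2 * m p ^ 2 := by ring
            _ ≤ _ := le_add_self
        · rw [not_lt] at hc
          calc D n p * m p ≤ D n p * L := by gcongr
            _ = L * D n p := mul_comm _ _
            _ ≤ _ := le_self_add
    _ = (L : ℝ≥0∞) * ∫⁻ p, D n p ∂ν +
          ∫⁻ p, {p | (L : ℝ≥0∞) < m p}.indicator (fun p => 2 * m p ^ 2) p ∂ν := by
        rw [lintegral_add_left ((hD n).const_mul _), lintegral_const_mul _ (hD n)]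
    _ ≤ ε / 2 + ε / 2 := add_le_add hn hL
    _ = ε := ENNReal.add_halves ε

end Crest.Agent.R068
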