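import Crest.Agent.R068.AvgDom
import Crest.Agent.R068.LimA

/-! Row 68: auxiliary measure theory for `limit_exists`. -/

set_option autoImplicit false
open MeasureTheory Set Filter Topology
open scoped ENNReal
open Crest.AnalysisR.VecCalc3 Crest.AnalysisR.PDE.Boltzmann

namespace Crest.Agent.R068

lemma lim_mp_gen {a : ℝ → ℝ} (ha : Measurable a) :
    MeasurePreserving (fun p : ℝ × R3 × R3 => (p.1, p.2.1 + a p.1 • p.2.2, p.2.2)) volume volume := by
  have h := MeasurePreserving.skew_product (μa := (volume : Measure ℝ)) (μb := volume)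
    (μc := (volume : Measure (R3 × R3))) (μd := volume) (f := id) (MeasurePreserving.id _)
    (g := fun s q => (q.1 + a s • q.2, q.2)) (by
      show Measurable (fun p : ℝ × R3 × R3 => (p.2.1 + a p.1 • p.2.2, p.2.2))
      exact ((measurable_fst.comp measurable_snd).add
        ((ha.comp measurable_fst).smul (measurable_snd.comp measurable_snd))).prodMk
        (measurable_snd.comp measurable_snd))
    (Eventually.of_forall fun s => (measurePreserving_shear (a s)).map_eq)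
  exact h

lemma lim_mp_back (t : ℝ) :
    MeasurePreserving (fun p : ℝ × R3 × R3 => (p.1, p.2.1 - (t - p.1) • p.2.2, p.2.2)) volume volume := by
  have h := lim_mp_gen (a := fun s => -(t - s)) (by fun_prop)
  convert h using 3 with p
  rw [neg_smul, sub_eq_add_neg]

lemma lim_mp_shear_back (t : ℝ) :
    MeasurePreserving (fun q : R3 × R3 => (q.1 - t • q.2, q.2)) volume volume := by
  have h := measurePreserving_shear (-t)
  convert h using 3 with p
  rw [neg_smul, sub_eq_add_neg]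

lemma lim_ae_char {P : ℝ × R3 × R3 → Prop} (h : ∀ᵐ p, P p) :
    ∀ᵐ q : R3 × R3, ∀ᵐ s : ℝ, P (s, q.1 + s • q.2, q.2) := by
  have h1 := (lim_mp_gen (a := id) measurable_id).quasiMeasurePreserving.ae h
  have h2 := (Measure.measurePreserving_swap (μ := (volume : Measure (R3 × R3)))
    (ν := (volume : Measure ℝ))).quasiMeasurePreserving.ae h1
  exact Measure.ae_ae_of_ae_prod h2

lemma lim_cellset : MeasurableSet (cell ×ˢ (univ : Set R3)) := measurableSet_cell.prod MeasurableSet.univ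

lemma lim_prod_cell {W : TF} (hW : MeasT W) (I : Set ℝ) :
    ∫⁻ p in I ×ˢ (cell ×ˢ univ), W p.1 p.2.1 p.2.2 ∂(volume : Measure (ℝ × R3 × R3)) =
      ∫⁻ s in I, ∫⁻ q in cell ×ˢ univ, W s q.1 q.2 ∂(volume : Measure (R3 × R3)) := by
  rw [Measure.volume_eq_prod, ← Measure.prod_restrict, lintegral_prod _ hW.aemeasurable]

lemma lim_cell_iter {f : R3 → R3 → ℝ≥0∞} (hf : MeasP f) (A : Set R3) :
    ∫⁻ q in A ×ˢ univ, f q.1 q.2 ∂(volume : Measure (R3 × R3)) = ∫⁻ x in A, ∫⁻ v, f x v := by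
  rw [Measure.volume_eq_prod, ← Measure.prod_restrict, lintegral_prod _ hf.aemeasurable,
    Measure.restrict_univ]

lemma lim_measP {α : Type} [MeasurableSpace α] {W : ℝ → R3 → R3 → α} (hW : MeasT W) (s : ℝ) :
    MeasP (W s) :=
  hW.comp measurable_const measurable_fst measurable_snd

lemma lim_phase_back {f : R3 → R3 → ℝ≥0∞} (hf : MeasP f) (hp : PerP f) (t : ℝ) :
    ∫⁻ q in cell ×ˢ univ, f (q.1 - t • q.2) q.2 ∂(volume : Measure (R3 × R3)) =
      ∫⁻ q in cell ×ˢ univ, f q.1 q.2 ∂(volume : Measure (R3 × R3)) := by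
  rw [← lintegral_phase_shift hf hp (-t)]
  simp only [neg_smul, sub_eq_add_neg]

lemma lim_back_cell {W : TF} (hW : MeasT W) (hp : PerT W) (I : Set ℝ) (t : ℝ) :
    ∫⁻ q in cell ×ˢ univ, (∫⁻ s in I, W s (q.1 - (t - s) • q.2) q.2) ∂(volume : Measure (R3 × R3)) =
      ∫⁻ p in I ×ˢ (cell ×ˢ univ), W p.1 p.2.1 p.2.2 ∂(volume : Measure (ℝ × R3 × R3)) := by
  rw [lim_prod_cell hW, lintegral_lintegral_swap]
  · refine lintegral_congr fun s => ?_
    exact lim_phase_back (lim_measP hW s) (hp s) (t - s)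
  · refine Measurable.aemeasurable ?_
    exact hW.comp (t := fun z : (R3 × R3) × ℝ => z.2)
      (x := fun z => z.1.1 - (t - z.2) • z.1.2) (v := fun z => z.1.2)
      (by fun_prop) (by fun_prop) (by fun_prop)

lemma lim_per_shift {α : Type} {f : R3 → α} (hf : IsPeriodic3 f) (a : R3) :
    IsPeriodic3 (fun x => f (x - a)) := by
  intro x i
  have := hf (x - a) i
  simp only
  rw [← this]
  congr 1
  abel

lemma lim_per_shift' {α : Type} {f : R3 → α} (hf : IsPeriodic3 f) (a : R3) :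
    IsPeriodic3 (fun x => f (x + a)) := by
  have := lim_per_shift hf (-a)
  simpa only [sub_neg_eq_add] using this

lemma lim_fwd_fin {W : TF} (hW : MeasT W) (hp : PerT W) {I : Set ℝ}
    (hfin : (∫⁻ p in I ×ˢ (cell ×ˢ univ), W p.1 p.2.1 p.2.2 ∂(volume : Measure (ℝ × R3 × R3))) < ⊤) :
    ∀ᵐ q : R3 × R3, (∫⁻ s in I, W s (q.1 + s • q.2) q.2) < ⊤ := by
  have h := lim_back_cell hW hp I 0
  simp only [zero_sub, neg_smul, sub_neg_eq_add] at h
  refine ae_of_ae_cell (P := fun x v => (∫⁻ s in I, W s (x + s • v) v) < ⊤) ?_ ?_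
  · intro v x i
    simp only
    congr 2
    funext s
    exact lim_per_shift' (hp s v) (s • v) x i
  · refine ae_lt_top ?_ (h ▸ hfin.ne)
    refine Measurable.lintegral_prod_right' (f := fun z : (R3 × R3) × ℝ => W z.2 (z.1.1 + z.2 • z.1.2) z.1.2) ?_
    exact hW.comp (by fun_prop) (by fun_prop) (by fun_prop)

lemma lim_wt_bound {ψ : R3 × R3 → ℝ} (hψ : Wt ψ) : ∃ K : ℝ≥0∞, K ≠ ⊤ ∧
    ∀ f : R3 → R3 → ℝ≥0∞, MeasP f → PerP f →
      ∫⁻ q : R3 × R3, f q.1 q.2 * ‖ψ q‖ₑ ≤ K * ∫⁻ q in cell ×ˢ univ, f q.1 q.2 ∂(volume : Measure (R3 × R3)) := by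
  obtain ⟨C, hC⟩ := hψ.bdd
  obtain ⟨ρ, hρ⟩ := hψ.supp
  refine ⟨ENNReal.ofReal C * ENNReal.ofReal ((2 * |ρ| + 5) ^ 3),
    ENNReal.mul_ne_top ENNReal.ofReal_ne_top ENNReal.ofReal_ne_top, fun f hf hp => ?_⟩
  have hB : MeasurableSet (Metric.closedBall (0:R3) |ρ| ×ˢ (univ : Set R3)) :=
    Metric.isClosed_closedBall.measurableSet.prod MeasurableSet.univ
  calc ∫⁻ q : R3 × R3, f q.1 q.2 * ‖ψ q‖ₑ
      ≤ ∫⁻ q : R3 × R3, (Metric.closedBall (0:R3) |ρ| ×ˢ (univ : Set R3)).indicator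
          (fun q => ENNReal.ofReal C * f q.1 q.2) q := by
        refine lintegral_mono fun q => ?_
        by_cases h0 : ψ q = 0
        · simp [h0]
        · have hq : q ∈ Metric.closedBall (0:R3) |ρ| ×ˢ (univ : Set R3) :=
            ⟨by simpa using (hρ q h0).1.trans (le_abs_self _), trivial⟩
          rw [indicator_of_mem hq, mul_comm]
          gcongr
          rw [← ofReal_norm_eq_enorm]
          exact ENNReal.ofReal_le_ofReal (hC q)
    _ = ENNReal.ofReal C * ∫⁻ x in Metric.closedBall (0:R3) |ρ|, ∫⁻ v, f x v := by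
        rw [lintegral_indicator hB, lintegral_const_mul _ hf, lim_cell_iter hf]
    _ ≤ ENNReal.ofReal C * (ENNReal.ofReal ((2 * |ρ| + 5) ^ 3) * ∫⁻ x in cell, ∫⁻ v, f x v) := by
        gcongr
        refine lintegral_ball_le (f := fun x => ∫⁻ v, f x v) (Measurable.lintegral_prod_right' hf) ?_ 0
          (abs_nonneg _)
        intro x i
        simp only
        congr 1
        funext v
        exact hp v x i
    _ = _ := by rw [lim_cell_iter hf, mul_assoc]

/-- a function whose integrals against all nonnegative weights are nonnegative is nonnegative -/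
lemma lim_nonneg_of_tests {f : R3 × R3 → ℝ} (hf : Measurable f)
    (hi : ∀ ψ, Wt ψ → Integrable (fun q => f q * ψ q))
    (h : ∀ ψ, Wt ψ → (∀ q, 0 ≤ ψ q) → 0 ≤ ∫ q, f q * ψ q) : ∀ᵐ q, 0 ≤ f q := by
  have key : ∀ N : ℕ, ∀ᵐ q : R3 × R3, ‖q.1‖ ≤ N → ‖q.2‖ ≤ N → 0 ≤ f q := by
    intro N
    set S : Set (R3 × R3) := {q | f q < 0 ∧ ‖q.1‖ ≤ N ∧ ‖q.2‖ ≤ N} with hS
    have hSm : MeasurableSet S :=
      (measurableSet_lt hf measurable_const).inter
        ((measurableSet_le measurable_fst.norm measurable_const).inter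
          (measurableSet_le measurable_snd.norm measurable_const))
    have hW : Wt (S.indicator 1) := by
      refine ⟨measurable_one.indicator hSm, ⟨1, fun q => ?_⟩, ⟨N, fun q hq => ?_⟩⟩
      · by_cases hq : q ∈ S <;> simp [hq]
      · by_cases hq' : q ∈ S
        · exact hq'.2
        · simp [hq'] at hq
    have h1 := h _ hW (fun q => by by_cases hq : q ∈ S <;> simp [hq])
    have h2 : ∀ q, f q * S.indicator 1 q ≤ 0 := by
      intro q
      by_cases hq : q ∈ S
      · simp only [indicator_of_mem hq, Pi.one_apply, mul_one]; exact hq.1.le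
      · simp [hq]
    have h3 : ∫ q, -(f q * S.indicator 1 q) = 0 := by
      rw [integral_neg]
      have := integral_nonpos (μ := (volume : Measure (R3 × R3))) (f := fun q => f q * S.indicator 1 q) h2
      linarith
    rw [integral_eq_zero_iff_of_nonneg (fun q => neg_nonneg.2 (h2 q)) (hi _ hW).neg] at h3
    filter_upwards [h3] with q hq h1 h2
    by_contra hneg
    have hqS : q ∈ S := ⟨lt_of_not_ge hneg, h1, h2⟩
    simp only [indicator_of_mem hqS, Pi.one_apply, mul_one, Pi.zero_apply, neg_eq_zero] at hq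
    exact hneg hq.ge
  filter_upwards [ae_all_iff.2 key] with q hq
  obtain ⟨N, hN⟩ := exists_nat_ge (max ‖q.1‖ ‖q.2‖)
  exact hq N ((le_max_left _ _).trans hN) ((le_max_right _ _).trans hN)

/-- a primitive that is nonnegative at rational times is nonnegative -/
lemma lim_prim_nonneg {ρ : ℝ → ℝ} {T c : ℝ} (hρ : IntegrableOn ρ (Ioo 0 T)) (hc : 0 ≤ c)
    (h : ∀ r : ℚ, (r:ℝ) ∈ Ioo 0 T → 0 ≤ c + ∫ s in Ioo (0:ℝ) r, ρ s) :
    ∀ t ∈ Icc (0:ℝ) T, 0 ≤ c + ∫ s in Ioo (0:ℝ) t, ρ s := by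
  intro t ht
  rcases ht.1.eq_or_lt with h0 | h0
  · rw [← h0]; simpa using hc
  have hρ' : IntegrableOn ρ (Icc 0 T) := (integrableOn_Icc_iff_integrableOn_Ioo).2 hρ
  have hcont : ContinuousOn (fun x => c + ∫ s in Ioo (0:ℝ) x, ρ s) (Icc 0 T) := by
    have := intervalIntegral.continuousOn_primitive hρ'
    simp only [integral_Ioc_eq_integral_Ioo] at this
    exact continuousOn_const.add this
  have hcl : IsClosed (Icc (0:ℝ) T ∩ (fun x => c + ∫ s in Ioo (0:ℝ) x, ρ s) ⁻¹' Ici 0) :=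
    hcont.preimage_isClosed_of_isClosed isClosed_Icc isClosed_Ici
  have hsub : Ioo (0:ℝ) T ∩ range ((↑) : ℚ → ℝ) ⊆
      Icc (0:ℝ) T ∩ (fun x => c + ∫ s in Ioo (0:ℝ) x, ρ s) ⁻¹' Ici 0 := by
    rintro x ⟨hx, r, rfl⟩
    exact ⟨Ioo_subset_Icc_self hx, h r hx⟩
  have h1 : Ioo (0:ℝ) T ⊆ closure (Ioo (0:ℝ) T ∩ range ((↑) : ℚ → ℝ)) :=
    Rat.denseRange_cast.open_subset_closure_inter isOpen_Ioo
  have h2 : closure (Ioo (0:ℝ) T) ⊆
      Icc (0:ℝ) T ∩ (fun x => c + ∫ s in Ioo (0:ℝ) x, ρ s) ⁻¹' Ici 0 :=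
    closure_minimal (h1.trans (closure_minimal hsub hcl)) hcl
  have hT : (0:ℝ) ≠ T := (h0.trans_le ht.2).ne
  rw [closure_Ioo hT] at h2
  exact (h2 ht).2

end Crest.Agent.R068
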