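import Crest.Agent.R068.LimAux

/-! Row 68: backward integrals along characteristics. -/

set_option autoImplicit false
open MeasureTheory Set Filter Topology
open scoped ENNReal
open Crest.AnalysisR.VecCalc3 Crest.AnalysisR.PDE.Boltzmann

namespace Crest.Agent.R068

/-- integral of a source along the backward characteristic -/
noncomputable def limBk (h : ℝ → R3 → R3 → ℝ) (t : ℝ) (x v : R3) : ℝ :=
  ∫ s in Ioo (0:ℝ) t, h s (x - (t - s) • v) v

lemma limBk_meas {h : ℝ → R3 → R3 → ℝ} (hm : MeasT h) : MeasT (limBk h) := by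
  have h1 : Measurable (fun z : (ℝ × R3 × R3) × ℝ =>
      ({z : (ℝ × R3 × R3) × ℝ | 0 < z.2 ∧ z.2 < z.1.1}).indicator
        (fun z => h z.2 (z.1.2.1 - (z.1.1 - z.2) • z.1.2.2) z.1.2.2) z) := by
    refine Measurable.indicator (hm.comp (by fun_prop) (by fun_prop) (by fun_prop)) ?_
    exact (measurableSet_lt measurable_const measurable_snd).inter
      (measurableSet_lt measurable_snd (measurable_fst.comp measurable_fst))
  have h2 := (h1.stronglyMeasurable.integral_prod_right' (ν := (volume : Measure ℝ))).measurable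
  unfold MeasT
  convert h2 using 2 with p
  unfold limBk
  rw [← integral_indicator measurableSet_Ioo]
  congr 1

lemma limBk_per {h : ℝ → R3 → R3 → ℝ} (hp : PerT h) : PerT (limBk h) := by
  intro t v x i
  simp only [limBk]
  congr 1
  funext s
  exact lim_per_shift (hp s v) ((t - s) • v) x i

lemma limBk_cell {h : ℝ → R3 → R3 → ℝ} (hm : MeasT h) (hp : PerT h) (t : ℝ) :
    ∫⁻ q in cell ×ˢ univ, ‖limBk h t q.1 q.2‖ₑ ∂(volume : Measure (R3 × R3)) ≤
      ∫⁻ p in Ioo (0:ℝ) t ×ˢ (cell ×ˢ univ), ‖h p.1 p.2.1 p.2.2‖ₑ ∂(volume : Measure (ℝ × R3 × R3)) := by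
  rw [← lim_back_cell (W := fun s x v => ‖h s x v‖ₑ) hm.enorm
    (fun s v x i => by simp only; rw [show h s (x + _) v = h s x v from hp s v x i]) (Ioo 0 t) t]
  exact lintegral_mono fun q => enorm_integral_le_lintegral_enorm _

lemma limBk_fwd (h : ℝ → R3 → R3 → ℝ) (t : ℝ) (y v : R3) :
    limBk h t (y + t • v) v = ∫ s in Ioo (0:ℝ) t, h s (y + s • v) v := by
  unfold limBk
  congr 1
  funext s
  congr 1
  rw [sub_smul]; abel

/-- the dual test function -/
noncomputable def limPsi (ω : ℝ → R3 → R3 → ℝ) (ψ : R3 × R3 → ℝ) (t : ℝ) (p : ℝ × R3 × R3) : ℝ :=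
  (Ioo (0:ℝ) t).indicator 1 p.1 * (ω p.1 p.2.1 p.2.2 * ψ (p.2.1 + (t - p.1) • p.2.2, p.2.2))

lemma limPsi_meas {ω : ℝ → R3 → R3 → ℝ} (hm : MeasT ω) {ψ : R3 × R3 → ℝ} (hψ : Wt ψ) (t : ℝ) :
    Measurable (limPsi ω ψ t) := by
  unfold limPsi
  refine ((measurable_one.indicator measurableSet_Ioo).comp measurable_fst).mul (Measurable.mul hm ?_)
  exact hψ.meas.comp (by fun_prop)

lemma limPsi_back (ω : ℝ → R3 → R3 → ℝ) (ψ : R3 × R3 → ℝ) (t : ℝ) (p : ℝ × R3 × R3) :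
    limPsi ω ψ t (p.1, p.2.1 - (t - p.1) • p.2.2, p.2.2) =
      (Ioo (0:ℝ) t).indicator 1 p.1 * (ω p.1 (p.2.1 - (t - p.1) • p.2.2) p.2.2 * ψ p.2) := by
  simp only [limPsi, sub_add_cancel]

lemma limPsi_integrable {ω : ℝ → R3 → R3 → ℝ} (hm : MeasT ω) (hp : PerT ω) {ψ : R3 × R3 → ℝ}
    (hψ : Wt ψ) {t : ℝ} (hfin : (∫⁻ p in Ioo (0:ℝ) t ×ˢ (cell ×ˢ univ), ‖ω p.1 p.2.1 p.2.2‖ₑ
      ∂(volume : Measure (ℝ × R3 × R3))) < ⊤) : Integrable (limPsi ω ψ t) := by
  have hme := limPsi_meas hm hψ t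
  rw [← (lim_mp_back t).integrable_comp hme.aestronglyMeasurable]
  refine ⟨(hme.comp (lim_mp_back t).measurable).aestronglyMeasurable, ?_⟩
  obtain ⟨K, hK, hb⟩ := lim_wt_bound hψ
  have hpe : PerT (fun s x v => ‖ω s x v‖ₑ) :=
    fun s v x i => by simp only; rw [show ω s (x + _) v = ω s x v from hp s v x i]
  unfold HasFiniteIntegral
  rw [Measure.volume_eq_prod, lintegral_prod _ (hme.comp (lim_mp_back t).measurable).enorm.aemeasurable]
  calc ∫⁻ s, ∫⁻ q : R3 × R3, ‖(limPsi ω ψ t ∘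
          fun p : ℝ × R3 × R3 => (p.1, p.2.1 - (t - p.1) • p.2.2, p.2.2)) (s, q)‖ₑ
      ≤ ∫⁻ s, (Ioo (0:ℝ) t).indicator (fun s => K * ∫⁻ q in cell ×ˢ univ, ‖ω s q.1 q.2‖ₑ
          ∂(volume : Measure (R3 × R3))) s := by
        refine lintegral_mono fun s => ?_
        simp only [Function.comp, limPsi_back ω ψ t (s, _)]
        by_cases hs : s ∈ Ioo (0:ℝ) t
        · simp only [indicator_of_mem hs, Pi.one_apply, one_mul, enorm_mul]
          rw [← lim_phase_back (f := fun x v => ‖ω s x v‖ₑ) (lim_measP (W := fun s x v => ‖ω s x v‖ₑ) hm.enorm s) (hpe s) (t - s)]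
          refine hb (fun x v => ‖ω s (x - (t - s) • v) v‖ₑ) ?_ ?_
          · exact (hm.comp (by fun_prop) (by fun_prop) (by fun_prop)).enorm
          · intro v
            exact lim_per_shift (hpe s v) _
        · simp [hs]
    _ = K * ∫⁻ p in Ioo (0:ℝ) t ×ˢ (cell ×ˢ univ), ‖ω p.1 p.2.1 p.2.2‖ₑ
          ∂(volume : Measure (ℝ × R3 × R3)) := by
        rw [lintegral_indicator measurableSet_Ioo, lintegral_const_mul' _ _ hK,
          lim_prod_cell (W := fun s x v => ‖ω s x v‖ₑ) hm.enorm]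
    _ < ⊤ := ENNReal.mul_lt_top hK.lt_top hfin

/-- duality between backward integrals and space-time tests -/
lemma limBk_dual {ω : ℝ → R3 → R3 → ℝ} (hm : MeasT ω) (hp : PerT ω) {ψ : R3 × R3 → ℝ}
    (hψ : Wt ψ) {t : ℝ} (hfin : (∫⁻ p in Ioo (0:ℝ) t ×ˢ (cell ×ˢ univ), ‖ω p.1 p.2.1 p.2.2‖ₑ
      ∂(volume : Measure (ℝ × R3 × R3))) < ⊤) {k : ℝ → R3 → R3 → ℝ} (hk : MeasT k) {L : ℝ}
    (hL : ∀ s x v, |k s x v| ≤ L) :
    ∫ q : R3 × R3, limBk (fun s x v => k s x v * ω s x v) t q.1 q.2 * ψ q =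
      ∫ p : ℝ × R3 × R3, k p.1 p.2.1 p.2.2 * limPsi ω ψ t p := by
  have hme := limPsi_meas hm hψ t
  have hint : Integrable (fun p : ℝ × R3 × R3 => k p.1 p.2.1 p.2.2 * limPsi ω ψ t p) :=
    (limPsi_integrable hm hp hψ hfin).bdd_mul (c := L) hk.aestronglyMeasurable
      (Eventually.of_forall fun p => hL _ _ _)
  have hS := lim_mp_back t
  have h1 : ∫ p : ℝ × R3 × R3, k p.1 p.2.1 p.2.2 * limPsi ω ψ t p =
      ∫ p : ℝ × R3 × R3, k p.1 (p.2.1 - (t - p.1) • p.2.2) p.2.2 *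
        limPsi ω ψ t (p.1, p.2.1 - (t - p.1) • p.2.2, p.2.2) := by
    conv_lhs => rw [← hS.map_eq]
    rw [integral_map hS.measurable.aemeasurable]
    rw [hS.map_eq]
    exact hint.aestronglyMeasurable
  have hint2 : Integrable (fun p : ℝ × R3 × R3 => k p.1 (p.2.1 - (t - p.1) • p.2.2) p.2.2 *
        limPsi ω ψ t (p.1, p.2.1 - (t - p.1) • p.2.2, p.2.2)) :=
    (hS.integrable_comp hint.aestronglyMeasurable).2 hint
  rw [h1, Measure.volume_eq_prod ℝ (R3 × R3), integral_prod_symm _ hint2]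
  refine integral_congr_ae (Eventually.of_forall fun q => ?_)
  simp only [limPsi_back ω ψ t (_, q)]
  unfold limBk
  rw [← integral_mul_const, ← integral_indicator measurableSet_Ioo]
  refine integral_congr_ae (Eventually.of_forall fun s => ?_)
  by_cases hs : s ∈ Ioo (0:ℝ) t
  · simp only [indicator_of_mem hs, Pi.one_apply, one_mul, mul_assoc]
  · simp [hs]

/-- backward form of the mild formulation -/
lemma lim_mild_back {T₀ t : ℝ} {F : ℝ → R3 → R3 → ℝ} (hm : Mild T₀ t F) (ht : 0 ≤ t) :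
    ∀ᵐ q : R3 × R3, F t q.1 q.2 =
      F 0 (q.1 - t • q.2) q.2 + ∫ s in Ioo T₀ t, Rr F s (q.1 - (t - s) • q.2) q.2 := by
  filter_upwards [(lim_mp_shear_back t).quasiMeasurePreserving.ae hm] with q hq
  have := hq.2 t ⟨ht, le_rfl⟩
  simp only [sub_add_cancel] at this
  rw [this]
  congr 2
  funext s
  congr 1
  rw [sub_smul]; abel

end Crest.Agent.R068
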