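import Crest.Agent.R068.LimAux2

/-! Row 68: the collision majorant. -/

set_option autoImplicit false
open MeasureTheory Set Filter Topology
open scoped ENNReal
open Crest.AnalysisR.VecCalc3 Crest.AnalysisR.PDE.Boltzmann

namespace Crest.Agent.R068

/-- majorant of gain plus loss -/
noncomputable def limR (U : TF) : TF :=
  fun t x v => gain (U t x) (U t x) v + U t x v * freq (U t x) v

/-- its real version -/
noncomputable def limW (U : TF) (t : ℝ) (x v : R3) : ℝ := (limR U t x v).toReal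

/-- the normalised collision term -/
noncomputable def limG (U : TF) (T₀ : ℝ) (F : ℝ → R3 → R3 → ℝ) (t : ℝ) (x v : R3) : ℝ :=
  if T₀ < t then Rr F t x v / limW U t x v else 0

lemma limR_meas {U : TF} (hU : Good U) : MeasT (limR U) :=
  Measurable.add (hU.meas.gain hU.meas) (Measurable.mul hU.meas hU.meas.freq)

lemma limR_per {U : TF} (hU : Good U) : PerT (limR U) := by
  intro t v x i
  have h1 := (hU.per.gain hU.per) t v x i
  have h2 := hU.per.freq t v x i
  have h3 := hU.per t v x i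
  simp only at h1 h2 h3
  simp only [limR, h1, h2, h3]

lemma limR_fin {U : TF} (hU : Good U) (T : ℝ) :
    (∫⁻ p in Ioo (0:ℝ) T ×ˢ (cell ×ˢ univ), limR U p.1 p.2.1 p.2.2
      ∂(volume : Measure (ℝ × R3 × R3))) < ⊤ := by
  have hm := limR_meas hU
  have hM : Measurable (fun p : ℝ × R3 =>
      (∫⁻ v, ENNReal.ofReal ((1 + ‖v‖) ^ 1) * U p.1 p.2 v) ^ 2) := by
    refine Measurable.pow_const ?_ 2
    refine Measurable.lintegral_prod_right'
      (f := fun z : (ℝ × R3) × R3 => ENNReal.ofReal ((1 + ‖z.2‖) ^ 1) * U z.1.1 z.1.2 z.2) ?_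
    exact Measurable.mul (by fun_prop) (hU.meas.comp (by fun_prop) (by fun_prop) (by fun_prop))
  have hmom := hU.mom T 1
  rw [Measure.volume_eq_prod, ← Measure.prod_restrict, lintegral_prod _ hM.aemeasurable] at hmom
  rw [lim_prod_cell hm]
  calc ∫⁻ s in Ioo (0:ℝ) T, ∫⁻ q in cell ×ˢ univ, limR U s q.1 q.2 ∂(volume : Measure (R3 × R3))
      ≤ ∫⁻ s in Ioo (0:ℝ) T, ENNReal.ofReal (4 * Real.pi * 2 ^ 0) * ∫⁻ x in cell,
          (∫⁻ v, ENNReal.ofReal ((1 + ‖v‖) ^ 1) * U s x v) ^ 2 := by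
        refine lintegral_mono fun s => ?_
        rw [lim_cell_iter (lim_measP hm s), ← lintegral_const_mul' _ _ ENNReal.ofReal_ne_top]
        refine lintegral_mono fun x => ?_
        have := lintegral_gain_moment (hU.meas.slice s x) (hU.meas.slice s x) 0
        simp only [pow_zero, ENNReal.ofReal_one, one_mul, zero_add] at this
        simpa only [limR, sq, pow_zero] using this
    _ < ⊤ := by
        rw [lintegral_const_mul' _ _ ENNReal.ofReal_ne_top]
        exact ENNReal.mul_lt_top ENNReal.ofReal_lt_top hmom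

lemma limW_meas {U : TF} (hU : Good U) : MeasT (limW U) := (limR_meas hU).ennreal_toReal

lemma limW_per {U : TF} (hU : Good U) : PerT (limW U) := by
  intro t v x i
  have h1 := limR_per hU t v x i
  simp only at h1
  simp only [limW, h1]

lemma limW_enorm_le (U : TF) (t : ℝ) (x v : R3) : ‖limW U t x v‖ₑ ≤ limR U t x v := by
  rw [← ofReal_norm_eq_enorm, limW, Real.norm_of_nonneg ENNReal.toReal_nonneg]
  exact ENNReal.ofReal_toReal_le

lemma limW_fin {U : TF} (hU : Good U) (T : ℝ) :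
    (∫⁻ p in Ioo (0:ℝ) T ×ˢ (cell ×ˢ univ), ‖limW U p.1 p.2.1 p.2.2‖ₑ
      ∂(volume : Measure (ℝ × R3 × R3))) < ⊤ :=
  (lintegral_mono fun _ => limW_enorm_le _ _ _ _).trans_lt (limR_fin hU T)

lemma lim_Rr_le {U : TF} {F : ℝ → R3 → R3 → ℝ} (hF : Dens F) {t : ℝ} {x : R3}
    (hd : ∀ v, up F t x v ≤ U t x v) {v : R3} (hfin : limR U t x v ≠ ⊤) :
    |Rr F t x v| ≤ limW U t x v := by
  have h1 : collGain F t x v ≤ gain (U t x) (U t x) v := by
    rw [collGain_eq (hF.nonneg t x)]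
    exact gain_mono hd hd v
  have h2 : collLoss F t x v ≤ U t x v * freq (U t x) v := by
    rw [collLoss_eq (hF.meas.slice t x) (hF.nonneg t x)]
    exact mul_le_mul' (hd v) (freq_mono hd v)
  have ha : gain (U t x) (U t x) v ≠ ⊤ := ne_top_of_le_ne_top hfin le_self_add
  have hb : U t x v * freq (U t x) v ≠ ⊤ := ne_top_of_le_ne_top hfin le_add_self
  have h3 := ENNReal.toReal_mono ha h1
  have h4 := ENNReal.toReal_mono hb h2
  have h5 : limW U t x v = (gain (U t x) (U t x) v).toReal + (U t x v * freq (U t x) v).toReal := by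
    rw [limW, limR, ENNReal.toReal_add ha hb]
  have h6 := ENNReal.toReal_nonneg (a := collGain F t x v)
  have h7 := ENNReal.toReal_nonneg (a := collLoss F t x v)
  rw [h5, Rr, abs_le]
  constructor <;> linarith

lemma limG_meas {U : TF} (hU : Good U) (T₀ : ℝ) {F : ℝ → R3 → R3 → ℝ} (hF : Dens F) :
    MeasT (limG U T₀ F) :=
  Measurable.ite (measurableSet_lt measurable_const measurable_fst)
    (Measurable.div (measurable_Rr hF.meas) (limW_meas hU)) measurable_const

lemma limG_per {U : TF} (hU : Good U) (T₀ : ℝ) {F : ℝ → R3 → R3 → ℝ} (hF : Dens F) :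
    PerT (limG U T₀ F) := by
  intro t v x i
  have h1 := limW_per hU t v x i
  have h2 := hF.per.Rr t v x i
  simp only at h1 h2
  simp only [limG, h1, h2]

lemma limG_le {U : TF} {T₀ : ℝ} {F : ℝ → R3 → R3 → ℝ} (hF : Dens F)
    (hd : ∀ t, T₀ < t → ∀ x v, up F t x v ≤ U t x v) (t : ℝ) (x v : R3) : |limG U T₀ F t x v| ≤ 1 := by
  unfold limG
  split_ifs with ht
  · by_cases hfin : limR U t x v = ⊤
    · simp [limW, hfin]
    · have h := lim_Rr_le hF (hd t ht x) hfin
      rw [abs_div, abs_of_nonneg (show 0 ≤ limW U t x v from ENNReal.toReal_nonneg)]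
      exact div_le_one_of_le₀ h ENNReal.toReal_nonneg
  · simp

lemma limG_mul {U : TF} {T₀ : ℝ} {F : ℝ → R3 → R3 → ℝ} (hF : Dens F)
    (hd : ∀ t, T₀ < t → ∀ x v, up F t x v ≤ U t x v) {t : ℝ} {x v : R3} (hfin : limR U t x v ≠ ⊤) :
    limG U T₀ F t x v * limW U t x v = (Ioi T₀).indicator (fun s => Rr F s x v) t := by
  unfold limG
  split_ifs with ht
  · rw [indicator_of_mem (show t ∈ Ioi T₀ from ht)]
    by_cases h0 : limW U t x v = 0
    · have h := lim_Rr_le hF (hd t ht x) hfin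
      rw [h0] at h
      rw [h0, mul_zero, abs_nonpos_iff.1 h]
    · exact div_mul_cancel₀ _ h0
  · rw [indicator_of_notMem (show t ∉ Ioi T₀ from ht), zero_mul]

/-- the majorant is integrable along almost every backward characteristic -/
lemma limR_back_fin {U : TF} (hU : Good U) (t : ℝ) :
    ∀ᵐ q : R3 × R3, (∫⁻ s in Ioo (0:ℝ) t, limR U s (q.1 - (t - s) • q.2) q.2) < ⊤ := by
  have h := lim_fwd_fin (limR_meas hU) (limR_per hU) (limR_fin hU t)
  filter_upwards [(lim_mp_shear_back t).quasiMeasurePreserving.ae h] with q hq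
  convert hq using 4 with s
  rw [sub_smul]; abel

lemma lim_int_back {U : TF} (hU : Good U) {k : ℝ → R3 → R3 → ℝ} (hk : MeasT k) {L : ℝ}
    (hL : ∀ s x v, |k s x v| ≤ L) {I : Set ℝ} {X : ℝ → R3} (hX : Measurable X) {v : R3}
    (hfin : (∫⁻ s in I, limR U s (X s) v) < ⊤) :
    IntegrableOn (fun s => k s (X s) v * limW U s (X s) v) I := by
  refine Integrable.bdd_mul (c := L) ?_ (hk.comp measurable_id hX measurable_const).aestronglyMeasurable
    (Eventually.of_forall fun s => hL _ _ _)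
  refine ⟨((limW_meas hU).comp measurable_id hX measurable_const).aestronglyMeasurable, ?_⟩
  exact (lintegral_mono fun _ => limW_enorm_le _ _ _ _).trans_lt hfin

/-- representation of a dominated mild solution -/
lemma lim_repr {U : TF} (hU : Good U) {T₀ : ℝ} (hT₀ : 0 ≤ T₀) {F : ℝ → R3 → R3 → ℝ} (hF : Dens F)
    (hd : ∀ t, T₀ < t → ∀ x v, up F t x v ≤ U t x v) {t : ℝ} (ht : 0 ≤ t) (hm : Mild T₀ t F) :
    ∀ᵐ q : R3 × R3, F t q.1 q.2 = F 0 (q.1 - t • q.2) q.2 +
      limBk (fun s x v => limG U T₀ F s x v * limW U s x v) t q.1 q.2 := by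
  filter_upwards [lim_mild_back hm ht, limR_back_fin hU t] with q h1 h2
  rw [h1]
  congr 1
  have h3 : ∀ᵐ s ∂(volume.restrict (Ioo (0:ℝ) t)), limR U s (q.1 - (t - s) • q.2) q.2 < ⊤ :=
    ae_lt_top ((limR_meas hU).comp (by fun_prop) (by fun_prop) (by fun_prop)) h2.ne
  unfold limBk
  have h4 : ∫ s in Ioo (0:ℝ) t, limG U T₀ F s (q.1 - (t - s) • q.2) q.2 *
        limW U s (q.1 - (t - s) • q.2) q.2 =
      ∫ s in Ioo (0:ℝ) t, (Ioi T₀).indicator (fun s => Rr F s (q.1 - (t - s) • q.2) q.2) s := by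
    refine integral_congr_ae ?_
    filter_upwards [h3] with s hs
    rw [limG_mul hF hd hs.ne]
    by_cases hs' : s ∈ Ioi T₀ <;> simp [hs']
  rw [h4, setIntegral_indicator measurableSet_Ioi]
  congr 2
  ext s
  simp only [mem_Ioo, mem_inter_iff, mem_Ioi]
  constructor
  · rintro ⟨a, b⟩; exact ⟨⟨hT₀.trans_lt a, b⟩, a⟩
  · rintro ⟨⟨_, b⟩, a⟩; exact ⟨a, b⟩

lemma lim_U_cell {U : TF} (hU : Good U) {t : ℝ} (ht : 0 ≤ t) :
    (∫⁻ q in cell ×ˢ univ, U t q.1 q.2 ∂(volume : Measure (R3 × R3))) < ⊤ := by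
  obtain ⟨C, hC, h⟩ := hU.sup t
  refine lt_of_le_of_lt (le_trans (lintegral_mono fun q => ?_) (h t ⟨ht, le_rfl⟩)) hC
  calc U t q.1 q.2 ≤ 1 * (U t q.1 q.2 + U t q.1 q.2 ^ (65 / 64 : ℝ)) := by
        rw [one_mul]; exact le_self_add
    _ ≤ _ := by
        gcongr
        rw [← ENNReal.ofReal_one]
        exact ENNReal.ofReal_le_ofReal (one_le_pow₀ (by linarith [norm_nonneg q.2]))

lemma lim_dom_cell {U : TF} (hU : Good U) {t : ℝ} (ht : 0 ≤ t) {f : R3 → R3 → ℝ}
    (h0 : ∀ x v, 0 ≤ f x v) (hd : ∀ᵐ q : R3 × R3, ENNReal.ofReal (f q.1 q.2) ≤ U t q.1 q.2) :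
    (∫⁻ q in cell ×ˢ univ, ‖f q.1 q.2‖ₑ ∂(volume : Measure (R3 × R3))) < ⊤ := by
  refine lt_of_le_of_lt (lintegral_mono_ae (ae_restrict_of_ae ?_)) (lim_U_cell hU ht)
  filter_upwards [hd] with q hq
  rwa [← ofReal_norm_eq_enorm, Real.norm_of_nonneg (h0 _ _)]

end Crest.Agent.R068
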