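import Crest.Agent.R068.LimAux3

/-! Row 68: the weak limit. -/

set_option autoImplicit false
open MeasureTheory Set Filter Topology
open scoped ENNReal
open Crest.AnalysisR.VecCalc3 Crest.AnalysisR.PDE.Boltzmann

namespace Crest.Agent.R068

/-- the hypotheses of `limit_exists` after extraction of the subsequence -/
structure LimData (U : TF) (F : ℕ → ℝ → R3 → R3 → ℝ) (Ts : ℕ → ℝ) (f₀ : R3 → R3 → ℝ)
    (k : ℝ → R3 → R3 → ℝ) : Prop where
  hU : Good U
  hTs : ∀ n, 0 ≤ Ts n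
  hT0 : Tendsto Ts atTop (𝓝 0)
  hF : ∀ n, Dens (F n)
  hm : ∀ n T, Mild (Ts n) T (F n)
  hd : ∀ n t, Ts n < t → ∀ x v, up (F n) t x v ≤ U t x v
  fm : MeasP f₀
  fp : PerP f₀
  f0 : ∀ x v, 0 ≤ f₀ x v
  fU : ∀ᵐ q : R3 × R3, ENNReal.ofReal (f₀ q.1 q.2) ≤ U 0 q.1 q.2
  hconv : Tendsto (fun n => ∫⁻ q in cell ×ˢ univ, ‖F n 0 q.1 q.2 - f₀ q.1 q.2‖ₑ
      ∂(volume : Measure (R3 × R3))) atTop (𝓝 0)
  km : MeasT k
  kp : PerT k
  kb : ∀ t x v, |k t x v| ≤ 1
  kw : ∀ ψ : ℝ × R3 × R3 → ℝ, Integrable ψ →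
    Tendsto (fun n => ∫ p : ℝ × R3 × R3, limG U (Ts n) (F n) p.1 p.2.1 p.2.2 * ψ p) atTop
      (𝓝 (∫ p : ℝ × R3 × R3, k p.1 p.2.1 p.2.2 * ψ p))

/-- the limit before taking the positive part -/
noncomputable def limP (U : TF) (f₀ : R3 → R3 → ℝ) (k : ℝ → R3 → R3 → ℝ) (t : ℝ) (x v : R3) : ℝ :=
  f₀ (x - t • v) v + limBk (fun s x v => k s x v * limW U s x v) t x v

/-- the limit -/
noncomputable def limL (U : TF) (f₀ : R3 → R3 → ℝ) (k : ℝ → R3 → R3 → ℝ) (t : ℝ) (x v : R3) : ℝ :=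
  max 0 (limP U f₀ k t x v)

/-- error coming from the data -/
noncomputable def limH (F : ℝ → R3 → R3 → ℝ) (f₀ : R3 → R3 → ℝ) (t : ℝ) (x v : R3) : ℝ :=
  F 0 (x - t • v) v - f₀ (x - t • v) v

/-- error coming from the sources -/
noncomputable def limI (U : TF) (T₀ : ℝ) (F : ℝ → R3 → R3 → ℝ) (k : ℝ → R3 → R3 → ℝ) :
    ℝ → R3 → R3 → ℝ :=
  limBk (fun s x v => (limG U T₀ F s x v - k s x v) * limW U s x v)

lemma lim_per_mul {a b : ℝ → R3 → R3 → ℝ} (ha : PerT a) (hb : PerT b) :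
    PerT (fun s x v => a s x v * b s x v) := by
  intro t v x i
  have h1 := ha t v x i
  have h2 := hb t v x i
  simp only at h1 h2
  simp only [h1, h2]

lemma lim_per_sub {a b : ℝ → R3 → R3 → ℝ} (ha : PerT a) (hb : PerT b) :
    PerT (fun s x v => a s x v - b s x v) := by
  intro t v x i
  have h1 := ha t v x i
  have h2 := hb t v x i
  simp only at h1 h2
  simp only [h1, h2]

lemma lim_bk_fin {U : TF} (hU : Good U) {k : ℝ → R3 → R3 → ℝ} (hk : MeasT k) (hp : PerT k) {L : ℝ}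
    (hL : ∀ s x v, |k s x v| ≤ L) (t : ℝ) :
    (∫⁻ q in cell ×ˢ univ, ‖limBk (fun s x v => k s x v * limW U s x v) t q.1 q.2‖ₑ
      ∂(volume : Measure (R3 × R3))) < ⊤ := by
  refine (limBk_cell (h := fun s x v => k s x v * limW U s x v) (Measurable.mul hk (limW_meas hU))
    (lim_per_mul hp (limW_per hU)) t).trans_lt ?_
  calc _ ≤ ∫⁻ p in Ioo (0:ℝ) t ×ˢ (cell ×ˢ univ), ENNReal.ofReal L * ‖limW U p.1 p.2.1 p.2.2‖ₑ
        ∂(volume : Measure (ℝ × R3 × R3)) := by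
        refine lintegral_mono fun p => ?_
        rw [enorm_mul]
        gcongr
        rw [← ofReal_norm_eq_enorm]
        exact ENNReal.ofReal_le_ofReal (hL _ _ _)
    _ < ⊤ := by
        rw [lintegral_const_mul' _ _ ENNReal.ofReal_ne_top]
        exact ENNReal.mul_lt_top ENNReal.ofReal_lt_top (limW_fin hU t)

namespace LimData

variable {U : TF} {F : ℕ → ℝ → R3 → R3 → ℝ} {Ts : ℕ → ℝ} {f₀ : R3 → R3 → ℝ} {k : ℝ → R3 → R3 → ℝ}

lemma dm (h : LimData U F Ts f₀ k) (n : ℕ) : MeasT (fun s x v => limG U (Ts n) (F n) s x v - k s x v) :=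
  Measurable.sub (limG_meas h.hU _ (h.hF n)) h.km

lemma dp (h : LimData U F Ts f₀ k) (n : ℕ) : PerT (fun s x v => limG U (Ts n) (F n) s x v - k s x v) :=
  lim_per_sub (limG_per h.hU _ (h.hF n)) h.kp

lemma db (h : LimData U F Ts f₀ k) (n : ℕ) (s : ℝ) (x v : R3) :
    |limG U (Ts n) (F n) s x v - k s x v| ≤ 2 := by
  have h1 := limG_le (h.hF n) (h.hd n) s x v
  have h2 := h.kb s x v
  have h3 := abs_sub (limG U (Ts n) (F n) s x v) (k s x v)
  linarith

lemma dw (h : LimData U F Ts f₀ k) (ψ : ℝ × R3 × R3 → ℝ) (hψ : Integrable ψ) :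
    Tendsto (fun n => ∫ p : ℝ × R3 × R3,
      (limG U (Ts n) (F n) p.1 p.2.1 p.2.2 - k p.1 p.2.1 p.2.2) * ψ p) atTop (𝓝 0) := by
  have h1 := (h.kw ψ hψ).sub_const (∫ p : ℝ × R3 × R3, k p.1 p.2.1 p.2.2 * ψ p)
  rw [sub_self] at h1
  refine h1.congr fun n => ?_
  rw [← integral_sub]
  · simp only [sub_mul]
  · exact hψ.bdd_mul (c := 1) (limG_meas h.hU _ (h.hF n)).aestronglyMeasurable
      (Eventually.of_forall fun p => limG_le (h.hF n) (h.hd n) _ _ _)
  · exact hψ.bdd_mul (c := 1) h.km.aestronglyMeasurable (Eventually.of_forall fun p => h.kb _ _ _)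

lemma fT (h : LimData U F Ts f₀ k) : MeasT (fun t x v => f₀ (x - t • v) v) :=
  h.fm.comp (f := fun p : ℝ × R3 × R3 => (p.2.1 - p.1 • p.2.2, p.2.2)) (by fun_prop)

lemma Pm (h : LimData U F Ts f₀ k) : MeasT (limP U f₀ k) :=
  Measurable.add h.fT (limBk_meas (h := fun s x v => k s x v * limW U s x v)
    (Measurable.mul h.km (limW_meas h.hU)))

lemma Pp (h : LimData U F Ts f₀ k) : PerT (limP U f₀ k) := by
  intro t v x i
  have h1 := lim_per_shift (h.fp v) (t • v) x i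
  have h2 := limBk_per (lim_per_mul h.kp (limW_per h.hU)) t v x i
  simp only at h1 h2
  simp only [limP, h1, h2]

lemma Ld (h : LimData U F Ts f₀ k) : Dens (limL U f₀ k) := by
  refine ⟨Measurable.max measurable_const h.Pm, fun t v x i => ?_, fun t x v => le_max_left _ _⟩
  have h1 := h.Pp t v x i
  simp only at h1
  simp only [limL, h1]

lemma Hm (h : LimData U F Ts f₀ k) (n : ℕ) : MeasT (limH (F n) f₀) :=
  Measurable.sub ((h.hF n).meas.comp (by fun_prop) (by fun_prop) (by fun_prop)) h.fT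

lemma Hp (h : LimData U F Ts f₀ k) (n : ℕ) : PerT (limH (F n) f₀) := by
  intro t v x i
  have h1 := lim_per_shift (h.fp v) (t • v) x i
  have h2 := lim_per_shift ((h.hF n).per 0 v) (t • v) x i
  simp only at h1 h2
  simp only [limH, h1, h2]

lemma Hcell (h : LimData U F Ts f₀ k) (n : ℕ) (t : ℝ) :
    ∫⁻ q in cell ×ˢ univ, ‖limH (F n) f₀ t q.1 q.2‖ₑ ∂(volume : Measure (R3 × R3)) =
      ∫⁻ q in cell ×ˢ univ, ‖F n 0 q.1 q.2 - f₀ q.1 q.2‖ₑ ∂(volume : Measure (R3 × R3)) := by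
  refine lim_phase_back (f := fun x v => ‖F n 0 x v - f₀ x v‖ₑ)
    (Measurable.sub (lim_measP (h.hF n).meas 0) h.fm).enorm ?_ t
  intro v x i
  have h1 := h.fp v x i
  have h2 := (h.hF n).per 0 v x i
  simp only at h1 h2
  simp only [h1, h2]

lemma Im (h : LimData U F Ts f₀ k) (n : ℕ) : MeasT (limI U (Ts n) (F n) k) :=
  limBk_meas (h := fun s x v => (limG U (Ts n) (F n) s x v - k s x v) * limW U s x v)
    (Measurable.mul (h.dm n) (limW_meas h.hU))

lemma Ip (h : LimData U F Ts f₀ k) (n : ℕ) : PerT (limI U (Ts n) (F n) k) :=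
  limBk_per (lim_per_mul (h.dp n) (limW_per h.hU))

lemma Icell (h : LimData U F Ts f₀ k) (n : ℕ) (t : ℝ) :
    (∫⁻ q in cell ×ˢ univ, ‖limI U (Ts n) (F n) k t q.1 q.2‖ₑ ∂(volume : Measure (R3 × R3))) < ⊤ :=
  lim_bk_fin h.hU (h.dm n) (h.dp n) (h.db n) t

lemma Pcell (h : LimData U F Ts f₀ k) (t : ℝ) :
    (∫⁻ q in cell ×ˢ univ, ‖limP U f₀ k t q.1 q.2‖ₑ ∂(volume : Measure (R3 × R3))) < ⊤ := by
  have h1 := lim_bk_fin h.hU h.km h.kp h.kb t
  have h2 := lim_dom_cell h.hU le_rfl h.f0 h.fU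
  rw [← lim_phase_back (f := fun x v => ‖f₀ x v‖ₑ) h.fm.enorm
    (fun v x i => by simp only; rw [show f₀ (x + _) v = f₀ x v from h.fp v x i]) t] at h2
  refine lt_of_le_of_lt (lintegral_mono fun q => enorm_add_le _ _) ?_
  rw [lintegral_add_left (lim_measP h.fT t).enorm]
  exact ENNReal.add_lt_top.2 ⟨h2, h1⟩

lemma diff (h : LimData U F Ts f₀ k) (n : ℕ) {t : ℝ} (ht : 0 ≤ t) :
    ∀ᵐ q : R3 × R3, F n t q.1 q.2 =
      limP U f₀ k t q.1 q.2 + limH (F n) f₀ t q.1 q.2 + limI U (Ts n) (F n) k t q.1 q.2 := by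
  filter_upwards [lim_repr h.hU (h.hTs n) (h.hF n) (h.hd n) ht (h.hm n t), limR_back_fin h.hU t]
    with q h1 h2
  have hX : Measurable (fun s : ℝ => q.1 - (t - s) • q.2) := by fun_prop
  have i1 := lim_int_back h.hU (limG_meas h.hU (Ts n) (h.hF n)) (limG_le (h.hF n) (h.hd n)) hX h2
  have i2 := lim_int_back h.hU h.km h.kb hX h2
  have h3 : limI U (Ts n) (F n) k t q.1 q.2 =
      limBk (fun s x v => limG U (Ts n) (F n) s x v * limW U s x v) t q.1 q.2 -
        limBk (fun s x v => k s x v * limW U s x v) t q.1 q.2 := by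
    simp only [limI, limBk, sub_mul]
    exact integral_sub i1 i2
  rw [h1, h3, limP, limH]
  ring

lemma weakP (h : LimData U F Ts f₀ k) {t : ℝ} (ht : 0 ≤ t) {ψ : R3 × R3 → ℝ} (hψ : Wt ψ) :
    Tendsto (fun n => ∫ q : R3 × R3, F n t q.1 q.2 * ψ q) atTop
      (𝓝 (∫ q : R3 × R3, limP U f₀ k t q.1 q.2 * ψ q)) := by
  have hH : Tendsto (fun n => ∫ q : R3 × R3, limH (F n) f₀ t q.1 q.2 * ψ q) atTop (𝓝 0) := by
    obtain ⟨K, hK, hb⟩ := lim_wt_bound hψ
    rw [tendsto_zero_iff_enorm_tendsto_zero]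
    have h1 := ENNReal.Tendsto.const_mul (a := K) h.hconv (Or.inr hK)
    rw [mul_zero] at h1
    refine tendsto_of_tendsto_of_tendsto_of_le_of_le tendsto_const_nhds h1 (fun n => zero_le) fun n => ?_
    refine (enorm_integral_le_lintegral_enorm _).trans ?_
    simp only [enorm_mul]
    rw [← h.Hcell n t]
    refine hb (fun x v => ‖limH (F n) f₀ t x v‖ₑ) (lim_measP (h.Hm n) t).enorm ?_
    intro v x i
    have := h.Hp n t v x i
    simp only at this
    simp only [this]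
  have hI : Tendsto (fun n => ∫ q : R3 × R3, limI U (Ts n) (F n) k t q.1 q.2 * ψ q) atTop (𝓝 0) := by
    refine (h.dw _ (limPsi_integrable (limW_meas h.hU) (limW_per h.hU) hψ (limW_fin h.hU t))).congr
      fun n => ?_
    exact (limBk_dual (limW_meas h.hU) (limW_per h.hU) hψ (limW_fin h.hU t) (h.dm n) (h.db n)).symm
  have h3 := ((tendsto_const_nhds (x := ∫ q : R3 × R3, limP U f₀ k t q.1 q.2 * ψ q)).add hH).add hI
  rw [add_zero, add_zero] at h3
  refine h3.congr' ?_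
  filter_upwards [h.hconv.eventually (gt_mem_nhds ENNReal.zero_lt_top)] with n hn
  have i1 := integrable_mul_wt (lim_measP h.Pm t) (h.Pp t) (h.Pcell t) hψ
  have i2 := integrable_mul_wt (lim_measP (h.Hm n) t) (h.Hp n t) (by rw [h.Hcell]; exact hn) hψ
  have i3 := integrable_mul_wt (lim_measP (h.Im n) t) (h.Ip n t) (h.Icell n t) hψ
  have i12 : Integrable (fun q : R3 × R3 =>
      limP U f₀ k t q.1 q.2 * ψ q + limH (F n) f₀ t q.1 q.2 * ψ q) := i1.add i2
  rw [← integral_add i1 i2, ← integral_add i12 i3]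
  refine integral_congr_ae ?_
  filter_upwards [h.diff n ht] with q hq
  rw [hq]
  ring

lemma P_nonneg (h : LimData U F Ts f₀ k) {t : ℝ} (ht : 0 ≤ t) :
    ∀ᵐ q : R3 × R3, 0 ≤ limP U f₀ k t q.1 q.2 := by
  refine lim_nonneg_of_tests (f := fun q => limP U f₀ k t q.1 q.2) (lim_measP h.Pm t)
    (fun ψ hψ => integrable_mul_wt (lim_measP h.Pm t) (h.Pp t) (h.Pcell t) hψ) fun ψ hψ h0 => ?_
  refine ge_of_tendsto' (h.weakP ht hψ) fun n => ?_
  exact integral_nonneg fun q => mul_nonneg ((h.hF n).nonneg _ _ _) (h0 q)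

lemma L_eq (h : LimData U F Ts f₀ k) {t : ℝ} (ht : 0 ≤ t) :
    ∀ᵐ q : R3 × R3, limL U f₀ k t q.1 q.2 = limP U f₀ k t q.1 q.2 := by
  filter_upwards [h.P_nonneg ht] with q hq
  exact max_eq_right hq

lemma L_zero (h : LimData U F Ts f₀ k) : limL U f₀ k 0 = f₀ := by
  funext x v
  simp [limL, limP, limBk, h.f0]

lemma weakL (h : LimData U F Ts f₀ k) {t : ℝ} (ht : 0 ≤ t) {ψ : R3 × R3 → ℝ} (hψ : Wt ψ) :
    Tendsto (fun n => ∫ q : R3 × R3, F n t q.1 q.2 * ψ q) atTop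
      (𝓝 (∫ q : R3 × R3, limL U f₀ k t q.1 q.2 * ψ q)) := by
  have : ∫ q : R3 × R3, limL U f₀ k t q.1 q.2 * ψ q = ∫ q : R3 × R3, limP U f₀ k t q.1 q.2 * ψ q := by
    refine integral_congr_ae ?_
    filter_upwards [h.L_eq ht] with q hq
    rw [hq]
  rw [this]
  exact h.weakP ht hψ

lemma dom (h : LimData U F Ts f₀ k) (T : ℝ) : DomOn T (limL U f₀ k) U := by
  intro t ht
  rcases ht.1.eq_or_lt with h0 | h0
  · rw [← h0, h.L_zero]; exact h.fU
  have hUm : MeasP (fun x v => (U t x v).toReal) := (lim_measP h.hU.meas t).ennreal_toReal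
  have hUp : PerP (fun x v => (U t x v).toReal) := by
    intro v x i
    have := h.hU.per t v x i
    simp only at this
    simp only [this]
  have hUc : (∫⁻ q in cell ×ˢ univ, ‖(U t q.1 q.2).toReal‖ₑ ∂(volume : Measure (R3 × R3))) < ⊤ := by
    refine lt_of_le_of_lt (lintegral_mono fun q => ?_) (lim_U_cell h.hU ht.1)
    rw [← ofReal_norm_eq_enorm, Real.norm_of_nonneg ENNReal.toReal_nonneg]
    exact ENNReal.ofReal_toReal_le
  have hUf : ∀ᵐ q : R3 × R3, U t q.1 q.2 < ⊤ := by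
    refine ae_of_ae_cell (P := fun x v => U t x v < ⊤) ?_
      (ae_lt_top (lim_measP h.hU.meas t) (lim_U_cell h.hU ht.1).ne)
    intro v x i
    have := h.hU.per t v x i
    simp only at this
    simp only [this]
  have key : ∀ᵐ q : R3 × R3, 0 ≤ (U t q.1 q.2).toReal - limP U f₀ k t q.1 q.2 := by
    refine lim_nonneg_of_tests (f := fun q => (U t q.1 q.2).toReal - limP U f₀ k t q.1 q.2)
      (Measurable.sub hUm (lim_measP h.Pm t)) (fun ψ hψ => ?_) fun ψ hψ hψ0 => ?_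
    · simp only [sub_mul]
      exact (integrable_mul_wt hUm hUp hUc hψ).sub
        (integrable_mul_wt (lim_measP h.Pm t) (h.Pp t) (h.Pcell t) hψ)
    · simp only [sub_mul]
      rw [integral_sub (integrable_mul_wt hUm hUp hUc hψ)
        (integrable_mul_wt (lim_measP h.Pm t) (h.Pp t) (h.Pcell t) hψ), sub_nonneg]
      refine le_of_tendsto (h.weakP ht.1 hψ) ?_
      filter_upwards [h.hT0.eventually (gt_mem_nhds h0)] with n hn
      refine integral_mono_of_nonneg (Eventually.of_forall fun q =>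
        mul_nonneg ((h.hF n).nonneg _ _ _) (hψ0 q)) (integrable_mul_wt hUm hUp hUc hψ) ?_
      filter_upwards [hUf] with q hq
      refine mul_le_mul_of_nonneg_right ?_ (hψ0 q)
      exact (ENNReal.ofReal_le_iff_le_toReal hq.ne).1 (h.hd n t hn _ _)
  filter_upwards [key, h.L_eq ht.1] with q h1 h2
  rw [h2]
  exact (ENNReal.ofReal_le_ofReal (sub_nonneg.1 h1)).trans ENNReal.ofReal_toReal_le

end LimData

end Crest.Agent.R068
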