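import Crest.Agent.R068.Meas

/-! Row 68: auxiliary lemmas for `fat_fat` and `ev_steps`. -/

set_option autoImplicit false
open MeasureTheory Set Filter Topology
open scoped ENNReal
open Crest.AnalysisR.VecCalc3 Crest.AnalysisR.PDE.Boltzmann

namespace Crest.Agent.R068

lemma sm2a_meas_near (ρ : ℝ) : MeasurableSet {y : R3 | ∃ k : Fin 3 → ℤ, ‖y - lat k‖ ≤ ρ} := by
  rw [Set.ofPred_exists]
  exact MeasurableSet.iUnion fun k => measurableSet_le (by fun_prop) measurable_const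

lemma sm2a_meas_goodV (δ V : ℝ) : MeasurableSet (goodV δ V) := by
  have h1 : Measurable nc := by unfold nc; fun_prop
  exact (measurableSet_le measurable_const h1.abs).inter
    (measurableSet_le measurable_norm measurable_const)

open Classical in
/-- the part of a small ball near the lattice is covered by four copies of the central ball -/
lemma sm2a_ball {m : R3 → ℝ≥0∞} (hm : Measurable m) (hp : IsPeriodic3 m) (y : R3) {r ρ : ℝ}
    (hr : 0 ≤ r) (hρ : 0 ≤ ρ) (hrρ : r + ρ ≤ 1 / 4) :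
    ∫⁻ z in Metric.closedBall y r, (if ∃ k : Fin 3 → ℤ, ‖z - lat k‖ ≤ ρ then m z else 0) ≤
      4 * ∫⁻ z in Metric.closedBall (0:R3) ρ, m z := by
  have hb : MeasurableSet (Metric.closedBall (0:R3) ρ) := measurableSet_closedBall
  have hI : Measurable ((Metric.closedBall (0:R3) ρ).indicator m) := hm.indicator hb
  have h1 : ∀ z ∈ Metric.closedBall y r,
      (if ∃ k : Fin 3 → ℤ, ‖z - lat k‖ ≤ ρ then m z else 0) ≤
      ∑' k : Fin 3 → ℤ, (if ‖y - lat k‖ ≤ r + ρ then (1:ℝ≥0∞) else 0) *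
        (Metric.closedBall (0:R3) ρ).indicator m (z - lat k) := by
    intro z hz
    split_ifs with h
    · obtain ⟨k, hk⟩ := h
      refine le_trans (le_of_eq ?_) (ENNReal.le_tsum k)
      have h2 : ‖y - lat k‖ ≤ r + ρ := by
        rw [Metric.mem_closedBall, dist_comm, dist_eq_norm] at hz
        calc ‖y - lat k‖ = ‖(y - z) + (z - lat k)‖ := by congr 1; abel
          _ ≤ _ := (norm_add_le _ _).trans (add_le_add hz hk)
      rw [if_pos h2, one_mul, indicator_of_mem (mem_closedBall_zero_iff.2 hk), perp_sub_lat hp]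
    · exact zero_le
  refine (setLIntegral_mono' measurableSet_closedBall h1).trans
    ((setLIntegral_le_lintegral _ _).trans ?_)
  have hk : ∀ k : Fin 3 → ℤ, Measurable fun z : R3 =>
      (Metric.closedBall (0:R3) ρ).indicator m (z - lat k) := fun k => hI.comp (by fun_prop)
  rw [lintegral_tsum fun k => ((hk k).const_mul _).aemeasurable]
  have h3 : ∀ k : Fin 3 → ℤ, ∫⁻ z, (if ‖y - lat k‖ ≤ r + ρ then (1:ℝ≥0∞) else 0) *
      (Metric.closedBall (0:R3) ρ).indicator m (z - lat k) =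
      (if ‖y - lat k‖ ≤ r + ρ then (1:ℝ≥0∞) else 0) * ∫⁻ z in Metric.closedBall (0:R3) ρ, m z := by
    intro k
    rw [lintegral_const_mul _ (hk k), lintegral_sub_right_eq_self
      ((Metric.closedBall (0:R3) ρ).indicator m) (lat k), lintegral_indicator hb]
  simp only [h3]
  rw [ENNReal.tsum_mul_right]
  refine mul_le_mul_left ((tsum_lat_ball y (by linarith)).trans ?_) _
  rw [← ENNReal.ofReal_ofNat 4]
  refine ENNReal.ofReal_le_ofReal ?_
  calc (2 * (r + ρ) + 1) ^ 3 ≤ (3 / 2 : ℝ) ^ 3 := pow_le_pow_left₀ (by linarith) (by linarith) 3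
    _ ≤ 4 := by norm_num

lemma sm2a_scale {F : R3 → ℝ≥0∞} (hF : Measurable F) (y : R3) {σ R : ℝ} (hσ : 0 < σ) :
    ∫⁻ η in Metric.closedBall (0:R3) R, F (y - σ • η) ≤
      ENNReal.ofReal (σ ^ 3)⁻¹ * ∫⁻ x in Metric.closedBall y (σ * R), F x := by
  have hb : MeasurableSet (Metric.closedBall y (σ * R)) := Metric.isClosed_closedBall.measurableSet
  have hΦ : Measurable ((Metric.closedBall y (σ * R)).indicator F) := hF.indicator hb
  have h1 : ∫⁻ η in Metric.closedBall (0:R3) R, F (y - σ • η) ≤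
      ∫⁻ η, (Metric.closedBall y (σ * R)).indicator F (y - σ • η) := by
    refine le_trans (setLIntegral_mono' Metric.isClosed_closedBall.measurableSet fun η hη => ?_)
      (setLIntegral_le_lintegral (Metric.closedBall (0:R3) R) _)
    rw [indicator_of_mem]
    rw [mem_closedBall_zero_iff] at hη
    rw [Metric.mem_closedBall, dist_eq_norm, sub_sub_cancel_left, norm_neg, norm_smul,
      Real.norm_of_nonneg hσ.le]
    gcongr
  have h2 : ∫⁻ η, (Metric.closedBall y (σ * R)).indicator F (y - σ • η) =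
      ENNReal.ofReal (σ ^ 3)⁻¹ * ∫⁻ x in Metric.closedBall y (σ * R), F x := by
    have := lintegral_map (μ := (volume : Measure R3))
      (f := fun w => (Metric.closedBall y (σ * R)).indicator F (y - w)) (g := (σ • ·))
      (hΦ.comp (by fun_prop)) (by fun_prop)
    rw [← this, Measure.map_addHaar_smul _ hσ.ne', lintegral_smul_measure,
      lintegral_sub_left_eq_self _ y, lintegral_indicator hb, finrank_euclideanSpace_fin,
      abs_of_pos (by positivity), smul_eq_mul]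
  exact h1.trans h2.le

lemma sm2a_small {p : Par} (h : p.Std) {τ : ℝ} (h0 : 0 ≤ τ) (h1 : τ ≤ p.t0) :
    τ * p.V + τ / p.h ≤ 1 / 4 := by
  have hV : 8000 ≤ p.V := by linarith [h.R_ge, h.V_ge]
  have hh := h.h_pos
  have hr := h.r0_pos
  have hh1 : p.h ≤ 1 := by
    have := h.h_le; have := h.δ1_le; have := h.κ0_le
    nlinarith
  have hV10 : p.V ≤ p.V ^ 10 := le_self_pow₀ (by linarith) (by norm_num)
  have hrV : p.r0 * p.V ≤ 1 / 1000 := by
    have := h.r0_V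
    nlinarith
  have hr1 : p.r0 ≤ 1 / 1000 := by nlinarith
  unfold Par.t0 at h1
  have hh2 : p.h ^ 2 ≤ p.h := by nlinarith
  have a1 : τ ≤ p.r0 := by nlinarith
  have a2 : τ * p.V ≤ 1 / 1000 := by nlinarith
  have a3 : τ / p.h ≤ 1 / 1000 := by
    rw [div_le_iff₀ hh]
    nlinarith
  linarith

/-- velocity average of one fat step -/
lemma sm2a_avg {p : Par} (h : p.Std) {n : ℕ} {τ : ℝ} (hτ : τ ∈ Icc (p.tn n) p.t0) {g : TF}
    (hg : MeasT g) (hp : PerT g) {Mx : ℝ≥0∞}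
    (hM : ∀ s ∈ Icc (max (p.tn n) (p.h * τ)) τ,
      (∫⁻ y in Metric.closedBall (0:R3) (τ / p.h), ∫⁻ ξ in goodV p.δ1 p.V, g s y ξ) ≤ Mx)
    {s : ℝ} (hs : s ≤ τ) (y : R3) :
    ∫⁻ ξ in goodV p.δ1 p.V, p.FatOp n τ g s y ξ ≤
      ENNReal.ofReal (((p.h * τ) ^ 6)⁻¹) *
        (ENNReal.ofReal (((p.h * τ) ^ 3)⁻¹) * (4 * Mx) * ENNReal.ofReal τ) := by
  classical
  have hτ0 : 0 < τ := (Par.tn_pos h n).trans_le hτ.1
  have hh := h.h_pos
  have hc : 0 < p.h * τ := mul_pos hh hτ0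
  have hV : 0 ≤ p.V := by linarith [h.R_ge, h.V_ge]
  let m : ℝ × R3 → ℝ≥0∞ := fun q => ∫⁻ ξ in goodV p.δ1 p.V, g q.1 q.2 ξ
  have hm : Measurable m := by
    refine Measurable.lintegral_prod_right' (f := fun r : (ℝ × R3) × R3 => g r.1.1 r.1.2 r.2) ?_
    exact hg.comp (by fun_prop) (by fun_prop) (by fun_prop)
  let Ψ : ℝ × R3 → ℝ≥0∞ := fun q =>
    if ∃ k : Fin 3 → ℤ, ‖q.2 - lat k‖ ≤ τ / p.h then m q else 0
  have hΨ : Measurable Ψ :=
    Measurable.ite (measurable_snd (sm2a_meas_near (τ / p.h))) hm measurable_const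
  have hΨ' : Measurable fun r : R3 × ℝ => Ψ (r.2, y - (s - r.2) • r.1) := hΨ.comp (by fun_prop)
  have e1 : ∫⁻ ξ in goodV p.δ1 p.V, p.FatOp n τ g s y ξ = ENNReal.ofReal (((p.h * τ) ^ 6)⁻¹) *
      ∫⁻ s' in Ioo (max (p.tn n) (p.h * τ)) (s - p.h * τ), ∫⁻ ξ in goodV p.δ1 p.V,
        Ψ (s', y - (s - s') • ξ) := by
    rw [← lintegral_lintegral_swap (f := fun ξ s' => Ψ (s', y - (s - s') • ξ)) hΨ'.aemeasurable,
      ← lintegral_const_mul' _ _ ENNReal.ofReal_ne_top]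
    rfl
  rw [e1]
  refine mul_le_mul_right ?_ _
  have h2 : ∀ s' ∈ Ioo (max (p.tn n) (p.h * τ)) (s - p.h * τ),
      ∫⁻ ξ in goodV p.δ1 p.V, Ψ (s', y - (s - s') • ξ) ≤
        ENNReal.ofReal (((p.h * τ) ^ 3)⁻¹) * (4 * Mx) := by
    intro s' hs'
    have a1 : p.h * τ < s' := (le_max_right _ _).trans_lt hs'.1
    have a2 : p.h * τ ≤ s - s' := by linarith [hs'.2]
    have a3 : s - s' ≤ τ := by linarith
    have hF : Measurable fun z : R3 => Ψ (s', z) := hΨ.comp (by fun_prop)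
    have hsub : goodV p.δ1 p.V ⊆ Metric.closedBall (0:R3) p.V := fun ξ hξ =>
      mem_closedBall_zero_iff.2 hξ.2
    refine (lintegral_mono_set hsub).trans ((sm2a_scale hF y (hc.trans_le a2)).trans ?_)
    refine mul_le_mul' (ENNReal.ofReal_le_ofReal (by gcongr)) ?_
    have hper : IsPeriodic3 fun z : R3 => m (s', z) := by
      intro x i
      simp only [m]
      exact lintegral_congr fun ξ => hp s' ξ x i
    refine (sm2a_ball (m := fun z => m (s', z)) (hm.comp (by fun_prop)) hper y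
      (mul_nonneg (by linarith) hV) (by positivity) ?_).trans ?_
    · have := sm2a_small h hτ0.le hτ.2
      have : (s - s') * p.V ≤ τ * p.V := by gcongr
      linarith
    · exact mul_le_mul_right (hM s' ⟨hs'.1.le, by linarith [hs'.2]⟩) _
  refine (setLIntegral_mono' measurableSet_Ioo h2).trans ?_
  rw [setLIntegral_const, Real.volume_Ioo]
  refine mul_le_mul_right (ENNReal.ofReal_le_ofReal ?_) _
  have := le_max_right (p.tn n) (p.h * τ)
  linarith

lemma sm2a_fat_fat {p : Par} (h : p.Std) {n : ℕ} {τ : ℝ} (hτ : τ ∈ Icc (p.tn n) p.t0) {g : TF}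
    (hg : MeasT g) (hp : PerT g) {Mx : ℝ≥0∞}
    (hM : ∀ s ∈ Icc (max (p.tn n) (p.h * τ)) τ,
      (∫⁻ y in Metric.closedBall (0:R3) (τ / p.h), ∫⁻ ξ in goodV p.δ1 p.V, g s y ξ) ≤ Mx)
    {t : ℝ} (ht : t ≤ τ) (x v : R3) :
    p.FatOp n τ (p.FatOp n τ g) t x v ≤ ENNReal.ofReal (4 * τ ^ 2 * ((p.h * τ) ^ 15)⁻¹) * Mx := by
  classical
  have hτ0 : 0 < τ := (Par.tn_pos h n).trans_le hτ.1
  have hh := h.h_pos
  have hc : 0 < p.h * τ := mul_pos hh hτ0
  have h2 : ∀ s ∈ Ioo (max (p.tn n) (p.h * τ)) (t - p.h * τ),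
      (if ∃ k : Fin 3 → ℤ, ‖x - (t - s) • v - lat k‖ ≤ τ / p.h then
        ∫⁻ ξ in goodV p.δ1 p.V, p.FatOp n τ g s (x - (t - s) • v) ξ else 0) ≤
      ENNReal.ofReal (((p.h * τ) ^ 6)⁻¹) *
        (ENNReal.ofReal (((p.h * τ) ^ 3)⁻¹) * (4 * Mx) * ENNReal.ofReal τ) := by
    intro s hs
    split_ifs
    · exact sm2a_avg h hτ hg hp hM (by linarith [hs.2]) _
    · exact zero_le
  have h3 := setLIntegral_mono' (μ := volume) measurableSet_Ioo h2
  rw [setLIntegral_const, Real.volume_Ioo] at h3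
  have h4 : ENNReal.ofReal (t - p.h * τ - max (p.tn n) (p.h * τ)) ≤ ENNReal.ofReal τ := by
    refine ENNReal.ofReal_le_ofReal ?_
    have := le_max_right (p.tn n) (p.h * τ)
    linarith
  refine (mul_le_mul_right (h3.trans (mul_le_mul_right h4 _)) _).trans (le_of_eq ?_)
  have e : 4 * τ ^ 2 * ((p.h * τ) ^ 15)⁻¹ =
      ((p.h * τ) ^ 6)⁻¹ * (((p.h * τ) ^ 6)⁻¹ * (((p.h * τ) ^ 3)⁻¹ * (4 * (τ * τ)))) := by
    field_simp
  rw [e, ENNReal.ofReal_mul (by positivity), ENNReal.ofReal_mul (by positivity),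
    ENNReal.ofReal_mul (by positivity), ENNReal.ofReal_mul (by positivity),
    ENNReal.ofReal_mul hτ0.le, ENNReal.ofReal_ofNat]
  ring

lemma sm2a_step {p : Par} {ε a τ β b : ℝ} (hε : 0 < ε) (hτ : 0 < τ) (ha : 55 * a ≤ p.e0 * ε * τ)
    (hb : 0 ≤ b) (hβ : β ≤ b ^ 2 / 2 * (ε * τ)) :
    p.stepC ε a τ β ≤ (13 * p.e0 + 4 * p.V ^ 6 * b) * (ε * τ) := by
  have hu : 0 < ε * τ := mul_pos hε hτ
  have h1 : Real.sqrt (2 * β * ε * τ) ≤ b * (ε * τ) := by
    refine Real.sqrt_le_iff.2 ⟨by positivity, ?_⟩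
    have := mul_le_mul_of_nonneg_right hβ hu.le
    nlinarith
  have h2 : 4 * p.V ^ 6 * Real.sqrt (2 * β * ε * τ) ≤ 4 * p.V ^ 6 * (b * (ε * τ)) :=
    mul_le_mul_of_nonneg_left h1 (by positivity)
  unfold Par.stepC
  nlinarith

lemma sm2a_steps {p : Par} (h : p.Std) {ε a τ m : ℝ} (hε : 0 < ε) (hτ : 0 < τ)
    (ha : 55 * a ≤ p.e0 * ε * τ) (hm : m ≤ p.e0 * ε * τ) :
    p.stepC ε a τ (p.stepC ε a τ (p.stepC ε a τ (p.stepC ε a τ 0) + m)) ≤ ε * τ / 2 := by
  have hV : 8000 ≤ p.V := by linarith [h.R_ge, h.V_ge]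
  have hV0 : 0 < p.V := by linarith
  have hu : 0 < ε * τ := mul_pos hε hτ
  set w : ℝ := p.V⁻¹ with hw
  have hw0 : 0 < w := inv_pos.2 hV0
  have hw1 : w ≤ 1 / 8000 := by rw [hw, ← one_div]; gcongr
  have hw1' : w ≤ 1 := by linarith
  have he : p.e0 = w ^ 100 := by rw [Par.e0, hw, inv_pow]
  have hk : ∀ k : ℕ, p.V ^ 6 * w ^ (k + 6) = w ^ k := fun k => by
    rw [pow_add, hw]; field_simp
  have hle : ∀ k : ℕ, k ≤ 100 → w ^ 100 ≤ w ^ k := fun k hk => pow_le_pow_of_le_one hw0.le hw1' hk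
  have s3 := sm2a_step (β := 0) (b := 0) hε hτ ha le_rfl (by simp)
  have s2 := sm2a_step (β := p.stepC ε a τ 0) (b := 6 * w ^ 50) hε hτ ha (by positivity)
    (s3.trans (mul_le_mul_of_nonneg_right (by
      have : 0 ≤ w ^ 100 := by positivity
      rw [he]; nlinarith) hu.le))
  have s2' : p.stepC ε a τ (p.stepC ε a τ 0) + m ≤ (9 * w ^ 22) ^ 2 / 2 * (ε * τ) := by
    have a1 : p.V ^ 6 * w ^ 50 = w ^ 44 := hk 44
    have a2 := hle 44 (by norm_num)
    have a3 : 0 ≤ w ^ 44 := by positivity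
    have a4 : 14 * p.e0 + 4 * p.V ^ 6 * (6 * w ^ 50) ≤ (9 * w ^ 22) ^ 2 / 2 := by
      rw [he]; nlinarith
    have := mul_le_mul_of_nonneg_right a4 hu.le
    nlinarith
  have s1 := sm2a_step hε hτ ha (by positivity) s2'
  have s1' : p.stepC ε a τ (p.stepC ε a τ (p.stepC ε a τ 0) + m) ≤ (10 * w ^ 8) ^ 2 / 2 * (ε * τ) := by
    refine s1.trans (mul_le_mul_of_nonneg_right ?_ hu.le)
    have a1 : p.V ^ 6 * w ^ 22 = w ^ 16 := hk 16
    have a2 := hle 16 (by norm_num)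
    have a3 : 0 ≤ w ^ 16 := by positivity
    rw [he]; nlinarith
  refine (sm2a_step hε hτ ha (by positivity) s1').trans ?_
  have a1 : p.V ^ 6 * w ^ 8 = w ^ 2 := hk 2
  have a2 := hle 2 (by norm_num)
  have a4 : 13 * p.e0 + 4 * p.V ^ 6 * (10 * w ^ 8) ≤ 1 / 2 := by
    rw [he]; nlinarith
  have := mul_le_mul_of_nonneg_right a4 hu.le
  linarith

end Crest.Agent.R068
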