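import Crest.Agent.R068.Sm
import Crest.Agent.R068.Chi

/-! Row 68: auxiliary lemmas for `ev_Phi_ge` and `ev_smooth`. -/

set_option autoImplicit false
open MeasureTheory Set Filter Topology
open scoped ENNReal
open Crest.AnalysisR.VecCalc3 Crest.AnalysisR.PDE.Boltzmann

namespace Crest.Agent.R068

lemma sm2b_meas_goodV (δ V : ℝ) : MeasurableSet (goodV δ V) := by
  have h1 : MeasurableSet {v : R3 | δ ≤ |nc v|} :=
    (isClosed_le continuous_const continuous_nc.abs).measurableSet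
  have h2 : MeasurableSet {v : R3 | ‖v‖ ≤ V} :=
    (isClosed_le continuous_norm continuous_const).measurableSet
  exact h1.inter h2

lemma sm2b_gs_le_one {a : ℝ} (ha : 0 ≤ a) (v : R3) : gs a v ≤ 1 := by
  unfold gs
  rw [← ENNReal.ofReal_one]
  apply ENNReal.ofReal_le_ofReal
  rw [Real.exp_le_one_iff]
  have : 0 ≤ a * ‖v‖ ^ 2 := by positivity
  linarith

lemma sm2b_meas_at {α : Type} [MeasurableSpace α] {F : ℝ → R3 → R3 → α} (hF : MeasT F) (s : ℝ) :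
    Measurable (fun q : R3 × R3 => F s q.1 q.2) := by
  have h : Measurable (fun q : R3 × R3 => (s, q.1, q.2)) := by fun_prop
  exact Measurable.comp (g := fun p : ℝ × R3 × R3 => F p.1 p.2.1 p.2.2) hF h

lemma sm2b_Phi_ge {p : Par} (h : p.Std) {n : ℕ} {F : ℝ → R3 → R3 → ℝ} (hF : Dens F) {s : ℝ}
    (hs : s ∈ Icc (p.tn n) p.t0) {C : ℝ} (hC : ∀ x v, up F s x v ≤ ENNReal.ofReal C)
    (hchi : ∀ x v : R3, ‖x‖ ≤ s / p.h ^ 2 → p.δ1 ≤ |nc v| → |p.chi n s x v| ≤ 1 / 20)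
    {ρ : ℝ} (hρ : ρ ≤ s / p.h ^ 2) :
    ENNReal.ofReal ((s ^ 20)⁻¹ * p.h ^ 1600 / 2) *
      (∫⁻ y in Metric.closedBall (0:R3) ρ, ∫⁻ ξ in goodV p.δ1 p.V, up F s y ξ) ≤
      ENNReal.ofReal (p.Phi n F s) := by
  have hs0 : 0 < s := (Par.tn_pos h n).trans_le hs.1
  have hFm : Measurable (fun q : R3 × R3 => F s q.1 q.2) := sm2b_meas_at hF.meas s
  have hpm : Measurable (fun q : R3 × R3 => p.psi n s q.1 q.2) := sm2b_meas_at (p.meas_psi n) s
  have hup : Measurable (fun q : R3 × R3 => up F s q.1 q.2) := hFm.ennreal_ofReal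
  have hpsi0 : ∀ x v, 0 ≤ p.psi n s x v := by
    intro x v
    unfold Par.psi
    split_ifs
    · exact mul_nonneg (Par.psi0_bounds h hs0 x).1 (Real.exp_pos _).le
    · exact le_rfl
  have hnn : ∀ q : R3 × R3, 0 ≤ F s q.1 q.2 * p.psi n s q.1 q.2 := fun q =>
    mul_nonneg (hF.nonneg _ _ _) (hpsi0 _ _)
  -- finiteness
  have hfin : (∫⁻ q : R3 × R3, ENNReal.ofReal (F s q.1 q.2 * p.psi n s q.1 q.2)) ≠ ⊤ := by
    set A : Set (R3 × R3) := Metric.closedBall (0:R3) (s / p.h ^ 2) ×ˢ Metric.closedBall (0:R3) p.V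
    have hA : MeasurableSet A := Metric.isClosed_closedBall.measurableSet.prod
      Metric.isClosed_closedBall.measurableSet
    have hle : ∀ q : R3 × R3, ENNReal.ofReal (F s q.1 q.2 * p.psi n s q.1 q.2) ≤
        A.indicator (fun _ => ENNReal.ofReal C * ENNReal.ofReal ((s ^ 20)⁻¹ * Real.exp (1 / 20))) q := by
      intro q
      by_cases h0 : p.psi n s q.1 q.2 = 0
      · simp [h0]
      · have hg : p.δ1 ≤ |nc q.2| ∧ ‖q.2‖ ≤ p.V := by
          by_contra hg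
          exact h0 (by unfold Par.psi; rw [if_neg hg])
        have he : p.psi n s q.1 q.2 = p.psi0 s q.1 * Real.exp (p.chi n s q.1 q.2) := by
          unfold Par.psi; rw [if_pos hg]
        have hb := Par.psi0_bounds h hs0 q.1
        have hx : ‖q.1‖ ≤ s / p.h ^ 2 := hb.2.2.2 (by
          intro h1; exact h0 (by rw [he, h1, zero_mul]))
        have hq : q ∈ A := ⟨by simpa using hx, by simpa using hg.2⟩
        rw [indicator_of_mem hq, ENNReal.ofReal_mul (hF.nonneg _ _ _)]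
        refine mul_le_mul' (hC _ _) (ENNReal.ofReal_le_ofReal ?_)
        rw [he]
        refine mul_le_mul hb.2.1 (Real.exp_le_exp.2 ?_) (Real.exp_pos _).le (by positivity)
        exact (le_abs_self _).trans (hchi _ _ hx hg.1)
    refine ne_top_of_le_ne_top ?_ (lintegral_mono hle)
    rw [lintegral_indicator hA, setLIntegral_const]
    refine ENNReal.mul_ne_top (ENNReal.mul_ne_top ENNReal.ofReal_ne_top ENNReal.ofReal_ne_top) ?_
    exact ((isCompact_closedBall _ _).prod (isCompact_closedBall _ _)).measure_lt_top.ne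
  have hPhi : ENNReal.ofReal (p.Phi n F s) =
      ∫⁻ q : R3 × R3, ENNReal.ofReal (F s q.1 q.2 * p.psi n s q.1 q.2) := by
    unfold Par.Phi
    rw [integral_eq_lintegral_of_nonneg_ae (Eventually.of_forall hnn)
      (hFm.mul hpm).aestronglyMeasurable, ENNReal.ofReal_toReal hfin]
  rw [hPhi]
  have hprod : (∫⁻ y in Metric.closedBall (0:R3) ρ, ∫⁻ ξ in goodV p.δ1 p.V, up F s y ξ) =
      ∫⁻ q in Metric.closedBall (0:R3) ρ ×ˢ goodV p.δ1 p.V, up F s q.1 q.2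
        ∂((volume : Measure R3).prod volume) :=
    (setLIntegral_prod (fun q : R3 × R3 => up F s q.1 q.2) hup.aemeasurable).symm
  rw [hprod, ← lintegral_const_mul _ hup]
  have hB : MeasurableSet (Metric.closedBall (0:R3) ρ ×ˢ goodV p.δ1 p.V) :=
    Metric.isClosed_closedBall.measurableSet.prod (sm2b_meas_goodV _ _)
  refine le_trans (setLIntegral_mono' hB ?_) (setLIntegral_le_lintegral _ _)
  intro q hq
  have hx : ‖q.1‖ ≤ s / p.h ^ 2 := le_trans (by simpa using hq.1) hρ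
  have hg : p.δ1 ≤ |nc q.2| ∧ ‖q.2‖ ≤ p.V := hq.2
  have he : p.psi n s q.1 q.2 = p.psi0 s q.1 * Real.exp (p.chi n s q.1 q.2) := by
    unfold Par.psi; rw [if_pos hg]
  have hb := Par.psi0_bounds h hs0 q.1
  have hexp : 1 / 2 ≤ Real.exp (p.chi n s q.1 q.2) := by
    have h1 := Real.add_one_le_exp (p.chi n s q.1 q.2)
    have h2 := (abs_le.1 (hchi _ _ hx hg.1)).1
    linarith
  rw [ENNReal.ofReal_mul (hF.nonneg _ _ _), mul_comm]
  refine mul_le_mul' le_rfl (ENNReal.ofReal_le_ofReal ?_)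
  rw [he, div_eq_mul_one_div]
  exact mul_le_mul (hb.2.2.1 hx) hexp (by norm_num) hb.1

theorem sm2b_ev_Phi_ge : ∀ᶠ p in PF, ∀ (n : ℕ) (ε a : ℝ) (F : ℝ → R3 → R3 → ℝ), p.Sol n ε a F →
    p.In1 n ε F → ∀ s ∈ Icc (p.tn n) p.t0, ∀ ρ : ℝ, 0 ≤ ρ → ρ ≤ s / p.h ^ 2 →
    ENNReal.ofReal ((s ^ 20)⁻¹ * p.h ^ 1600 / 2) *
      (∫⁻ y in Metric.closedBall (0:R3) ρ, ∫⁻ ξ in goodV p.δ1 p.V, up F s y ξ) ≤
      ENNReal.ofReal (p.Phi n F s) := by
  filter_upwards [ev_std, ev_bdd, ev_chi_le] with p hs hbdd hchi n ε a F hsol hin s hst ρ _ hρ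
  obtain ⟨C, hC⟩ := hbdd n hsol.tn0 ε a p.t0
  have hs0 : 0 < s := (Par.tn_pos hs n).trans_le hst.1
  have hs2 : s ≤ p.t2 := hst.2.trans (Par.t0_lt_t2 hs).le
  refine sm2b_Phi_ge hs hsol.dens hst (C := C) (fun x v => ?_)
    (fun x v hx hv => hchi n s x v hst.1 hst.2 hx hv) hρ
  have h1 := hin s ⟨hst.1, hs2⟩ x v
  have h2 := ((hC ε a hsol.ε0 le_rfl le_rfl).2 s ⟨hs0.le, hst.2⟩ x v).1
  have h3 : p.Up n ε s x v = p.U1 n ε s x v := by unfold Par.Up; rw [if_pos hs2]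
  rw [h3] at h2
  refine h1.trans (h2.trans ?_)
  calc ENNReal.ofReal C * gs (1 / 8) v ≤ ENNReal.ofReal C * 1 :=
        mul_le_mul' le_rfl (sm2b_gs_le_one (by norm_num) v)
    _ = ENNReal.ofReal C := mul_one _

lemma sm2b_vol (x : R3) {r : ℝ} (hr : 0 ≤ r) :
    ENNReal.ofReal (r ^ 3) ≤ volume (Metric.closedBall x r) := by
  rw [EuclideanSpace.volume_closedBall_fin_three, ← ENNReal.ofReal_pow hr]
  have h1 : (1 : ℝ≥0∞) ≤ ENNReal.ofReal (Real.pi * 4 / 3) := by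
    rw [← ENNReal.ofReal_one]
    apply ENNReal.ofReal_le_ofReal
    have := Real.pi_gt_three
    linarith
  calc ENNReal.ofReal (r ^ 3) = ENNReal.ofReal (r ^ 3) * 1 := (mul_one _).symm
    _ ≤ _ := mul_le_mul' le_rfl h1

/-- at the switching time the seed carries good mass -/
lemma sm2b_seed_mass {p : Par} (h : p.Std) {n : ℕ} {ε a : ℝ} {F : ℝ → R3 → R3 → ℝ} (hsol : p.Sol n ε a F) :
    ENNReal.ofReal (a * p.tn n ^ 3) ≤
      ∫⁻ y in Metric.closedBall (0:R3) (p.tn n), ∫⁻ ξ in goodV p.δ1 p.V, up F (p.tn n) y ξ := by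
  have ht := Par.tn_pos h n
  have hsub : Metric.closedBall ((3:ℝ) • fr 1) 1 ⊆ goodV p.δ1 p.V := by
    intro v hv
    have hv' : ‖v - (3:ℝ) • fr 1‖ ≤ 1 := by simpa [dist_eq_norm] using hv
    have h1 : nc (fr 1) = 1 := by
      unfold nc
      rw [real_inner_self_eq_norm_sq, norm_fr]; norm_num
    have h2 : nc (v - (3:ℝ) • fr 1) = nc v - 3 := by rw [nc_sub, nc_smul, h1]; ring
    have h3 := abs_nc_le (v - (3:ℝ) • fr 1)
    rw [h2] at h3
    have h4 := (abs_le.1 (h3.trans hv')).1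
    have h5 : ‖v‖ ≤ 4 := by
      have e : v = (v - (3:ℝ) • fr 1) + (3:ℝ) • fr 1 := by abel
      have h6 : ‖(3:ℝ) • fr 1‖ = 3 := by rw [norm_smul, norm_fr]; norm_num
      calc ‖v‖ = ‖(v - (3:ℝ) • fr 1) + (3:ℝ) • fr 1‖ := by rw [← e]
        _ ≤ ‖v - (3:ℝ) • fr 1‖ + ‖(3:ℝ) • fr 1‖ := norm_add_le _ _
        _ ≤ 4 := by rw [h6]; linarith
    have := h.δ1_le
    have := h.κ0_le
    have := h.R_ge
    have := h.V_ge
    refine ⟨le_trans (by linarith) (le_abs_self _), by linarith⟩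
  have hpt : ∀ y ∈ Metric.closedBall (0:R3) (p.tn n), ∀ ξ ∈ Metric.closedBall ((3:ℝ) • fr 1) 1,
      ENNReal.ofReal a ≤ up F (p.tn n) y ξ := by
    intro y hy ξ hξ
    rw [hsol.mild.early le_rfl]
    unfold Par.f0
    refine le_trans ?_ le_add_self
    unfold Par.seed
    refine le_trans ?_ (ENNReal.le_tsum 0)
    have h0 : lat 0 = 0 := by ext i; simp [lat]
    rw [if_pos]
    refine ⟨?_, by simpa [dist_eq_norm] using hξ⟩
    rw [h0, sub_add_cancel, sub_zero]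
    simpa using hy
  have hin : ∀ y ∈ Metric.closedBall (0:R3) (p.tn n),
      ENNReal.ofReal a ≤ ∫⁻ ξ in goodV p.δ1 p.V, up F (p.tn n) y ξ := by
    intro y hy
    refine le_trans ?_ (lintegral_mono_set hsub)
    refine le_trans ?_ (setLIntegral_mono' Metric.isClosed_closedBall.measurableSet (hpt y hy))
    rw [setLIntegral_const]
    have := sm2b_vol ((3:ℝ) • fr 1) (zero_le_one)
    rw [one_pow, ENNReal.ofReal_one] at this
    calc ENNReal.ofReal a = ENNReal.ofReal a * 1 := (mul_one _).symm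
      _ ≤ _ := mul_le_mul' le_rfl this
  refine le_trans ?_ (setLIntegral_mono' Metric.isClosed_closedBall.measurableSet hin)
  rw [setLIntegral_const, ENNReal.ofReal_mul hsol.a0]
  exact mul_le_mul' le_rfl (sm2b_vol _ ht.le)

lemma sm2b_small (c : ℝ) (hc : 0 < c) : ∀ᶠ x in 𝓝[>] (0:ℝ), x ≤ c ∧ x ≤ 1 := by
  have h1 : ∀ᶠ x in 𝓝[>] (0:ℝ), x ≤ min c 1 :=
    nhdsWithin_le_nhds (eventually_le_nhds (lt_min hc one_pos))
  filter_upwards [h1] with x hx
  exact ⟨hx.trans (min_le_left _ _), hx.trans (min_le_right _ _)⟩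

lemma sm2b_ev_r0 : ∀ᶠ p in PF, p.r0 ≤ p.e0 * p.h ^ 1615 / (110 * Real.exp (p.V ^ 2)) ∧ p.r0 ≤ 1 := by
  refine ev_r0 (Q := fun p x => x ≤ p.e0 * p.h ^ 1615 / (110 * Real.exp (p.V ^ 2)) ∧ x ≤ 1) ?_
  filter_upwards [ev_std] with p hp
  have := Par.e0_pos hp
  have := hp.h_pos
  exact sm2b_small _ (by positivity)

lemma sm2b_stepC_nonneg {p : Par} (h : p.Std) {ε a τ : ℝ} (hε : 0 ≤ ε) (ha : 0 ≤ a) (hτ : 0 ≤ τ) (β : ℝ) :
    0 ≤ p.stepC ε a τ β := by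
  have := Par.e0_pos h
  unfold Par.stepC
  positivity

theorem sm2b_ev_smooth
    (hfat : ∀ {p : Par}, p.Std → ∀ {n : ℕ} {τ : ℝ}, τ ∈ Icc (p.tn n) p.t0 → ∀ {g : TF}, MeasT g →
      PerT g → ∀ {Mx : ℝ≥0∞}, (∀ s ∈ Icc (max (p.tn n) (p.h * τ)) τ,
      (∫⁻ y in Metric.closedBall (0:R3) (τ / p.h), ∫⁻ ξ in goodV p.δ1 p.V, g s y ξ) ≤ Mx) →
      ∀ {t : ℝ}, t ≤ τ → ∀ x v : R3,
      p.FatOp n τ (p.FatOp n τ g) t x v ≤ ENNReal.ofReal (4 * τ ^ 2 * ((p.h * τ) ^ 15)⁻¹) * Mx)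
    (hsteps : ∀ᶠ p in PF, ∀ ε a τ m : ℝ, 0 < ε → 0 < τ → 0 ≤ a → 0 ≤ m → 55 * a ≤ p.e0 * ε * τ →
      m ≤ p.e0 * ε * τ →
      p.stepC ε a τ (p.stepC ε a τ (p.stepC ε a τ (p.stepC ε a τ 0) + m)) ≤ ε * τ / 2) :
    ∀ᶠ p in PF, ∀ (n : ℕ) (a : ℝ) (F : ℝ → R3 → R3 → ℝ), p.Sol n p.eps a F →
    p.In1 n p.eps F → ∀ τ ∈ Icc (p.tn n) p.t0, ∀ x v : R3, ‖v‖ ≤ p.R →
    ENNReal.ofReal (p.eps * τ / 2) * p.W n (p.aa τ) τ x v < p.hh n F τ x v →
    ∃ s ∈ Icc (p.tn n) p.t0, p.r0 ^ p.Lam ≤ p.Phi n F s := by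
  filter_upwards [ev_std, sm2b_ev_Phi_ge, hsteps, ev_sm1, ev_sm2, ev_sm3, sm2b_ev_r0] with
    p hs hPhi hst h1 h2 h3 hr n a F hsol hin τ hτ x v hv hlt
  by_contra hcon
  push Not at hcon
  have htn := Par.tn_pos hs n
  have hτ0 : 0 < τ := htn.trans_le hτ.1
  have hε := Par.eps_pos hs
  have he0 := Par.e0_pos hs
  have hh0 := hs.h_pos
  have hr0 := hs.r0_pos
  have hV : 8000 ≤ p.V := by have := hs.R_ge; have := hs.V_ge; linarith
  have hh1 : p.h ≤ 1 := by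
    have := hs.h_le; have := hs.δ1_le; have := hs.κ0_le; nlinarith
  have ht0r : p.t0 ≤ p.r0 := by
    have := Par.t0_le_r0 hs; have := Par.t0_pos hs; nlinarith
  have hL : 0 < p.r0 ^ p.Lam := by positivity
  have hexp1 : 1 ≤ Real.exp (p.V ^ 2) := Real.one_le_exp (by positivity)
  have hrr : p.r0 * (110 * Real.exp (p.V ^ 2)) ≤ p.e0 * p.h ^ 1615 := by
    have := hr.1
    rwa [le_div_iff₀ (by positivity)] at this
  have heps : p.eps = p.r0 ^ p.Lam * p.r0 := by unfold Par.eps; rw [pow_succ]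
  by_cases hcase : 55 * a ≤ p.e0 * p.eps * τ
  · -- the smoothing chain
    set Mr : ℝ := 2 * p.r0 ^ p.Lam * τ ^ 20 / p.h ^ 1600 with hMr
    have hM : ∀ s ∈ Icc (max (p.tn n) (p.h * τ)) τ,
        (∫⁻ y in Metric.closedBall (0:R3) (τ / p.h), ∫⁻ ξ in goodV p.δ1 p.V, p.hh n F s y ξ) ≤
          ENNReal.ofReal Mr := by
      intro s hs'
      have hs1 : p.tn n ≤ s := (le_max_left _ _).trans hs'.1
      have hs2 : p.h * τ ≤ s := (le_max_right _ _).trans hs'.1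
      have hs0 : 0 < s := htn.trans_le hs1
      have hsI : s ∈ Icc (p.tn n) p.t0 := ⟨hs1, hs'.2.trans hτ.2⟩
      have hρ : τ / p.h ≤ s / p.h ^ 2 := by
        rw [div_le_div_iff₀ hh0 (by positivity)]
        nlinarith
      have hP := (hPhi n p.eps a F hsol hin s hsI (τ / p.h) (by positivity) hρ).trans
        (ENNReal.ofReal_le_ofReal (hcon s hsI).le)
      have hmono : (∫⁻ y in Metric.closedBall (0:R3) (τ / p.h), ∫⁻ ξ in goodV p.δ1 p.V,
          p.hh n F s y ξ) ≤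
          ∫⁻ y in Metric.closedBall (0:R3) (τ / p.h), ∫⁻ ξ in goodV p.δ1 p.V, up F s y ξ :=
        lintegral_mono fun y => lintegral_mono fun ξ => tsub_le_self
      refine hmono.trans ?_
      have hc : 0 < (s ^ 20)⁻¹ * p.h ^ 1600 / 2 := by positivity
      rw [mul_comm, ← ENNReal.le_div_iff_mul_le (Or.inl (ENNReal.ofReal_pos.2 hc).ne')
        (Or.inl ENNReal.ofReal_ne_top), ← ENNReal.ofReal_div_of_pos hc] at hP
      refine hP.trans (ENNReal.ofReal_le_ofReal ?_)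
      have hss : s ^ 20 ≤ τ ^ 20 := pow_le_pow_left₀ hs0.le hs'.2 20
      have e : p.r0 ^ p.Lam / ((s ^ 20)⁻¹ * p.h ^ 1600 / 2) = 2 * p.r0 ^ p.Lam * s ^ 20 / p.h ^ 1600 := by
        field_simp
      rw [e, hMr]
      gcongr
    set m : ℝ := 4 * τ ^ 2 * ((p.h * τ) ^ 15)⁻¹ * Mr * Real.exp (p.V ^ 2) with hm
    have hMr0 : 0 ≤ Mr := by positivity
    have hm0 : 0 ≤ m := by positivity
    have hmle : m ≤ p.e0 * p.eps * τ := by
      have e : m = 8 * p.r0 ^ p.Lam * τ * (τ ^ 6 * Real.exp (p.V ^ 2)) / p.h ^ 1615 := by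
        rw [hm, hMr]; field_simp; ring
      rw [e, div_le_iff₀ (by positivity), heps]
      have hτr : τ ≤ p.r0 := hτ.2.trans ht0r
      have h6 : τ ^ 6 ≤ p.r0 * p.r0 := by
        have hτ1 : τ ≤ 1 := hτr.trans hr.2
        calc τ ^ 6 ≤ τ ^ 2 := pow_le_pow_of_le_one hτ0.le hτ1 (by norm_num)
          _ = τ * τ := by ring
          _ ≤ p.r0 * p.r0 := mul_le_mul hτr hτr hτ0.le hr0.le
      have h7 : 8 * (τ ^ 6 * Real.exp (p.V ^ 2)) ≤ p.r0 * (p.e0 * p.h ^ 1615) := by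
        calc 8 * (τ ^ 6 * Real.exp (p.V ^ 2)) ≤ 110 * (p.r0 * p.r0 * Real.exp (p.V ^ 2)) := by
              gcongr; norm_num
          _ = p.r0 * (p.r0 * (110 * Real.exp (p.V ^ 2))) := by ring
          _ ≤ _ := by gcongr
      calc 8 * p.r0 ^ p.Lam * τ * (τ ^ 6 * Real.exp (p.V ^ 2))
          = p.r0 ^ p.Lam * τ * (8 * (τ ^ 6 * Real.exp (p.V ^ 2))) := by ring
        _ ≤ p.r0 ^ p.Lam * τ * (p.r0 * (p.e0 * p.h ^ 1615)) := by gcongr
        _ = _ := by ring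
    have hmh : MeasT (p.hh n F) := p.meas_hh n hsol.dens.meas
    have hph : PerT (p.hh n F) := p.per_hh n hsol.dens.per
    have hc0 : ∀ β, 0 ≤ p.stepC p.eps a τ β := sm2b_stepC_nonneg hs hε.le hsol.a0 hτ0.le
    have k1 := h3 n p.eps a F hsol hin τ hτ 0 (3 * p.V / 4) le_rfl (by linarith) le_rfl (p.hh n F) hmh
      (fun s _ y ξ _ => le_add_self)
    have k2 := h3 n p.eps a F hsol hin τ hτ (p.stepC p.eps a τ 0) (p.V / 2) (hc0 _) (by linarith)
      (by linarith) (p.FatOp n τ (p.hh n F)) (p.meas_FatOp n τ hmh)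
      (fun s hs' y ξ hg => k1 s hs' y ξ (by
        have e : p.V / 2 + p.V / 4 = 3 * p.V / 4 := by ring
        rwa [e] at hg))
    have k3 : ∀ s ∈ Icc (p.tn n) τ, ∀ y ξ, p.Gd (p.V / 2) s y ξ → p.hh n F s y ξ ≤
        ENNReal.ofReal (p.stepC p.eps a τ (p.stepC p.eps a τ 0) + m) * p.W n (p.aa s) s y ξ := by
      intro s hs' y ξ hg
      refine (k2 s hs' y ξ hg).trans ?_
      rw [ENNReal.ofReal_add (hc0 _) hm0, add_mul]
      refine add_le_add le_rfl ((hfat hs hτ hmh hph hM hs'.2 y ξ).trans ?_)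
      have hs0 : 0 ≤ s := htn.le.trans hs'.1
      have haa := Par.aa_mem hs hs0 ((hs'.2.trans hτ.2).trans (Par.t0_lt_t2 hs).le)
      have hW : ENNReal.ofReal (Real.exp (-(p.V ^ 2))) ≤ p.W n (p.aa s) s y ξ := by
        refine le_trans ?_ (gs_le_Wf _ _ _ _ _)
        unfold gs
        refine ENNReal.ofReal_le_ofReal (Real.exp_le_exp.2 ?_)
        have hξ : ‖ξ‖ ≤ p.V := hg.2.2.trans (by linarith)
        have hξ2 : ‖ξ‖ ^ 2 ≤ p.V ^ 2 := pow_le_pow_left₀ (norm_nonneg _) hξ 2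
        have : p.aa s * ‖ξ‖ ^ 2 ≤ 1 * ‖ξ‖ ^ 2 :=
          mul_le_mul_of_nonneg_right (by linarith [haa.2]) (by positivity)
        linarith
      refine le_trans ?_ (mul_le_mul' le_rfl hW)
      rw [← ENNReal.ofReal_mul (by positivity), ← ENNReal.ofReal_mul hm0]
      refine ENNReal.ofReal_le_ofReal (le_of_eq ?_)
      rw [hm, mul_assoc _ (Real.exp (p.V ^ 2)), ← Real.exp_add]
      simp
    have k4 := h2 n p.eps a F hsol hin τ hτ _ (add_nonneg (hc0 _) hm0) k3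
    have k5 := h1 n p.eps a F hsol hin τ hτ _ (hc0 _) k4 τ ⟨hτ.1, le_rfl⟩ x v hv
    have k6 := hst p.eps a τ m hε hτ0 hsol.a0 hm0 hcase hmle
    exact absurd (k5.trans (mul_le_mul' (ENNReal.ofReal_le_ofReal k6) le_rfl)) (not_le.2 hlt)
  · -- the seed is large
    push Not at hcase
    have hI : p.tn n ∈ Icc (p.tn n) p.t0 := ⟨le_rfl, hsol.tn0⟩
    have hρ : p.tn n ≤ p.tn n / p.h ^ 2 := by
      rw [le_div_iff₀ (by positivity)]
      have : p.h ^ 2 ≤ 1 := pow_le_one₀ hh0.le hh1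
      nlinarith
    have hP := (mul_le_mul' le_rfl (sm2b_seed_mass hs hsol)).trans
      (hPhi n p.eps a F hsol hin _ hI (p.tn n) htn.le hρ)
    rw [← ENNReal.ofReal_mul (by positivity)] at hP
    have hP2 := hP.trans (ENNReal.ofReal_le_ofReal (hcon _ hI).le)
    rw [ENNReal.ofReal_le_ofReal_iff hL.le] at hP2
    have e : (p.tn n ^ 20)⁻¹ * p.h ^ 1600 / 2 * (a * p.tn n ^ 3) = a * p.h ^ 1600 / (2 * p.tn n ^ 17) := by
      field_simp
    rw [e, div_le_iff₀ (by positivity)] at hP2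
    have htr : p.tn n ≤ p.r0 := hsol.tn0.trans ht0r
    have h17 : p.tn n ^ 17 ≤ p.r0 * p.r0 * τ := by
      have ht1 : p.tn n ≤ 1 := htr.trans hr.2
      calc p.tn n ^ 17 ≤ p.tn n ^ 3 := pow_le_pow_of_le_one htn.le ht1 (by norm_num)
        _ = p.tn n * p.tn n * p.tn n := by ring
        _ ≤ p.r0 * p.r0 * τ := by gcongr; exact hτ.1
    have hhh : p.h ^ 1615 ≤ p.h ^ 1600 := pow_le_pow_of_le_one hh0.le hh1 (by norm_num)
    have h110 : p.r0 * 110 ≤ p.e0 * p.h ^ 1600 := by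
      calc p.r0 * 110 ≤ p.r0 * (110 * Real.exp (p.V ^ 2)) := by
            gcongr; linarith
        _ ≤ p.e0 * p.h ^ 1615 := hrr
        _ ≤ _ := by gcongr
    have hA : 55 * a * p.h ^ 1600 ≤ p.e0 * p.eps * τ * p.h ^ 1600 := by
      calc 55 * a * p.h ^ 1600 = 55 * (a * p.h ^ 1600) := by ring
        _ ≤ 55 * (p.r0 ^ p.Lam * (2 * p.tn n ^ 17)) := by gcongr
        _ ≤ 55 * (p.r0 ^ p.Lam * (2 * (p.r0 * p.r0 * τ))) := by gcongr
        _ = p.r0 ^ p.Lam * p.r0 * τ * (p.r0 * 110) := by ring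
        _ ≤ p.r0 ^ p.Lam * p.r0 * τ * (p.e0 * p.h ^ 1600) := by gcongr
        _ = _ := by rw [heps]; ring
    have hB : p.e0 * p.eps * τ * p.h ^ 1600 < 55 * a * p.h ^ 1600 :=
      mul_lt_mul_of_pos_right hcase (by positivity)
    linarith

end Crest.Agent.R068
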