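import Crest.Agent.R068.Sm
import Crest.Agent.R068.Sm2AuxB
import Crest.Agent.R068.Sm2AuxA

/-! Row 68: from the sup norm to mass. -/

set_option autoImplicit false
open MeasureTheory Set Filter Topology
open scoped ENNReal
open Crest.AnalysisR.VecCalc3 Crest.AnalysisR.PDE.Boltzmann

namespace Crest.Agent.R068

/-- two fat steps are bounded by the mass of good particles near the origin -/
theorem fat_fat {p : Par} (h : p.Std) {n : ℕ} {τ : ℝ} (hτ : τ ∈ Icc (p.tn n) p.t0) {g : TF} (hg : MeasT g)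
    (hp : PerT g) {Mx : ℝ≥0∞}
    (hM : ∀ s ∈ Icc (max (p.tn n) (p.h * τ)) τ,
      (∫⁻ y in Metric.closedBall (0:R3) (τ / p.h), ∫⁻ ξ in goodV p.δ1 p.V, g s y ξ) ≤ Mx)
    {t : ℝ} (ht : t ≤ τ) (x v : R3) :
    p.FatOp n τ (p.FatOp n τ g) t x v ≤ ENNReal.ofReal (4 * τ ^ 2 * ((p.h * τ) ^ 15)⁻¹) * Mx :=
  sm2a_fat_fat h hτ hg hp hM ht x v
/-- the arithmetic of the four steps -/
theorem ev_steps : ∀ᶠ p in PF, ∀ ε a τ m : ℝ, 0 < ε → 0 < τ → 0 ≤ a → 0 ≤ m → 55 * a ≤ p.e0 * ε * τ →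
    m ≤ p.e0 * ε * τ →
    p.stepC ε a τ (p.stepC ε a τ (p.stepC ε a τ (p.stepC ε a τ 0) + m)) ≤ ε * τ / 2 := by
  filter_upwards [ev_std] with p hs ε a τ m hε hτ _ _ ha hm
  exact sm2a_steps hs hε hτ ha hm
/-- lower bound for the weighted mass in terms of the mass of good particles -/
theorem ev_Phi_ge : ∀ᶠ p in PF, ∀ (n : ℕ) (ε a : ℝ) (F : ℝ → R3 → R3 → ℝ), p.Sol n ε a F → p.In1 n ε F →
    ∀ s ∈ Icc (p.tn n) p.t0, ∀ ρ : ℝ, 0 ≤ ρ → ρ ≤ s / p.h ^ 2 →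
    ENNReal.ofReal ((s ^ 20)⁻¹ * p.h ^ 1600 / 2) *
      (∫⁻ y in Metric.closedBall (0:R3) ρ, ∫⁻ ξ in goodV p.δ1 p.V, up F s y ξ) ≤
      ENNReal.ofReal (p.Phi n F s) := sm2b_ev_Phi_ge
theorem ev_smooth : ∀ᶠ p in PF, ∀ (n : ℕ) (a : ℝ) (F : ℝ → R3 → R3 → ℝ), p.Sol n p.eps a F →
    p.In1 n p.eps F → ∀ τ ∈ Icc (p.tn n) p.t0, ∀ x v : R3, ‖v‖ ≤ p.R →
    ENNReal.ofReal (p.eps * τ / 2) * p.W n (p.aa τ) τ x v < p.hh n F τ x v →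
    ∃ s ∈ Icc (p.tn n) p.t0, p.r0 ^ p.Lam ≤ p.Phi n F s :=
  sm2b_ev_smooth (fun h _ _ hτ _ hg hp _ hM _ ht x v => fat_fat h hτ hg hp hM ht x v) ev_steps

end Crest.Agent.R068
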