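import Crest.Agent.R068.Late
import Crest.Agent.R068.Ivt
import Crest.Agent.R068.Sm2
import Crest.Agent.R068.GoodU
import Crest.Agent.R068.Lim

/-! Row 68: assembly. -/

set_option autoImplicit false
open MeasureTheory Set Filter Topology
open scoped ENNReal
open Crest.AnalysisR.VecCalc3 Crest.AnalysisR.PDE.Boltzmann

namespace Crest.Agent.R068

theorem two_solutions : ∃ R : ℝ, ∃ F₀ : R3 → R3 → ℝ, IsAdmissibleDatum F₀ R ∧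
    ∃ F₁ F₂ : ℝ → R3 → R3 → ℝ, IsGlobalSolution F₁ F₀ ∧ IsGlobalSolution F₂ F₀ ∧
      0 < volume {p : ℝ × R3 × R3 | p ∈ region ∧ F₁ p.1 p.2.1 p.2.2 ≠ F₂ p.1 p.2.1 p.2.2} := by
  obtain ⟨p, hs, hivt, hsm, hgr, hup, hglob, hgood, hadm, hconv, hex, hz⟩ :=
    (ev_std.and (ev_ivt.and (ev_smooth.and (ev_growth.and (ev_upper.and (ev_global.and
      (ev_good.and (ev_admissible.and (ev_data_conv.and (ev_sol_exists.and ev_In1_zero)))))))))).exists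
  obtain ⟨N₀, hN₀⟩ := eventually_atTop.1 hivt
  have h1 : ∀ i : ℕ, ∃ (a : ℝ) (F : ℝ → R3 → R3 → ℝ), p.Sol (i + N₀) p.eps a F ∧
      p.In1 (i + N₀) p.eps F ∧ p.r0 ^ p.Lam ≤ 2 * ∫ q : R3 × R3, F p.t0 q.1 q.2 * p.psiO p.t0 q := by
    intro i
    obtain ⟨a, F, hS, hI, τ, hτ, x, v, hv, hlt⟩ := hN₀ (i + N₀) (Nat.le_add_left _ _)
    obtain ⟨s, hs', hle⟩ := hsm _ a F hS hI τ hτ x v hv hlt
    exact ⟨a, F, hS, hI, hle.trans (hgr _ _ a F hS hI s hs')⟩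
  choose a F₁ hS₁ hI₁ hlow using h1
  have h2 : ∀ i : ℕ, ∃ F : ℝ → R3 → R3 → ℝ, p.Sol (i + N₀) 0 0 F := fun i =>
    hex _ 0 0 le_rfl (Par.eps_pos hs).le le_rfl (by simp) (hS₁ i).tn0
  choose F₂ hS₂ using h2
  have hI₂ : ∀ i, p.In1 (i + N₀) 0 (F₂ i) := fun i => hz _ _ (hS₂ i)
  have hφ : Tendsto (fun i : ℕ => i + N₀) atTop atTop := tendsto_add_atTop_nat N₀
  have hT : Tendsto (fun i : ℕ => p.tn (i + N₀)) atTop (𝓝 0) := p.tendsto_tn.comp hφ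
  have ha : Tendsto a atTop (𝓝 0) := by
    have h3 : Tendsto (fun i : ℕ => 2 * p.eps * p.tn (i + N₀)) atTop (𝓝 0) := by
      simpa using hT.const_mul (2 * p.eps)
    exact squeeze_zero (fun i => (hS₁ i).a0) (fun i => (hS₁ i).a1) h3
  have hzero : ∀ (n : ℕ) (ε b : ℝ) (F : ℝ → R3 → R3 → ℝ), p.Sol n ε b F → ∀ x v,
      F 0 x v = (p.f0 n b x v).toReal := by
    intro n ε b F hS x v
    have h4 := hS.mild.early (Par.tn_pos hs n).le x v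
    simp only [up, zero_smul, sub_zero] at h4
    rw [← h4, ENNReal.toReal_ofReal (hS.dens.nonneg _ _ _)]
  have hF0 : ∀ x v, 0 ≤ p.F0 x v := fun x v => ENNReal.toReal_nonneg
  have key : ∀ (ε : ℝ) (b : ℕ → ℝ) (F : ℕ → ℝ → R3 → R3 → ℝ), (∀ i, p.Sol (i + N₀) ε (b i) (F i)) →
      (∀ i, p.In1 (i + N₀) ε (F i)) → Tendsto b atTop (𝓝 0) →
      ∃ (φ : ℕ → ℕ) (G : ℝ → R3 → R3 → ℝ), IsGlobalSolution G p.F0 ∧
        Tendsto (fun n => ∫ q : R3 × R3, F (φ n) p.t0 q.1 q.2 * p.psiO p.t0 q) atTop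
          (𝓝 (∫ q : R3 × R3, G p.t0 q.1 q.2 * p.psiO p.t0 q)) := by
    intro ε b F hS hI hb
    have hc := hconv (fun i => i + N₀) b hφ hb (fun i => (hS i).tn0)
    obtain ⟨φ, G, -, hG, hG0, hGm, hGd, hlim⟩ := limit_exists hgood (F := F)
      (Ts := fun i => p.tn (i + N₀)) (fun i => (Par.tn_pos hs _).le) hT (fun i => (hS i).dens)
      (fun i T => (hglob _ _ _ _ (hS i) (hI i)).1 T)
      (fun i t ht x v => (hglob _ _ _ _ (hS i) (hI i)).2 t ht x v)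
      p.meas_F0 p.per_F0 hF0 (Eventually.of_forall fun q => Par.F0_le_Ust hs q.1 q.2)
      (by simpa only [hzero _ _ _ _ (hS _)] using hc)
    refine ⟨φ, G, ?_, hlim _ (Par.t0_pos hs) _ (Par.wt_psiO hs (Par.t0_pos hs))⟩
    have := mild_global hgood hG hGm hGd
    rwa [hG0] at this
  obtain ⟨φ₁, G₁, hG₁, hl₁⟩ := key _ a F₁ hS₁ hI₁ ha
  obtain ⟨φ₂, G₂, hG₂, hl₂⟩ := key 0 (fun _ => 0) F₂ hS₂ hI₂ tendsto_const_nhds
  refine ⟨p.R, p.F0, hadm, G₁, G₂, hG₁, hG₂,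
    differ hG₁ hG₂ (Par.t0_pos hs) (Par.wt_psiO hs (Par.t0_pos hs)) ?_⟩
  have e1 : p.r0 ^ p.Lam / 2 ≤ ∫ q : R3 × R3, G₁ p.t0 q.1 q.2 * p.psiO p.t0 q :=
    ge_of_tendsto' hl₁ fun n => by linarith [hlow (φ₁ n)]
  have e2 : ∫ q : R3 × R3, G₂ p.t0 q.1 q.2 * p.psiO p.t0 q ≤ p.r0 ^ (p.Lam + 1) :=
    le_of_tendsto' hl₂ fun n => hup _ _ (hS₂ (φ₂ n)) (hI₂ (φ₂ n))
  have hr : p.r0 ≤ 1 / 1000 := by
    have h5 := hs.r0_δ1
    have h6 := hs.δ1_le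
    have h7 := hs.κ0_le
    linarith
  have hpos : 0 < p.r0 ^ p.Lam := pow_pos hs.r0_pos _
  have e3 : p.r0 ^ (p.Lam + 1) < p.r0 ^ p.Lam / 2 := by
    rw [pow_succ]; nlinarith
  intro heq
  linarith


end Crest.Agent.R068
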