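import Crest.Agent.R068.Geo

/-! Row 68: the terms of the concentration profile `Yf`. -/

set_option autoImplicit false
open MeasureTheory Set Filter Topology
open scoped ENNReal
open Crest.AnalysisR.VecCalc3 Crest.AnalysisR.PDE.Boltzmann

namespace Crest.Agent.R068

/-- one term of `Yf` -/
noncomputable def wa_T (η t : ℝ) (s : Fin 4) (X v : R3) : ℝ≥0∞ :=
  if ‖X‖ ≤ 1 / 4 + 3 * t ∧ dd s t X v ≤ 1 then (ENNReal.ofReal (max (dd s t X v) η))⁻¹ else 0

/-- the indicator of the active terms -/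
noncomputable def wa_c (t : ℝ) (X : R3) : ℝ≥0∞ := if ‖X‖ ≤ 1 / 4 + 3 * t then 1 else 0

lemma wa_Yf (η t : ℝ) (x v : R3) :
    Yf η t x v = ∑' i : (Fin 3 → ℤ) × Fin 4, wa_T η t i.2 (x - lat i.1) v := by
  rw [ENNReal.tsum_prod']
  simp only [tsum_fintype]
  rfl

lemma wa_meas (η : ℝ) (s : Fin 4) :
    Measurable fun q : ℝ × R3 × R3 => wa_T η q.1 s q.2.1 q.2.2 := by
  have h : MeasurableSet {q : ℝ × R3 × R3 | ‖q.2.1‖ ≤ 1 / 4 + 3 * q.1} :=
    measurableSet_le (by fun_prop) (by fun_prop)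
  refine Measurable.ite (h.inter (measurableSet_le (measurable_dd s) measurable_const)) ?_
    measurable_const
  exact ((measurable_dd s).max measurable_const).ennreal_ofReal.inv

lemma wa_meas_v (η t : ℝ) (s : Fin 4) (X : R3) : Measurable (wa_T η t s X) := by
  have h : Measurable fun v : R3 => ((t, X, v) : ℝ × R3 × R3) := by fun_prop
  simpa only [Function.comp_def] using (wa_meas η s).comp h

lemma wa_meas_Yf (η : ℝ) : MeasT (Yf η) := by
  simp only [MeasT, wa_Yf]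
  refine Measurable.tsum fun i => ?_
  have h : Measurable fun q : ℝ × R3 × R3 => ((q.1, q.2.1 - lat i.1, q.2.2) : ℝ × R3 × R3) := by
    fun_prop
  simpa only [Function.comp_def] using (wa_meas η i.2).comp h

lemma wa_meas_Yf_v (η t : ℝ) (x : R3) : Measurable (Yf η t x) := by
  have h : Measurable fun v : R3 => ((t, x, v) : ℝ × R3 × R3) := by fun_prop
  simpa only [Function.comp_def] using Measurable.comp (wa_meas_Yf η) h

lemma wa_le_CW {t : ℝ} (ht : 0 ≤ t) : 64 ≤ CW t := by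
  have : (2 : ℝ) ^ 3 ≤ (2 + 6 * t) ^ 3 := by gcongr; linarith
  unfold CW
  linarith

lemma wa_count {t : ℝ} (ht : 0 ≤ t) (x : R3) :
    ∑' i : (Fin 3 → ℤ) × Fin 4, wa_c t (x - lat i.1) ≤ ENNReal.ofReal (CW t) := by
  rw [ENNReal.tsum_prod']
  simp only [tsum_fintype, Finset.sum_const, Finset.card_univ, Fintype.card_fin, nsmul_eq_mul]
  rw [ENNReal.tsum_mul_left]
  refine (mul_le_mul_right (tsum_lat_ball x (by positivity)) _).trans ?_
  rw [← ENNReal.ofReal_natCast, ← ENNReal.ofReal_mul (by positivity)]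
  refine ENNReal.ofReal_le_ofReal ?_
  have h1 : (2 * (1 / 4 + 3 * t) + 1) ^ 3 ≤ (2 + 6 * t) ^ 3 :=
    pow_le_pow_left₀ (by positivity) (by linarith) 3
  have h2 : 0 ≤ (2 + 6 * t) ^ 3 := by positivity
  unfold CW
  push_cast
  linarith

lemma wa_sum_le {t : ℝ} (ht : 0 ≤ t) (x : R3) {f : (Fin 3 → ℤ) × Fin 4 → ℝ≥0∞} {c : ℝ≥0∞}
    (h : ∀ i, f i ≤ wa_c t (x - lat i.1) * c) : ∑' i, f i ≤ ENNReal.ofReal (CW t) * c := by
  refine (ENNReal.tsum_le_tsum h).trans ?_
  rw [ENNReal.tsum_mul_right]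
  exact mul_le_mul_left (wa_count ht x) _

lemma wa_T_le (η t : ℝ) (s : Fin 4) (X v : R3) : wa_T η t s X v ≤ wa_c t X *
    (Metric.closedBall (uu s t X) 1).indicator (fun u => (ENNReal.ofReal ‖u - uu s t X‖)⁻¹) v := by
  unfold wa_T
  split_ifs with h
  · rw [wa_c, if_pos h.1, one_mul, indicator_of_mem (mem_closedBall_iff_norm.2 h.2)]
    exact ENNReal.inv_le_inv.2 (ENNReal.ofReal_le_ofReal (le_max_left _ _))
  · exact zero_le

lemma wa_int (η t : ℝ) (s : Fin 4) (X : R3) :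
    ∫⁻ v, wa_T η t s X v ≤ wa_c t X * ENNReal.ofReal 20 := by
  refine (lintegral_mono (wa_T_le η t s X)).trans ?_
  rw [lintegral_const_mul' _ _ (by unfold wa_c; split_ifs <;> simp),
    lintegral_indicator measurableSet_closedBall]
  exact mul_le_mul_right (by simpa using lintegral_inv_ball (uu s t X) zero_le_one) _

lemma wa_int_sq (η t : ℝ) (s : Fin 4) (X : R3) :
    ∫⁻ v, wa_T η t s X v ^ 2 ≤ wa_c t X * ENNReal.ofReal 20 := by
  have h : ∀ v, wa_T η t s X v ^ 2 ≤ wa_c t X * (Metric.closedBall (uu s t X) 1).indicator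
      (fun u => (ENNReal.ofReal ‖u - uu s t X‖)⁻¹ ^ 2) v := by
    intro v
    refine (pow_le_pow_left' (wa_T_le η t s X v) 2).trans (le_of_eq ?_)
    unfold wa_c
    by_cases h : v ∈ Metric.closedBall (uu s t X) 1 <;> split_ifs <;> simp [h]
  refine (lintegral_mono h).trans ?_
  rw [lintegral_const_mul' _ _ (by unfold wa_c; split_ifs <;> simp),
    lintegral_indicator measurableSet_closedBall]
  exact mul_le_mul_right (by simpa using lintegral_inv_sq_ball (uu s t X) zero_le_one) _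

lemma wa_mul_le (η t : ℝ) (s s' : Fin 4) (X X' v : R3) : wa_T η t s X v * wa_T η t s' X' v ≤
    wa_T η t s X v ^ 2 * wa_c t X' + wa_c t X * wa_T η t s' X' v ^ 2 := by
  by_cases h : ‖X‖ ≤ 1 / 4 + 3 * t
  · by_cases h' : ‖X'‖ ≤ 1 / 4 + 3 * t
    · rw [wa_c, wa_c, if_pos h, if_pos h', mul_one, one_mul, sq, sq]
      rcases le_total (wa_T η t s X v) (wa_T η t s' X' v) with h1 | h1
      · exact le_add_left (mul_le_mul_left h1 _)
      · exact le_add_right (mul_le_mul_right h1 _)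
    · rw [show wa_T η t s' X' v = 0 from if_neg fun h1 => h' h1.1, mul_zero]
      exact zero_le
  · rw [show wa_T η t s X v = 0 from if_neg fun h1 => h h1.1, zero_mul]
    exact zero_le

lemma wa_Yf_le {η t : ℝ} (hη : 0 < η) (ht : 0 ≤ t) (x v : R3) :
    Yf η t x v ≤ ENNReal.ofReal (CW t / η) := by
  rw [wa_Yf, ENNReal.ofReal_div_of_pos hη, div_eq_mul_inv]
  refine wa_sum_le ht x fun i => ?_
  unfold wa_T
  split_ifs with h
  · rw [wa_c, if_pos h.1, one_mul]
    exact ENNReal.inv_le_inv.2 (ENNReal.ofReal_le_ofReal (le_max_right _ _))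
  · exact zero_le

lemma wa_lintegral_Yf (η : ℝ) {t : ℝ} (ht : 0 ≤ t) (x : R3) :
    ∫⁻ v, Yf η t x v ≤ ENNReal.ofReal (20 * CW t) := by
  simp only [wa_Yf]
  rw [lintegral_tsum fun i => (wa_meas_v η t _ _).aemeasurable, ENNReal.ofReal_mul (by norm_num),
    mul_comm]
  exact wa_sum_le ht x fun i => wa_int η t _ _

lemma wa_lintegral_Yf_sq (η : ℝ) {t : ℝ} (ht : 0 ≤ t) (x : R3) :
    ∫⁻ v, Yf η t x v ^ 2 ≤ ENNReal.ofReal (20 * CW t ^ 3) := by
  have h0 := wa_le_CW ht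
  have h1 : ∀ v, Yf η t x v ^ 2 ≤ 2 * ENNReal.ofReal (CW t) *
      ∑' i : (Fin 3 → ℤ) × Fin 4, wa_T η t i.2 (x - lat i.1) v ^ 2 := by
    intro v
    rw [sq, wa_Yf, ← ENNReal.tsum_mul_right]
    simp only [← ENNReal.tsum_mul_left]
    refine (ENNReal.tsum_le_tsum fun i => ENNReal.tsum_le_tsum fun j =>
      wa_mul_le η t _ _ _ _ v).trans ?_
    simp only [ENNReal.tsum_add, ENNReal.tsum_mul_left, ENNReal.tsum_mul_right]
    rw [mul_comm, ← two_mul, mul_assoc]
    exact mul_le_mul_right (mul_le_mul_left (wa_count ht x) _) _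
  refine (lintegral_mono h1).trans ?_
  rw [lintegral_const_mul' _ _ (by finiteness),
    lintegral_tsum fun i => ((wa_meas_v η t _ _).pow_const 2).aemeasurable]
  refine (mul_le_mul_right (wa_sum_le ht x fun i => wa_int_sq η t _ _) _).trans ?_
  rw [← ENNReal.ofReal_ofNat 2, ← ENNReal.ofReal_mul (by positivity),
    ← ENNReal.ofReal_mul (by positivity), ← ENNReal.ofReal_mul (by positivity)]
  refine ENNReal.ofReal_le_ofReal ?_
  nlinarith [mul_le_mul_of_nonneg_right h0 (sq_nonneg (CW t)), sq_nonneg (CW t)]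

lemma wa_zero (η t : ℝ) (x : R3) {v : R3} (hv : ∀ s X, 1 < dd s t X v) : Yf η t x v = 0 := by
  rw [wa_Yf, ENNReal.tsum_eq_zero]
  exact fun i => if_neg fun h => (hv _ _).not_ge h.2

lemma wa_mono (η : ℝ) {s t : ℝ} (hst : s ≤ t) (x v : R3) :
    Yf η s (x - (t - s) • v) v ≤ Yf η t x v := by
  rw [wa_Yf, wa_Yf]
  refine ENNReal.tsum_le_tsum fun i => ?_
  rw [sub_right_comm]
  generalize x - lat i.1 = X
  have h1 := dd_mono i.2 hst X v
  rw [wa_T]
  split_ifs with h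
  · have h2 := norm_le_dd i.2 s (X - (t - s) • v) v
    have h3 := norm_le_norm_add_norm_sub' X ((t - s) • v)
    rw [norm_smul, Real.norm_of_nonneg (sub_nonneg.2 hst)] at h3
    rw [wa_T, if_pos ⟨by nlinarith [h.1, h.2], h1.trans h.2⟩]
    exact ENNReal.inv_le_inv.2 (ENNReal.ofReal_le_ofReal (max_le_max h1 le_rfl))
  · exact zero_le

lemma wa_Wf_le {a : ℝ} (ha : 0 ≤ a) (η t : ℝ) (x v : R3) :
    Wf η a t x v ≤ gs a v + Yf η t x v := by
  rw [Wf, mul_add, mul_one]
  exact add_le_add_right (mul_le_of_le_one_left' (gs_le_one ha v)) _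

end Crest.Agent.R068
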