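import Crest.Agent.R068.Geo

/-! Row 68: the singular part of the concentration profile. -/

set_option autoImplicit false
open MeasureTheory Set Filter Topology
open scoped ENNReal
open Crest.AnalysisR.VecCalc3 Crest.AnalysisR.PDE.Boltzmann

namespace Crest.Agent.R068

/-- one singular term -/
noncomputable def wb_term (b : R3) (ϱ : ℝ) (u : R3) : ℝ≥0∞ :=
  if ‖u - b‖ ≤ ϱ then (ENNReal.ofReal ‖u - b‖)⁻¹ else 0

/-- the singular part of `Yf` -/
noncomputable def wb_sing (t ϱ : ℝ) (x u : R3) : ℝ≥0∞ :=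
  ∑' p : (Fin 3 → ℤ) × Fin 4, (if ‖x - lat p.1‖ ≤ 1 / 4 + 3 * t then (1:ℝ≥0∞) else 0) *
    wb_term (uu p.2 t (x - lat p.1)) ϱ u

lemma wb_meas_term (b : R3) (ϱ : ℝ) : Measurable (wb_term b ϱ) :=
  Measurable.ite (measurableSet_le (by fun_prop) measurable_const)
    (Measurable.inv (by fun_prop)) measurable_const

lemma wb_meas_sing (t ϱ : ℝ) (x : R3) : Measurable (wb_sing t ϱ x) :=
  Measurable.ennreal_tsum fun _ => (wb_meas_term _ _).const_mul _

lemma wb_CW_ge {t : ℝ} (ht : 0 ≤ t) : 64 ≤ CW t := by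
  have : (2 : ℝ) ^ 3 ≤ (2 + 6 * t) ^ 3 := by gcongr; linarith
  unfold CW
  linarith

lemma wb_count {t : ℝ} (ht : 0 ≤ t) (x : R3) {c : ℝ} (hc : 0 ≤ c) :
    ∑' p : (Fin 3 → ℤ) × Fin 4, (if ‖x - lat p.1‖ ≤ 1 / 4 + 3 * t then (1:ℝ≥0∞) else 0) *
      ENNReal.ofReal (20 * c) ≤ ENNReal.ofReal (10 * CW t * c) := by
  rw [ENNReal.tsum_mul_right, ENNReal.tsum_prod']
  have e : ∀ c : ℝ≥0∞, ∑' _ : Fin 4, c = ((4 : ℕ) : ℝ≥0∞) * c := fun c => by
    rw [tsum_fintype, Finset.sum_const, Finset.card_univ, Fintype.card_fin, nsmul_eq_mul]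
  rw [tsum_congr fun k => e (if ‖x - lat k‖ ≤ 1 / 4 + 3 * t then 1 else 0), ENNReal.tsum_mul_left]
  calc _ ≤ ((4 : ℕ) : ℝ≥0∞) * ENNReal.ofReal ((2 * (1 / 4 + 3 * t) + 1) ^ 3) *
        ENNReal.ofReal (20 * c) := by
        gcongr
        exact tsum_lat_ball x (by positivity)
    _ ≤ _ := by
        rw [← ENNReal.ofReal_natCast, ← ENNReal.ofReal_mul (by positivity),
          ← ENNReal.ofReal_mul (by positivity)]
        refine ENNReal.ofReal_le_ofReal ?_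
        have : (2 * (1 / 4 + 3 * t) + 1) ^ 3 ≤ (2 + 6 * t) ^ 3 :=
          pow_le_pow_left₀ (by positivity) (by linarith) 3
        unfold CW
        push_cast
        nlinarith

lemma wb_plane_sing {t : ℝ} (ht : 0 ≤ t) (x v : R3) {w : R3} (hw : ‖w‖ = 1) {ϱ : ℝ} (hϱ : 0 ≤ ϱ) :
    plane (wb_sing t ϱ x) v w ≤ ENNReal.ofReal (10 * CW t * ϱ) := by
  refine le_trans ?_ (wb_count ht x hϱ)
  unfold wb_sing
  rw [plane_tsum fun _ => (wb_meas_term _ _).const_mul _]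
  refine ENNReal.tsum_le_tsum fun p => ?_
  rw [plane_const_mul (wb_meas_term _ _)]
  gcongr
  exact plane_inv_ball _ v hw hϱ

lemma wb_int_sing {t : ℝ} (ht : 0 ≤ t) (x : R3) {ϱ : ℝ} (hϱ : 0 ≤ ϱ) :
    ∫⁻ u, wb_sing t ϱ x u ≤ ENNReal.ofReal (10 * CW t * ϱ ^ 2) := by
  refine le_trans ?_ (wb_count ht x (sq_nonneg ϱ))
  unfold wb_sing
  rw [lintegral_tsum fun _ => ((wb_meas_term _ _).const_mul _).aemeasurable]
  refine ENNReal.tsum_le_tsum fun p => ?_
  rw [lintegral_const_mul _ (wb_meas_term _ _)]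
  gcongr
  refine le_trans (le_of_eq ?_) (lintegral_inv_ball (uu p.2 t (x - lat p.1)) hϱ)
  rw [← lintegral_indicator measurableSet_closedBall]
  refine lintegral_congr fun u => ?_
  simp only [wb_term, indicator, mem_closedBall_iff_norm]

lemma wb_Yf_eq (η t : ℝ) (x u : R3) : Yf η t x u = ∑' p : (Fin 3 → ℤ) × Fin 4,
    if ‖x - lat p.1‖ ≤ 1 / 4 + 3 * t ∧ dd p.2 t (x - lat p.1) u ≤ 1 then
      (ENNReal.ofReal (max (dd p.2 t (x - lat p.1) u) η))⁻¹ else 0 := by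
  rw [ENNReal.tsum_prod']
  simp only [tsum_fintype, Yf]

lemma wb_Yf_le_sing (η t : ℝ) (x u : R3) : Yf η t x u ≤ wb_sing t 1 x u := by
  rw [wb_Yf_eq]
  refine ENNReal.tsum_le_tsum fun p => ?_
  split_ifs with h h'
  · rw [one_mul, wb_term, if_pos (show ‖u - uu p.2 t (x - lat p.1)‖ ≤ 1 from h.2)]
    exact ENNReal.inv_le_inv.2 (ENNReal.ofReal_le_ofReal (le_max_left _ _))
  · exact absurd h.1 h'
  all_goals exact zero_le

lemma wb_Yf_split (η ϱ t : ℝ) (x u : R3) : Yf η t x u ≤ Yf ϱ t x u + wb_sing t ϱ x u := by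
  rw [wb_Yf_eq, wb_Yf_eq, wb_sing, ← ENNReal.tsum_add]
  refine ENNReal.tsum_le_tsum fun p => ?_
  split_ifs with h h'
  · refine (ENNReal.inv_le_inv.2 (ENNReal.ofReal_le_ofReal (le_max_left _ _))).trans ?_
    rcases le_total (dd p.2 t (x - lat p.1) u) ϱ with h1 | h1
    · rw [one_mul, wb_term, if_pos (show ‖u - uu p.2 t (x - lat p.1)‖ ≤ ϱ from h1)]
      exact le_add_self
    · rw [max_eq_left h1]
      exact le_self_add
  · exact absurd h.1 h'
  all_goals exact zero_le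

end Crest.Agent.R068
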