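import Crest.Agent.R068.Geo
import Crest.Agent.R068.WgtAuxA
import Crest.Agent.R068.WgtAuxB

/-! Row 68: estimates for the weight W. -/

set_option autoImplicit false
open MeasureTheory Set Filter Topology
open scoped ENNReal
open Crest.AnalysisR.VecCalc3 Crest.AnalysisR.PDE.Boltzmann

namespace Crest.Agent.R068

lemma measurable_Yf (η : ℝ) : MeasT (Yf η) := by
  exact wa_meas_Yf η
lemma measurable_Wf (η : ℝ) : Measurable (fun q : ℝ × ℝ × R3 × R3 => Wf η q.1 q.2.1 q.2.2.1 q.2.2.2) := by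
  have h1 : Measurable fun q : ℝ × ℝ × R3 × R3 => ((q.1, q.2.2.2) : ℝ × R3) := by fun_prop
  have h2 : Measurable fun q : ℝ × ℝ × R3 × R3 => gs q.1 q.2.2.2 := by
    simpa only [Function.comp_def] using measurable_gs'.comp h1
  have h3 : Measurable fun q : ℝ × ℝ × R3 × R3 => Yf η q.2.1 q.2.2.1 q.2.2.2 := by
    simpa only [Function.comp_def] using Measurable.comp (wa_meas_Yf η) measurable_snd
  exact h2.mul (measurable_const.add h3)
lemma measurable_Wf_v (η a t : ℝ) (x : R3) : Measurable (Wf η a t x) := by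
  exact (measurable_gs a).mul (measurable_const.add (wa_meas_Yf_v η t x))
lemma per_Yf (η : ℝ) : PerT (Yf η) := by
  exact fun t v => per_tsum fun X => ∑ s : Fin 4, wa_T η t s X v
lemma Yf_anti {η η' : ℝ} (h : η ≤ η') (t : ℝ) (x v : R3) : Yf η' t x v ≤ Yf η t x v := by
  rw [wa_Yf, wa_Yf]
  refine ENNReal.tsum_le_tsum fun i => ?_
  unfold wa_T
  split_ifs
  · exact ENNReal.inv_le_inv.2 (ENNReal.ofReal_le_ofReal (max_le_max le_rfl h))
  · exact le_rfl
lemma Yf_eq_zero (η t : ℝ) (x : R3) {v : R3} (hv : 3 ≤ ‖v‖) : Yf η t x v = 0 := by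
  exact wa_zero η t x fun s X => by linarith [norm_le_dd s t X v]
lemma Yf_eq_zero_nc (η t : ℝ) (x : R3) {v : R3} (hv : 1 < |nc v|) : Yf η t x v = 0 := by
  exact wa_zero η t x fun s X => hv.trans_le (abs_nc_le_dd s t X v)
lemma Yf_mono (η : ℝ) {s t : ℝ} (hst : s ≤ t) (x v : R3) : Yf η s (x - (t - s) • v) v ≤ Yf η t x v := by
  exact wa_mono η hst x v
lemma Wf_mono (η : ℝ) {a b s t : ℝ} (hab : b ≤ a) (hst : s ≤ t) (x v : R3) :
    Wf η a s (x - (t - s) • v) v ≤ Wf η b t x v := by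
  exact mul_le_mul' (gs_anti hab v) (add_le_add_right (wa_mono η hst x v) _)
lemma gs_le_Wf (η a t : ℝ) (x v : R3) : gs a v ≤ Wf η a t x v := by
  exact le_mul_of_one_le_right' le_self_add
lemma Yf_le {η t : ℝ} (hη : 0 < η) (ht : 0 ≤ t) (x v : R3) : Yf η t x v ≤ ENNReal.ofReal (CW t / η) := by
  exact wa_Yf_le hη ht x v
lemma one_le_CW {t : ℝ} (ht : 0 ≤ t) : 1 ≤ CW t := by
  linarith [wa_le_CW ht]
lemma CW_mono {s t : ℝ} (hs : 0 ≤ s) (hst : s ≤ t) : CW s ≤ CW t := by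
  unfold CW
  gcongr
lemma CW_le {t : ℝ} (ht0 : 0 ≤ t) (ht : t ≤ 1 / 20) : CW t ≤ 100 := by
  have : (2 + 6 * t) ^ 3 ≤ (23 / 10) ^ 3 := pow_le_pow_left₀ (by positivity) (by linarith) 3
  unfold CW
  linarith
lemma CW_decay {t y : ℝ} (ht0 : 0 ≤ t) (ht : t ≤ 1 / 20) (hy : 0 ≤ y) :
    CW (t + y) * Real.exp (-(y / 16)) ≤ 10 ^ 8 := by
  have h1 : (2 + 6 * (t + y)) ^ 3 ≤ (3 + 6 * y) ^ 3 :=
    pow_le_pow_left₀ (by positivity) (by linarith) 3
  have h2 := Real.sum_le_exp_of_nonneg (x := y / 16) (by positivity) 4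
  simp only [Finset.sum_range_succ, Finset.sum_range_zero, Nat.factorial] at h2
  rw [Real.exp_neg, ← div_eq_mul_inv, div_le_iff₀ (Real.exp_pos _)]
  unfold CW
  push_cast at h2
  nlinarith [pow_nonneg hy 2, pow_nonneg hy 3]
lemma lintegral_Yf (η : ℝ) {t : ℝ} (ht : 0 ≤ t) (x : R3) :
    ∫⁻ v, Yf η t x v ≤ ENNReal.ofReal (20 * CW t) := by
  exact wa_lintegral_Yf η ht x
lemma lintegral_Yf_sq (η : ℝ) {t : ℝ} (ht : 0 ≤ t) (x : R3) :
    ∫⁻ v, Yf η t x v ^ 2 ≤ ENNReal.ofReal (20 * CW t ^ 3) := by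
  exact wa_lintegral_Yf_sq η ht x
lemma wb_Wf_ind {η a t : ℝ} (ht : 0 ≤ t) (x : R3) (S : Set R3) {ϱ : ℝ} (hϱ : 0 < ϱ) (u : R3) :
    S.indicator (Wf η a t x) u ≤
      ENNReal.ofReal (1 + CW t / ϱ) * S.indicator (gs a) u + gs a u * wb_sing t ϱ x u := by
  by_cases hu : u ∈ S
  · have hC : 0 ≤ CW t / ϱ := by have := one_le_CW ht; positivity
    rw [indicator_of_mem hu, indicator_of_mem hu, Wf, mul_comm _ (gs a u), ← mul_add,
      ENNReal.ofReal_add zero_le_one hC, ENNReal.ofReal_one, add_assoc]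
    gcongr
    exact (wb_Yf_split η ϱ t x u).trans (add_le_add_left (Yf_le hϱ ht x u) _)
  · rw [indicator_of_notMem hu]
    exact zero_le
/-- splitting off the singular part -/
lemma plane_Wf_ind {η a t : ℝ} (ha : 0 ≤ a) (ht : 0 ≤ t) (x v : R3) {w : R3} (hw : ‖w‖ = 1)
    {S : Set R3} (hS : MeasurableSet S) {ϱ : ℝ} (hϱ : 0 < ϱ) :
    plane (S.indicator (Wf η a t x)) v w ≤ ENNReal.ofReal (1 + CW t / ϱ) * plane (S.indicator (gs a)) v w +
      ENNReal.ofReal (20 * CW t * ϱ * Real.exp (-(a * (inner ℝ v w) ^ 2))) := by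
  have h1 := measurable_gs a
  have hC : 0 ≤ 10 * CW t * ϱ := by have := one_le_CW ht; positivity
  refine (plane_mono (wb_Wf_ind (η := η) ht x S hϱ) v w).trans ?_
  rw [plane_add ((h1.indicator hS).const_mul _) (h1.fun_mul (wb_meas_sing _ _ _)),
    plane_const_mul (h1.indicator hS)]
  gcongr
  refine (plane_gs_mul_le ha (wb_meas_sing _ _ _) v hw).trans ?_
  refine (mul_le_mul_right (wb_plane_sing ht x v hw hϱ.le) _).trans ?_
  rw [← ENNReal.ofReal_mul (Real.exp_nonneg _)]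
  refine ENNReal.ofReal_le_ofReal ?_
  nlinarith [Real.exp_nonneg (-(a * (inner ℝ v w) ^ 2))]
lemma plane_Wf_le {η a t : ℝ} (ha : 0 < a) (ha' : a ≤ 1 / 4) (ht : 0 ≤ t) (x v : R3) {w : R3}
    (hw : ‖w‖ = 1) : plane (Wf η a t x) v w ≤ ENNReal.ofReal (CW t) * plane (gs a) v w := by
  have h1 := measurable_gs a
  have hC := wb_CW_ge ht
  have h2 : ∀ u, Wf η a t x u ≤ gs a u + gs a u * wb_sing t 1 x u := fun u => by
    rw [Wf, mul_add, mul_one]
    gcongr
    exact wb_Yf_le_sing η t x u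
  refine (plane_mono h2 v w).trans ?_
  rw [plane_add h1 (h1.fun_mul (wb_meas_sing _ _ _))]
  refine (add_le_add_right ((plane_gs_mul_le ha.le (wb_meas_sing _ _ _) v hw).trans
    (mul_le_mul_right (wb_plane_sing ht x v hw zero_le_one) _)) _).trans ?_
  rw [plane_gs ha v hw, ← ENNReal.ofReal_mul (Real.exp_nonneg _),
    ← ENNReal.ofReal_add (by positivity) (by positivity), ← ENNReal.ofReal_mul (by positivity)]
  refine ENNReal.ofReal_le_ofReal ?_
  have h3 : 12 ≤ Real.pi / a := by rw [le_div_iff₀ ha]; linarith [Real.pi_gt_three]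
  have h4 := Real.exp_nonneg (-(a * (inner ℝ v w) ^ 2))
  generalize Real.exp (-(a * (inner ℝ v w) ^ 2)) = E at *
  generalize Real.pi / a = P at *
  have h5 : 10 * CW t ≤ (CW t - 1) * P := by nlinarith
  nlinarith [mul_le_mul_of_nonneg_right h5 h4]
lemma gain_Wf_le {η a t : ℝ} (ha : 0 < a) (ha' : a ≤ 1 / 4) (ht : 0 ≤ t) (x : R3) {f : R3 → ℝ≥0∞}
    (hf : Measurable f) (v : R3) : gain f (Wf η a t x) v ≤ ENNReal.ofReal (CW t) * gain f (gs a) v := by
  exact gain_le_of_plane hf (measurable_Wf_v η a t x) (measurable_gs a)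
    fun w hw => plane_Wf_le ha ha' ht x v hw
lemma gain_Wf_pot {η a t : ℝ} (ha : 1 / 8 ≤ a) (ha' : a ≤ 1 / 4) (ht : 0 ≤ t) (x : R3) {f : R3 → ℝ≥0∞}
    (hf : Measurable f) (hs : ∀ u, f u ≠ 0 → ‖u‖ ≤ 2) (v : R3) :
    gain f (Wf η a t x) v ≤ ENNReal.ofReal (140 * CW t) * gs a v * pot f v := by
  have ha0 : 0 < a := by linarith
  have hC := one_le_CW ht
  have h1 : ∀ u, f u * gs (-a) u ≤ ENNReal.ofReal (Real.exp 1) * f u := fun u => by
    by_cases hu : f u = 0
    · simp [hu]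
    rw [mul_comm]
    gcongr
    refine ENNReal.ofReal_le_ofReal (Real.exp_le_exp.2 ?_)
    have h2 : ‖u‖ ^ 2 ≤ 2 ^ 2 := pow_le_pow_left₀ (norm_nonneg _) (hs u hu) 2
    nlinarith [sq_nonneg ‖u‖]
  have h2 : CW t * (2 * Real.pi / a) * Real.exp 1 ≤ 140 * CW t := by
    have h3 : 2 * Real.pi / a ≤ 16 * 3.15 := by
      rw [div_le_iff₀ ha0]; nlinarith [Real.pi_lt_d2]
    have h4 : 2 * Real.pi / a * Real.exp 1 ≤ 16 * 3.15 * 2.72 :=
      mul_le_mul h3 (by linarith [Real.exp_one_lt_d9]) (Real.exp_nonneg _) (by norm_num)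
    nlinarith
  calc gain f (Wf η a t x) v ≤ ENNReal.ofReal (CW t) * (ENNReal.ofReal (2 * Real.pi / a) * gs a v *
        (ENNReal.ofReal (Real.exp 1) * pot f v)) := by
        refine (gain_Wf_le ha0 ha' ht x hf v).trans (mul_le_mul_right ?_ _)
        refine (gain_gs_le ha0 hf v).trans (mul_le_mul_right ?_ _)
        rw [← pot_const_mul hf]
        exact pot_mono h1 v
    _ = ENNReal.ofReal (CW t * (2 * Real.pi / a) * Real.exp 1) * gs a v * pot f v := by
        rw [ENNReal.ofReal_mul (by positivity), ENNReal.ofReal_mul (by positivity)]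
        ring
    _ ≤ _ := by gcongr
lemma gain_Wf_Wf {η a t : ℝ} (ha : 1 / 8 ≤ a) (ha' : a ≤ 1 / 4) (ht : 0 ≤ t) (x v : R3) :
    gain (Wf η a t x) (Wf η a t x) v ≤ ENNReal.ofReal (10 ^ 6 * CW t ^ 2 * (1 + ‖v‖)) * gs a v := by
  have ha0 : 0 < a := by linarith
  have hC := one_le_CW ht
  have hm := measurable_Wf_v η a t x
  calc gain (Wf η a t x) (Wf η a t x) v ≤ ENNReal.ofReal (CW t) * (ENNReal.ofReal (CW t) *
        (ENNReal.ofReal (10 ^ 6 * (1 + ‖v‖)) * gs a v)) := by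
        refine (gain_Wf_le ha0 ha' ht x hm v).trans (mul_le_mul_right ?_ _)
        rw [gain_comm hm (measurable_gs a)]
        exact (gain_Wf_le ha0 ha' ht x (measurable_gs a) v).trans
          (mul_le_mul_right (gain_gs_self_le (by linarith) v) _)
    _ = _ := by
        rw [← mul_assoc, ← mul_assoc, ← ENNReal.ofReal_mul (by positivity),
          ← ENNReal.ofReal_mul (by positivity)]
        congr 2
        ring
lemma freq_Wf_le {η a t : ℝ} (ha : 1 / 8 ≤ a) (ht : 0 ≤ t) (x v : R3) :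
    freq (Wf η a t x) v ≤ ENNReal.ofReal (2 * 10 ^ 6 * CW t * (1 + ‖v‖)) := by
  have h0 := wa_le_CW ht
  have h1 := norm_nonneg v
  have h2 : ∫⁻ u, ENNReal.ofReal (1 + ‖u‖) * Yf η t x u ≤
      ENNReal.ofReal 4 * ENNReal.ofReal (20 * CW t) := by
    refine le_trans (lintegral_mono fun u => ?_)
      ((lintegral_const_mul' _ _ ENNReal.ofReal_ne_top).le.trans
        (mul_le_mul_right (wa_lintegral_Yf η ht x) _))
    rcases le_total 3 ‖u‖ with h | h
    · simp [Yf_eq_zero η t x h]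
    · exact mul_le_mul_left (ENNReal.ofReal_le_ofReal (by linarith)) _
  refine (freq_mono (wa_Wf_le (by linarith) η t x) v).trans ?_
  rw [freq_add (measurable_gs a) (wa_meas_Yf_v η t x)]
  refine (add_le_add (freq_gs_le (by linarith) v) ((freq_le_moment _ (wa_meas_Yf_v η t x) v).trans
    (mul_le_mul_right h2 _))).trans ?_
  rw [← ENNReal.ofReal_mul (by positivity), ← ENNReal.ofReal_mul (by positivity),
    ← ENNReal.ofReal_add (by positivity) (by positivity)]
  refine ENNReal.ofReal_le_ofReal ?_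
  have h3 : 0 ≤ CW t * (1 + ‖v‖) := by positivity
  nlinarith [mul_le_mul_of_nonneg_right Real.pi_le_four h3,
    mul_le_mul_of_nonneg_right h0 (by linarith : 0 ≤ 1 + ‖v‖)]
lemma lintegral_Wf_le {η a t : ℝ} (ha : 1 / 8 ≤ a) (ht : 0 ≤ t) (x : R3) :
    ∫⁻ v, Wf η a t x v ≤ ENNReal.ofReal (1000 * CW t) := by
  have h0 := wa_le_CW ht
  refine (lintegral_mono (wa_Wf_le (by linarith) η t x)).trans ?_
  rw [lintegral_add_left (measurable_gs a)]
  refine (add_le_add (gb_int_gs (by linarith)) (wa_lintegral_Yf η ht x)).trans ?_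
  rw [← ENNReal.ofReal_add (by positivity) (by positivity)]
  exact ENNReal.ofReal_le_ofReal (by linarith)
lemma wb_meas_thin (κ : ℝ) : MeasurableSet {u : R3 | |nc u| < κ} :=
  (isOpen_lt continuous_nc.abs continuous_const).measurableSet
lemma wb_thin_eq (κ : ℝ) (f : R3 → ℝ≥0∞) :
    (fun u => if |nc u| < κ then f u else 0) = {u | |nc u| < κ}.indicator f := by
  funext u
  simp only [indicator, mem_setOf_eq]
lemma wb_sqrt {κ C : ℝ} (hκ : 0 < κ) (hκ' : κ ≤ 1) (hC : 1 ≤ C) :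
    (1 + C / √κ) * κ ≤ 2 * (C * √κ) := by
  have h0 := Real.sqrt_pos.2 hκ
  have h1 : √κ ≤ 1 := Real.sqrt_le_one.2 hκ'
  have h2 := Real.mul_self_sqrt hκ.le
  have h3 : C / √κ * κ = C * √κ := by rw [div_mul_eq_mul_div, mul_div_assoc, Real.div_sqrt]
  nlinarith
lemma gain_thin_Wf {η a t κ : ℝ} (ha : 1 / 8 ≤ a) (ha' : a ≤ 1 / 4) (ht : 0 ≤ t) (hκ : 0 < κ)
    (hκ' : κ ≤ 1) (x v : R3) :
    gain (fun u => if |nc u| < κ then Wf η a t x u else 0) (Wf η a t x) v ≤
      ENNReal.ofReal (10 ^ 8 * CW t ^ 2 * Real.sqrt κ * (1 + ‖v‖)) * gs a v := by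
  have ha0 : 0 < a := by linarith
  have hC := one_le_CW ht
  have hg := measurable_gs a
  have hϱ := Real.sqrt_pos.2 hκ
  have hS := wb_meas_thin κ
  have hm := (measurable_Wf_v η a t x).indicator hS
  have hp : ∀ w : R3, ‖w‖ = 1 → plane ({u | |nc u| < κ}.indicator (Wf η a t x)) v w ≤
      1 * plane (fun u => ENNReal.ofReal (1 + CW t / √κ) * {u | |nc u| < κ}.indicator (gs a) u +
        ENNReal.ofReal (20 * CW t * √κ) * gs a u) v w := fun w hw => by
    rw [one_mul, plane_add ((hg.indicator hS).const_mul _) (hg.const_mul _),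
      plane_const_mul (hg.indicator hS), plane_const_mul hg, plane_gs ha0 v hw,
      ← ENNReal.ofReal_mul (by positivity)]
    refine (plane_Wf_ind ha0.le ht x v hw hS hϱ).trans ?_
    gcongr
    refine le_mul_of_one_le_left (Real.exp_nonneg _) ?_
    rw [le_div_iff₀ ha0]
    linarith [Real.pi_gt_three]
  have h1 := gain_le_of_plane hg hm (((hg.indicator hS).const_mul _).fun_add (hg.const_mul _)) hp
  rw [one_mul, gain_add_right hg ((hg.indicator hS).const_mul _) (hg.const_mul _),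
    gain_const_mul_right hg (hg.indicator hS), gain_const_mul_right hg hg,
    gain_comm hg (hg.indicator hS), gain_comm hg hm] at h1
  have h2 : gain ({u | |nc u| < κ}.indicator (gs a)) (gs a) v ≤
      ENNReal.ofReal (10 ^ 5 * κ) * gs a v := by
    rw [← wb_thin_eq]
    exact gain_thin_le (by linarith) (norm_fr 1) hκ.le v
  rw [wb_thin_eq]
  calc _ ≤ ENNReal.ofReal (CW t) * (ENNReal.ofReal (1 + CW t / √κ) *
        (ENNReal.ofReal (10 ^ 5 * κ) * gs a v) + ENNReal.ofReal (20 * CW t * √κ) *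
        (ENNReal.ofReal (10 ^ 6 * (1 + ‖v‖)) * gs a v)) := by
        refine (gain_Wf_le ha0 ha' ht x hm v).trans (mul_le_mul_right (h1.trans ?_) _)
        gcongr
        exact gain_gs_self_le (by linarith) v
    _ ≤ _ := by
        rw [← mul_assoc (ENNReal.ofReal _), ← mul_assoc (ENNReal.ofReal (20 * _ * _)), ← add_mul,
          ← mul_assoc, ← ENNReal.ofReal_mul (by positivity), ← ENNReal.ofReal_mul (by positivity),
          ← ENNReal.ofReal_add (by positivity) (by positivity),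
          ← ENNReal.ofReal_mul (by positivity)]
        gcongr ENNReal.ofReal ?_ * _
        have h3 := wb_sqrt hκ hκ' hC
        have h4 : 0 ≤ CW t * √κ := by positivity
        have h5 := mul_nonneg h4 (norm_nonneg v)
        have h6 : (1 + CW t / √κ) * (10 ^ 5 * κ) + 20 * CW t * √κ * (10 ^ 6 * (1 + ‖v‖)) ≤
            10 ^ 8 * CW t * √κ * (1 + ‖v‖) := by nlinarith
        calc _ ≤ CW t * (10 ^ 8 * CW t * √κ * (1 + ‖v‖)) := by gcongr
          _ = _ := by ring
lemma freq_thin_Wf {η a t κ : ℝ} (ha : 1 / 8 ≤ a) (ht : 0 ≤ t) (hκ : 0 < κ) (hκ' : κ ≤ 1) (x v : R3) :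
    freq (fun u => if |nc u| < κ then Wf η a t x u else 0) v ≤
      ENNReal.ofReal (10 ^ 8 * CW t * Real.sqrt κ * (1 + ‖v‖)) := by
  have hC := one_le_CW ht
  have hg := measurable_gs a
  have hϱ := Real.sqrt_pos.2 hκ
  have hS := wb_meas_thin κ
  have hs := wb_meas_sing t √κ x
  have h1 : freq ({u | |nc u| < κ}.indicator (gs a)) v ≤ ENNReal.ofReal (10 ^ 6 * κ * (1 + ‖v‖)) := by
    rw [← wb_thin_eq]
    exact freq_thin_le (by linarith) (norm_fr 1) hκ.le v
  have h2 : freq (fun u => gs a u * wb_sing t √κ x u) v ≤ ENNReal.ofReal (2 * Real.pi * (1 + ‖v‖)) *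
      (ENNReal.ofReal 100 * ENNReal.ofReal (10 * CW t * √κ ^ 2)) := by
    refine (freq_le_moment _ (hg.fun_mul hs) v).trans (mul_le_mul_right ?_ _)
    refine le_trans ?_ (mul_le_mul_right (wb_int_sing ht x hϱ.le) _)
    rw [← lintegral_const_mul _ hs]
    refine lintegral_mono fun u => ?_
    rw [← mul_assoc]
    gcongr
    refine (weight_absorb (b := 0) (by linarith) u).trans ?_
    rw [ENNReal.ofReal_ofNat]
    exact mul_le_of_le_one_right' (gs_le_one le_rfl u)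
  rw [wb_thin_eq]
  refine (freq_mono (wb_Wf_ind (η := η) ht x _ hϱ) v).trans ?_
  rw [freq_add ((hg.indicator hS).const_mul _) (hg.fun_mul hs), freq_const_mul (hg.indicator hS)]
  refine (add_le_add (mul_le_mul_right h1 _) h2).trans ?_
  rw [← ENNReal.ofReal_mul (by positivity), ← ENNReal.ofReal_mul (by positivity),
    ← ENNReal.ofReal_mul (by positivity), ← ENNReal.ofReal_add (by positivity) (by positivity)]
  refine ENNReal.ofReal_le_ofReal ?_
  have h3 := wb_sqrt hκ hκ' hC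
  have h4 : 0 ≤ CW t * √κ := by positivity
  have h5 : √κ ^ 2 ≤ √κ := by nlinarith [Real.sqrt_le_one.2 hκ']
  have h6 : 2 * Real.pi * (100 * (10 * CW t * √κ ^ 2)) ≤ 2 * 4 * (100 * (10 * CW t * √κ)) := by
    gcongr
    exact Real.pi_le_four
  have h7 : (1 + CW t / √κ) * (10 ^ 6 * κ) + 2 * Real.pi * (100 * (10 * CW t * √κ ^ 2)) ≤
      10 ^ 8 * CW t * √κ := by nlinarith
  calc _ = ((1 + CW t / √κ) * (10 ^ 6 * κ) + 2 * Real.pi * (100 * (10 * CW t * √κ ^ 2))) *
        (1 + ‖v‖) := by ring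
    _ ≤ _ := by gcongr

end Crest.Agent.R068
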