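import Crest.Agent.R068.Std
import Crest.Agent.R068.Wgt

/-! Row 68: measurability of all objects (auxiliary file for `Meas.lean`). -/

set_option autoImplicit false
open MeasureTheory Set Filter Topology
open scoped ENNReal
open Crest.AnalysisR.VecCalc3 Crest.AnalysisR.PDE.Boltzmann

namespace Crest.Agent.R068

section comp
variable {β : Type} [MeasurableSpace β]

@[fun_prop] lemma mA_nc {x : β → R3} (hx : Measurable x) : Measurable (fun b => nc (x b)) :=
  continuous_nc.measurable.comp hx
@[fun_prop] lemma mA_pl {x : β → R3} (hx : Measurable x) : Measurable (fun b => pl (x b)) :=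
  continuous_pl.measurable.comp hx
@[fun_prop] lemma mA_Jr {x : β → R3} (hx : Measurable x) : Measurable (fun b => Jr (x b)) :=
  continuous_Jr.measurable.comp hx
@[fun_prop] lemma mA_sn {x : β → R3} (hx : Measurable x) : Measurable (fun b => sn (x b)) :=
  continuous_sn.measurable.comp hx
@[fun_prop] lemma mA_mu {x : β → R3} (hx : Measurable x) : Measurable (fun b => mu (x b)) :=
  measurable_mu.comp hx
@[fun_prop] lemma mA_gs {a : β → ℝ} {x : β → R3} (ha : Measurable a) (hx : Measurable x) :
    Measurable (fun b => gs (a b) (x b)) :=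
  Measurable.comp (g := fun p : ℝ × R3 => gs p.1 p.2) (f := fun b => (a b, x b)) measurable_gs'
    (ha.prodMk hx)
@[fun_prop] lemma mA_uu (s : Fin 4) {t : β → ℝ} {x : β → R3} (ht : Measurable t) (hx : Measurable x) :
    Measurable (fun b => uu s (t b) (x b)) :=
  Measurable.comp (g := fun q : ℝ × R3 => uu s q.1 q.2) (f := fun b => (t b, x b)) (measurable_uu s)
    (ht.prodMk hx)
@[fun_prop] lemma mA_dd (s : Fin 4) {t : β → ℝ} {x v : β → R3} (ht : Measurable t) (hx : Measurable x)
    (hv : Measurable v) : Measurable (fun b => dd s (t b) (x b) (v b)) :=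
  MeasT.comp (F := dd s) (measurable_dd s) ht hx hv
@[fun_prop] lemma mA_ph {t : β → ℝ} {x v : β → R3} (ht : Measurable t) (hx : Measurable x)
    (hv : Measurable v) : Measurable (fun b => ph (t b) (x b) (v b)) :=
  MeasT.comp (F := ph) measurable_ph ht hx hv
@[fun_prop] lemma mA_Wf (η : ℝ) {a t : β → ℝ} {x v : β → R3} (ha : Measurable a) (ht : Measurable t)
    (hx : Measurable x) (hv : Measurable v) : Measurable (fun b => Wf η (a b) (t b) (x b) (v b)) :=
  Measurable.comp (g := fun q : ℝ × ℝ × R3 × R3 => Wf η q.1 q.2.1 q.2.2.1 q.2.2.2)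
    (f := fun b => (a b, t b, x b, v b)) (measurable_Wf η) (ha.prodMk (ht.prodMk (hx.prodMk hv)))
lemma mA_and {P Q : β → Prop} (h1 : MeasurableSet {b | P b}) (h2 : MeasurableSet {b | Q b}) :
    MeasurableSet {b | P b ∧ Q b} := h1.inter h2
lemma mA_P {α : Type} [MeasurableSpace α] {f : R3 → R3 → α} (h : MeasP f) {x v : β → R3}
    (hx : Measurable x) (hv : Measurable v) : Measurable (fun b => f (x b) (v b)) :=
  Measurable.comp (g := fun q : R3 × R3 => f q.1 q.2) (f := fun b => (x b, v b)) h (hx.prodMk hv)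
lemma mA_Fat (p : Par) (j : ℕ) (s : Fin 4) {ρ z : β → ℝ} (hρ : Measurable ρ) (hz : Measurable z) :
    MeasurableSet {b | z b ∈ p.Fat j s (ρ b)} :=
  (hρ.prodMk hz) (p.measurableSet_Fat j s)
lemma mA_tot (n : ℕ∞) {f : β → ℕ → Fin 4 → R3 → ℝ≥0∞} {x : β → R3}
    (h : ∀ j s k, Measurable (fun b => f b j s (x b - lat k))) :
    Measurable (fun b => Par.tot n (f b) (x b)) := by
  unfold Par.tot
  refine Measurable.tsum fun k => Measurable.tsum fun j =>
    Finset.measurable_fun_sum _ fun s _ => ?_
  by_cases hj : (j : ℕ∞) ≤ n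
  · simp only [if_pos hj]; exact h j s k
  · simp only [if_neg hj]; exact measurable_const
lemma mA_s1 {α : Type} [MeasurableSpace α] {f : Fin 4 → β → α} (h : ∀ s, Measurable (f s)) {v : β → R3}
    (hv : Measurable v) : Measurable (fun b => f (s1 (v b)) b) := by
  have e : (fun b => f (s1 (v b)) b) = fun b => if 0 ≤ inner ℝ (fr 0) (v b) then f 1 b else f 0 b := by
    funext b; unfold s1; split_ifs <;> rfl
  rw [e]
  exact Measurable.ite (measurableSet_le measurable_const (by fun_prop)) (h 1) (h 0)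
lemma mA_s3 {α : Type} [MeasurableSpace α] {f : Fin 4 → β → α} (h : ∀ s, Measurable (f s)) {v : β → R3}
    (hv : Measurable v) : Measurable (fun b => f (s3 (v b)) b) := by
  have e : (fun b => f (s3 (v b)) b) = fun b => if 0 ≤ inner ℝ (fr 2) (v b) then f 3 b else f 2 b := by
    funext b; unfold s3; split_ifs <;> rfl
  rw [e]
  exact Measurable.ite (measurableSet_le measurable_const (by fun_prop)) (h 3) (h 2)
end comp

namespace Par
variable (p : Par)

lemma mA_S0 (j : ℕ) (s : Fin 4) : MeasP (p.S0 j s) := by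
  unfold MeasP Par.S0
  refine Measurable.ite ?_ measurable_const measurable_const
  exact mA_and (measurableSet_lt (by fun_prop) measurable_const)
    (mA_and (measurableSet_lt (by fun_prop) measurable_const)
    (mA_and (measurableSet_lt (by fun_prop) measurable_const)
    (mA_and (measurableSet_le measurable_const (by fun_prop))
    (mA_and (measurableSet_le (by fun_prop) measurable_const)
    (mA_Fat p j s (ρ := fun _ : R3 × R3 => 0) (z := fun q => nc q.1) measurable_const (by fun_prop))))))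
lemma mA_Sb (j : ℕ) (s : Fin 4) : MeasT (p.Sb j s) := by
  unfold MeasT Par.Sb
  exact mA_P (p.mA_S0 j s) (by fun_prop) (by fun_prop)
lemma mA_Grc (j : ℕ) (s : Fin 4) : MeasT (p.Grc j s) := by
  unfold MeasT Par.Grc Par.InCell
  refine Measurable.ite ?_ (by fun_prop) measurable_const
  exact mA_and (mA_and (measurableSet_le (by fun_prop) measurable_const)
    (mA_and (measurableSet_le (by fun_prop) (by fun_prop))
    (mA_Fat p j s (ρ := fun q : ℝ × R3 × R3 => p.DD j * q.1) (z := fun q => nc q.2.1) (by fun_prop)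
      (by fun_prop)))) (measurableSet_le (by fun_prop) measurable_const)
lemma mA_Bc (j : ℕ) (s : Fin 4) : MeasT (p.Bc j s) := by
  unfold MeasT Par.Bc
  exact (Measurable.ite (measurableSet_le measurable_fst measurable_const) (p.mA_Sb j s)
    measurable_const).add ((ENNReal.measurable_ofReal.comp measurable_fst).mul (p.mA_Grc j s))
lemma mA_Sd (n : ℕ∞) : MeasP (p.Sd n) := by
  unfold MeasP Par.Sd
  exact mA_tot n (f := fun (q : R3 × R3) j s X => p.S0 j s X q.2) (x := fun q => q.1)
    fun j s k => mA_P (p.mA_S0 j s) (by fun_prop) (by fun_prop)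
lemma mA_B (n : ℕ∞) : MeasT (p.B n) := by
  unfold MeasT Par.B
  exact mA_tot n (f := fun (q : ℝ × R3 × R3) j s X => p.Bc j s q.1 X q.2.2) (x := fun q => q.2.1)
    fun j s k => (p.mA_Bc j s).comp (by fun_prop) (by fun_prop) (by fun_prop)
lemma mA_Gr (n : ℕ∞) : MeasT (p.Gr n) := by
  unfold MeasT Par.Gr
  exact mA_tot n (f := fun (q : ℝ × R3 × R3) j s X => p.Grc j s q.1 X q.2.2) (x := fun q => q.2.1)
    fun j s k => (p.mA_Grc j s).comp (by fun_prop) (by fun_prop) (by fun_prop)
lemma mA_W (n : ℕ∞) (a : ℝ) : MeasT (p.W n a) := by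
  unfold MeasT Par.W
  fun_prop
lemma mA_Wa (n : ℕ∞) : MeasT (fun t x v => p.W n (p.aa t) t x v) := by
  unfold MeasT Par.W Par.aa
  fun_prop
lemma mA_AA (ε : ℝ) : Measurable (p.AA ε) := by
  unfold Par.AA
  exact Measurable.ite (measurableSet_le measurable_id measurable_const) (by fun_prop) (by fun_prop)
lemma mA_Om : Measurable (fun q : ℝ × R3 => p.Om q.1 q.2) := by
  unfold Par.Om
  fun_prop
lemma mA_U1 (n : ℕ∞) (ε : ℝ) : MeasT (p.U1 n ε) := by
  unfold MeasT Par.U1
  refine Measurable.add (p.mA_B n) (Measurable.mul (ENNReal.measurable_ofReal.comp ?_) (p.mA_Wa n))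
  exact ((p.mA_AA ε).comp measurable_fst).add
    (Measurable.comp (g := fun q : ℝ × R3 => p.Om q.1 q.2) (f := fun q : ℝ × R3 × R3 => (q.1, q.2.1))
      p.mA_Om (by fun_prop))
lemma mA_amb : MeasP p.amb := by
  unfold MeasP Par.amb
  refine Measurable.ite ?_ (by fun_prop) measurable_const
  exact mA_and (measurableSet_lt (by fun_prop) measurable_const)
    (measurableSet_le measurable_const (by fun_prop))
lemma mA_seed (n : ℕ) (a : ℝ) : MeasP (p.seed n a) := by
  unfold MeasP Par.seed
  refine Measurable.tsum fun k => Measurable.ite ?_ measurable_const measurable_const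
  exact mA_and (measurableSet_le (by fun_prop) measurable_const)
    (measurableSet_le (by fun_prop) measurable_const)
lemma mA_f0 (n : ℕ) (a : ℝ) : MeasP (p.f0 n a) :=
  (Measurable.add p.mA_amb (p.mA_Sd n)).add (p.mA_seed n a)
lemma mA_F0 : MeasP p.F0 := (Measurable.add p.mA_amb (p.mA_Sd ⊤)).ennreal_toReal
lemma mA_hol : MeasT p.hol := by
  unfold MeasT Par.hol
  exact Measurable.ite (measurableSet_lt (by fun_prop) measurable_const) (by fun_prop) measurable_const
lemma mA_Kh (n : ℕ∞) : MeasT (p.Kh n) := by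
  unfold MeasT Par.Kh
  refine Measurable.ite (measurableSet_lt (by fun_prop) measurable_const)
    (Measurable.mul ?_ (p.mA_W n _)) measurable_const
  unfold Par.CK
  fun_prop
lemma mA_Dm : Measurable (fun q : ℝ × R3 × R3 => ENNReal.ofReal (p.Dm q.1)) := by
  unfold Par.Dm
  fun_prop
lemma mA_Xi (n : ℕ∞) : MeasT (p.Xi n) :=
  ((p.mA_Dm.mul (p.mA_B n)).add (p.mA_Kh n)).add (p.mA_Dm.mul p.mA_hol)
lemma mA_Z (n : ℕ∞) : MeasT (p.Z n) := by
  unfold MeasT Par.Z
  exact Measurable.add (p.mA_Xi n) (by fun_prop)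
lemma mA_Up (n : ℕ∞) (ε : ℝ) : MeasT (p.Up n ε) := by
  unfold MeasT Par.Up
  exact Measurable.ite (measurableSet_le measurable_fst measurable_const) (p.mA_U1 n ε)
    (Measurable.add (by fun_prop) (p.mA_Z n))
lemma mA_Lo (n : ℕ∞) : MeasT (p.Lo n) := by
  unfold MeasT Par.Lo
  exact Measurable.ite (measurableSet_le measurable_fst measurable_const) measurable_const
    (Measurable.sub (by fun_prop) (p.mA_Z n))
lemma mA_Ust : MeasT p.Ust :=
  Measurable.add (p.mA_B ⊤) (measurable_const.mul (p.mA_W ⊤ _))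
lemma mA_Nn (n : ℕ) (ε : ℝ) {F : ℝ → R3 → R3 → ℝ} (hF : MeasT F) : MeasT (p.Nn n ε F) :=
  MeasT.clamp (p.mA_Lo n) (p.mA_Up n ε) hF
lemma mA_hh (n : ℕ) {F : ℝ → R3 → R3 → ℝ} (hF : MeasT F) : MeasT (p.hh n F) :=
  Measurable.sub hF.up (p.mA_U1 n 0)
open Classical in
lemma mA_FatOp (n : ℕ) (τ : ℝ) {g : TF} (hg : MeasT g) : MeasT (p.FatOp n τ g) := by
  unfold MeasT Par.FatOp
  refine measurable_const.mul ?_
  have hS : MeasurableSet {q : (ℝ × R3 × R3) × ℝ |
      q.2 ∈ Ioo (max (p.tn n) (p.h * τ)) (q.1.1 - p.h * τ)} :=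
    (measurableSet_lt measurable_const measurable_snd).inter
      (measurableSet_lt measurable_snd (by fun_prop))
  have h0 : Measurable (fun q : (ℝ × R3 × R3) × ℝ =>
      ∫⁻ ξ in goodV p.δ1 p.V, g q.2 (q.1.2.1 - (q.1.1 - q.2) • q.1.2.2) ξ) :=
    Measurable.lintegral_prod_right' (f := fun z : ((ℝ × R3 × R3) × ℝ) × R3 =>
      g z.1.2 (z.1.1.2.1 - (z.1.1.1 - z.1.2) • z.1.1.2.2) z.2)
      (hg.comp (by fun_prop) (by fun_prop) measurable_snd)
  have h1 : Measurable (fun q : (ℝ × R3 × R3) × ℝ =>
      if ∃ k : Fin 3 → ℤ, ‖q.1.2.1 - (q.1.1 - q.2) • q.1.2.2 - lat k‖ ≤ τ / p.h then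
        ∫⁻ ξ in goodV p.δ1 p.V, g q.2 (q.1.2.1 - (q.1.1 - q.2) • q.1.2.2) ξ else 0) := by
    refine Measurable.ite ?_ h0 measurable_const
    rw [ofPred_exists]
    exact MeasurableSet.iUnion fun k => measurableSet_le (by fun_prop) measurable_const
  have h2 := (h1.indicator hS).lintegral_prod_right' (ν := (volume : Measure ℝ))
  convert h2 using 2 with q
  rw [← lintegral_indicator measurableSet_Ioo]
  rfl
lemma mA_Far (ρ : ℝ) : MeasurableSet {q : ℝ × R3 × R3 | p.Far ρ q.1 q.2.1 q.2.2} := by
  unfold Par.Far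
  simp only [ofPred_forall (ι := Fin 3 → ℤ), ofPred_forall (ι := Fin 4)]
  refine MeasurableSet.iInter fun k => MeasurableSet.iInter fun s => ?_
  exact MeasurableSet.imp (measurableSet_le (by fun_prop) measurable_const)
    (measurableSet_le measurable_const (by fun_prop))
lemma mA_ind (n : ℕ) (s : Fin 4) : Measurable ((p.bulk n s).indicator (1 : ℝ → ℝ)) :=
  measurable_one.indicator (p.measurableSet_bulk n s)
lemma mA_th (n : ℕ) (s : Fin 4) : Continuous (p.th n s) := by
  unfold Par.th
  refine intervalIntegral.continuous_primitive (fun a b => ?_) 0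
  refine (intervalIntegrable_const (c := (17 : ℝ))).mono_fun'
    (Measurable.aestronglyMeasurable (measurable_const.sub (measurable_const.mul (p.mA_ind n s))))
    (Eventually.of_forall fun y => ?_)
  by_cases hy : y ∈ p.bulk n s
  · simp only [indicator_of_mem hy, Pi.one_apply]; norm_num
  · simp only [indicator_of_notMem hy]; norm_num
lemma mA_chi (n : ℕ) : MeasT (p.chi n) := by
  unfold MeasT Par.chi
  have h : ∀ s, Measurable (fun q : ℝ × R3 × R3 => p.th n s (nc q.2.1)) := fun s =>
    (p.mA_th n s).measurable.comp (by fun_prop)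
  have h1 := mA_s1 h (v := fun q => q.2.2) (by fun_prop)
  have h3 := mA_s3 h (v := fun q => q.2.2) (by fun_prop)
  refine Measurable.div (Measurable.mul (by fun_prop) (Measurable.add (Measurable.mul (by fun_prop) h1)
    (Measurable.mul (by fun_prop) h3))) (by fun_prop)
lemma mA_psi0 : Measurable (fun q : ℝ × R3 => p.psi0 q.1 q.2) := by
  unfold Par.psi0
  exact Measurable.ite (measurableSet_le (by fun_prop) (by fun_prop)) (by fun_prop) measurable_const
lemma mA_psi (n : ℕ) : MeasT (p.psi n) := by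
  unfold MeasT Par.psi
  refine Measurable.ite (mA_and (measurableSet_le measurable_const (by fun_prop))
    (measurableSet_le (by fun_prop) measurable_const)) (Measurable.mul ?_ (Measurable.exp (p.mA_chi n)))
    measurable_const
  exact Measurable.comp (g := fun q : ℝ × R3 => p.psi0 q.1 q.2)
    (f := fun q : ℝ × R3 × R3 => (q.1, q.2.1)) p.mA_psi0 (by fun_prop)
lemma mA_lrate (n : ℕ) : MeasT (p.lrate n) := by
  unfold MeasT Par.lrate
  have h : ∀ s, Measurable (fun q : ℝ × R3 × R3 =>
      1 - 16 * (p.bulk n s).indicator (1 : ℝ → ℝ) (nc q.2.1)) := fun s =>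
    measurable_const.sub (measurable_const.mul ((p.mA_ind n s).comp (by fun_prop)))
  have h1 := mA_s1 h (v := fun q => q.2.2) (by fun_prop)
  have h3 := mA_s3 h (v := fun q => q.2.2) (by fun_prop)
  refine Measurable.add (Measurable.add (by fun_prop) (Measurable.ite
    (measurableSet_lt (by fun_prop) (by fun_prop)) (by fun_prop) measurable_const))
    (Measurable.mul (by fun_prop) (Measurable.add (Measurable.mul (by fun_prop) h1)
    (Measurable.mul (by fun_prop) h3)))
end Par

end Crest.Agent.R068
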