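import Crest.Agent.R068.Std
import Crest.Agent.R068.Wgt

/-! Row 68: auxiliary lemmas for `Meas.lean` (periodicity and order). -/

set_option autoImplicit false
open MeasureTheory Set Filter Topology
open scoped ENNReal
open Crest.AnalysisR.VecCalc3 Crest.AnalysisR.PDE.Boltzmann

namespace Crest.Agent.R068

lemma mb_per_tsum (g : R3 → ℝ≥0∞) : IsPeriodic3 fun x => ∑' k : Fin 3 → ℤ, g (x - lat k) := by
  intro x i
  beta_reduce
  rw [← (Equiv.subRight (Pi.single i 1 : Fin 3 → ℤ)).tsum_eq fun k => g (x - lat k)]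
  refine tsum_congr fun k => congrArg g ?_
  ext j
  by_cases h : j = i
  · subst h
    simp [per_lat_apply]
    ring
  · simp [per_lat_apply, h]

lemma mb_per_tot (n : ℕ∞) (f : ℕ → Fin 4 → R3 → ℝ≥0∞) : IsPeriodic3 (Par.tot n f) :=
  mb_per_tsum fun y => ∑' j : ℕ, ∑ s : Fin 4, if (j : ℕ∞) ≤ n then f j s y else 0

lemma mb_tot_mono {n m : ℕ∞} (h : n ≤ m) {f g : ℕ → Fin 4 → R3 → ℝ≥0∞}
    (hfg : ∀ j s y, f j s y ≤ g j s y) (x : R3) : Par.tot n f x ≤ Par.tot m g x := by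
  refine ENNReal.tsum_le_tsum fun k => ENNReal.tsum_le_tsum fun j => Finset.sum_le_sum fun s _ => ?_
  split_ifs with h1 h2
  · exact hfg _ _ _
  · exact absurd (h1.trans h) h2
  · exact zero_le
  · exact le_rfl

lemma mb_sn_shift (c x : R3) (i : Fin 3) : sn (x + EuclideanSpace.single i 1 - c) = sn (x - c) := by
  rw [add_sub_right_comm, sn_periodic]

lemma mb_ofReal_le (a b : ℝ) : ENNReal.ofReal a ≤ ENNReal.ofReal b + ENNReal.ofReal |a - b| :=
  (ENNReal.ofReal_le_ofReal (by linarith [le_abs_self (a - b)])).trans ENNReal.ofReal_add_le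

lemma mb_mu_le (v : R3) : mu v ≤ gs (1 / 8) v := (mu_le_gs v).trans (gs_anti (by norm_num) v)

lemma mb_Cmax_nonneg {p : Par} (h : p.Std) : 0 ≤ p.Cmax :=
  mul_nonneg (zero_le_one.trans (Par.one_le_C0 h)) (Real.exp_pos _).le

end Crest.Agent.R068
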