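import Crest.Agent.R068.Std
import Crest.Agent.R068.Wgt
import Crest.Agent.R068.MeasAuxB
import Crest.Agent.R068.MeasAuxA

/-! Row 68: measurability, periodicity and monotonicity of the barriers. -/

set_option autoImplicit false
open MeasureTheory Set Filter Topology
open scoped ENNReal
open Crest.AnalysisR.VecCalc3 Crest.AnalysisR.PDE.Boltzmann

namespace Crest.Agent.R068

namespace Par
variable (p : Par)
lemma meas_S0 (j : ℕ) (s : Fin 4) : MeasP (p.S0 j s) := p.mA_S0 j s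
lemma meas_Sb (j : ℕ) (s : Fin 4) : MeasT (p.Sb j s) := p.mA_Sb j s
lemma meas_Grc (j : ℕ) (s : Fin 4) : MeasT (p.Grc j s) := p.mA_Grc j s
lemma meas_Bc (j : ℕ) (s : Fin 4) : MeasT (p.Bc j s) := p.mA_Bc j s
lemma meas_Sd (n : ℕ∞) : MeasP (p.Sd n) := p.mA_Sd n
lemma meas_B (n : ℕ∞) : MeasT (p.B n) := p.mA_B n
lemma meas_Gr (n : ℕ∞) : MeasT (p.Gr n) := p.mA_Gr n
lemma meas_W (n : ℕ∞) (a : ℝ) : MeasT (p.W n a) := p.mA_W n a
lemma meas_Wa (n : ℕ∞) : MeasT (fun t x v => p.W n (p.aa t) t x v) := p.mA_Wa n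
lemma meas_AA (ε : ℝ) : Measurable (p.AA ε) := p.mA_AA ε
lemma meas_Om : Measurable (fun q : ℝ × R3 => p.Om q.1 q.2) := p.mA_Om
lemma meas_U1 (n : ℕ∞) (ε : ℝ) : MeasT (p.U1 n ε) := p.mA_U1 n ε
lemma meas_amb : MeasP p.amb := p.mA_amb
lemma meas_seed (n : ℕ) (a : ℝ) : MeasP (p.seed n a) := p.mA_seed n a
lemma meas_f0 (n : ℕ) (a : ℝ) : MeasP (p.f0 n a) := p.mA_f0 n a
lemma meas_F0 : MeasP p.F0 := p.mA_F0
lemma meas_hol : MeasT p.hol := p.mA_hol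
lemma meas_Kh (n : ℕ∞) : MeasT (p.Kh n) := p.mA_Kh n
lemma meas_Xi (n : ℕ∞) : MeasT (p.Xi n) := p.mA_Xi n
lemma meas_Z (n : ℕ∞) : MeasT (p.Z n) := p.mA_Z n
lemma meas_Up (n : ℕ∞) (ε : ℝ) : MeasT (p.Up n ε) := p.mA_Up n ε
lemma meas_Lo (n : ℕ∞) : MeasT (p.Lo n) := p.mA_Lo n
lemma meas_Ust : MeasT p.Ust := p.mA_Ust
lemma meas_Nn (n : ℕ) (ε : ℝ) {F : ℝ → R3 → R3 → ℝ} (hF : MeasT F) : MeasT (p.Nn n ε F) := p.mA_Nn n ε hF
lemma meas_hh (n : ℕ) {F : ℝ → R3 → R3 → ℝ} (hF : MeasT F) : MeasT (p.hh n F) := p.mA_hh n hF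
lemma meas_FatOp (n : ℕ) (τ : ℝ) {g : TF} (hg : MeasT g) : MeasT (p.FatOp n τ g) := p.mA_FatOp n τ hg
lemma meas_Far (ρ : ℝ) : MeasurableSet {q : ℝ × R3 × R3 | p.Far ρ q.1 q.2.1 q.2.2} := p.mA_Far ρ
lemma continuous_th (n : ℕ) (s : Fin 4) : Continuous (p.th n s) := p.mA_th n s
lemma meas_chi (n : ℕ) : MeasT (p.chi n) := p.mA_chi n
lemma meas_psi0 : Measurable (fun q : ℝ × R3 => p.psi0 q.1 q.2) := p.mA_psi0
lemma meas_psi (n : ℕ) : MeasT (p.psi n) := p.mA_psi n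
lemma meas_lrate (n : ℕ) : MeasT (p.lrate n) := p.mA_lrate n
lemma per_Sd (n : ℕ∞) : PerP (p.Sd n) := fun _ => mb_per_tot _ _
lemma per_B (n : ℕ∞) : PerT (p.B n) := fun _ _ => mb_per_tot _ _
lemma per_Gr (n : ℕ∞) : PerT (p.Gr n) := fun _ _ => mb_per_tot _ _
lemma per_W (n : ℕ∞) (a : ℝ) : PerT (p.W n a) := fun t v x i =>
  congrArg (fun y => gs a v * (1 + y)) (per_Yf (p.etaS n) t v x i)
lemma per_U1 (n : ℕ∞) (ε : ℝ) : PerT (p.U1 n ε) := fun t v x i => by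
  have h1 := p.per_B n t v x i
  have h2 := p.per_W n (p.aa t) t v x i
  simp only [U1, Om] at h1 h2 ⊢
  rw [h1, h2, sn_periodic]
lemma per_amb : PerP p.amb := fun v x i => by
  simp only [amb, sn_periodic x i]
lemma per_seed (n : ℕ) (a : ℝ) : PerP (p.seed n a) := fun v x i => by
  have := mb_per_tsum (fun y => if ‖y‖ ≤ p.tn n ∧ ‖v - (3:ℝ) • fr 1‖ ≤ 1 then ENNReal.ofReal a else 0)
    (x + p.tn n • v) i
  simpa only [seed, add_right_comm x _ (p.tn n • v)] using this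
lemma per_f0 (n : ℕ) (a : ℝ) : PerP (p.f0 n a) := fun v x i => by
  have h1 := p.per_amb v x i
  have h2 := p.per_Sd n v x i
  have h3 := p.per_seed n a v x i
  simp only [f0] at h1 h2 h3 ⊢
  rw [h1, h2, h3]
lemma per_F0 : PerP p.F0 := fun v x i => by
  have h1 := p.per_amb v x i
  have h2 := p.per_Sd ⊤ v x i
  simp only [F0] at h1 h2 ⊢
  rw [h1, h2]
lemma per_hol : PerT p.hol := fun t v x i => by
  simp only [hol, mb_sn_shift]
lemma per_Xi (n : ℕ∞) : PerT (p.Xi n) := fun t v x i => by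
  have h1 := p.per_B n t v x i
  have h2 := p.per_W n (1 / 8) t v x i
  have h3 := p.per_hol t v x i
  simp only [Xi, Kh] at h1 h2 h3 ⊢
  rw [h1, h2, h3]
lemma per_Z (n : ℕ∞) : PerT (p.Z n) := fun t v x i =>
  congrArg (fun y => y + ENNReal.ofReal p.δ * gs (1 / 8) v) (p.per_Xi n t v x i)
lemma per_Up (n : ℕ∞) (ε : ℝ) : PerT (p.Up n ε) := fun t v x i => by
  have h1 := p.per_U1 n ε t v x i
  have h2 := p.per_Z n t v x i
  simp only [Up] at h1 h2 ⊢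
  rw [h1, h2]
lemma per_Lo (n : ℕ∞) : PerT (p.Lo n) := fun t v x i => by
  have h2 := p.per_Z n t v x i
  simp only [Lo] at h2 ⊢
  rw [h2]
lemma per_Ust : PerT p.Ust := fun t v x i => by
  have h1 := p.per_B ⊤ t v x i
  have h2 := p.per_W ⊤ (1 / 8) t v x i
  simp only [Ust] at h1 h2 ⊢
  rw [h1, h2]
lemma per_hh (n : ℕ) {F : ℝ → R3 → R3 → ℝ} (hF : PerT F) : PerT (p.hh n F) := fun t v x i => by
  have h1 := hF t v x i
  have h2 := p.per_U1 n 0 t v x i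
  simp only [hh, up] at h1 h2 ⊢
  rw [h1, h2]
lemma B_mono {n m : ℕ∞} (h : n ≤ m) (t : ℝ) (x v : R3) : p.B n t x v ≤ p.B m t x v :=
  mb_tot_mono h (fun _ _ _ => le_rfl) x
lemma Sd_mono {n m : ℕ∞} (h : n ≤ m) (x v : R3) : p.Sd n x v ≤ p.Sd m x v :=
  mb_tot_mono h (fun _ _ _ => le_rfl) x
lemma Sb_le_Sd {n : ℕ∞} {j : ℕ} (hj : (j : ℕ∞) ≤ n) (s : Fin 4) (t : ℝ) (x v : R3) :
    p.Sb j s t x v ≤ p.Sd n (x - t • v) v := by
  refine le_trans ?_ (ENNReal.le_tsum (0 : Fin 3 → ℤ))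
  refine le_trans ?_ (ENNReal.le_tsum j)
  refine le_trans ?_ (Finset.single_le_sum (fun _ _ => zero_le) (Finset.mem_univ s))
  have h0 : lat 0 = 0 := by ext i; simp [per_lat_apply]
  rw [if_pos hj, h0, sub_zero]
  exact le_rfl
variable {p}
lemma Sd_le_B (h : p.Std) (n : ℕ∞) (x v : R3) : p.Sd n x v ≤ p.B n 0 x v := by
  refine mb_tot_mono le_rfl (fun j s y => ?_) x
  rw [Bc, if_pos (zero_le_one.trans (one_le_TT h j)), Sb, zero_smul, sub_zero]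
  exact le_self_add
lemma U1_split (h : p.Std) (n : ℕ∞) {ε t : ℝ} (hε : 0 ≤ ε) (ht : 0 ≤ t) (x v : R3) :
    p.U1 n ε t x v = p.U1 n 0 t x v + ENNReal.ofReal (p.AA ε t) * p.W n (p.aa t) t x v := by
  simp only [U1]
  rw [AA_zero, zero_add, ENNReal.ofReal_add (AA_nonneg h hε ht) (Om_nonneg h ht x)]
  ring
lemma W_le_top (h : p.Std) (n : ℕ∞) {a : ℝ} (ha : 1 / 8 ≤ a) (t : ℝ) (x v : R3) :
    p.W n a t x v ≤ p.W ⊤ (1 / 8) t x v := by
  refine mul_le_mul' (gs_anti ha v) (add_le_add le_rfl (Yf_anti ?_ t x v))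
  rw [etaS, if_pos rfl]
  exact etaS_nonneg h n
lemma Up_le_Ust (h : p.Std) (n : ℕ∞) {ε t : ℝ} (hε : 0 ≤ ε) (hε' : ε ≤ p.eps) (ht : 0 ≤ t) (x v : R3) :
    p.Up n ε t x v ≤ p.Ust t x v := by
  have c0 := one_le_C0 h
  have cm := mb_Cmax_nonneg h
  have hB := p.B_mono (le_top : n ≤ ⊤) t x v
  simp only [Up, Ust]
  split_ifs with h2
  · refine add_le_add hB (mul_le_mul' (ENNReal.ofReal_le_ofReal ?_) (W_le_top h n ?_ t x v))
    · linarith [AA_Om_le h hε hε' ht h2 x]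
    · linarith [(aa_mem h ht h2).1]
  · have h3 := (not_le.1 h2).le
    have hg : gs (1 / 8) v ≤ p.W ⊤ (1 / 8) t x v := gs_le_Wf _ _ _ _ _
    have hm := (mb_mu_le v).trans hg
    have hD : ENNReal.ofReal (p.Dm t) ≤ 1 := ENNReal.ofReal_le_one.2 (p.Dm_le_one h3)
    have hδ : ENNReal.ofReal p.δ ≤ 1 := ENNReal.ofReal_le_one.2 (h.δ_le.trans (by norm_num))
    have hh : p.hol t x v ≤ p.W ⊤ (1 / 8) t x v := by
      simp only [hol]
      split_ifs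
      · exact hm
      · exact zero_le
    have hK : p.Kh n t x v ≤ ENNReal.ofReal p.Cmax * p.W ⊤ (1 / 8) t x v := by
      simp only [Kh]
      split_ifs
      · refine mul_le_mul' (ENNReal.ofReal_le_ofReal ((CK_le h h3).trans ?_)) (W_le_top h n le_rfl t x v)
        exact mul_le_of_le_one_right cm (Real.exp_le_one_iff.2 (by linarith))
      · exact zero_le
    calc mu v + p.Z n t x v ≤ p.W ⊤ (1 / 8) t x v + (1 * p.B ⊤ t x v +
          ENNReal.ofReal p.Cmax * p.W ⊤ (1 / 8) t x v + 1 * p.W ⊤ (1 / 8) t x v +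
          1 * p.W ⊤ (1 / 8) t x v) :=
          add_le_add hm (add_le_add (add_le_add (add_le_add (mul_le_mul' hD hB) hK)
            (mul_le_mul' hD hh)) (mul_le_mul' hδ hg))
      _ = p.B ⊤ t x v + ENNReal.ofReal (p.Cmax + 3) * p.W ⊤ (1 / 8) t x v := by
          rw [ENNReal.ofReal_add cm (by norm_num), ENNReal.ofReal_ofNat]
          ring
      _ ≤ _ := add_le_add le_rfl (mul_le_mul' (ENNReal.ofReal_le_ofReal (by linarith)) le_rfl)
lemma F0_le_Ust (h : p.Std) (x v : R3) : ENNReal.ofReal (p.F0 x v) ≤ p.Ust 0 x v := by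
  have c0 := one_le_C0 h
  have cm := mb_Cmax_nonneg h
  refine ENNReal.ofReal_toReal_le.trans ?_
  rw [add_comm]
  refine add_le_add (Sd_le_B h ⊤ x v) ?_
  have hm : p.amb x v ≤ p.W ⊤ (1 / 8) 0 x v := by
    simp only [amb]
    split_ifs
    · exact (mb_mu_le v).trans (gs_le_Wf _ _ _ _ _)
    · exact zero_le
  exact hm.trans (le_mul_of_one_le_left zero_le (ENNReal.one_le_ofReal.2 (by linarith)))
lemma seed_le (h : p.Std) {n : ℕ} (hn : p.tn n ≤ p.t0) (a : ℝ) (x v : R3) :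
    p.seed n a x v ≤ ENNReal.ofReal a := by
  have h1 : p.tn n + p.tn n < 1 := by
    have := t0_le_r0 h
    have := (t0_pos h).le
    have := h.V_ge
    have := h.R_ge
    have := h.r0_κ
    have := h.κ_le
    have := h.t2_le
    nlinarith
  by_cases hk : ∃ k : Fin 3 → ℤ, ‖x + p.tn n • v - lat k‖ ≤ p.tn n
  · obtain ⟨k, hk⟩ := hk
    rw [seed, tsum_eq_single k fun l hl => if_neg fun h2 => hl (lat_unique h2.1 hk h1)]
    split_ifs
    · exact le_rfl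
    · exact zero_le
  · rw [seed, ENNReal.tsum_eq_zero.2 fun k => if_neg fun h2 => hk ⟨k, h2.1⟩]
    exact zero_le
lemma seed_supp {n : ℕ} {a : ℝ} {x v : R3} (h0 : p.seed n a x v ≠ 0) : ‖v‖ ≤ 4 := by
  by_contra hv
  refine h0 (ENNReal.tsum_eq_zero.2 fun k => if_neg fun h2 => hv ?_)
  have := norm_add_le (v - (3:ℝ) • fr 1) ((3:ℝ) • fr 1)
  rw [sub_add_cancel, norm_smul, norm_fr, Real.norm_eq_abs, abs_of_pos (by norm_num : (0:ℝ) < 3)] at this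
  linarith [h2.2]
lemma seed_le_gs (h : p.Std) {n : ℕ} (hn : p.tn n ≤ p.t0) (a : ℝ) {b : ℝ} (hb0 : 0 ≤ b) (hb : b ≤ 1 / 4)
    (x v : R3) : p.seed n a x v ≤ ENNReal.ofReal (55 * a) * gs b v := by
  by_cases h0 : p.seed n a x v = 0
  · rw [h0]
    exact zero_le
  refine (seed_le h hn a x v).trans ?_
  rcases le_total a 0 with ha | ha
  · rw [ENNReal.ofReal_of_nonpos ha]
    exact zero_le
  rw [gs, ← ENNReal.ofReal_mul (by positivity)]
  refine ENNReal.ofReal_le_ofReal ?_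
  have h1 := pow_le_pow_left₀ (norm_nonneg v) (seed_supp h0) 2
  have h2 : b * ‖v‖ ^ 2 ≤ 4 := by nlinarith [sq_nonneg ‖v‖]
  have h3 : Real.exp (b * ‖v‖ ^ 2) ≤ 55 := by
    refine (Real.exp_le_exp.2 h2).trans ?_
    have := pow_le_pow_left₀ (Real.exp_pos 1).le Real.exp_one_lt_d9.le 4
    rw [← Real.exp_nat_mul] at this
    norm_num at this ⊢
    linarith
  rw [Real.exp_neg, ← div_eq_mul_inv, le_div_iff₀ (Real.exp_pos _)]
  nlinarith
lemma seed_lip (h : p.Std) {n : ℕ} (hn : p.tn n ≤ p.t0) (a a' : ℝ) (x v : R3) :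
    p.seed n a x v ≤ p.seed n a' x v + ENNReal.ofReal (55 * |a - a'|) * gs (1 / 16) v := by
  refine le_trans ?_ (add_le_add le_rfl (seed_le_gs h hn |a - a'| (by norm_num) (by norm_num) x v))
  simp only [seed]
  rw [← ENNReal.tsum_add]
  refine ENNReal.tsum_le_tsum fun k => ?_
  split_ifs
  · exact mb_ofReal_le a a'
  · exact zero_le
/-- during the first stage the clamp is `min F U1` -/
lemma Nn_eq1 (n : ℕ) (ε : ℝ) (F : ℝ → R3 → R3 → ℝ) {t : ℝ} (ht : t ≤ p.t2) (x v : R3) :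
    p.Nn n ε F t x v = min (up F t x v) (p.U1 n ε t x v) := by
  simp only [Nn, clamp, Lo, Up, if_pos ht, up]
  exact max_eq_right zero_le
lemma Nn_le_Up (n : ℕ) (ε : ℝ) (F : ℝ → R3 → R3 → ℝ) (t : ℝ) (x v : R3) :
    p.Nn n ε F t x v ≤ p.Up n ε t x v := by
  refine max_le ?_ (min_le_right _ _)
  simp only [Lo, Up]
  split_ifs
  · exact zero_le
  · exact tsub_le_self.trans le_self_add
lemma Nn_eq_of_In1 {n : ℕ} {ε : ℝ} {F : ℝ → R3 → R3 → ℝ} (hin : p.In1 n ε F) {t : ℝ}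
    (ht : t ∈ Icc (p.tn n) p.t2) : p.Nn n ε F t = up F t := by
  funext x v
  rw [Nn_eq1 n ε F ht.2, min_eq_left (hin t ht x v)]
lemma Nn_eq_late {n : ℕ} {ε : ℝ} {F : ℝ → R3 → R3 → ℝ} {t : ℝ} (ht : p.t2 < t) (h0 : ∀ x v, 0 ≤ F t x v)
    (hZ : ∀ x v, ENNReal.ofReal |F t x v - maxwellian v| ≤ p.Z n t x v) : p.Nn n ε F t = up F t := by
  funext x v
  simp only [Nn, clamp, Lo, Up, if_neg (not_le.2 ht), up, mu]
  rw [min_eq_left ((mb_ofReal_le _ (maxwellian v)).trans (add_le_add le_rfl (hZ x v))), max_eq_right]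
  refine tsub_le_iff_right.2 ((mb_ofReal_le _ (F t x v)).trans (add_le_add le_rfl ?_))
  rw [abs_sub_comm]
  exact hZ x v
end Par

end Crest.Agent.R068
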