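import Crest.Agent.R068.OneD
import Crest.Agent.R068.Gauss
import Crest.Agent.R068.Per

/-! Row 68: consequences of the exponential mild form. -/

set_option autoImplicit false
open MeasureTheory Set Filter Topology
open scoped ENNReal
open Crest.AnalysisR.VecCalc3 Crest.AnalysisR.PDE.Boltzmann

namespace Crest.Agent.R068

lemma mild_char_sub (x v : R3) (t s q : ℝ) : x - (t - s) • v - (s - q) • v = x - (t - q) • v := by
  rw [sub_sub, ← add_smul]
  congr 2
  ring

lemma mild_lintegral_split (g : ℝ → ℝ≥0∞) {r s t : ℝ} (hrs : r ≤ s) (hst : s ≤ t) :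
    ∫⁻ q in Ioo r t, g q = (∫⁻ q in Ioo r s, g q) + ∫⁻ q in Ioo s t, g q := by
  rw [setLIntegral_congr (Ioo_ae_eq_Ioc (a := r) (b := t)),
    setLIntegral_congr (Ioo_ae_eq_Ioc (a := r) (b := s)),
    setLIntegral_congr (Ioo_ae_eq_Ioc (a := s) (b := t)), ← Ioc_union_Ioc_eq_Ioc hrs hst,
    lintegral_union measurableSet_Ioc (Ioc_disjoint_Ioc_of_le le_rfl)]

lemma mild_meas_freq {N : TF} (hN : MeasT N) (t : ℝ) (x v : R3) :
    Measurable fun r : ℝ => freq (N r (x - (t - r) • v)) v :=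
  hN.freq.comp measurable_id
    (measurable_const.sub ((measurable_const.sub measurable_id).smul_const v)) measurable_const

lemma mild_lintegral_ne_top {g : ℝ → ℝ≥0∞} {a b : ℝ} {K : ℝ≥0∞} (hK : K ≠ ⊤)
    (h : ∀ r ∈ Ioo a b, g r ≤ K) : (∫⁻ r in Ioo a b, g r) ≠ ⊤ := by
  refine ne_top_of_le_ne_top ?_ (setLIntegral_mono' measurableSet_Ioo h)
  rw [setLIntegral_const, Real.volume_Ioo]
  exact ENNReal.mul_ne_top hK ENNReal.ofReal_ne_top

lemma mild_freq_bound {n : R3 → ℝ≥0∞} {C : ℝ≥0∞} (h : ∀ u, n u ≤ C * gs (1 / 8) u) (v : R3) :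
    freq n v ≤ C * ENNReal.ofReal (10 ^ 6 * (1 + ‖v‖)) := by
  refine (freq_mono h v).trans ?_
  rw [freq_const_mul (measurable_gs _)]
  exact mul_le_mul_right (freq_gs_le (by norm_num) v) _

lemma mild_freq_bound_ne_top {C : ℝ≥0∞} (hC : C ≠ ⊤) (v : R3) :
    C * ENNReal.ofReal (10 ^ 6 * (1 + ‖v‖)) ≠ ⊤ := ENNReal.mul_ne_top hC ENNReal.ofReal_ne_top

lemma mild_gain_bound {n : R3 → ℝ≥0∞} {C : ℝ≥0∞} (h : ∀ u, n u ≤ C * gs (1 / 8) u) (v : R3) :
    gain n n v ≤ C * (C * (ENNReal.ofReal (10 ^ 6 * (1 + ‖v‖)) * gs (1 / 8) v)) := by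
  refine (gain_mono h h v).trans ?_
  rw [gain_const_mul_left (measurable_gs _) ((measurable_gs _).const_mul C),
    gain_const_mul_right (measurable_gs _) (measurable_gs _)]
  exact mul_le_mul_right (mul_le_mul_right (gain_gs_self_le (by norm_num) v) _) _

lemma mild_gain_bound_ne_top {C : ℝ≥0∞} (hC : C ≠ ⊤) (v : R3) :
    C * (C * (ENNReal.ofReal (10 ^ 6 * (1 + ‖v‖)) * gs (1 / 8) v)) ≠ ⊤ :=
  ENNReal.mul_ne_top hC (ENNReal.mul_ne_top hC
    (ENNReal.mul_ne_top ENNReal.ofReal_ne_top (gs_ne_top _ _)))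

lemma mild_ofReal_le_add_abs (a b : ℝ) :
    ENNReal.ofReal a ≤ ENNReal.ofReal b + ENNReal.ofReal |a - b| := by
  refine le_trans (ENNReal.ofReal_le_ofReal ?_) ENNReal.ofReal_add_le
  linarith [le_abs_self (a - b)]

lemma mild_ofReal_abs_le {a b : ℝ} (ha : 0 ≤ a) (hb : 0 ≤ b) {R : ℝ≥0∞}
    (h1 : ENNReal.ofReal a ≤ ENNReal.ofReal b + R) (h2 : ENNReal.ofReal b ≤ ENNReal.ofReal a + R) :
    ENNReal.ofReal |a - b| ≤ R := by
  rcases le_total b a with h | h
  · rw [abs_of_nonneg (sub_nonneg.2 h), ENNReal.ofReal_sub _ hb]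
    exact tsub_le_iff_left.2 h1
  · rw [abs_sub_comm, abs_of_nonneg (sub_nonneg.2 h), ENNReal.ofReal_sub _ ha]
    exact tsub_le_iff_left.2 h2

lemma mild_gain_upper {n z : R3 → ℝ≥0∞} (hn : Measurable n) (hz : Measurable z)
    (h1 : ∀ u, n u ≤ mu u + z u) (h2 : ∀ u, mu u ≤ n u + z u) (v : R3) :
    gain n n v ≤ mu v * freq n v + (Kop z v + gain z z v) := by
  have a1 : freq mu v ≤ freq n v + freq z v := by
    rw [← freq_add hn hz]
    exact freq_mono h2 v
  calc gain n n v ≤ gain (fun u => mu u + z u) (fun u => mu u + z u) v := gain_mono h1 h1 v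
    _ = mu v * freq mu v + 2 * gain mu z v + gain z z v := by
      rw [gain_add_add measurable_mu hz, gain_mu_mu]
    _ ≤ mu v * (freq n v + freq z v) + 2 * gain mu z v + gain z z v := by gcongr
    _ = _ := by unfold Kop; ring

lemma mild_gain_mu_le {n z : R3 → ℝ≥0∞} (hn : Measurable n) (hz : Measurable z)
    (h2 : ∀ u, mu u ≤ n u + z u) (v : R3) :
    gain mu mu v ≤ gain n n v + 2 * gain mu z v := by
  have ha : Measurable fun u => min (n u) (mu u) := hn.min measurable_mu
  have hle : ∀ u, mu u ≤ min (n u) (mu u) + z u := fun u => by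
    rcases le_total (n u) (mu u) with h | h
    · rw [min_eq_left h]; exact h2 u
    · rw [min_eq_right h]; exact le_self_add
  calc gain mu mu v ≤ gain (fun u => min (n u) (mu u) + z u) mu v := gain_mono hle (fun _ => le_rfl) v
    _ = gain (fun u => min (n u) (mu u)) mu v + gain z mu v := gain_add_left ha hz measurable_mu v
    _ ≤ gain (fun u => min (n u) (mu u)) (fun u => n u + z u) v + gain z mu v :=
      add_le_add (gain_mono (fun _ => le_rfl) h2 v) le_rfl
    _ = gain (fun u => min (n u) (mu u)) n v + gain (fun u => min (n u) (mu u)) z v + gain mu z v := by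
      rw [gain_add_right ha hn hz, gain_comm hz measurable_mu]
    _ ≤ gain n n v + gain mu z v + gain mu z v :=
      add_le_add (add_le_add (gain_mono (fun _ => min_le_left _ _) (fun _ => le_rfl) v)
        (gain_mono (fun _ => min_le_right _ _) (fun _ => le_rfl) v)) le_rfl
    _ = _ := by ring

lemma mild_gain_lower {n z : R3 → ℝ≥0∞} (hn : Measurable n) (hz : Measurable z)
    (h1 : ∀ u, n u ≤ mu u + z u) (h2 : ∀ u, mu u ≤ n u + z u) (v : R3) :
    mu v * freq n v ≤ gain n n v + (Kop z v + gain z z v) := by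
  have a1 : freq n v ≤ freq mu v + freq z v := by
    rw [← freq_add measurable_mu hz]
    exact freq_mono h1 v
  calc mu v * freq n v ≤ mu v * (freq mu v + freq z v) := by gcongr
    _ = gain mu mu v + mu v * freq z v := by rw [gain_mu_mu, mul_add]
    _ ≤ gain n n v + 2 * gain mu z v + mu v * freq z v :=
      add_le_add (mild_gain_mu_le hn hz h2 v) le_rfl
    _ = gain n n v + Kop z v := by unfold Kop; ring
    _ ≤ _ := add_le_add le_rfl le_self_add

lemma ExpMild.le {T₀ : ℝ} {f₀ : R3 → R3 → ℝ≥0∞} {N : TF} {F : ℝ → R3 → R3 → ℝ} (h : ExpMild T₀ f₀ N F)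
    (t : ℝ) (x v : R3) : up F t x v ≤ f₀ (x - t • v) v +
      ∫⁻ s in Ioo T₀ t, gain (N s (x - (t - s) • v)) (N s (x - (t - s) • v)) v := by
  show ENNReal.ofReal (F t x v) ≤ _
  rw [h t x v]
  refine add_le_add ?_ (lintegral_mono fun s => ?_)
  · exact mul_le_of_le_one_left' (damp_le_one _ _ _ _ _)
  · exact mul_le_of_le_one_left' (damp_le_one _ _ _ _ _)
lemma ExpMild.ge {T₀ : ℝ} {f₀ : R3 → R3 → ℝ≥0∞} {N : TF} {F : ℝ → R3 → R3 → ℝ} (h : ExpMild T₀ f₀ N F)
    (t : ℝ) (x v : R3) : damp N T₀ t x v * f₀ (x - t • v) v ≤ up F t x v := by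
  show _ ≤ ENNReal.ofReal (F t x v)
  rw [h t x v]
  exact le_self_add
lemma ExpMild.early {T₀ : ℝ} {f₀ : R3 → R3 → ℝ≥0∞} {N : TF} {F : ℝ → R3 → R3 → ℝ}
    (h : ExpMild T₀ f₀ N F) {t : ℝ} (ht : t ≤ T₀) (x v : R3) : up F t x v = f₀ (x - t • v) v := by
  show ENNReal.ofReal (F t x v) = _
  rw [h t x v, damp_of_le N ht, Ioo_eq_empty (not_lt.2 ht)]
  simp
/-- restarting at a later time -/
lemma ExpMild.restart {T₀ : ℝ} {f₀ : R3 → R3 → ℝ≥0∞} {N : TF} {F : ℝ → R3 → R3 → ℝ}
    (h : ExpMild T₀ f₀ N F) (hN : MeasT N) {s t : ℝ} (hs : T₀ ≤ s) (hst : s ≤ t) (x v : R3) :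
    up F t x v = damp N s t x v * up F s (x - (t - s) • v) v +
      ∫⁻ r in Ioo s t, damp N r t x v * gain (N r (x - (t - r) • v)) (N r (x - (t - r) • v)) v := by
  show ENNReal.ofReal (F t x v) = _ * ENNReal.ofReal (F s (x - (t - s) • v) v) + _
  rw [h t x v, h s (x - (t - s) • v) v]
  have h0 : x - (t - s) • v - s • v = x - t • v := by
    rw [sub_sub, ← add_smul]
    congr 2
    ring
  simp only [mild_char_sub, h0]
  rw [mild_lintegral_split _ hs hst, mul_add, ← mul_assoc, ← damp_mul hN hs hst, add_assoc,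
    ← lintegral_const_mul' _ _ (ne_top_of_le_ne_top ENNReal.one_ne_top (damp_le_one N s t x v))]
  congr 2
  refine setLIntegral_congr_fun measurableSet_Ioo fun r hr => ?_
  rw [← mul_assoc, ← damp_mul hN hr.2.le hst]
/-- only the values of `N` at times in `(T₀, T)` matter up to time `T` -/
lemma ExpMild.congr_eq {T₀ T : ℝ} {f₀ : R3 → R3 → ℝ≥0∞} {N N' : TF} {F : ℝ → R3 → R3 → ℝ}
    (h : ExpMild T₀ f₀ N F) (hNN : ∀ s ∈ Ioo T₀ T, N s = N' s) {t : ℝ} (ht : t ≤ T) (x v : R3) :
    up F t x v = damp N' T₀ t x v * f₀ (x - t • v) v +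
      ∫⁻ s in Ioo T₀ t, damp N' s t x v * gain (N' s (x - (t - s) • v)) (N' s (x - (t - s) • v)) v := by
  show ENNReal.ofReal (F t x v) = _
  have hd : ∀ s, T₀ ≤ s → damp N s t x v = damp N' s t x v := fun s hs => by
    unfold damp
    congr 1
    refine setLIntegral_congr_fun measurableSet_Ioo fun r hr => ?_
    rw [hNN r ⟨hs.trans_lt hr.1, hr.2.trans_le ht⟩]
  rw [h t x v, hd T₀ le_rfl]
  congr 1
  refine setLIntegral_congr_fun measurableSet_Ioo fun r hr => ?_
  rw [hd r hr.1.le, hNN r ⟨hr.1, hr.2.trans_le ht⟩]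
/-- loss against gain: `∫ damp · ν[b] ≤ 1` for `b ≤ N` -/
lemma lintegral_damp_freq_le {N b : TF} (hN : MeasT N) (hb : MeasT b) {s t : ℝ}
    (hle : ∀ r ∈ Ioo s t, ∀ y u, b r y u ≤ N r y u) (x v : R3) :
    ∫⁻ r in Ioo s t, damp N r t x v * freq (b r (x - (t - r) • v)) v ≤ 1 := by
  have h := int_damp_le (mild_meas_freq hN t x v) s t
  refine le_trans ?_ (le_add_self.trans h)
  refine setLIntegral_mono' measurableSet_Ioo fun r hr => ?_
  exact mul_le_mul_right (freq_mono (hle r hr _) v) _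
lemma damp_le_Ed {N : TF} {s t : ℝ} (hst : s ≤ t) {x v : R3}
    (h : ∀ r ∈ Ioo s t, ENNReal.ofReal (1 + ‖v‖) ≤ freq (N r (x - (t - r) • v)) v) :
    damp N s t x v ≤ Ed s t v := by
  unfold damp Ed
  have h0 : 0 ≤ 1 + ‖v‖ := by positivity
  rw [← eneg_ofReal (mul_nonneg h0 (sub_nonneg.2 hst))]
  refine eneg_anti ?_
  calc ENNReal.ofReal ((1 + ‖v‖) * (t - s)) = ∫⁻ _ in Ioo s t, ENNReal.ofReal (1 + ‖v‖) := by
        rw [setLIntegral_const, Real.volume_Ioo, ENNReal.ofReal_mul h0]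
    _ ≤ _ := setLIntegral_mono' measurableSet_Ioo h
/-- exponential form with inactive clamp gives the additive form (along every characteristic) -/
lemma ExpMild.mild {T₀ T : ℝ} (hT₀ : 0 ≤ T₀) {f₀ : R3 → R3 → ℝ≥0∞} {N : TF} {F : ℝ → R3 → R3 → ℝ}
    (h : ExpMild T₀ f₀ N F) (hF : Dens F) (hN : MeasT N) (hf₀ : ∀ x v, f₀ x v ≠ ⊤)
    (heq : ∀ s ∈ Ioo T₀ T, N s = up F s) {C : ℝ≥0∞} (hC : C ≠ ⊤)
    (hb : ∀ s ∈ Ioo T₀ T, ∀ x v, N s x v ≤ C * gs (1 / 8) v) : Mild T₀ T F := by
  refine Eventually.of_forall fun q => ?_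
  obtain ⟨x, v⟩ := q
  simp only
  have hc : ∀ t r : ℝ, x + t • v - (t - r) • v = x + r • v := fun t r => by
    rw [add_sub_assoc, ← sub_smul]
    congr 2
    ring
  have hc0 : ∀ t : ℝ, x + t • v - t • v = x := fun t => add_sub_cancel_right _ _
  have hchar : Measurable fun r : ℝ => x + r • v :=
    measurable_const.add (measurable_id.smul_const v)
  have hG : Measurable fun r : ℝ => gain (N r (x + r • v)) (N r (x + r • v)) v :=
    (hN.gain hN).comp measurable_id hchar measurable_const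
  have hν : Measurable fun r : ℝ => freq (N r (x + r • v)) v :=
    hN.freq.comp measurable_id hchar measurable_const
  have hGf : (∫⁻ r in Ioo T₀ T, gain (N r (x + r • v)) (N r (x + r • v)) v) ≠ ⊤ :=
    mild_lintegral_ne_top (mild_gain_bound_ne_top hC v) fun r hr => mild_gain_bound (hb r hr _) v
  have hνf : (∫⁻ r in Ioo T₀ T, freq (N r (x + r • v)) v) ≠ ⊤ :=
    mild_lintegral_ne_top (mild_freq_bound_ne_top hC v) fun r hr => mild_freq_bound (hb r hr _) v
  have key := exp_to_add hG hν hGf hνf (hf₀ x v) (f := fun t => F t (x + t • v) v)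
    (fun t _ => hF.nonneg _ _ _) (fun t _ => by
      have := h t (x + t • v) v
      unfold damp at this
      simp only [hc, hc0] at this
      exact this)
  have hR : ∀ s ∈ Ioo T₀ T, (gain (N s (x + s • v)) (N s (x + s • v)) v).toReal -
      (ENNReal.ofReal (F s (x + s • v) v) * freq (N s (x + s • v)) v).toReal =
      Rr F s (x + s • v) v := fun s hs => by
    unfold Rr
    rw [collGain_eq (hF.nonneg s _), collLoss_eq (hF.meas.slice s _) (hF.nonneg s _), heq s hs]
    rfl
  have hearly : ∀ t, t ≤ T₀ → F t (x + t • v) v = (f₀ x v).toReal := fun t ht => by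
    have := h.early ht (x + t • v) v
    rw [hc0] at this
    rw [← this]
    exact (ENNReal.toReal_ofReal (hF.nonneg _ _ _)).symm
  have hzero : F 0 x v = (f₀ x v).toReal := by
    have := hearly 0 hT₀
    simpa using this
  refine ⟨key.1.congr_fun hR measurableSet_Ioo, fun t ht => ?_⟩
  rcases le_total t T₀ with htT | htT
  · rw [hearly t htT, hzero, Ioo_eq_empty (not_lt.2 htT)]
    simp
  · rw [key.2 t ⟨htT, ht.2⟩, hzero]
    congr 1
    exact setIntegral_congr_fun measurableSet_Ioo fun s hs => hR s ⟨hs.1, hs.2.trans_le ht.2⟩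
/-- deviation from the Maxwellian -/
lemma ExpMild.dev {T₀ : ℝ} {f₀ : R3 → R3 → ℝ≥0∞} {N Z : TF} {F : ℝ → R3 → R3 → ℝ}
    (h : ExpMild T₀ f₀ N F) (hF : Dens F) (hN : MeasT N) (hZ : MeasT Z) {s t : ℝ} (hs : T₀ ≤ s)
    (hst : s ≤ t) {C : ℝ≥0∞} (hC : C ≠ ⊤) (hb : ∀ r ∈ Ioo s t, ∀ x v, N r x v ≤ C * gs (1 / 8) v)
    (h1 : ∀ r ∈ Ioo s t, ∀ x v, N r x v ≤ mu v + Z r x v)
    (h2 : ∀ r ∈ Ioo s t, ∀ x v, mu v ≤ N r x v + Z r x v) (x v : R3) :
    ENNReal.ofReal |F t x v - maxwellian v| ≤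
      damp N s t x v * ENNReal.ofReal |F s (x - (t - s) • v) v - maxwellian v| +
      ∫⁻ r in Ioo s t, damp N r t x v * (Kop (Z r (x - (t - r) • v)) v +
        gain (Z r (x - (t - r) • v)) (Z r (x - (t - r) • v)) v) := by
  have hre := h.restart hN hs hst x v
  have hchar : Measurable fun r : ℝ => x - (t - r) • v :=
    measurable_const.sub ((measurable_const.sub measurable_id).smul_const v)
  have hν := mild_meas_freq hN t x v
  have hD : Measurable fun r : ℝ => damp N r t x v :=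
    (measurable_damp hN).comp (f := fun r : ℝ => ((r, t, x, v) : ℝ × ℝ × R3 × R3))
      (measurable_id.prodMk measurable_const)
  have hG : Measurable fun r : ℝ => gain (N r (x - (t - r) • v)) (N r (x - (t - r) • v)) v :=
    (hN.gain hN).comp measurable_id hchar measurable_const
  have hνf : (∫⁻ r in Ioo s t, freq (N r (x - (t - r) • v)) v) ≠ ⊤ :=
    mild_lintegral_ne_top (mild_freq_bound_ne_top hC v) fun r hr => mild_freq_bound (hb r hr _) v
  have hone : damp N s t x v + ∫⁻ r in Ioo s t, damp N r t x v * freq (N r (x - (t - r) • v)) v = 1 :=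
    int_damp_eq hν s t hνf
  have hmu : mu v = damp N s t x v * mu v +
      ∫⁻ r in Ioo s t, damp N r t x v * (mu v * freq (N r (x - (t - r) • v)) v) := by
    have e : ∀ r : ℝ, damp N r t x v * (mu v * freq (N r (x - (t - r) • v)) v) =
        mu v * (damp N r t x v * freq (N r (x - (t - r) • v)) v) := fun r => by ring
    simp only [e]
    rw [lintegral_const_mul' _ _ (mu_ne_top v), mul_comm (damp N s t x v), ← mul_add, hone, mul_one]
  set A := ENNReal.ofReal |F s (x - (t - s) • v) v - maxwellian v| with hA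
  set I := ∫⁻ r in Ioo s t, damp N r t x v * (Kop (Z r (x - (t - r) • v)) v +
        gain (Z r (x - (t - r) • v)) (Z r (x - (t - r) • v)) v) with hI
  refine mild_ofReal_abs_le (hF.nonneg _ _ _) (maxwellian_pos v).le ?_ ?_
  · -- upper bound
    have a1 : up F s (x - (t - s) • v) v ≤ mu v + A :=
      mild_ofReal_le_add_abs _ _
    have a2 : (∫⁻ r in Ioo s t, damp N r t x v *
        gain (N r (x - (t - r) • v)) (N r (x - (t - r) • v)) v) ≤
        (∫⁻ r in Ioo s t, damp N r t x v * (mu v * freq (N r (x - (t - r) • v)) v)) + I := by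
      rw [hI, ← lintegral_add_left (hD.fun_mul (hν.const_mul _))]
      refine setLIntegral_mono' measurableSet_Ioo fun r hr => ?_
      rw [← mul_add]
      exact mul_le_mul_right
        (mild_gain_upper (hN.slice _ _) (hZ.slice _ _) (h1 r hr _) (h2 r hr _) v) _
    calc ENNReal.ofReal (F t x v) = up F t x v := rfl
      _ ≤ damp N s t x v * (mu v + A) +
          ((∫⁻ r in Ioo s t, damp N r t x v * (mu v * freq (N r (x - (t - r) • v)) v)) + I) := by
        rw [hre]
        exact add_le_add (mul_le_mul_right a1 _) a2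
      _ = (damp N s t x v * mu v +
          ∫⁻ r in Ioo s t, damp N r t x v * (mu v * freq (N r (x - (t - r) • v)) v)) +
          (damp N s t x v * A + I) := by ring
      _ = ENNReal.ofReal (maxwellian v) + (damp N s t x v * A + I) := by rw [← hmu]; rfl
  · -- lower bound
    have a1 : mu v ≤ up F s (x - (t - s) • v) v + A := by
      rw [hA, abs_sub_comm]
      exact mild_ofReal_le_add_abs _ _
    have a2 : (∫⁻ r in Ioo s t, damp N r t x v * (mu v * freq (N r (x - (t - r) • v)) v)) ≤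
        (∫⁻ r in Ioo s t, damp N r t x v *
          gain (N r (x - (t - r) • v)) (N r (x - (t - r) • v)) v) + I := by
      rw [hI, ← lintegral_add_left (hD.fun_mul hG)]
      refine setLIntegral_mono' measurableSet_Ioo fun r hr => ?_
      rw [← mul_add]
      exact mul_le_mul_right
        (mild_gain_lower (hN.slice _ _) (hZ.slice _ _) (h1 r hr _) (h2 r hr _) v) _
    calc ENNReal.ofReal (maxwellian v) = mu v := rfl
      _ = _ := hmu
      _ ≤ damp N s t x v * (up F s (x - (t - s) • v) v + A) +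
          ((∫⁻ r in Ioo s t, damp N r t x v *
            gain (N r (x - (t - r) • v)) (N r (x - (t - r) • v)) v) + I) :=
        add_le_add (mul_le_mul_right a1 _) a2
      _ = (damp N s t x v * up F s (x - (t - s) • v) v + ∫⁻ r in Ioo s t, damp N r t x v *
            gain (N r (x - (t - r) • v)) (N r (x - (t - r) • v)) v) +
          (damp N s t x v * A + I) := by ring
      _ = ENNReal.ofReal (F t x v) + (damp N s t x v * A + I) := by rw [← hre]; rfl

end Crest.Agent.R068
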