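import Crest.Agent.R068.Defs

/-! Row 68: the parameters and their filter. -/

set_option autoImplicit false
open MeasureTheory Set Filter Topology
open scoped ENNReal
open Crest.AnalysisR.VecCalc3 Crest.AnalysisR.PDE.Boltzmann

namespace Crest.Agent.R068

/-- The parameters, listed in the order in which they are chosen. -/
structure Par where
  /-- radius of the late-time neighbourhood of the Maxwellian -/
  δ : ℝ
  /-- tolerance -/
  e : ℝ
  /-- velocity cut-off of the datum; filling time of the hole is `R * r1` -/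
  R : ℝ
  /-- velocity scale of the growth argument -/
  V : ℝ
  /-- distance to the cold velocities -/
  κ0 : ℝ
  /-- normal velocity threshold -/
  δ1 : ℝ
  /-- removal parameter in the smoothing step -/
  h : ℝ
  /-- number of periods per shell -/
  M : ℕ
  /-- radius of the hole in the ambient gas -/
  r1 : ℝ
  /-- late-time velocity cut-off -/
  S : ℝ
  /-- late-time normal velocity threshold -/
  κ : ℝ
  /-- size of the cold background -/
  r0 : ℝ

/-- The iterated filter of admissible parameters: each parameter is chosen small / large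
depending on the previous ones. -/
def PF : Filter Par :=
  Filter.bind (𝓝[>] (0:ℝ)) fun δ =>
  Filter.bind (𝓝[>] (0:ℝ)) fun e =>
  Filter.bind ((atTop : Filter ℝ)) fun R =>
  Filter.bind ((atTop : Filter ℝ)) fun V =>
  Filter.bind (𝓝[>] (0:ℝ)) fun κ0 =>
  Filter.bind (𝓝[>] (0:ℝ)) fun δ1 =>
  Filter.bind (𝓝[>] (0:ℝ)) fun h =>
  Filter.bind ((atTop : Filter ℕ)) fun M =>
  Filter.bind (𝓝[>] (0:ℝ)) fun r1 =>
  Filter.bind ((atTop : Filter ℝ)) fun S =>
  Filter.bind (𝓝[>] (0:ℝ)) fun κ =>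
  Filter.bind (𝓝[>] (0:ℝ)) fun r0 =>
  pure ⟨δ, e, R, V, κ0, δ1, h, M, r1, S, κ, r0⟩

lemma PF_iff {P : Par → Prop} : (∀ᶠ p in PF, P p) ↔
    ∀ᶠ δ in 𝓝[>] (0:ℝ), ∀ᶠ e in 𝓝[>] (0:ℝ), ∀ᶠ R in (atTop : Filter ℝ), ∀ᶠ V in (atTop : Filter ℝ), ∀ᶠ κ0 in 𝓝[>] (0:ℝ), ∀ᶠ δ1 in 𝓝[>] (0:ℝ), ∀ᶠ h in 𝓝[>] (0:ℝ), ∀ᶠ M in (atTop : Filter ℕ), ∀ᶠ r1 in 𝓝[>] (0:ℝ), ∀ᶠ S in (atTop : Filter ℝ), ∀ᶠ κ in 𝓝[>] (0:ℝ), ∀ᶠ r0 in 𝓝[>] (0:ℝ),
    P ⟨δ, e, R, V, κ0, δ1, h, M, r1, S, κ, r0⟩ := by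
  simp only [PF, eventually_bind, eventually_pure]

instance PF_neBot : PF.NeBot := by
  refine ⟨fun h => ?_⟩
  have h0 : ∀ᶠ _p in PF, False := by rw [h]; exact eventually_bot
  rw [PF_iff] at h0
  simp only [eventually_const] at h0

/-- choose `δ` depending on the earlier parameters (`Q p x` must not look at `p.δ` or later fields) -/
lemma ev_dl {Q : Par → ℝ → Prop} (hQ : ∀ᶠ p in PF, ∀ᶠ x in 𝓝[>] (0:ℝ), Q p x)
    (hind : ∀ (p q : Par) (x : ℝ), Q p x → Q { p with δ := q.δ, e := q.e, R := q.R, V := q.V, κ0 := q.κ0, δ1 := q.δ1, h := q.h, M := q.M, r1 := q.r1, S := q.S, κ := q.κ, r0 := q.r0 } x := by intro _ _ _ h; exact h) :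
    ∀ᶠ p in PF, Q p p.δ := by
  rw [PF_iff] at hQ ⊢
  obtain ⟨δ', hQ⟩ := hQ.exists
  obtain ⟨e', hQ⟩ := hQ.exists
  obtain ⟨R', hQ⟩ := hQ.exists
  obtain ⟨V', hQ⟩ := hQ.exists
  obtain ⟨κ0', hQ⟩ := hQ.exists
  obtain ⟨δ1', hQ⟩ := hQ.exists
  obtain ⟨h', hQ⟩ := hQ.exists
  obtain ⟨M', hQ⟩ := hQ.exists
  obtain ⟨r1', hQ⟩ := hQ.exists
  obtain ⟨S', hQ⟩ := hQ.exists
  obtain ⟨κ', hQ⟩ := hQ.exists
  obtain ⟨r0', hQ⟩ := hQ.exists
  filter_upwards [hQ] with δ hQ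
  refine Eventually.of_forall fun e => ?_
  refine Eventually.of_forall fun R => ?_
  refine Eventually.of_forall fun V => ?_
  refine Eventually.of_forall fun κ0 => ?_
  refine Eventually.of_forall fun δ1 => ?_
  refine Eventually.of_forall fun h => ?_
  refine Eventually.of_forall fun M => ?_
  refine Eventually.of_forall fun r1 => ?_
  refine Eventually.of_forall fun S => ?_
  refine Eventually.of_forall fun κ => ?_
  refine Eventually.of_forall fun r0 => ?_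
  exact hind _ ⟨δ, e, R, V, κ0, δ1, h, M, r1, S, κ, r0⟩ _ hQ

/-- choose `e` depending on the earlier parameters (`Q p x` must not look at `p.e` or later fields) -/
lemma ev_e {Q : Par → ℝ → Prop} (hQ : ∀ᶠ p in PF, ∀ᶠ x in 𝓝[>] (0:ℝ), Q p x)
    (hind : ∀ (p q : Par) (x : ℝ), Q p x → Q { p with e := q.e, R := q.R, V := q.V, κ0 := q.κ0, δ1 := q.δ1, h := q.h, M := q.M, r1 := q.r1, S := q.S, κ := q.κ, r0 := q.r0 } x := by intro _ _ _ h; exact h) :
    ∀ᶠ p in PF, Q p p.e := by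
  rw [PF_iff] at hQ ⊢
  filter_upwards [hQ] with δ hQ
  obtain ⟨e', hQ⟩ := hQ.exists
  obtain ⟨R', hQ⟩ := hQ.exists
  obtain ⟨V', hQ⟩ := hQ.exists
  obtain ⟨κ0', hQ⟩ := hQ.exists
  obtain ⟨δ1', hQ⟩ := hQ.exists
  obtain ⟨h', hQ⟩ := hQ.exists
  obtain ⟨M', hQ⟩ := hQ.exists
  obtain ⟨r1', hQ⟩ := hQ.exists
  obtain ⟨S', hQ⟩ := hQ.exists
  obtain ⟨κ', hQ⟩ := hQ.exists
  obtain ⟨r0', hQ⟩ := hQ.exists
  filter_upwards [hQ] with e hQ
  refine Eventually.of_forall fun R => ?_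
  refine Eventually.of_forall fun V => ?_
  refine Eventually.of_forall fun κ0 => ?_
  refine Eventually.of_forall fun δ1 => ?_
  refine Eventually.of_forall fun h => ?_
  refine Eventually.of_forall fun M => ?_
  refine Eventually.of_forall fun r1 => ?_
  refine Eventually.of_forall fun S => ?_
  refine Eventually.of_forall fun κ => ?_
  refine Eventually.of_forall fun r0 => ?_
  exact hind _ ⟨δ, e, R, V, κ0, δ1, h, M, r1, S, κ, r0⟩ _ hQ

/-- choose `R` depending on the earlier parameters (`Q p x` must not look at `p.R` or later fields) -/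
lemma ev_R {Q : Par → ℝ → Prop} (hQ : ∀ᶠ p in PF, ∀ᶠ x in (atTop : Filter ℝ), Q p x)
    (hind : ∀ (p q : Par) (x : ℝ), Q p x → Q { p with R := q.R, V := q.V, κ0 := q.κ0, δ1 := q.δ1, h := q.h, M := q.M, r1 := q.r1, S := q.S, κ := q.κ, r0 := q.r0 } x := by intro _ _ _ h; exact h) :
    ∀ᶠ p in PF, Q p p.R := by
  rw [PF_iff] at hQ ⊢
  filter_upwards [hQ] with δ hQ
  filter_upwards [hQ] with e hQ
  obtain ⟨R', hQ⟩ := hQ.exists
  obtain ⟨V', hQ⟩ := hQ.exists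
  obtain ⟨κ0', hQ⟩ := hQ.exists
  obtain ⟨δ1', hQ⟩ := hQ.exists
  obtain ⟨h', hQ⟩ := hQ.exists
  obtain ⟨M', hQ⟩ := hQ.exists
  obtain ⟨r1', hQ⟩ := hQ.exists
  obtain ⟨S', hQ⟩ := hQ.exists
  obtain ⟨κ', hQ⟩ := hQ.exists
  obtain ⟨r0', hQ⟩ := hQ.exists
  filter_upwards [hQ] with R hQ
  refine Eventually.of_forall fun V => ?_
  refine Eventually.of_forall fun κ0 => ?_
  refine Eventually.of_forall fun δ1 => ?_
  refine Eventually.of_forall fun h => ?_
  refine Eventually.of_forall fun M => ?_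
  refine Eventually.of_forall fun r1 => ?_
  refine Eventually.of_forall fun S => ?_
  refine Eventually.of_forall fun κ => ?_
  refine Eventually.of_forall fun r0 => ?_
  exact hind _ ⟨δ, e, R, V, κ0, δ1, h, M, r1, S, κ, r0⟩ _ hQ

/-- choose `V` depending on the earlier parameters (`Q p x` must not look at `p.V` or later fields) -/
lemma ev_V {Q : Par → ℝ → Prop} (hQ : ∀ᶠ p in PF, ∀ᶠ x in (atTop : Filter ℝ), Q p x)
    (hind : ∀ (p q : Par) (x : ℝ), Q p x → Q { p with V := q.V, κ0 := q.κ0, δ1 := q.δ1, h := q.h, M := q.M, r1 := q.r1, S := q.S, κ := q.κ, r0 := q.r0 } x := by intro _ _ _ h; exact h) :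
    ∀ᶠ p in PF, Q p p.V := by
  rw [PF_iff] at hQ ⊢
  filter_upwards [hQ] with δ hQ
  filter_upwards [hQ] with e hQ
  filter_upwards [hQ] with R hQ
  obtain ⟨V', hQ⟩ := hQ.exists
  obtain ⟨κ0', hQ⟩ := hQ.exists
  obtain ⟨δ1', hQ⟩ := hQ.exists
  obtain ⟨h', hQ⟩ := hQ.exists
  obtain ⟨M', hQ⟩ := hQ.exists
  obtain ⟨r1', hQ⟩ := hQ.exists
  obtain ⟨S', hQ⟩ := hQ.exists
  obtain ⟨κ', hQ⟩ := hQ.exists
  obtain ⟨r0', hQ⟩ := hQ.exists
  filter_upwards [hQ] with V hQ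
  refine Eventually.of_forall fun κ0 => ?_
  refine Eventually.of_forall fun δ1 => ?_
  refine Eventually.of_forall fun h => ?_
  refine Eventually.of_forall fun M => ?_
  refine Eventually.of_forall fun r1 => ?_
  refine Eventually.of_forall fun S => ?_
  refine Eventually.of_forall fun κ => ?_
  refine Eventually.of_forall fun r0 => ?_
  exact hind _ ⟨δ, e, R, V, κ0, δ1, h, M, r1, S, κ, r0⟩ _ hQ

/-- choose `κ0` depending on the earlier parameters (`Q p x` must not look at `p.κ0` or later fields) -/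
lemma ev_k0 {Q : Par → ℝ → Prop} (hQ : ∀ᶠ p in PF, ∀ᶠ x in 𝓝[>] (0:ℝ), Q p x)
    (hind : ∀ (p q : Par) (x : ℝ), Q p x → Q { p with κ0 := q.κ0, δ1 := q.δ1, h := q.h, M := q.M, r1 := q.r1, S := q.S, κ := q.κ, r0 := q.r0 } x := by intro _ _ _ h; exact h) :
    ∀ᶠ p in PF, Q p p.κ0 := by
  rw [PF_iff] at hQ ⊢
  filter_upwards [hQ] with δ hQ
  filter_upwards [hQ] with e hQ
  filter_upwards [hQ] with R hQ
  filter_upwards [hQ] with V hQ
  obtain ⟨κ0', hQ⟩ := hQ.exists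
  obtain ⟨δ1', hQ⟩ := hQ.exists
  obtain ⟨h', hQ⟩ := hQ.exists
  obtain ⟨M', hQ⟩ := hQ.exists
  obtain ⟨r1', hQ⟩ := hQ.exists
  obtain ⟨S', hQ⟩ := hQ.exists
  obtain ⟨κ', hQ⟩ := hQ.exists
  obtain ⟨r0', hQ⟩ := hQ.exists
  filter_upwards [hQ] with κ0 hQ
  refine Eventually.of_forall fun δ1 => ?_
  refine Eventually.of_forall fun h => ?_
  refine Eventually.of_forall fun M => ?_
  refine Eventually.of_forall fun r1 => ?_
  refine Eventually.of_forall fun S => ?_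
  refine Eventually.of_forall fun κ => ?_
  refine Eventually.of_forall fun r0 => ?_
  exact hind _ ⟨δ, e, R, V, κ0, δ1, h, M, r1, S, κ, r0⟩ _ hQ

/-- choose `δ1` depending on the earlier parameters (`Q p x` must not look at `p.δ1` or later fields) -/
lemma ev_d1 {Q : Par → ℝ → Prop} (hQ : ∀ᶠ p in PF, ∀ᶠ x in 𝓝[>] (0:ℝ), Q p x)
    (hind : ∀ (p q : Par) (x : ℝ), Q p x → Q { p with δ1 := q.δ1, h := q.h, M := q.M, r1 := q.r1, S := q.S, κ := q.κ, r0 := q.r0 } x := by intro _ _ _ h; exact h) :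
    ∀ᶠ p in PF, Q p p.δ1 := by
  rw [PF_iff] at hQ ⊢
  filter_upwards [hQ] with δ hQ
  filter_upwards [hQ] with e hQ
  filter_upwards [hQ] with R hQ
  filter_upwards [hQ] with V hQ
  filter_upwards [hQ] with κ0 hQ
  obtain ⟨δ1', hQ⟩ := hQ.exists
  obtain ⟨h', hQ⟩ := hQ.exists
  obtain ⟨M', hQ⟩ := hQ.exists
  obtain ⟨r1', hQ⟩ := hQ.exists
  obtain ⟨S', hQ⟩ := hQ.exists
  obtain ⟨κ', hQ⟩ := hQ.exists
  obtain ⟨r0', hQ⟩ := hQ.exists
  filter_upwards [hQ] with δ1 hQ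
  refine Eventually.of_forall fun h => ?_
  refine Eventually.of_forall fun M => ?_
  refine Eventually.of_forall fun r1 => ?_
  refine Eventually.of_forall fun S => ?_
  refine Eventually.of_forall fun κ => ?_
  refine Eventually.of_forall fun r0 => ?_
  exact hind _ ⟨δ, e, R, V, κ0, δ1, h, M, r1, S, κ, r0⟩ _ hQ

/-- choose `h` depending on the earlier parameters (`Q p x` must not look at `p.h` or later fields) -/
lemma ev_h {Q : Par → ℝ → Prop} (hQ : ∀ᶠ p in PF, ∀ᶠ x in 𝓝[>] (0:ℝ), Q p x)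
    (hind : ∀ (p q : Par) (x : ℝ), Q p x → Q { p with h := q.h, M := q.M, r1 := q.r1, S := q.S, κ := q.κ, r0 := q.r0 } x := by intro _ _ _ h; exact h) :
    ∀ᶠ p in PF, Q p p.h := by
  rw [PF_iff] at hQ ⊢
  filter_upwards [hQ] with δ hQ
  filter_upwards [hQ] with e hQ
  filter_upwards [hQ] with R hQ
  filter_upwards [hQ] with V hQ
  filter_upwards [hQ] with κ0 hQ
  filter_upwards [hQ] with δ1 hQ
  obtain ⟨h', hQ⟩ := hQ.exists
  obtain ⟨M', hQ⟩ := hQ.exists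
  obtain ⟨r1', hQ⟩ := hQ.exists
  obtain ⟨S', hQ⟩ := hQ.exists
  obtain ⟨κ', hQ⟩ := hQ.exists
  obtain ⟨r0', hQ⟩ := hQ.exists
  filter_upwards [hQ] with h hQ
  refine Eventually.of_forall fun M => ?_
  refine Eventually.of_forall fun r1 => ?_
  refine Eventually.of_forall fun S => ?_
  refine Eventually.of_forall fun κ => ?_
  refine Eventually.of_forall fun r0 => ?_
  exact hind _ ⟨δ, e, R, V, κ0, δ1, h, M, r1, S, κ, r0⟩ _ hQ

/-- choose `M` depending on the earlier parameters (`Q p x` must not look at `p.M` or later fields) -/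
lemma ev_M {Q : Par → ℕ → Prop} (hQ : ∀ᶠ p in PF, ∀ᶠ x in (atTop : Filter ℕ), Q p x)
    (hind : ∀ (p q : Par) (x : ℕ), Q p x → Q { p with M := q.M, r1 := q.r1, S := q.S, κ := q.κ, r0 := q.r0 } x := by intro _ _ _ h; exact h) :
    ∀ᶠ p in PF, Q p p.M := by
  rw [PF_iff] at hQ ⊢
  filter_upwards [hQ] with δ hQ
  filter_upwards [hQ] with e hQ
  filter_upwards [hQ] with R hQ
  filter_upwards [hQ] with V hQ
  filter_upwards [hQ] with κ0 hQ
  filter_upwards [hQ] with δ1 hQ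
  filter_upwards [hQ] with h hQ
  obtain ⟨M', hQ⟩ := hQ.exists
  obtain ⟨r1', hQ⟩ := hQ.exists
  obtain ⟨S', hQ⟩ := hQ.exists
  obtain ⟨κ', hQ⟩ := hQ.exists
  obtain ⟨r0', hQ⟩ := hQ.exists
  filter_upwards [hQ] with M hQ
  refine Eventually.of_forall fun r1 => ?_
  refine Eventually.of_forall fun S => ?_
  refine Eventually.of_forall fun κ => ?_
  refine Eventually.of_forall fun r0 => ?_
  exact hind _ ⟨δ, e, R, V, κ0, δ1, h, M, r1, S, κ, r0⟩ _ hQ

/-- choose `r1` depending on the earlier parameters (`Q p x` must not look at `p.r1` or later fields) -/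
lemma ev_r1 {Q : Par → ℝ → Prop} (hQ : ∀ᶠ p in PF, ∀ᶠ x in 𝓝[>] (0:ℝ), Q p x)
    (hind : ∀ (p q : Par) (x : ℝ), Q p x → Q { p with r1 := q.r1, S := q.S, κ := q.κ, r0 := q.r0 } x := by intro _ _ _ h; exact h) :
    ∀ᶠ p in PF, Q p p.r1 := by
  rw [PF_iff] at hQ ⊢
  filter_upwards [hQ] with δ hQ
  filter_upwards [hQ] with e hQ
  filter_upwards [hQ] with R hQ
  filter_upwards [hQ] with V hQ
  filter_upwards [hQ] with κ0 hQ
  filter_upwards [hQ] with δ1 hQ
  filter_upwards [hQ] with h hQ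
  filter_upwards [hQ] with M hQ
  obtain ⟨r1', hQ⟩ := hQ.exists
  obtain ⟨S', hQ⟩ := hQ.exists
  obtain ⟨κ', hQ⟩ := hQ.exists
  obtain ⟨r0', hQ⟩ := hQ.exists
  filter_upwards [hQ] with r1 hQ
  refine Eventually.of_forall fun S => ?_
  refine Eventually.of_forall fun κ => ?_
  refine Eventually.of_forall fun r0 => ?_
  exact hind _ ⟨δ, e, R, V, κ0, δ1, h, M, r1, S, κ, r0⟩ _ hQ

/-- choose `S` depending on the earlier parameters (`Q p x` must not look at `p.S` or later fields) -/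
lemma ev_S {Q : Par → ℝ → Prop} (hQ : ∀ᶠ p in PF, ∀ᶠ x in (atTop : Filter ℝ), Q p x)
    (hind : ∀ (p q : Par) (x : ℝ), Q p x → Q { p with S := q.S, κ := q.κ, r0 := q.r0 } x := by intro _ _ _ h; exact h) :
    ∀ᶠ p in PF, Q p p.S := by
  rw [PF_iff] at hQ ⊢
  filter_upwards [hQ] with δ hQ
  filter_upwards [hQ] with e hQ
  filter_upwards [hQ] with R hQ
  filter_upwards [hQ] with V hQ
  filter_upwards [hQ] with κ0 hQ
  filter_upwards [hQ] with δ1 hQ
  filter_upwards [hQ] with h hQ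
  filter_upwards [hQ] with M hQ
  filter_upwards [hQ] with r1 hQ
  obtain ⟨S', hQ⟩ := hQ.exists
  obtain ⟨κ', hQ⟩ := hQ.exists
  obtain ⟨r0', hQ⟩ := hQ.exists
  filter_upwards [hQ] with S hQ
  refine Eventually.of_forall fun κ => ?_
  refine Eventually.of_forall fun r0 => ?_
  exact hind _ ⟨δ, e, R, V, κ0, δ1, h, M, r1, S, κ, r0⟩ _ hQ

/-- choose `κ` depending on the earlier parameters (`Q p x` must not look at `p.κ` or later fields) -/
lemma ev_k {Q : Par → ℝ → Prop} (hQ : ∀ᶠ p in PF, ∀ᶠ x in 𝓝[>] (0:ℝ), Q p x)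
    (hind : ∀ (p q : Par) (x : ℝ), Q p x → Q { p with κ := q.κ, r0 := q.r0 } x := by intro _ _ _ h; exact h) :
    ∀ᶠ p in PF, Q p p.κ := by
  rw [PF_iff] at hQ ⊢
  filter_upwards [hQ] with δ hQ
  filter_upwards [hQ] with e hQ
  filter_upwards [hQ] with R hQ
  filter_upwards [hQ] with V hQ
  filter_upwards [hQ] with κ0 hQ
  filter_upwards [hQ] with δ1 hQ
  filter_upwards [hQ] with h hQ
  filter_upwards [hQ] with M hQ
  filter_upwards [hQ] with r1 hQ
  filter_upwards [hQ] with S hQ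
  obtain ⟨κ', hQ⟩ := hQ.exists
  obtain ⟨r0', hQ⟩ := hQ.exists
  filter_upwards [hQ] with κ hQ
  refine Eventually.of_forall fun r0 => ?_
  exact hind _ ⟨δ, e, R, V, κ0, δ1, h, M, r1, S, κ, r0⟩ _ hQ

/-- choose `r0` depending on the earlier parameters (`Q p x` must not look at `p.r0` or later fields) -/
lemma ev_r0 {Q : Par → ℝ → Prop} (hQ : ∀ᶠ p in PF, ∀ᶠ x in 𝓝[>] (0:ℝ), Q p x)
    (hind : ∀ (p q : Par) (x : ℝ), Q p x → Q { p with r0 := q.r0 } x := by intro _ _ _ h; exact h) :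
    ∀ᶠ p in PF, Q p p.r0 := by
  rw [PF_iff] at hQ ⊢
  filter_upwards [hQ] with δ hQ
  filter_upwards [hQ] with e hQ
  filter_upwards [hQ] with R hQ
  filter_upwards [hQ] with V hQ
  filter_upwards [hQ] with κ0 hQ
  filter_upwards [hQ] with δ1 hQ
  filter_upwards [hQ] with h hQ
  filter_upwards [hQ] with M hQ
  filter_upwards [hQ] with r1 hQ
  filter_upwards [hQ] with S hQ
  filter_upwards [hQ] with κ hQ
  obtain ⟨r0', hQ⟩ := hQ.exists
  filter_upwards [hQ] with r0 hQ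
  exact hind _ ⟨δ, e, R, V, κ0, δ1, h, M, r1, S, κ, r0⟩ _ hQ

end Crest.Agent.R068
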