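import Crest.Agent.R068.Frame
import Crest.Agent.R068.Par

/-! Row 68: the objects of the construction. -/

set_option autoImplicit false
open MeasureTheory Set Filter Topology
open scoped ENNReal
open Crest.AnalysisR.VecCalc3 Crest.AnalysisR.PDE.Boltzmann

namespace Crest.Agent.R068

/-- the frame -/
noncomputable def fr : OrthonormalBasis (Fin 3) ℝ R3 := exists_frame.choose
lemma fr_dioph : ∃ c : ℝ, 0 < c ∧ ∀ k : Fin 3 → ℤ, k ≠ 0 → c ≤ |inner ℝ (fr 1) (lat k)| * ‖lat k‖ ^ 2 :=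
  exists_frame.choose_spec
/-- normal coordinate -/
noncomputable def nc (x : R3) : ℝ := inner ℝ (fr 1) x
/-- projection to the plane of the slabs -/
noncomputable def pl (x : R3) : R3 := x - nc x • fr 1
/-- rotation by a right angle in the plane of the slabs -/
noncomputable def Jr (x : R3) : R3 := inner ℝ (fr 0) x • fr 2 - inner ℝ (fr 2) x • fr 0
/-- drift velocities of the four cold families -/
noncomputable def dir : Fin 4 → R3 := ![fr 0, -fr 0, fr 2, -fr 2]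
/-- planar position relative to the moving centre of family `s` -/
noncomputable def yy (s : Fin 4) (t : ℝ) (X : R3) : R3 := pl X - t • dir s
open Classical in
/-- unit vector in the direction of `y` -/
noncomputable def hat (y : R3) : R3 := if y = 0 then fr 0 else ‖y‖⁻¹ • y
/-- Eulerian velocity field of family `s` -/
noncomputable def uu (s : Fin 4) (t : ℝ) (X : R3) : R3 := dir s + (1 / 4 : ℝ) • hat (yy s t X)
/-- distance to the cold velocity; non-increasing along free flights -/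
noncomputable def dd (s : Fin 4) (t : ℝ) (X v : R3) : ℝ := ‖v - uu s t X‖
/-- periodic squared distance to the lattice -/
noncomputable def sn (x : R3) : ℝ := ∑ i : Fin 3, Real.sin (Real.pi * x i) ^ 2
/-- concentration profile -/
noncomputable def Yf (η t : ℝ) (x v : R3) : ℝ≥0∞ :=
  ∑' k : Fin 3 → ℤ, ∑ s : Fin 4, if ‖x - lat k‖ ≤ 1 / 4 + 3 * t ∧ dd s t (x - lat k) v ≤ 1 then
    (ENNReal.ofReal (max (dd s t (x - lat k) v) η))⁻¹ else 0
/-- the weight `W = m (1 + Y)` -/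
noncomputable def Wf (η a t : ℝ) (x v : R3) : ℝ≥0∞ := gs a v * (1 + Yf η t x v)
/-- constant comparing plane integrals of `W` and of the Gaussian -/
noncomputable def CW (t : ℝ) : ℝ := 8 * (2 + 6 * t) ^ 3
/-- the good velocities -/
def goodV (δ V : ℝ) : Set R3 := {v | δ ≤ |nc v| ∧ ‖v‖ ≤ V}

namespace Par
variable (p : Par)

/-- radius of shell `j` -/
noncomputable def r (j : ℕ) : ℝ := p.r0 / 2 ^ j
/-- period in shell `j` -/
noncomputable def wd (j : ℕ) : ℝ := p.r j / (2 * p.M)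
/-- velocity spread -/
noncomputable def eta (j : ℕ) : ℝ := p.r j ^ 4
/-- velocity cut-off of the Gaussian level -/
noncomputable def DD (j : ℕ) : ℝ := p.r j ^ 3
/-- inner radius -/
noncomputable def ell (j : ℕ) : ℝ := p.r j / p.V ^ 2
/-- phase-space density -/
noncomputable def amp (j : ℕ) : ℝ := p.V ^ 2 / (p.ell j * p.eta j ^ 3)
/-- life time of shell `j` -/
noncomputable def TT (j : ℕ) : ℝ := -40 * Real.log (p.r j)
/-- slabs of family `s` in shell `j`, fattened by `ρ` -/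
def Fat (j : ℕ) (s : Fin 4) (ρ : ℝ) : Set ℝ :=
  {z | p.r j / 2 < |z| ∧ |z| < p.r j ∧
    ((s : ℕ) : ℝ) / 4 + 1 / 16 - ρ / p.wd j ≤ Int.fract (z / p.wd j) ∧
    Int.fract (z / p.wd j) ≤ ((s : ℕ) : ℝ) / 4 + 3 / 16 + ρ / p.wd j}
open Classical in
/-- cold datum of the cell `(j,s)` -/
noncomputable def S0 (j : ℕ) (s : Fin 4) (Z v : R3) : ℝ≥0∞ :=
  if |nc v| < p.eta j ∧ |‖pl v - dir s‖ - 1 / 4| < p.eta j ∧
      |inner ℝ (pl v - dir s) (Jr Z)| < p.eta j * p.ell j ∧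
      p.ell j / 4 ≤ inner ℝ (pl v - dir s) Z ∧ inner ℝ (pl v - dir s) Z ≤ p.r0 / 4 ∧
      nc Z ∈ p.Fat j s 0 then ENNReal.ofReal (p.amp j) else 0
/-- its free transport -/
noncomputable def Sb (j : ℕ) (s : Fin 4) (t : ℝ) (X v : R3) : ℝ≥0∞ := p.S0 j s (X - t • v) v
/-- the (alive) cell `(j,s)` at time `t` -/
def InCell (j : ℕ) (s : Fin 4) (t : ℝ) (X : R3) : Prop :=
  t ≤ p.TT j ∧ ‖X‖ ≤ 3 * p.r0 + 2 * t ∧ nc X ∈ p.Fat j s (p.DD j * t)
open Classical in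
/-- production rate of the Gaussian level -/
noncomputable def Grc (j : ℕ) (s : Fin 4) (t : ℝ) (X v : R3) : ℝ≥0∞ :=
  if p.InCell j s t X ∧ dd s t X v ≤ p.DD j then
    ENNReal.ofReal ((p.TT j * p.eta j ^ 3)⁻¹) * gs (p.eta j ^ 2)⁻¹ (v - uu s t X) else 0
/-- cold barrier of one cell -/
noncomputable def Bc (j : ℕ) (s : Fin 4) (t : ℝ) (X v : R3) : ℝ≥0∞ :=
  (if t ≤ p.TT j then p.Sb j s t X v else 0) + ENNReal.ofReal t * p.Grc j s t X v
/-- periodisation and sum over the cells of the shells `j ≤ n` -/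
noncomputable def tot (n : ℕ∞) (f : ℕ → Fin 4 → R3 → ℝ≥0∞) (x : R3) : ℝ≥0∞ :=
  ∑' k : Fin 3 → ℤ, ∑' j : ℕ, ∑ s : Fin 4, if (j : ℕ∞) ≤ n then f j s (x - lat k) else 0
/-- cold datum -/
noncomputable def Sd (n : ℕ∞) (x v : R3) : ℝ≥0∞ := tot n (fun j s X => p.S0 j s X v) x
/-- cold barrier -/
noncomputable def B (n : ℕ∞) : TF := fun t x v => tot n (fun j s X => p.Bc j s t X v) x
/-- production rate -/
noncomputable def Gr (n : ℕ∞) : TF := fun t x v => tot n (fun j s X => p.Grc j s t X v) x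
/-- smallest velocity spread -/
noncomputable def etaS (n : ℕ∞) : ℝ := if n = ⊤ then 0 else p.eta n.toNat
/-- `Y` and `W` for the truncation `n` -/
noncomputable def Y (n : ℕ∞) : TF := fun t x v => Yf (p.etaS n) t x v
noncomputable def W (n : ℕ∞) (a : ℝ) : TF := fun t x v => Wf (p.etaS n) a t x v
/-- local density bound -/
noncomputable def rho (t : ℝ) (X : R3) : ℝ := p.V ^ 5 * (1 + (‖X‖ + t)⁻¹)
noncomputable def Lam : ℕ := ⌈p.V ^ 7⌉₊
noncomputable def K : ℕ := p.Lam + 30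
noncomputable def e0 : ℝ := (p.V ^ 100)⁻¹
noncomputable def θ : ℝ := 1000 * p.K * p.R
noncomputable def t2 : ℝ := p.R * p.r1
noncomputable def t0 : ℝ := p.r0 * p.h ^ 2
noncomputable def eps : ℝ := p.r0 ^ (p.Lam + 1)
/-- time at which collisions are switched on -/
noncomputable def tn (n : ℕ) : ℝ := p.M * p.r n
/-- decreasing Gaussian exponent of the first stage -/
noncomputable def aa (t : ℝ) : ℝ := 1 / 4 - t / (16 * p.R * p.r1)
noncomputable def Om (t : ℝ) (x : R3) : ℝ :=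
  (2 * (sn x / (sn x + p.r1 ^ 2) + p.θ * t / p.r1)) ^ p.K
/-- bound for `A + Ω` on the first stage -/
noncomputable def C0 : ℝ := (2 * (1 + p.θ * p.R)) ^ p.K + 1
noncomputable def AA (ε t : ℝ) : ℝ :=
  if t ≤ p.t0 then 2 * ε * t else 2 * ε * p.t0 * p.Lam * (t / p.t0) ^ p.Lam
/-- first-stage barrier -/
noncomputable def U1 (n : ℕ∞) (ε : ℝ) : TF := fun t x v =>
  p.B n t x v + ENNReal.ofReal (p.AA ε t + p.Om t x) * p.W n (p.aa t) t x v
/-- ambient gas with a hole -/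
noncomputable def amb (x v : R3) : ℝ≥0∞ := if ‖v‖ < p.R ∧ p.r1 ^ 2 ≤ sn x then mu v else 0
/-- the seed, positioned so that at time `tn n` it fills the ball of radius `tn n` -/
noncomputable def seed (n : ℕ) (a : ℝ) (x v : R3) : ℝ≥0∞ :=
  ∑' k : Fin 3 → ℤ, if ‖x + p.tn n • v - lat k‖ ≤ p.tn n ∧ ‖v - (3:ℝ) • fr 1‖ ≤ 1 then
    ENNReal.ofReal a else 0
/-- data of the truncated problems -/
noncomputable def f0 (n : ℕ) (a : ℝ) (x v : R3) : ℝ≥0∞ := p.amb x v + p.Sd n x v + p.seed n a x v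
/-- the datum -/
noncomputable def F0 (x v : R3) : ℝ := (p.amb x v + p.Sd ⊤ x v).toReal
/-- late-time damping of the cold barrier -/
noncomputable def Dm (t : ℝ) : ℝ := Real.exp (-((t - p.t2) / 2))
noncomputable def lam0 : ℝ := p.V ^ 6 * (1 + p.t2⁻¹)
noncomputable def CK (t : ℝ) : ℝ :=
  Real.exp (-((t - p.t2) / 4)) * (p.C0 * Real.exp (16 * p.lam0 * (1 - Real.exp (-((t - p.t2) / 8)))))
noncomputable def Cmax : ℝ := p.C0 * Real.exp (16 * p.lam0)
/-- transported hole -/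
noncomputable def hol : TF := fun t x v => if sn (x - t • v) < p.r1 ^ 2 then mu v else 0
/-- thin part of the late barrier -/
noncomputable def Kh (n : ℕ∞) : TF := fun t x v =>
  if |nc v| < p.κ then ENNReal.ofReal (p.CK t) * p.W n (1 / 8) t x v else 0
/-- explicit part of the late barrier -/
noncomputable def Xi (n : ℕ∞) : TF := fun t x v =>
  ENNReal.ofReal (p.Dm t) * p.B n t x v + p.Kh n t x v + ENNReal.ofReal (p.Dm t) * p.hol t x v
noncomputable def Z (n : ℕ∞) : TF := fun t x v => p.Xi n t x v + ENNReal.ofReal p.δ * gs (1 / 8) v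
/-- upper barrier -/
noncomputable def Up (n : ℕ∞) (ε : ℝ) : TF := fun t x v =>
  if t ≤ p.t2 then p.U1 n ε t x v else mu v + p.Z n t x v
/-- lower barrier -/
noncomputable def Lo (n : ℕ∞) : TF := fun t x v => if t ≤ p.t2 then 0 else mu v - p.Z n t x v
/-- the dominating function -/
noncomputable def Ust : TF := fun t x v =>
  p.B ⊤ t x v + ENNReal.ofReal (p.Cmax + p.C0 + 3) * p.W ⊤ (1 / 8) t x v
/-- the clamped density -/
noncomputable def Nn (n : ℕ) (ε : ℝ) (F : ℝ → R3 → R3 → ℝ) : TF := clamp (p.Lo n) (p.Up n ε) F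

/-- solution of the cut-off problem with admissible amplitudes -/
structure Sol (n : ℕ) (ε a : ℝ) (F : ℝ → R3 → R3 → ℝ) : Prop where
  dens : Dens F
  mild : ExpMild (p.tn n) (p.f0 n a) (p.Nn n ε F) F
  ε0 : 0 ≤ ε
  ε1 : ε ≤ p.eps
  a0 : 0 ≤ a
  a1 : a ≤ 2 * ε * p.tn n
  tn0 : p.tn n ≤ p.t0

/-- the clamp is inactive during the first stage -/
def In1 (n : ℕ) (ε : ℝ) (F : ℝ → R3 → R3 → ℝ) : Prop :=
  ∀ t ∈ Icc (p.tn n) p.t2, ∀ x v, up F t x v ≤ p.U1 n ε t x v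
/-- excess over the unperturbed barrier -/
noncomputable def hh (n : ℕ) (F : ℝ → R3 → R3 → ℝ) : TF := fun t x v => up F t x v - p.U1 n 0 t x v
/-- far from all cold velocities -/
def Far (ρ t : ℝ) (x v : R3) : Prop :=
  ∀ (k : Fin 3 → ℤ) (s : Fin 4), ‖x - lat k‖ ≤ ρ → p.κ0 ≤ dd s t (x - lat k) v
def G1 (t : ℝ) (x v : R3) : Prop := p.Far (1 / 4) t x v ∧ ‖v‖ ≤ p.V / 4
def Gd (ρ t : ℝ) (x v : R3) : Prop := p.Far (1 / 4) t x v ∧ p.δ1 ≤ |nc v| ∧ ‖v‖ ≤ ρ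
open Classical in
/-- fat Duhamel operator -/
noncomputable def FatOp (n : ℕ) (τ : ℝ) (g : TF) : TF := fun t x v =>
  ENNReal.ofReal (((p.h * τ) ^ 6)⁻¹) * ∫⁻ s in Ioo (max (p.tn n) (p.h * τ)) (t - p.h * τ),
    if ∃ k : Fin 3 → ℤ, ‖x - (t - s) • v - lat k‖ ≤ τ / p.h then
      ∫⁻ ξ in goodV p.δ1 p.V, g s (x - (t - s) • v) ξ else 0
/-- the coefficient produced by one smoothing step -/
noncomputable def stepC (ε a τ β : ℝ) : ℝ :=
  55 * a + 12 * p.e0 * ε * τ + 4 * p.V ^ 6 * Real.sqrt (2 * β * ε * τ)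
/-- bulk of the slabs -/
def bulk (n : ℕ) (s : Fin 4) : Set ℝ := {z | ∃ j ≤ n, z ∈ p.Fat j s (-(p.wd j / 32))}
/-- corrector profile -/
noncomputable def th (n : ℕ) (s : Fin 4) (z : ℝ) : ℝ :=
  ∫ y in (0:ℝ)..z, (1 - 16 * (p.bulk n s).indicator 1 y)
end Par

/-- the two families that are far from `v` -/
noncomputable def s1 (v : R3) : Fin 4 := if 0 ≤ inner ℝ (fr 0) v then 1 else 0
noncomputable def s3 (v : R3) : Fin 4 := if 0 ≤ inner ℝ (fr 2) v then 3 else 2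
/-- partition of unity avoiding the moving holes -/
noncomputable def ph (t : ℝ) (x v : R3) : ℝ :=
  Real.smoothTransition (1 / 2 + inner ℝ x (dir (s3 v) - dir (s1 v)) / t)

namespace Par
variable (p : Par)
/-- homogenisation corrector -/
noncomputable def chi (n : ℕ) (t : ℝ) (x v : R3) : ℝ :=
  23 / t * (ph t x v * p.th n (s1 v) (nc x) + (1 - ph t x v) * p.th n (s3 v) (nc x)) / nc v
/-- space-time part of the growth weight -/
noncomputable def psi0 (t : ℝ) (x : R3) : ℝ :=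
  if ‖x‖ ≤ t / p.h ^ 2 then (t ^ 20)⁻¹ * (2 * p.V * t / max ‖x‖ (2 * p.V * t)) ^ 800 else 0
/-- growth weight -/
noncomputable def psi (n : ℕ) (t : ℝ) (x v : R3) : ℝ :=
  if p.δ1 ≤ |nc v| ∧ ‖v‖ ≤ p.V then p.psi0 t x * Real.exp (p.chi n t x v) else 0
/-- the weight without corrector -/
noncomputable def psiO (t : ℝ) (q : R3 × R3) : ℝ :=
  if p.δ1 ≤ |nc q.2| ∧ ‖q.2‖ ≤ p.V then p.psi0 t q.1 else 0
/-- logarithmic lower rate of `psi` along free flights -/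
noncomputable def lrate (n : ℕ) (t : ℝ) (x v : R3) : ℝ :=
  -21 / t + (if 2 * p.V * t < ‖x‖ then 400 / t else 0) +
    23 / t * (ph t x v * (1 - 16 * (p.bulk n (s1 v)).indicator 1 (nc x)) +
      (1 - ph t x v) * (1 - 16 * (p.bulk n (s3 v)).indicator 1 (nc x)))
/-- weighted mass -/
noncomputable def Phi (n : ℕ) (F : ℝ → R3 → R3 → ℝ) (t : ℝ) : ℝ :=
  ∫ q : R3 × R3, F t q.1 q.2 * p.psi n t q.1 q.2

/-- what is known at a point `(t,x)` that lies in an alive cell -/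
structure Wit (n : ℕ∞) (t : ℝ) (x : R3) (k : Fin 3 → ℤ) (j : ℕ) : Prop where
  le : (j : ℕ∞) ≤ n
  alive : t ≤ p.TT j
  near : ‖x - lat k‖ ≤ 3 * p.r0 + 2 * t
  lo : p.r j / 2 < |nc (x - lat k)|
  hi : |nc (x - lat k)| < p.r j
  ctr : ∃ s, ∀ v, p.B n t x v ≠ 0 → dd s t (x - lat k) v ≤ p.DD j
  supp : ∀ v, p.B n t x v ≠ 0 → |nc v| ≤ p.DD j ∧ ‖v‖ ≤ 2
  sup : ∀ v, p.B n t x v ≤ ENNReal.ofReal ((p.r j ^ 14)⁻¹)
  suppG : ∀ v, p.Gr n t x v ≠ 0 → ‖v‖ ≤ 2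
  supG : ∀ v, p.Gr n t x v ≤ ENNReal.ofReal ((p.r j ^ 12)⁻¹)
  massG : ∫⁻ v, p.Gr n t x v ≤ 6
  mass : ∫⁻ v, p.B n t x v ≤ ENNReal.ofReal (p.rho t (x - lat k))
  pot : ∀ v, pot (p.B n t x) v ≤ ENNReal.ofReal (p.rho t (x - lat k)) * (1 + p.Y n t x v)
  plane : ∀ v w, ‖w‖ = 1 → plane (p.B n t x) v w ≤ ENNReal.ofReal (p.V ^ 5 / p.r j ^ 5)
  self : ∀ v, gain (p.B n t x) (p.B n t x) v ≤
    p.Gr n t x v + ENNReal.ofReal (p.r j ^ (3 * p.K)) * gs (1 / 4) v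

/-- elementary relations between the parameters -/
structure Std : Prop where
  δ0 : 0 < p.δ
  δ_le : p.δ ≤ 1 / 10 ^ 7
  e_pos : 0 < p.e
  e_le : p.e ≤ 1 / 10 ^ 7
  R_ge : 1000 ≤ p.R
  V_ge : 8 * p.R ≤ p.V
  κ0_pos : 0 < p.κ0
  κ0_le : p.κ0 ≤ 1 / 1000
  δ1_pos : 0 < p.δ1
  δ1_le : p.δ1 ≤ p.κ0 / 1000
  h_pos : 0 < p.h
  h_le : p.h * (1000 * p.V) ≤ p.δ1
  M_ge : 1 ≤ p.M
  r1_pos : 0 < p.r1
  t2_le : p.t2 ≤ 1 / 1000
  S_ge : 1000 ≤ p.S
  κ_pos : 0 < p.κ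
  κ_le : p.κ ≤ p.t2 / 1000
  r0_pos : 0 < p.r0
  r0_κ : p.r0 ≤ p.κ / 1000
  r0_δ1 : p.r0 ≤ p.δ1 / 1000
  r0_V : p.r0 * (1000 * p.V ^ 10) ≤ 1
  r0_M : p.r0 * (10 ^ 6 * p.M) ≤ 1
  AA_le : p.AA p.eps p.t2 ≤ p.r0
end Par

end Crest.Agent.R068
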