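import Crest.Agent.R068.Std
import Crest.Agent.R068.OneD

/-! Row 68: growth of `Ω m` along free flights. -/

set_option autoImplicit false
open MeasureTheory Set Filter Topology
open scoped ENNReal
open Crest.AnalysisR.VecCalc3 Crest.AnalysisR.PDE.Boltzmann

namespace Crest.Agent.R068

/-- derivative of `sn` in the direction `v` -/
noncomputable def oms1_ds (y v : R3) : ℝ :=
  ∑ i : Fin 3, Real.sin (Real.pi * y i) * (2 * (Real.cos (Real.pi * y i) * (Real.pi * v i)))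

lemma oms1_hasDeriv_sn (x v : R3) (t s : ℝ) :
    HasDerivAt (fun s => sn (x - (t - s) • v)) (oms1_ds (x - (t - s) • v) v) s := by
  unfold sn oms1_ds
  refine HasDerivAt.fun_sum fun i _ => ?_
  have h1 : HasDerivAt (fun s : ℝ => Real.pi * (x - (t - s) • v) i) (Real.pi * v i) s := by
    have e : (fun s : ℝ => Real.pi * (x - (t - s) • v) i) =
        fun s => Real.pi * (x i - (t - s) * v i) := by
      funext s; simp
    rw [e]
    have := ((((hasDerivAt_id s).const_sub t).mul_const (v i)).const_sub (x i)).const_mul Real.pi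
    simpa using this
  refine (h1.sin.fun_pow 2).congr_deriv ?_
  simp only [Nat.cast_ofNat, Nat.add_one_sub_one, pow_one]
  ring

lemma oms1_cont_ds (x v : R3) (t : ℝ) : Continuous (fun s : ℝ => oms1_ds (x - (t - s) • v) v) := by
  unfold oms1_ds
  fun_prop

lemma oms1_sn_nonneg (y : R3) : 0 ≤ sn y := Finset.sum_nonneg fun _ _ => sq_nonneg _

lemma oms1_ds_sq (y v : R3) : oms1_ds y v ^ 2 ≤ 40 * sn y * ‖v‖ ^ 2 := by
  have h1 := Finset.sum_mul_sq_le_sq_mul_sq (Finset.univ : Finset (Fin 3))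
    (fun i => Real.sin (Real.pi * y i)) (fun i => 2 * (Real.cos (Real.pi * y i) * (Real.pi * v i)))
  have h2 : ∑ i : Fin 3, (2 * (Real.cos (Real.pi * y i) * (Real.pi * v i))) ^ 2 ≤ 40 * ‖v‖ ^ 2 := by
    rw [EuclideanSpace.real_norm_sq_eq, Finset.mul_sum]
    refine Finset.sum_le_sum fun i _ => ?_
    have hc := Real.cos_sq_le_one (Real.pi * y i)
    have hp : Real.pi ^ 2 ≤ 10 := by nlinarith [Real.pi_lt_d2, Real.pi_pos]
    have h3 : Real.cos (Real.pi * y i) ^ 2 * Real.pi ^ 2 ≤ 10 := by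
      nlinarith [sq_nonneg (Real.cos (Real.pi * y i)), sq_nonneg Real.pi]
    nlinarith [sq_nonneg (v i)]
  have h3 := oms1_sn_nonneg y
  calc oms1_ds y v ^ 2 ≤ sn y * ∑ i : Fin 3, (2 * (Real.cos (Real.pi * y i) * (Real.pi * v i))) ^ 2 := h1
    _ ≤ sn y * (40 * ‖v‖ ^ 2) := mul_le_mul_of_nonneg_left h2 h3
    _ = _ := by ring

lemma oms1_key {σ σ' r s w θ K R V C : ℝ} (hσ : 0 ≤ σ) (hr : 0 < r) (hs : 0 < s) (hsR : s ≤ R * r)
    (hR : 1000 ≤ R) (hθ : θ = 1000 * K * R) (hK : 28 * V ^ 6 ≤ K) (hK1 : 1 ≤ K)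
    (hC : 0 ≤ C) (hσ' : σ' ^ 2 ≤ 40 * σ * w ^ 2)
    (hsm : (C + 1) * r * (1 + θ * R) + 8 * R * C ^ 2 * r ^ 2 * (1 + θ * R) ≤ 1) :
    (7 * V ^ 6 / (Real.sqrt σ + s) + C * (1 + w) + 1) * (σ / (σ + r ^ 2) + θ * s / r) ≤
      K * (σ' * r ^ 2 / (σ + r ^ 2) ^ 2 + θ / r) +
        (σ / (σ + r ^ 2) + θ * s / r) * (w ^ 2 / (16 * R * r)) := by
  have hD : 0 < σ + r ^ 2 := by positivity
  have hR0 : 0 < R := by linarith
  have hθ1 : 1000 ≤ θ := by rw [hθ]; nlinarith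
  have hθ0 : 0 < θ := by linarith
  have hsq := Real.sqrt_nonneg σ
  have hsq2 := Real.sq_sqrt hσ
  set q := σ / (σ + r ^ 2) with hq
  set d := σ' * r ^ 2 / (σ + r ^ 2) ^ 2 with hd
  have hq0 : 0 ≤ q := div_nonneg hσ hD.le
  have hq1 : q ≤ 1 := by rw [hq, div_le_one hD]; nlinarith
  have hrq : r * q ≤ Real.sqrt σ := by
    rw [hq, ← mul_div_assoc, div_le_iff₀ hD]
    have : r * Real.sqrt σ ≤ σ + r ^ 2 := by nlinarith [sq_nonneg (r - Real.sqrt σ), mul_nonneg hr.le hsq]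
    calc r * σ = Real.sqrt σ * (r * Real.sqrt σ) := by nth_rewrite 1 [← hsq2]; ring
      _ ≤ _ := mul_le_mul_of_nonneg_left this hsq
  have hrd : (r * d) ^ 2 ≤ 40 * q * w ^ 2 := by
    have e1 : (r * d) ^ 2 = σ' ^ 2 * (r ^ 2 / (σ + r ^ 2)) ^ 3 / (σ + r ^ 2) := by
      rw [hd]; field_simp
    have e2 : (r ^ 2 / (σ + r ^ 2)) ^ 3 ≤ 1 :=
      pow_le_one₀ (by positivity) (by rw [div_le_one hD]; linarith)
    have e3 : 40 * q * w ^ 2 = 40 * σ * w ^ 2 / (σ + r ^ 2) := by rw [hq]; ring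
    rw [e1, e3]
    refine div_le_div_of_nonneg_right ?_ hD.le
    calc σ' ^ 2 * (r ^ 2 / (σ + r ^ 2)) ^ 3 ≤ σ' ^ 2 * 1 := mul_le_mul_of_nonneg_left e2 (sq_nonneg _)
      _ ≤ _ := by rw [mul_one]; exact hσ'
  have hts0 : 0 ≤ θ * s / r := by positivity
  have hts1 : θ * s / r ≤ θ * R := by
    rw [div_le_iff₀ hr, mul_assoc]; exact mul_le_mul_of_nonneg_left hsR hθ0.le
  set g := q + θ * s / r with hg
  have hg0 : 0 ≤ g := add_nonneg hq0 hts0
  have hgq : q ≤ g := by linarith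
  have hg1 : g ≤ 1 + θ * R := by linarith
  have hgr : g * r = r * q + θ * s := by rw [hg]; field_simp
  set a := g * w ^ 2 / (32 * R) with ha
  have ha0 : 0 ≤ a := by positivity
  -- (1)
  have h1 : 7 * V ^ 6 / (Real.sqrt σ + s) * (g * r) ≤ K * θ / 4 := by
    have hp : 0 < Real.sqrt σ + s := by positivity
    have : g * r ≤ θ * (Real.sqrt σ + s) := by rw [hgr]; nlinarith
    have hV : 0 ≤ 7 * V ^ 6 := by positivity
    calc 7 * V ^ 6 / (Real.sqrt σ + s) * (g * r)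
        ≤ 7 * V ^ 6 / (Real.sqrt σ + s) * (θ * (Real.sqrt σ + s)) :=
          mul_le_mul_of_nonneg_left this (div_nonneg hV hp.le)
      _ = 7 * V ^ 6 * θ := by field_simp
      _ ≤ K * θ / 4 := by nlinarith
  -- (2)
  have h2 : C * w * (g * r) ≤ a + 8 * R * C ^ 2 * r ^ 2 * g := by
    have e : a + 8 * R * C ^ 2 * r ^ 2 * g - C * w * (g * r) = g * (w - 16 * R * C * r) ^ 2 / (32 * R) := by
      rw [ha]; field_simp; ring
    have : 0 ≤ g * (w - 16 * R * C * r) ^ 2 / (32 * R) := by positivity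
    linarith
  -- (3)
  have h3 : (C + 1) * (g * r) + 8 * R * C ^ 2 * r ^ 2 * g ≤ K * θ / 4 := by
    have e1 : (C + 1) * r * g ≤ (C + 1) * r * (1 + θ * R) :=
      mul_le_mul_of_nonneg_left hg1 (by positivity)
    have e2 : 8 * R * C ^ 2 * r ^ 2 * g ≤ 8 * R * C ^ 2 * r ^ 2 * (1 + θ * R) :=
      mul_le_mul_of_nonneg_left hg1 (by positivity)
    have e3 : 1 ≤ K * θ / 4 := by nlinarith
    nlinarith
  -- (4)
  have h4 : -(a + K * θ / 2) ≤ K * (r * d) := by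
    have hb : 0 ≤ a + K * θ / 2 := by positivity
    refine neg_le_of_abs_le (abs_le_of_sq_le_sq ?_ hb)
    have e1 : (K * (r * d)) ^ 2 ≤ K ^ 2 * (40 * g * w ^ 2) := by
      rw [mul_pow]
      refine mul_le_mul_of_nonneg_left (hrd.trans ?_) (sq_nonneg _)
      nlinarith [sq_nonneg w]
    have e2 : 4 * a * (K * θ / 2) = K ^ 2 * (125 / 2 * g * w ^ 2) := by
      rw [ha, hθ]; field_simp; ring
    have e3 : 0 ≤ K ^ 2 * (g * w ^ 2) := by positivity
    nlinarith [sq_nonneg (a - K * θ / 2)]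
  refine le_of_mul_le_mul_right ?_ hr
  have eL : (7 * V ^ 6 / (Real.sqrt σ + s) + C * (1 + w) + 1) * g * r =
      7 * V ^ 6 / (Real.sqrt σ + s) * (g * r) + C * w * (g * r) + (C + 1) * (g * r) := by ring
  have eR : (K * (d + θ / r) + g * (w ^ 2 / (16 * R * r))) * r = K * (r * d) + K * θ + 2 * a := by
    rw [ha]; field_simp; ring
  rw [eL, eR]
  linarith

lemma oms1_small : ∀ᶠ p in PF, (10 ^ 11 * p.C0 + 1) * p.r1 * (1 + p.θ * p.R) +
    8 * p.R * (10 ^ 11 * p.C0) ^ 2 * p.r1 ^ 2 * (1 + p.θ * p.R) ≤ 1 := by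
  refine ev_r1 (Q := fun p x => (10 ^ 11 * p.C0 + 1) * x * (1 + p.θ * p.R) +
    8 * p.R * (10 ^ 11 * p.C0) ^ 2 * x ^ 2 * (1 + p.θ * p.R) ≤ 1) (Eventually.of_forall fun p => ?_)
  have hc : Continuous (fun x : ℝ => (10 ^ 11 * p.C0 + 1) * x * (1 + p.θ * p.R) +
      8 * p.R * (10 ^ 11 * p.C0) ^ 2 * x ^ 2 * (1 + p.θ * p.R)) := by fun_prop
  have h0 := hc.tendsto 0
  simp only [mul_zero, zero_mul, ne_eq, OfNat.ofNat_ne_zero, not_false_eq_true, zero_pow,
    add_zero] at h0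
  exact (h0.eventually (eventually_le_nhds zero_lt_one)).filter_mono nhdsWithin_le_nhds

theorem oms1_main : ∀ᶠ p in PF, ∀ (t : ℝ) (x v : R3), 0 ≤ t → t ≤ p.t2 →
    p.amb (x - t • v) v + ∫⁻ s in Ioo 0 t,
      ENNReal.ofReal ((7 * p.V ^ 6 / (Real.sqrt (sn (x - (t - s) • v)) + s) +
        10 ^ 11 * p.C0 * (1 + ‖v‖) + 1) * p.Om s (x - (t - s) • v)) * gs (p.aa s) v ≤
      ENNReal.ofReal (p.Om t x) * gs (p.aa t) v := by
  filter_upwards [ev_std, oms1_small] with p hp hsm t x v ht0 ht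
  have hr := hp.r1_pos
  have hR := hp.R_ge
  have hV : 8000 ≤ p.V := by linarith [hp.V_ge]
  have hK1 : (1:ℝ) ≤ p.K := by
    have : (0:ℝ) ≤ p.Lam := Nat.cast_nonneg _
    unfold Par.K; push_cast; linarith
  have hK : 28 * p.V ^ 6 ≤ p.K := by
    have h1 : p.V ^ 7 ≤ p.Lam := Nat.le_ceil _
    have h2 : 0 ≤ p.V ^ 6 := by positivity
    have h3 : 28 * p.V ^ 6 ≤ p.V ^ 7 := by nlinarith
    unfold Par.K; push_cast; linarith
  have hθ0 : 0 ≤ p.θ := by unfold Par.θ; positivity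
  have hC : 0 ≤ 10 ^ 11 * p.C0 := by unfold Par.C0; positivity
  obtain ⟨k, hk⟩ : ∃ k, p.K = k + 1 := ⟨p.Lam + 29, rfl⟩
  set σ : ℝ → ℝ := fun s => sn (x - (t - s) • v) with hσ
  set σ' : ℝ → ℝ := fun s => oms1_ds (x - (t - s) • v) v with hσ'
  have hσ0 : ∀ s, 0 ≤ σ s := fun s => oms1_sn_nonneg _
  have hD : ∀ s, 0 < σ s + p.r1 ^ 2 := fun s => by have := hσ0 s; positivity
  have hdσ : ∀ s, HasDerivAt σ (σ' s) s := fun s => oms1_hasDeriv_sn x v t s
  have hcσ : Continuous σ := continuous_iff_continuousAt.2 fun s => (hdσ s).continuousAt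
  have hcσ' : Continuous σ' := oms1_cont_ds x v t
  set g : ℝ → ℝ := fun s => σ s / (σ s + p.r1 ^ 2) + p.θ * s / p.r1 with hg
  set g' : ℝ → ℝ := fun s => σ' s * p.r1 ^ 2 / (σ s + p.r1 ^ 2) ^ 2 + p.θ / p.r1 with hg'
  have hdg : ∀ s, HasDerivAt g (g' s) s := fun s => by
    have h1 := (hdσ s).fun_div ((hdσ s).add_const (p.r1 ^ 2)) (hD s).ne'
    have h2 := ((hasDerivAt_id s).const_mul p.θ).div_const p.r1
    refine (h1.fun_add h2).congr_deriv ?_
    simp only [hg']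
    ring
  have hcg : Continuous g := continuous_iff_continuousAt.2 fun s => (hdg s).continuousAt
  have hcg' : Continuous g' :=
    ((hcσ'.mul continuous_const).div ((hcσ.add continuous_const).pow 2)
      fun s => pow_ne_zero _ (hD s).ne').add continuous_const
  set E : ℝ → ℝ := fun s => Real.exp (-(p.aa s * ‖v‖ ^ 2)) with hE
  have hdE : ∀ s, HasDerivAt E (E s * (‖v‖ ^ 2 / (16 * p.R * p.r1))) s := fun s => by
    have h1 := (((((hasDerivAt_id s).div_const (16 * p.R * p.r1)).const_sub (1 / 4)).mul_const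
      (‖v‖ ^ 2)).fun_neg).exp
    refine h1.congr_deriv ?_
    simp only [hE, Par.aa, id]
    ring
  have hcE : Continuous E := continuous_iff_continuousAt.2 fun s => (hdE s).continuousAt
  have hE0 : ∀ s, 0 < E s := fun s => Real.exp_pos _
  set u : ℝ → ℝ := fun s => (2 * g s) ^ p.K * E s with hu
  set u' : ℝ → ℝ := fun s => 2 * (2 * g s) ^ k * E s *
    (p.K * g' s + g s * (‖v‖ ^ 2 / (16 * p.R * p.r1))) with hu'
  have hdu : ∀ s, HasDerivAt u (u' s) s := fun s => by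
    have h1 := (((hdg s).const_mul 2).fun_pow p.K).fun_mul (hdE s)
    refine h1.congr_deriv ?_
    simp only [hu']
    rw [hk]
    simp only [Nat.add_sub_cancel]
    ring
  have hcu' : Continuous u' := by
    simp only [hu']
    fun_prop
  have hg0 : ∀ s, 0 ≤ s → 0 ≤ g s := fun s hs => by
    have := hσ0 s
    simp only [hg]
    positivity
  have hkey : ∀ s ∈ Ioo 0 t, (7 * p.V ^ 6 / (Real.sqrt (σ s) + s) + 10 ^ 11 * p.C0 * (1 + ‖v‖) + 1) *
      (2 * g s) ^ p.K * E s ≤ u' s := fun s hs => by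
    have h1 : (7 * p.V ^ 6 / (Real.sqrt (σ s) + s) + 10 ^ 11 * p.C0 * (1 + ‖v‖) + 1) * g s ≤
        p.K * g' s + g s * (‖v‖ ^ 2 / (16 * p.R * p.r1)) :=
      oms1_key (θ := p.θ) (hσ0 s) hr hs.1 (hs.2.le.trans ht) hR rfl hK hK1 hC
        (oms1_ds_sq (x - (t - s) • v) v) hsm
    have h2 : 0 ≤ 2 * (2 * g s) ^ k * E s := by
      have := hg0 s hs.1.le
      have := hE0 s
      positivity
    have h3 := mul_le_mul_of_nonneg_left h1 h2
    refine le_trans (le_of_eq ?_) h3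
    rw [hk]
    ring
  have hA : ∀ s ∈ Ioo 0 t, 0 ≤ (7 * p.V ^ 6 / (Real.sqrt (σ s) + s) + 10 ^ 11 * p.C0 * (1 + ‖v‖) + 1) *
      (2 * g s) ^ p.K * E s := fun s hs => by
    have := hg0 s hs.1.le
    have := hE0 s
    have := hs.1
    positivity
  have hmain := lintegral_le_of_deriv (u := u) (u' := u') (a := 0) (b := t)
    (ρ := fun s => ENNReal.ofReal ((7 * p.V ^ 6 / (Real.sqrt (sn (x - (t - s) • v)) + s) +
        10 ^ 11 * p.C0 * (1 + ‖v‖) + 1) * p.Om s (x - (t - s) • v)) * gs (p.aa s) v)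
    ht0 (fun s _ => hdu s) hcu'.continuousOn
    (mul_nonneg (pow_nonneg (mul_nonneg zero_le_two (hg0 0 le_rfl)) _) (hE0 0).le)
    (fun s hs => by
      rw [gs, ← ENNReal.ofReal_mul' (Real.exp_pos _).le]
      exact ENNReal.ofReal_le_ofReal (hkey s hs))
    (fun s hs => (hA s hs).trans (hkey s hs))
  have e0 : u 0 = p.Om 0 (x - t • v) * Real.exp (-(1 / 4 * ‖v‖ ^ 2)) := by
    simp only [hu, hg, hσ, hE, Par.Om, Par.aa, sub_zero, zero_div]
  have et : u t = p.Om t x * Real.exp (-(p.aa t * ‖v‖ ^ 2)) := by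
    simp only [hu, hg, hσ, hE, Par.Om, sub_self, zero_smul, sub_zero]
  rw [gs, ← ENNReal.ofReal_mul' (Real.exp_pos _).le, ← et]
  refine le_trans (add_le_add ?_ le_rfl) hmain
  unfold Par.amb
  split_ifs with h
  · refine (mu_le_gs v).trans ?_
    rw [e0, gs]
    refine ENNReal.ofReal_le_ofReal ?_
    have h1 : 1 ≤ p.Om 0 (x - t • v) := by
      unfold Par.Om
      refine one_le_pow₀ ?_
      have h2 := h.2
      have h3 : 0 < sn (x - t • v) + p.r1 ^ 2 := by have := oms1_sn_nonneg (x - t • v); positivity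
      rw [mul_zero, zero_div, add_zero, ← mul_div_assoc, one_le_div h3]
      linarith
    calc Real.exp (-(1 / 2 * ‖v‖ ^ 2)) ≤ Real.exp (-(1 / 4 * ‖v‖ ^ 2)) :=
          Real.exp_le_exp.2 (by nlinarith [sq_nonneg ‖v‖])
      _ ≤ _ := le_mul_of_one_le_left (Real.exp_pos _).le h1
  · exact zero_le

end Crest.Agent.R068
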