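import Crest.Agent.R068.CellC

/-! Row 68: auxiliary lemmas for `OmS.lean` (gain against the weight, sources, supersolution). -/

set_option autoImplicit false
open MeasureTheory Set Filter Topology
open scoped ENNReal
open Crest.AnalysisR.VecCalc3 Crest.AnalysisR.PDE.Boltzmann

namespace Crest.Agent.R068

lemma omsB_V : ∀ᶠ p in PF, 28000 ≤ p.V :=
  ev_V (Q := fun _ x => 28000 ≤ x) (Eventually.of_forall fun _ => eventually_ge_atTop _)

lemma omsB_r0 {p : Par} (h : p.Std) : p.r0 ≤ 1 / 1000 := by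
  linarith [h.r0_κ, h.κ_le, h.t2_le]

lemma omsB_r1 {p : Par} (h : p.Std) : p.r1 ≤ 1 := by
  have h1 := h.t2_le
  have h2 := h.R_ge
  have h3 := h.r1_pos
  unfold Par.t2 at h1
  nlinarith

lemma omsB_gain_zero {f g : R3 → ℝ≥0∞} (hf : ∀ v, f v = 0) (v : R3) : gain f g v = 0 := by
  rw [show f = fun _ => 0 from funext hf]
  exact gain_zero_left g v

lemma omsB_gain_W {p : Par} (hs : p.Std) (hV : 28000 ≤ p.V) {n : ℕ∞} {t a : ℝ} {x : R3} (v : R3)
    {k : Fin 3 → ℤ} {j : ℕ} (ht : 0 < t) (ht2 : t ≤ p.t2) (ha : 1 / 8 ≤ a) (ha' : a ≤ 1 / 4)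
    (hw : p.Wit n t x k j) :
    gain (p.B n t x) (p.W n a t x) v ≤
      ENNReal.ofReal (p.V ^ 6 / (‖x - lat k‖ + t)) * p.W n a t x v := by
  have ht3 : t ≤ 1 / 1000 := ht2.trans hs.t2_le
  have hCW := CW_le ht.le (by linarith)
  have hCW1 := one_le_CW ht.le
  have hd : 0 < ‖x - lat k‖ + t := by positivity
  have hd1 : ‖x - lat k‖ + t ≤ 1 := by linarith [hw.near, omsB_r0 hs]
  have hV0 : 0 < p.V := by linarith
  have hρ : 140 * CW t * p.rho t (x - lat k) ≤ p.V ^ 6 / (‖x - lat k‖ + t) := by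
    have h1 : 1 ≤ (‖x - lat k‖ + t)⁻¹ := one_le_inv₀ hd |>.2 hd1
    calc 140 * CW t * p.rho t (x - lat k)
        ≤ 140 * 100 * (p.V ^ 5 * ((‖x - lat k‖ + t)⁻¹ + (‖x - lat k‖ + t)⁻¹)) := by
          unfold Par.rho
          gcongr
      _ = 28000 * (p.V ^ 5 * (‖x - lat k‖ + t)⁻¹) := by ring
      _ ≤ p.V * (p.V ^ 5 * (‖x - lat k‖ + t)⁻¹) := by gcongr
      _ = _ := by rw [div_eq_mul_inv]; ring
  calc gain (p.B n t x) (p.W n a t x) v
      ≤ ENNReal.ofReal (140 * CW t) * gs a v * pot (p.B n t x) v :=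
        gain_Wf_pot ha ha' ht.le x ((p.meas_B n).slice t x) (fun u hu => (hw.supp u hu).2) v
    _ ≤ ENNReal.ofReal (140 * CW t) * gs a v *
        (ENNReal.ofReal (p.rho t (x - lat k)) * (1 + p.Y n t x v)) := by
        gcongr
        exact hw.pot v
    _ = ENNReal.ofReal (140 * CW t * p.rho t (x - lat k)) * p.W n a t x v := by
        rw [ENNReal.ofReal_mul (p := 140 * CW t) (by positivity)]
        simp only [Par.W, Par.Y, Wf]
        ring
    _ ≤ _ := by gcongr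

lemma omsB_pow_le_Om {p : Par} (hs : p.Std) {n : ℕ∞} {t : ℝ} {x : R3} {k : Fin 3 → ℤ} {j : ℕ}
    (ht : 0 ≤ t) (ht2 : t ≤ p.t2) (hw : p.Wit n t x k j) : p.r j ^ (3 * p.K) ≤ p.Om t x := by
  have ht3 : t ≤ 1 / 1000 := ht2.trans hs.t2_le
  have hr0 := Par.r_pos hs j
  have hr1 : p.r j ≤ 1 := by linarith [Par.r_le hs j, omsB_r0 hs]
  have h1 : 4 * ‖x - lat k‖ ^ 2 ≤ sn x := le_sn (by linarith [hw.near, omsB_r0 hs])
  have h2 : p.r j / 2 ≤ ‖x - lat k‖ := hw.lo.le.trans (abs_nc_le _)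
  have h3 : p.r j ^ 2 ≤ sn x := by nlinarith
  have h4 := hs.r1_pos
  have h5 : p.r1 ^ 2 ≤ 1 := pow_le_one₀ h4.le (omsB_r1 hs)
  have h6 : p.r j ^ 3 ≤ 1 := pow_le_one₀ hr0.le hr1
  have h7 : p.r j ^ 3 ≤ p.r j ^ 2 := pow_le_pow_of_le_one hr0.le hr1 (by norm_num)
  have hsn := sn_nonneg x
  have h8 : p.r j ^ 3 ≤ 2 * (sn x / (sn x + p.r1 ^ 2)) := by
    rw [← mul_div_assoc, le_div_iff₀ (by positivity)]
    have a1 : p.r j ^ 3 * sn x ≤ sn x := mul_le_of_le_one_left hsn h6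
    have a2 : p.r j ^ 3 * p.r1 ^ 2 ≤ p.r j ^ 3 := mul_le_of_le_one_right (by positivity) h5
    nlinarith
  have h9 : 0 ≤ p.θ * t / p.r1 := by
    have := hs.R_ge
    unfold Par.θ
    positivity
  rw [pow_mul]
  unfold Par.Om
  exact pow_le_pow_left₀ (by positivity) (by linarith) _

lemma omsB_pow_le_r0 {p : Par} (hs : p.Std) (j : ℕ) : p.r j ^ (3 * p.K) ≤ p.r0 := by
  have hr0 := Par.r_pos hs j
  have hr1 : p.r j ≤ 1 := by linarith [Par.r_le hs j, omsB_r0 hs]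
  refine le_trans (pow_le_of_le_one hr0.le hr1 ?_) (Par.r_le hs j)
  unfold Par.K
  omega

/-- pointwise bound for the gain of the unperturbed barrier -/
lemma omsB_gain_U1 {p : Par} (hs : p.Std) (hV : 28000 ≤ p.V) {n : ℕ∞} {r : ℝ} (y v : R3)
    (hr : 0 < r) (hr2 : r ≤ p.t2)
    (hw : ((∀ v, p.B n r y v = 0) ∧ ∀ v, p.Gr n r y v = 0) ∨ ∃ k j, p.Wit n r y k j) :
    gain (p.U1 n 0 r y) (p.U1 n 0 r y) v ≤ p.Gr n r y v +
      ENNReal.ofReal ((7 * p.V ^ 6 / (Real.sqrt (sn y) + r) +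
        10 ^ 11 * p.C0 * (1 + ‖v‖) + 1) * p.Om r y) * gs (p.aa r) v * (1 + p.Y n r y v) := by
  have ha := Par.aa_mem hs hr.le hr2
  have ha1 : 1 / 8 ≤ p.aa r := by linarith [ha.1]
  have hr3 : r ≤ 1 / 1000 := hr2.trans hs.t2_le
  have hCW := CW_le hr.le (by linarith)
  have hCW1 := one_le_CW hr.le
  have hΩ := Par.Om_nonneg hs hr.le y
  have hΩC : p.Om r y ≤ p.C0 := by
    have := Par.AA_Om_le hs le_rfl (Par.eps_pos hs).le hr.le hr2 y
    rwa [Par.AA_zero, zero_add] at this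
  have hV0 : 0 < p.V := by linarith
  have hC0 := Par.one_le_C0 hs
  have hB : Measurable (p.B n r y) := (p.meas_B n).slice r y
  have hW : Measurable (p.W n (p.aa r) r y) := (p.meas_W n _).slice r y
  have hU : p.U1 n 0 r y = fun u => p.B n r y u +
      ENNReal.ofReal (p.Om r y) * p.W n (p.aa r) r y u := by
    funext u
    simp only [Par.U1, Par.AA_zero, zero_add]
  have hWv : p.W n (p.aa r) r y v = gs (p.aa r) v * (1 + p.Y n r y v) := rfl
  have hgW : gs (p.aa r) v ≤ p.W n (p.aa r) r y v := gs_le_Wf _ _ _ _ _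
  have h1 : gain (p.B n r y) (p.B n r y) v ≤
      p.Gr n r y v + ENNReal.ofReal (p.Om r y) * p.W n (p.aa r) r y v := by
    rcases hw with hw | ⟨k, j, hw⟩
    · rw [omsB_gain_zero hw.1]; exact zero_le
    · refine (hw.self v).trans ?_
      gcongr
      · exact omsB_pow_le_Om hs hr.le hr2 hw
      · exact (gs_anti ha.2 v).trans hgW
  have h2 : 2 * gain (p.B n r y) (p.W n (p.aa r) r y) v ≤
      ENNReal.ofReal (7 * p.V ^ 6 / (Real.sqrt (sn y) + r)) * p.W n (p.aa r) r y v := by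
    rcases hw with hw | ⟨k, j, hw⟩
    · rw [omsB_gain_zero hw.1, mul_zero]; exact zero_le
    · refine (mul_le_mul_right (omsB_gain_W hs hV v hr hr2 ha1 ha.2 hw) 2).trans ?_
      have e2 : ∀ z : ℝ, 2 * ENNReal.ofReal z = ENNReal.ofReal (2 * z) := fun z => by
        rw [ENNReal.ofReal_mul (by norm_num), ENNReal.ofReal_ofNat]
      rw [← mul_assoc, e2]
      refine mul_le_mul_left (ENNReal.ofReal_le_ofReal ?_) _
      have b1 := sqrt_sn_le y k
      have b2 := Real.pi_lt_d2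
      have b3 := norm_nonneg (y - lat k)
      have b4 := Real.sqrt_nonneg (sn y)
      rw [← mul_div_assoc, div_le_div_iff₀ (by positivity) (by positivity)]
      have b5 : 2 * (Real.sqrt (sn y) + r) ≤ 7 * (‖y - lat k‖ + r) := by nlinarith
      calc 2 * p.V ^ 6 * (Real.sqrt (sn y) + r) = p.V ^ 6 * (2 * (Real.sqrt (sn y) + r)) := by ring
        _ ≤ p.V ^ 6 * (7 * (‖y - lat k‖ + r)) := by gcongr
        _ = _ := by ring
  have h3 : ENNReal.ofReal (p.Om r y) * gain (p.W n (p.aa r) r y) (p.W n (p.aa r) r y) v ≤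
      ENNReal.ofReal (10 ^ 11 * p.C0 * (1 + ‖v‖)) * p.W n (p.aa r) r y v := by
    refine (mul_le_mul_right (gain_Wf_Wf ha1 ha.2 hr.le y v) _).trans ?_
    rw [← mul_assoc, ← ENNReal.ofReal_mul hΩ]
    refine mul_le_mul' (ENNReal.ofReal_le_ofReal ?_) hgW
    calc p.Om r y * (10 ^ 6 * CW r ^ 2 * (1 + ‖v‖))
        ≤ p.C0 * (10 ^ 6 * 100 ^ 2 * (1 + ‖v‖)) := by gcongr
      _ = 10 ^ 10 * (p.C0 * (1 + ‖v‖)) := by ring
      _ ≤ 10 ^ 11 * (p.C0 * (1 + ‖v‖)) := by gcongr <;> norm_num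
      _ = _ := by ring
  rw [hU, gain_add_add hB (hW.const_mul _), gain_const_mul_right hB hW,
    gain_const_mul_left hW (hW.const_mul _), gain_const_mul_right hW hW, mul_assoc _ (gs _ _), ← hWv,
    ENNReal.ofReal_mul (by positivity), ENNReal.ofReal_add (by positivity) zero_le_one,
    ENNReal.ofReal_add (by positivity) (by positivity), ENNReal.ofReal_one]
  calc _ = gain (p.B n r y) (p.B n r y) v + ENNReal.ofReal (p.Om r y) *
        (2 * gain (p.B n r y) (p.W n (p.aa r) r y) v) + ENNReal.ofReal (p.Om r y) *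
        (ENNReal.ofReal (p.Om r y) * gain (p.W n (p.aa r) r y) (p.W n (p.aa r) r y) v) := by ring
    _ ≤ (p.Gr n r y v + ENNReal.ofReal (p.Om r y) * p.W n (p.aa r) r y v) +
        ENNReal.ofReal (p.Om r y) *
          (ENNReal.ofReal (7 * p.V ^ 6 / (Real.sqrt (sn y) + r)) * p.W n (p.aa r) r y v) +
        ENNReal.ofReal (p.Om r y) *
          (ENNReal.ofReal (10 ^ 11 * p.C0 * (1 + ‖v‖)) * p.W n (p.aa r) r y v) := by gcongr
    _ = _ := by ring

lemma omsB_super {p : Par} (hs : p.Std) (hV : 28000 ≤ p.V) {n : ℕ∞} {s t : ℝ} {x v : R3}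
    (hs0 : 0 ≤ s) (ht2 : t ≤ p.t2)
    (hw : ∀ (r : ℝ) (y : R3), 0 ≤ r →
      ((∀ v, p.B n r y v = 0) ∧ ∀ v, p.Gr n r y v = 0) ∨ ∃ k j, p.Wit n r y k j)
    (htr : p.Sd n (x - t • v) v + ∫⁻ r in Ioo s t, p.Gr n r (x - (t - r) • v) v ≤ p.B n t x v)
    (hOm : p.amb (x - t • v) v + ∫⁻ s in Ioo 0 t,
      ENNReal.ofReal ((7 * p.V ^ 6 / (Real.sqrt (sn (x - (t - s) • v)) + s) +
        10 ^ 11 * p.C0 * (1 + ‖v‖) + 1) * p.Om s (x - (t - s) • v)) * gs (p.aa s) v ≤
      ENNReal.ofReal (p.Om t x) * gs (p.aa t) v) :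
    p.amb (x - t • v) v + p.Sd n (x - t • v) v +
      ∫⁻ r in Ioo s t, gain (p.U1 n 0 r (x - (t - r) • v)) (p.U1 n 0 r (x - (t - r) • v)) v ≤
    p.U1 n 0 t x v := by
  set g : ℝ → ℝ≥0∞ := fun s => ENNReal.ofReal ((7 * p.V ^ 6 / (Real.sqrt (sn (x - (t - s) • v)) + s) +
    10 ^ 11 * p.C0 * (1 + ‖v‖) + 1) * p.Om s (x - (t - s) • v)) * gs (p.aa s) v with hg
  have hy : Measurable fun r : ℝ => x - (t - r) • v := by fun_prop
  have hgm : Measurable g := by
    have m1 : Measurable fun r : ℝ => sn (x - (t - r) • v) := continuous_sn.measurable.comp hy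
    have m0 : Measurable fun r : ℝ => ((r, x - (t - r) • v) : ℝ × R3) := measurable_id.prodMk hy
    have m2 : Measurable fun r : ℝ => p.Om r (x - (t - r) • v) := by
      have := p.meas_Om.comp m0
      simpa only [Function.comp_def] using this
    have m3 : Measurable fun r : ℝ => gs (p.aa r) v := by
      have : Measurable p.aa := by unfold Par.aa; fun_prop
      exact measurable_gs'.comp (this.prodMk measurable_const)
    exact ((((measurable_const.div (m1.sqrt.add measurable_id)).add_const _).add_const _).mul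
      m2).ennreal_ofReal.mul m3
  have hGm : Measurable fun r : ℝ => p.Gr n r (x - (t - r) • v) v :=
    (p.meas_Gr n).comp measurable_id hy measurable_const
  have h1 : ∫⁻ r in Ioo s t, gain (p.U1 n 0 r (x - (t - r) • v)) (p.U1 n 0 r (x - (t - r) • v)) v ≤
      (∫⁻ r in Ioo s t, p.Gr n r (x - (t - r) • v) v) + (∫⁻ r in Ioo 0 t, g r) * (1 + p.Y n t x v) := by
    calc _ ≤ ∫⁻ r in Ioo s t, (p.Gr n r (x - (t - r) • v) v + g r * (1 + p.Y n t x v)) := by
          refine setLIntegral_mono' measurableSet_Ioo fun r hr => ?_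
          have hr0 : 0 < r := hs0.trans_lt hr.1
          refine (omsB_gain_U1 hs hV _ v hr0 (hr.2.le.trans ht2) (hw r _ hr0.le)).trans ?_
          gcongr
          exact Yf_mono _ hr.2.le x v
      _ = (∫⁻ r in Ioo s t, p.Gr n r (x - (t - r) • v) v) +
          (∫⁻ r in Ioo s t, g r) * (1 + p.Y n t x v) := by
          rw [lintegral_add_left hGm, lintegral_mul_const _ hgm]
      _ ≤ _ := by
          gcongr
  calc _ ≤ p.amb (x - t • v) v * (1 + p.Y n t x v) + p.Sd n (x - t • v) v +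
        ((∫⁻ r in Ioo s t, p.Gr n r (x - (t - r) • v) v) +
          (∫⁻ r in Ioo 0 t, g r) * (1 + p.Y n t x v)) := by
        gcongr
        exact le_mul_of_one_le_right' le_self_add
    _ = (p.Sd n (x - t • v) v + ∫⁻ r in Ioo s t, p.Gr n r (x - (t - r) • v) v) +
        (p.amb (x - t • v) v + ∫⁻ r in Ioo 0 t, g r) * (1 + p.Y n t x v) := by ring
    _ ≤ p.B n t x v + ENNReal.ofReal (p.Om t x) * gs (p.aa t) v * (1 + p.Y n t x v) := by gcongr
    _ = _ := by
        simp only [Par.U1, Par.AA_zero, zero_add, Par.W, Par.Y, Wf, mul_assoc]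

end Crest.Agent.R068
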