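import Crest.Agent.R068.CellC
import Crest.Agent.R068.OmSAux1
import Crest.Agent.R068.OmSAuxB

/-! Row 68: the supersolution property of the unperturbed barrier. -/

set_option autoImplicit false
open MeasureTheory Set Filter Topology
open scoped ENNReal
open Crest.AnalysisR.VecCalc3 Crest.AnalysisR.PDE.Boltzmann

namespace Crest.Agent.R068

/-- `Ω m` grows along free flights at a large rate -/
theorem ev_Om_super : ∀ᶠ p in PF, ∀ (t : ℝ) (x v : R3), 0 ≤ t → t ≤ p.t2 →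
    p.amb (x - t • v) v + ∫⁻ s in Ioo 0 t,
      ENNReal.ofReal ((7 * p.V ^ 6 / (Real.sqrt (sn (x - (t - s) • v)) + s) +
        10 ^ 11 * p.C0 * (1 + ‖v‖) + 1) * p.Om s (x - (t - s) • v)) * gs (p.aa s) v ≤
      ENNReal.ofReal (p.Om t x) * gs (p.aa t) v := oms1_main
/-- interaction of the cold barrier with the weight during the first stage -/
theorem ev_gain_B_W1 : ∀ᶠ p in PF, ∀ (n : ℕ∞) (t a : ℝ) (x v : R3) (k : Fin 3 → ℤ) (j : ℕ), 0 < t →
    t ≤ p.t2 → 1 / 8 ≤ a → a ≤ 1 / 4 → p.Wit n t x k j →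
    gain (p.B n t x) (p.W n a t x) v ≤ ENNReal.ofReal (p.V ^ 6 / (‖x - lat k‖ + t)) * p.W n a t x v := by
  filter_upwards [ev_std, omsB_V] with p hs hV n t a x v k j ht ht2 ha ha' hw
  exact omsB_gain_W hs hV v ht ht2 ha ha' hw
theorem ev_gain_B_W1' : ∀ᶠ p in PF, ∀ (n : ℕ∞) (t a : ℝ) (x v : R3), 0 < t → t ≤ p.t2 → 1 / 8 ≤ a →
    a ≤ 1 / 4 → gain (p.B n t x) (p.W n a t x) v ≤ ENNReal.ofReal (p.V ^ 6 / t) * p.W n a t x v := by
  filter_upwards [ev_std, omsB_V, ev_wit] with p hs hV hw n t a x v ht ht2 ha ha'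
  rcases hw n t x ht.le with hw | ⟨k, j, hw⟩
  · rw [omsB_gain_zero hw.1]; exact zero_le
  · refine (omsB_gain_W hs hV v ht ht2 ha ha' hw).trans
      (mul_le_mul_left (ENNReal.ofReal_le_ofReal ?_) _)
    exact div_le_div_of_nonneg_left (by positivity) ht (le_add_of_nonneg_left (norm_nonneg _))
theorem ev_src1 : ∀ᶠ p in PF, ∀ (n : ℕ∞) (t : ℝ) (x v : R3), 0 ≤ t → t ≤ p.t2 →
    gain (p.B n t x) (p.B n t x) v ≤ p.Gr n t x v + ENNReal.ofReal (p.Om t x) * gs (1 / 4) v := by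
  filter_upwards [ev_std, ev_wit] with p hs hw n t x v ht ht2
  rcases hw n t x ht with hw | ⟨k, j, hw⟩
  · rw [omsB_gain_zero hw.1]; exact zero_le
  · refine (hw.self v).trans ?_
    gcongr
    exact omsB_pow_le_Om hs ht ht2 hw
theorem ev_src2 : ∀ᶠ p in PF, ∀ (n : ℕ∞) (t : ℝ) (x v : R3), 0 ≤ t →
    gain (p.B n t x) (p.B n t x) v ≤ p.Gr n t x v + ENNReal.ofReal p.r0 * gs (1 / 4) v := by
  filter_upwards [ev_std, ev_wit] with p hs hw n t x v ht
  rcases hw n t x ht with hw | ⟨k, j, hw⟩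
  · rw [omsB_gain_zero hw.1]; exact zero_le
  · refine (hw.self v).trans ?_
    gcongr
    exact omsB_pow_le_r0 hs j
theorem ev_U0_super : ∀ᶠ p in PF, ∀ (n : ℕ∞) (s t : ℝ) (x v : R3), 0 ≤ s → 0 ≤ t → t ≤ p.t2 →
    p.amb (x - t • v) v + p.Sd n (x - t • v) v +
      ∫⁻ r in Ioo s t, gain (p.U1 n 0 r (x - (t - r) • v)) (p.U1 n 0 r (x - (t - r) • v)) v ≤
    p.U1 n 0 t x v := by
  filter_upwards [ev_std, omsB_V, ev_wit, ev_transport1, ev_Om_super]
    with p hs hV hw htr hOm n s t x v hs0 ht ht2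
  exact omsB_super hs hV hs0 ht2 (fun r y hr => hw n r y hr)
    (htr n s t x v hs0 ht (by linarith [hs.t2_le])) (hOm t x v ht ht2)

end Crest.Agent.R068
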