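import Crest.Agent.R068.Sphere

/-! Row 68: auxiliary one- and two-dimensional integrals for `Plane.lean`. -/

set_option autoImplicit false
open MeasureTheory Set Filter Topology
open scoped ENNReal
open Crest.AnalysisR.VecCalc3 Crest.AnalysisR.PDE.Boltzmann

namespace Crest.Agent.R068

lemma pb_inner0 (e : OrthonormalBasis (Fin 3) ℝ R3) (a b c : ℝ) :
    inner ℝ (e 0) (a • e 0 + b • e 1 + c • e 2) = a := by
  simp [inner_add_right, inner_smul_right, e.inner_eq_ite]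
lemma pb_inner1 (e : OrthonormalBasis (Fin 3) ℝ R3) (a b c : ℝ) :
    inner ℝ (e 1) (a • e 0 + b • e 1 + c • e 2) = b := by
  simp [inner_add_right, inner_smul_right, e.inner_eq_ite]
lemma pb_inner2 (e : OrthonormalBasis (Fin 3) ℝ R3) (a b c : ℝ) :
    inner ℝ (e 2) (a • e 0 + b • e 1 + c • e 2) = c := by
  simp [inner_add_right, inner_smul_right, e.inner_eq_ite]

lemma pb_norm_sq (e : OrthonormalBasis (Fin 3) ℝ R3) (a b c : ℝ) (y : R3) :
    ‖a • e 0 + b • e 1 + c • e 2 - y‖ ^ 2 =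
      (a - inner ℝ (e 0) y) ^ 2 + (b - inner ℝ (e 1) y) ^ 2 + (c - inner ℝ (e 2) y) ^ 2 := by
  rw [← e.sum_sq_inner_right, Fin.sum_univ_three, inner_sub_right, inner_sub_right, inner_sub_right,
    pb_inner0, pb_inner1, pb_inner2]

lemma pb_meas_ind (y ρ : ℝ) : Measurable fun t : ℝ => if |t - y| ≤ ρ then (1:ℝ≥0∞) else 0 :=
  Measurable.ite (measurableSet_le (by fun_prop) measurable_const) measurable_const measurable_const

lemma pb_int_ind (y ρ : ℝ) :
    ∫⁻ t : ℝ, (if |t - y| ≤ ρ then (1:ℝ≥0∞) else 0) = ENNReal.ofReal (2 * ρ) := by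
  rw [← Real.volume_closedBall y ρ, ← lintegral_indicator_one measurableSet_closedBall]
  refine lintegral_congr fun t => ?_
  simp only [indicator, Metric.mem_closedBall, Real.dist_eq, Pi.one_apply]

/-- the singular kernel on a disc -/
noncomputable def pbK (ρ s t : ℝ) : ℝ≥0∞ :=
  if √(s ^ 2 + t ^ 2) ≤ ρ then (ENNReal.ofReal √(s ^ 2 + t ^ 2))⁻¹ else 0

lemma pb_measK (ρ : ℝ) : Measurable fun p : ℝ × ℝ => pbK ρ p.1 p.2 :=
  Measurable.ite (measurableSet_le (by fun_prop) measurable_const) (by fun_prop) measurable_const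

lemma pb_disc0 (ρ : ℝ) : ∫⁻ s : ℝ, ∫⁻ t : ℝ, pbK ρ s t ≤ ENNReal.ofReal (2 * Real.pi * ρ) := by
  rw [lintegral_lintegral (f := fun s t => pbK ρ s t) (pb_measK ρ).aemeasurable,
    ← Measure.volume_eq_prod, ← lintegral_comp_polarCoord_symm]
  calc _ ≤ ∫⁻ p : ℝ × ℝ in polarCoord.target,
        (Ioc 0 ρ ×ˢ Ioo (-Real.pi) Real.pi).indicator (1 : ℝ × ℝ → ℝ≥0∞) p := by
        refine setLIntegral_mono' polarCoord.open_target.measurableSet fun p hp => ?_
        have hp1 : 0 < p.1 := hp.1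
        have e : √((p.1 * Real.cos p.2) ^ 2 + (p.1 * Real.sin p.2) ^ 2) = p.1 := by
          rw [show (p.1 * Real.cos p.2) ^ 2 + (p.1 * Real.sin p.2) ^ 2 = p.1 ^ 2 by
            linear_combination p.1 ^ 2 * Real.cos_sq_add_sin_sq p.2, Real.sqrt_sq hp1.le]
        simp only [polarCoord_symm_apply, pbK, e, smul_eq_mul]
        split_ifs with h
        · rw [indicator_of_mem (show p ∈ Ioc 0 ρ ×ˢ Ioo (-Real.pi) Real.pi from ⟨⟨hp1, h⟩, hp.2⟩)]
          exact ENNReal.mul_inv_le_one _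
        · simp
    _ ≤ ∫⁻ p : ℝ × ℝ, (Ioc 0 ρ ×ˢ Ioo (-Real.pi) Real.pi).indicator (1 : ℝ × ℝ → ℝ≥0∞) p :=
        setLIntegral_le_lintegral _ _
    _ ≤ _ := by
        rw [lintegral_indicator_one (measurableSet_Ioc.prod measurableSet_Ioo), Measure.volume_eq_prod,
          Measure.prod_prod, Real.volume_Ioc, Real.volume_Ioo, mul_comm,
          ← ENNReal.ofReal_mul (by linarith [Real.pi_pos])]
        exact le_of_eq (by congr 1; ring)

lemma pb_disc (ρ y z : ℝ) :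
    ∫⁻ s : ℝ, ∫⁻ t : ℝ, pbK ρ (s - y) (t - z) ≤ ENNReal.ofReal (2 * Real.pi * ρ) := by
  have h : ∀ s, ∫⁻ t : ℝ, pbK ρ (s - y) (t - z) = ∫⁻ t : ℝ, pbK ρ (s - y) t := fun s =>
    lintegral_sub_right_eq_self (fun t => pbK ρ (s - y) t) z
  simp only [h]
  rw [lintegral_sub_right_eq_self (fun s => ∫⁻ t : ℝ, pbK ρ s t) y]
  exact pb_disc0 ρ

lemma pb_gauss {a : ℝ} (ha : 0 < a) :
    ∫⁻ c : ℝ, ENNReal.ofReal (Real.exp (-a * c ^ 2)) = ENNReal.ofReal √(Real.pi / a) := by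
  rw [← ofReal_integral_eq_lintegral_ofReal (integrable_exp_neg_mul_sq ha)
    (Eventually.of_forall fun c => (Real.exp_pos _).le), integral_gaussian]

/-- an orthonormal basis adapted to two unit vectors -/
lemma pb_onb {w n : R3} (hw : ‖w‖ = 1) (hn : ‖n‖ = 1) {β : ℝ} (hβ : 0 < β)
    (htilt : (inner ℝ n w) ^ 2 ≤ 1 - β ^ 2) :
    ∃ (e : OrthonormalBasis (Fin 3) ℝ R3) (μ : ℝ), e 0 = w ∧ β ≤ μ ∧ n = (inner ℝ n w) • e 0 + μ • e 1 := by
  set m : R3 := n - (inner ℝ n w) • w with hm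
  have hww : inner ℝ w w = (1:ℝ) := by rw [real_inner_self_eq_norm_sq, hw]; norm_num
  have hmw : inner ℝ w m = (0:ℝ) := by
    rw [hm, inner_sub_right, inner_smul_right, hww, real_inner_comm]; ring
  have hm2 : ‖m‖ ^ 2 = 1 - (inner ℝ n w) ^ 2 := by
    rw [hm, norm_sub_sq_real, hn, inner_smul_right, norm_smul, hw, Real.norm_eq_abs, mul_one, sq_abs]
    ring
  have hβm : β ≤ ‖m‖ := (sq_le_sq₀ hβ.le (norm_nonneg _)).1 (by linarith)
  have hm0 : 0 < ‖m‖ := hβ.trans_le hβm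
  let v : Fin 3 → R3 := ![w, ‖m‖⁻¹ • m, 0]
  have ho : Orthonormal ℝ (({0, 1} : Set (Fin 3)).restrict v) := by
    constructor
    · rintro ⟨i, rfl | rfl⟩
      · exact hw
      · change ‖‖m‖⁻¹ • m‖ = 1
        rw [norm_smul, norm_inv, norm_norm, inv_mul_cancel₀ hm0.ne']
    · rintro ⟨i, rfl | rfl⟩ ⟨j, rfl | rfl⟩ h
      · exact absurd rfl h
      · change inner ℝ w (‖m‖⁻¹ • m) = 0
        rw [inner_smul_right, hmw, mul_zero]
      · change inner ℝ (‖m‖⁻¹ • m) w = 0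
        rw [real_inner_comm, inner_smul_right, hmw, mul_zero]
      · exact absurd rfl h
  obtain ⟨e, he⟩ := ho.exists_orthonormalBasis_extension_of_card_eq (by simp)
  have e0 : e 0 = w := he 0 (by simp)
  have e1 : e 1 = ‖m‖⁻¹ • m := he 1 (by simp)
  refine ⟨e, ‖m‖, e0, hβm, ?_⟩
  rw [e0, e1, smul_smul, mul_inv_cancel₀ hm0.ne', one_smul, hm]
  abel

end Crest.Agent.R068
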