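import Crest.Agent.R068.Sphere
import Crest.Agent.R068.PlaneAuxB

/-! Row 68: Carleman representation and plane integrals. -/

set_option autoImplicit false
open MeasureTheory Set Filter Topology
open scoped ENNReal
open Crest.AnalysisR.VecCalc3 Crest.AnalysisR.PDE.Boltzmann

namespace Crest.Agent.R068

lemma pa_mp (e : OrthonormalBasis (Fin 3) ℝ R3) :
    MeasurePreserving (fun p : ℝ × ℝ × ℝ => p.1 • e 0 + p.2.1 • e 1 + p.2.2 • e 2) := by
  have h0 := (MeasurePreserving.id (volume : Measure ℝ)).prod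
    ((volume_preserving_finTwoArrow ℝ).symm _)
  have h1 := (volume_preserving_piFinSuccAbove (fun _ : Fin 3 => ℝ) 0).symm _
  have h := (e.measurePreserving_repr_symm.comp (PiLp.volume_preserving_toLp (Fin 3))).comp
    (h1.comp h0)
  refine h.congr (by fun_prop) (Eventually.of_forall fun p => ?_)
  simp only [Function.comp_apply]
  rw [← e.sum_repr_symm, Fin.sum_univ_three]
  rfl

lemma pa_inner0 (e : OrthonormalBasis (Fin 3) ℝ R3) (a b c : ℝ) :
    inner ℝ (a • e 0 + b • e 1 + c • e 2) (e 0) = a := by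
  simp [inner_add_left, inner_smul_left, e.orthonormal.inner_eq_zero]
lemma pa_inner1 (e : OrthonormalBasis (Fin 3) ℝ R3) (a b c : ℝ) :
    inner ℝ (a • e 0 + b • e 1 + c • e 2) (e 1) = b := by
  simp [inner_add_left, inner_smul_left, e.orthonormal.inner_eq_zero]
lemma pa_inner2 (e : OrthonormalBasis (Fin 3) ℝ R3) (a b c : ℝ) :
    inner ℝ (a • e 0 + b • e 1 + c • e 2) (e 2) = c := by
  simp [inner_add_left, inner_smul_left, e.orthonormal.inner_eq_zero]

lemma pa_meas2 (e : OrthonormalBasis (Fin 3) ℝ R3) {g : R3 → ℝ≥0∞} (hg : Measurable g) (p : ℝ) :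
    Measurable fun b : ℝ => ∫⁻ c : ℝ, g (p • e 0 + b • e 1 + c • e 2) :=
  Measurable.lintegral_prod_right'
    (f := fun q : ℝ × ℝ => g (p • e 0 + q.1 • e 1 + q.2 • e 2)) (hg.comp (by fun_prop))

lemma pa_const_mul (e : OrthonormalBasis (Fin 3) ℝ R3) {g : R3 → ℝ≥0∞} (hg : Measurable g) (p : ℝ)
    (C : ℝ≥0∞) : ∫⁻ b : ℝ, ∫⁻ c : ℝ, C * g (p • e 0 + b • e 1 + c • e 2) =
      C * ∫⁻ b : ℝ, ∫⁻ c : ℝ, g (p • e 0 + b • e 1 + c • e 2) := by
  rw [← lintegral_const_mul _ (pa_meas2 e hg p)]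
  exact lintegral_congr fun b => lintegral_const_mul _ (hg.comp (by fun_prop))

/-- volume in orthonormal coordinates -/
lemma lintegral_onb (e : OrthonormalBasis (Fin 3) ℝ R3) {φ : R3 → ℝ≥0∞} (hφ : Measurable φ) :
    ∫⁻ ξ, φ ξ = ∫⁻ a : ℝ, ∫⁻ b : ℝ, ∫⁻ c : ℝ, φ (a • e 0 + b • e 1 + c • e 2) := by
  have h := pa_mp e
  rw [← h.lintegral_comp hφ, Measure.volume_eq_prod, lintegral_prod]
  · refine lintegral_congr fun a => ?_
    rw [Measure.volume_eq_prod, lintegral_prod]
    exact (hφ.comp (by fun_prop)).aemeasurable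
  · exact (hφ.comp h.measurable).aemeasurable
/-- the plane integral in orthonormal coordinates -/
lemma plane_eq_coords (e : OrthonormalBasis (Fin 3) ℝ R3) {g : R3 → ℝ≥0∞} (hg : Measurable g) (v : R3) :
    plane g v (e 0) = ∫⁻ b : ℝ, ∫⁻ c : ℝ, g ((inner ℝ v (e 0)) • e 0 + b • e 1 + c • e 2) := by
  have hS : MeasurableSet {ξ : R3 | inner ℝ (ξ - v) (e 0) ∈ Ico (0:ℝ) 1} :=
    measurableSet_Ico.preimage (by fun_prop)
  set p : ℝ := inner ℝ v (e 0) with hp
  have hm : Measurable fun ξ : R3 => g (ξ - (inner ℝ (ξ - v) (e 0)) • e 0) := hg.comp (by fun_prop)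
  rw [plane, ← lintegral_indicator hS, lintegral_onb e (hm.indicator hS)]
  have e1 : ∀ a b c : ℝ, {ξ : R3 | inner ℝ (ξ - v) (e 0) ∈ Ico (0:ℝ) 1}.indicator
      (fun ξ => g (ξ - (inner ℝ (ξ - v) (e 0)) • e 0)) (a • e 0 + b • e 1 + c • e 2) =
      (Ico p (p + 1)).indicator 1 a * g (p • e 0 + b • e 1 + c • e 2) := by
    intro a b c
    have h1 : inner ℝ (a • e 0 + b • e 1 + c • e 2 - v) (e 0) = a - p := by
      rw [inner_sub_left, pa_inner0]
    by_cases h : a ∈ Ico p (p + 1)
    · rw [indicator_of_mem h, indicator_of_mem, h1, Pi.one_apply, one_mul]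
      · congr 1
        module
      · rw [mem_ofPred_eq, h1]
        exact ⟨by linarith [h.1], by linarith [h.2]⟩
    · rw [indicator_of_notMem h, indicator_of_notMem, zero_mul]
      rw [mem_ofPred_eq, h1]
      exact fun h' => h ⟨by linarith [h'.1], by linarith [h'.2]⟩
  simp only [e1, pa_const_mul e hg]
  rw [lintegral_mul_const _ (measurable_one.indicator measurableSet_Ico),
    lintegral_indicator_one measurableSet_Ico]
  simp
lemma pa_meas_gain {f g : R3 → ℝ≥0∞} (hf : Measurable f) (hg : Measurable g) (v : R3) :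
    Measurable (Function.uncurry fun vs w : R3 => ENNReal.ofReal |inner ℝ (v - vs) w| *
      f (postVel v vs w) * g (postVelStar v vs w)) := by
  have h1 : Measurable fun q : R3 × R3 => postVel v q.1 q.2 :=
    (continuous_postVel.comp (Continuous.prodMk_right v)).measurable
  have h2 : Measurable fun q : R3 × R3 => postVelStar v q.1 q.2 :=
    (continuous_postVelStar.comp (Continuous.prodMk_right v)).measurable
  have h3 : Measurable fun q : R3 × R3 => ENNReal.ofReal |inner ℝ (v - q.1) q.2| := by fun_prop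
  exact (h3.fun_mul (hf.comp h1)).fun_mul (hg.comp h2)

lemma pa_slice {f g : R3 → ℝ≥0∞} (hf : Measurable f) (hg : Measurable g) (v : R3)
    (e : OrthonormalBasis (Fin 3) ℝ R3) :
    ∫⁻ x, ENNReal.ofReal |inner ℝ (v - x) (e 0)| * f (postVel v x (e 0)) *
      g (postVelStar v x (e 0)) =
      (∫⁻ a : ℝ, ENNReal.ofReal |a| * f (v - a • e 0)) * plane g v (e 0) := by
  set p : ℝ := inner ℝ v (e 0) with hp
  have e1 : ∀ a b c : ℝ, ENNReal.ofReal |inner ℝ (v - (a • e 0 + b • e 1 + c • e 2)) (e 0)| *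
      f (postVel v (a • e 0 + b • e 1 + c • e 2) (e 0)) *
      g (postVelStar v (a • e 0 + b • e 1 + c • e 2) (e 0)) =
      ENNReal.ofReal |p - a| * f (v - (p - a) • e 0) * g (p • e 0 + b • e 1 + c • e 2) := by
    intro a b c
    rw [postVel, postVelStar, inner_sub_left, pa_inner0]
    congr 2
    module
  have hm1 : Measurable fun x : R3 => ENNReal.ofReal |inner ℝ (v - x) (e 0)| *
      f (postVel v x (e 0)) * g (postVelStar v x (e 0)) :=
    (pa_meas_gain hf hg v).of_uncurry_right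
  have hm2 : Measurable fun a : ℝ => ENNReal.ofReal |p - a| * f (v - (p - a) • e 0) :=
    Measurable.fun_mul (by fun_prop) (hf.comp (by fun_prop))
  rw [lintegral_onb e hm1]
  simp only [e1, pa_const_mul e hg]
  rw [lintegral_mul_const _ hm2, plane_eq_coords e hg,
    lintegral_sub_left_eq_self (fun a : ℝ => ENNReal.ofReal |a| * f (v - a • e 0)) p]

/-- Carleman's representation -/
lemma gain_eq_plane {f g : R3 → ℝ≥0∞} (hf : Measurable f) (hg : Measurable g) (v : R3) :
    gain f g v = ∫⁻ w, (∫⁻ a : ℝ, ENNReal.ofReal |a| * f (v - a • w)) * plane g v w ∂sphereMeasure := by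
  rw [gain, lintegral_lintegral_swap (pa_meas_gain hf hg v).aemeasurable]
  refine lintegral_congr_ae (sphere_ae_unit.mono fun w hw => ?_)
  obtain ⟨e, rfl⟩ := exists_onb hw
  exact pa_slice hf hg v e
lemma gain_le_pot {f g Ψ : R3 → ℝ≥0∞} (hf : Measurable f) (hg : Measurable g) (hΨ : Measurable Ψ)
    {v : R3} (h : ∀ (w : R3) (a : ℝ), ‖w‖ = 1 → a ≠ 0 → f (v - a • w) ≠ 0 → plane g v w ≤ Ψ (v - a • w)) :
    gain f g v ≤ 2 * pot (fun η => f η * Ψ η) v := by
  rw [gain_eq_plane hf hg, ← lintegral_lines (hf.fun_mul hΨ)]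
  refine lintegral_mono_ae (sphere_ae_unit.mono fun w hw => ?_)
  have hm : Measurable fun a : ℝ => ENNReal.ofReal |a| * f (v - a • w) :=
    Measurable.fun_mul (by fun_prop) (hf.comp (by fun_prop))
  rw [← lintegral_mul_const _ hm]
  refine lintegral_mono fun a => ?_
  by_cases ha : a = 0
  · simp [ha]
  by_cases h0 : f (v - a • w) = 0
  · simp [h0]
  beta_reduce
  rw [mul_assoc]
  gcongr
  exact h w a hw ha h0
lemma gain_le_of_plane {f g g' : R3 → ℝ≥0∞} (hf : Measurable f) (hg : Measurable g)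
    (hg' : Measurable g') {v : R3} {C : ℝ≥0∞} (h : ∀ w : R3, ‖w‖ = 1 → plane g v w ≤ C * plane g' v w) :
    gain f g v ≤ C * gain f g' v := by
  have hm : Measurable fun w : R3 => ∫⁻ a : ℝ, ENNReal.ofReal |a| * f (v - a • w) :=
    Measurable.lintegral_prod_right'
      (f := fun q : R3 × ℝ => ENNReal.ofReal |q.2| * f (v - q.2 • q.1))
      (Measurable.mul (by fun_prop) (hf.comp (by fun_prop)))
  have hp : Measurable fun w : R3 => plane g' v w :=
    measurable_plane (g := fun _ => g') (hg'.comp measurable_snd) measurable_const measurable_id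
  rw [gain_eq_plane hf hg, gain_eq_plane hf hg', ← lintegral_const_mul _ (hm.fun_mul hp)]
  refine lintegral_mono_ae (sphere_ae_unit.mono fun w hw => ?_)
  rw [mul_left_comm]
  gcongr
  exact h w hw
/-- Gaussian plane integral -/
lemma plane_gs_shift {a : ℝ} (ha : 0 < a) (b v : R3) {w : R3} (hw : ‖w‖ = 1) :
    plane (fun u => gs a (u - b)) v w =
      ENNReal.ofReal (Real.pi / a * Real.exp (-(a * (inner ℝ (v - b) w) ^ 2))) := by
  obtain ⟨e, rfl⟩ := exists_onb hw
  have hm : Measurable fun u : R3 => gs a (u - b) := (measurable_gs a).comp (by fun_prop)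
  rw [plane_eq_coords e hm]
  have e1 : ∀ y z : ℝ, gs a ((inner ℝ v (e 0)) • e 0 + y • e 1 + z • e 2 - b) =
      ENNReal.ofReal (Real.exp (-(a * (inner ℝ (v - b) (e 0)) ^ 2))) *
        ENNReal.ofReal (Real.exp (-a * (y - inner ℝ b (e 1)) ^ 2)) *
        ENNReal.ofReal (Real.exp (-a * (z - inner ℝ b (e 2)) ^ 2)) := by
    intro y z
    rw [gs, ← e.sum_sq_inner_left, Fin.sum_univ_three, inner_sub_left, inner_sub_left,
      inner_sub_left, pa_inner0, pa_inner1, pa_inner2, inner_sub_left,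
      ← ENNReal.ofReal_mul (Real.exp_pos _).le, ← ENNReal.ofReal_mul (by positivity),
      ← Real.exp_add, ← Real.exp_add]
    congr 2
    ring
  simp only [e1]
  have e2 : ∀ c : ℝ, ∫⁻ y : ℝ, ENNReal.ofReal (Real.exp (-a * (y - c) ^ 2)) =
      ENNReal.ofReal √(Real.pi / a) := by
    intro c
    rw [lintegral_sub_right_eq_self (fun y : ℝ => ENNReal.ofReal (Real.exp (-a * y ^ 2))) c,
      ← ofReal_integral_eq_lintegral_ofReal (integrable_exp_neg_mul_sq ha)
        (Eventually.of_forall fun y => (Real.exp_pos _).le), integral_gaussian]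
  have e3 : ∀ (C : ℝ≥0∞) (c : ℝ), ∫⁻ y : ℝ, C * ENNReal.ofReal (Real.exp (-a * (y - c) ^ 2)) =
      C * ENNReal.ofReal √(Real.pi / a) := fun C c => by
    rw [lintegral_const_mul _ (by fun_prop), e2]
  simp only [e3]
  rw [lintegral_mul_const _ (by fun_prop), e3, mul_assoc,
    ← ENNReal.ofReal_mul (Real.sqrt_nonneg _), Real.mul_self_sqrt (by positivity),
    ← ENNReal.ofReal_mul (Real.exp_pos _).le, mul_comm]
lemma plane_gs {a : ℝ} (ha : 0 < a) (v : R3) {w : R3} (hw : ‖w‖ = 1) :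
    plane (gs a) v w = ENNReal.ofReal (Real.pi / a * Real.exp (-(a * (inner ℝ v w) ^ 2))) := by
  simpa using plane_gs_shift ha 0 v hw
/-- on the line `η = v - s w`: `e^{-a (v·w)²} ≤ e^{-a|v|²} e^{a|η|²}` -/
lemma exp_inner_le {a : ℝ} (ha : 0 ≤ a) (v : R3) {w : R3} (hw : ‖w‖ = 1) (s : ℝ) :
    Real.exp (-(a * (inner ℝ v w) ^ 2)) ≤
      Real.exp (-(a * ‖v‖ ^ 2)) * Real.exp (a * ‖v - s • w‖ ^ 2) := by
  rw [← Real.exp_add, Real.exp_le_exp, norm_sub_sq_real, norm_smul, hw, inner_smul_right, mul_one,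
    Real.norm_eq_abs, sq_abs]
  nlinarith [mul_nonneg ha (sq_nonneg (s - inner ℝ v w))]
/-- Gaussian times a function that only matters through its plane integral -/
lemma plane_gs_mul_le {a : ℝ} (ha : 0 ≤ a) {g : R3 → ℝ≥0∞} (hg : Measurable g) (v : R3) {w : R3}
    (hw : ‖w‖ = 1) : plane (fun u => gs a u * g u) v w ≤
      ENNReal.ofReal (Real.exp (-(a * (inner ℝ v w) ^ 2))) * plane g v w := by
  rw [← plane_const_mul hg]
  refine plane_mono_on hw fun ξ h => ?_
  rw [inner_sub_left, sub_eq_zero] at h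
  have h1 := abs_real_inner_le_norm ξ w
  rw [hw, mul_one, h] at h1
  have h2 : (inner ℝ v w) ^ 2 ≤ ‖ξ‖ ^ 2 := sq_le_sq' (neg_le_of_abs_le h1) (le_of_abs_le h1)
  rw [gs]
  gcongr
lemma plane_ball (b v : R3) {w : R3} (hw : ‖w‖ = 1) {ρ : ℝ} (hρ : 0 ≤ ρ) :
    plane (fun u => if ‖u - b‖ ≤ ρ then (1:ℝ≥0∞) else 0) v w ≤ ENNReal.ofReal (4 * ρ ^ 2) := by
  obtain ⟨e, rfl⟩ := exists_onb hw
  rw [plane_eq_coords e (Measurable.ite (measurableSet_le (by fun_prop) measurable_const)
    measurable_const measurable_const)]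
  calc _ ≤ ∫⁻ s : ℝ, ∫⁻ t : ℝ, (if |s - inner ℝ (e 1) b| ≤ ρ then (1:ℝ≥0∞) else 0) *
        (if |t - inner ℝ (e 2) b| ≤ ρ then (1:ℝ≥0∞) else 0) := by
        refine lintegral_mono fun s => lintegral_mono fun t => ?_
        by_cases h : ‖(inner ℝ v (e 0) : ℝ) • e 0 + s • e 1 + t • e 2 - b‖ ≤ ρ
        · have h2 := pow_le_pow_left₀ (norm_nonneg _) h 2
          rw [pb_norm_sq] at h2
          have h3 := sq_nonneg (inner ℝ v (e 0) - inner ℝ (e 0) b)
          rw [if_pos h, if_pos (abs_le_of_sq_le_sq' (by nlinarith [sq_nonneg (t - inner ℝ (e 2) b)]) hρ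
            |> abs_le.2), if_pos (abs_le_of_sq_le_sq'
              (by nlinarith [sq_nonneg (s - inner ℝ (e 1) b)]) hρ |> abs_le.2), one_mul]
        · rw [if_neg h]; exact zero_le
    _ = _ := by
        simp only [lintegral_const_mul _ (pb_meas_ind _ _), lintegral_mul_const _ (pb_meas_ind _ _),
          pb_int_ind]
        rw [← ENNReal.ofReal_mul (by positivity)]
        congr 1; ring
lemma plane_inv_ball (b v : R3) {w : R3} (hw : ‖w‖ = 1) {ρ : ℝ} (hρ : 0 ≤ ρ) :
    plane (fun u => if ‖u - b‖ ≤ ρ then (ENNReal.ofReal ‖u - b‖)⁻¹ else 0) v w ≤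
      ENNReal.ofReal (20 * ρ) := by
  obtain ⟨e, rfl⟩ := exists_onb hw
  rw [plane_eq_coords e (Measurable.ite (measurableSet_le (by fun_prop) measurable_const)
    (by fun_prop) measurable_const)]
  refine le_trans (lintegral_mono fun s => lintegral_mono fun t => ?_)
    ((pb_disc ρ (inner ℝ (e 1) b) (inner ℝ (e 2) b)).trans
      (ENNReal.ofReal_le_ofReal (by nlinarith [Real.pi_le_four])))
  have h1 : √((s - inner ℝ (e 1) b) ^ 2 + (t - inner ℝ (e 2) b) ^ 2) ≤
      ‖(inner ℝ v (e 0) : ℝ) • e 0 + s • e 1 + t • e 2 - b‖ := by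
    refine Real.sqrt_le_iff.2 ⟨norm_nonneg _, ?_⟩
    rw [pb_norm_sq]
    linarith [sq_nonneg (inner ℝ v (e 0) - inner ℝ (e 0) b)]
  by_cases h : ‖(inner ℝ v (e 0) : ℝ) • e 0 + s • e 1 + t • e 2 - b‖ ≤ ρ
  · rw [if_pos h, pbK, if_pos (h1.trans h)]
    exact ENNReal.inv_le_inv.2 (ENNReal.ofReal_le_ofReal h1)
  · rw [if_neg h]; exact zero_le
/-- exterior of a big ball -/
lemma plane_gs_ext {a : ℝ} (ha : 0 < a) (v : R3) {w : R3} (hw : ‖w‖ = 1) {ρ : ℝ} (hρ : ‖v‖ ≤ ρ) :
    plane (fun u => if ρ < ‖u‖ then gs a u else 0) v w ≤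
      ENNReal.ofReal (2 * Real.pi / a * Real.exp (-(a * (ρ ^ 2 - ‖v‖ ^ 2) / 2)) *
        Real.exp (-(a * (inner ℝ v w) ^ 2))) := by
  have h0 : 0 ≤ ρ := (norm_nonneg v).trans hρ
  calc _ ≤ plane (fun u => ENNReal.ofReal (Real.exp (-(a * ρ ^ 2 / 2))) * gs (a / 2) u) v w := by
        refine plane_mono (fun u => ?_) v w
        split_ifs with h
        · rw [gs, gs, ← ENNReal.ofReal_mul (Real.exp_pos _).le, ← Real.exp_add]
          refine ENNReal.ofReal_le_ofReal (Real.exp_le_exp.2 ?_)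
          have := mul_le_mul_of_nonneg_left (pow_le_pow_left₀ h0 h.le 2) ha.le
          linarith
        · exact zero_le
    _ ≤ _ := by
        rw [plane_const_mul (measurable_gs _), plane_gs (half_pos ha) v hw,
          ← ENNReal.ofReal_mul (Real.exp_pos _).le]
        refine ENNReal.ofReal_le_ofReal ?_
        have h1 : (inner ℝ v w) ^ 2 ≤ ‖v‖ ^ 2 := by
          have := abs_real_inner_le_norm v w
          rw [hw, mul_one] at this
          exact sq_le_sq' (abs_le.1 this).1 (abs_le.1 this).2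
        have h2 : Real.pi / (a / 2) = 2 * Real.pi / a := by field_simp
        rw [h2, mul_left_comm, mul_assoc, ← Real.exp_add, ← Real.exp_add]
        refine mul_le_mul_of_nonneg_left (Real.exp_le_exp.2 ?_) (by positivity)
        have := mul_le_mul_of_nonneg_left h1 ha.le
        linarith
/-- a strip on a plane that is not parallel to it -/
lemma plane_gs_strip {a : ℝ} (ha : 0 < a) (v : R3) {w n : R3} (hw : ‖w‖ = 1) (hn : ‖n‖ = 1) {β δ : ℝ}
    (hβ : 0 < β) (hδ : 0 ≤ δ) (htilt : (inner ℝ n w) ^ 2 ≤ 1 - β ^ 2) :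
    plane (fun u => if |inner ℝ n u| < δ then gs a u else 0) v w ≤
      ENNReal.ofReal (2 * δ / β * Real.sqrt (Real.pi / a) * Real.exp (-(a * (inner ℝ v w) ^ 2))) := by
  obtain ⟨e, μ, rfl, hμ, hne⟩ := pb_onb hw hn hβ htilt
  have hμ0 : 0 < μ := hβ.trans_le hμ
  set n0 : ℝ := inner ℝ n (e 0)
  set α : ℝ := inner ℝ v (e 0)
  rw [plane_eq_coords e (Measurable.ite (measurableSet_lt (by fun_prop) measurable_const)
    (measurable_gs a) measurable_const)]
  have hm : Measurable fun c : ℝ => ENNReal.ofReal (Real.exp (-a * c ^ 2)) := by fun_prop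
  calc _ ≤ ∫⁻ s : ℝ, ∫⁻ t : ℝ, ENNReal.ofReal (Real.exp (-(a * α ^ 2))) *
        (if |s - (-(n0 * α) / μ)| ≤ δ / β then (1:ℝ≥0∞) else 0) *
        ENNReal.ofReal (Real.exp (-a * t ^ 2)) := by
        refine lintegral_mono fun s => lintegral_mono fun t => ?_
        have h1 : inner ℝ n (α • e 0 + s • e 1 + t • e 2) = n0 * α + μ * s := by
          conv_lhs => rw [hne]
          rw [inner_add_left, real_inner_smul_left, real_inner_smul_left, pb_inner0, pb_inner1]
        have h2 := pb_norm_sq e α s t 0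
        simp only [sub_zero, inner_zero_right] at h2
        by_cases h : |inner ℝ n (α • e 0 + s • e 1 + t • e 2)| < δ
        · have h3 : |s - (-(n0 * α) / μ)| ≤ δ / β := by
            rw [h1] at h
            have : s - (-(n0 * α) / μ) = (n0 * α + μ * s) / μ := by field_simp; ring
            rw [this, abs_div, abs_of_pos hμ0]
            exact div_le_div₀ hδ h.le hβ hμ
          rw [if_pos h, if_pos h3, mul_one, gs, h2, ← ENNReal.ofReal_mul (Real.exp_pos _).le,
            ← Real.exp_add]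
          refine ENNReal.ofReal_le_ofReal (Real.exp_le_exp.2 ?_)
          nlinarith [mul_nonneg ha.le (sq_nonneg s)]
        · rw [if_neg h]; exact zero_le
    _ = _ := by
        simp only [lintegral_const_mul _ hm, pb_gauss ha]
        rw [lintegral_mul_const _ ((pb_meas_ind _ _).const_mul _),
          lintegral_const_mul _ (pb_meas_ind _ _), pb_int_ind,
          ← ENNReal.ofReal_mul (Real.exp_pos _).le, ← ENNReal.ofReal_mul (by positivity)]
        congr 1; ring
/-- the basic Gaussian gain bound -/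
lemma gain_gs_le {a : ℝ} (ha : 0 < a) {f : R3 → ℝ≥0∞} (hf : Measurable f) (v : R3) :
    gain f (gs a) v ≤ ENNReal.ofReal (2 * Real.pi / a) * gs a v * pot (fun η => f η * gs (-a) η) v := by
  have hm := measurable_gs (-a)
  refine (gain_le_pot (Ψ := fun η => ENNReal.ofReal (Real.pi / a) * gs a v * gs (-a) η) hf
    (measurable_gs a) (hm.const_mul _) fun w s hw _ _ => ?_).trans_eq ?_
  · rw [plane_gs ha v hw, gs, gs, mul_assoc, ← ENNReal.ofReal_mul (Real.exp_pos _).le,
      ← ENNReal.ofReal_mul (by positivity), neg_mul, neg_neg]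
    exact ENNReal.ofReal_le_ofReal (mul_le_mul_of_nonneg_left (exp_inner_le ha.le v hw s)
      (by positivity))
  · simp only [mul_left_comm (f _)]
    rw [pot_const_mul (hf.fun_mul hm), mul_div_assoc, ENNReal.ofReal_mul (by norm_num),
      ENNReal.ofReal_ofNat]
    simp only [mul_assoc]
/-- volume of a box in an orthonormal frame -/
lemma volume_box (e : OrthonormalBasis (Fin 3) ℝ R3) (b : R3) (l : Fin 3 → ℝ) (hl : ∀ i, 0 ≤ l i) :
    volume {u : R3 | ∀ i, |inner ℝ (e i) (u - b)| < l i} = ENNReal.ofReal (8 * (l 0 * l 1 * l 2)) := by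
  have h := ((PiLp.volume_preserving_ofLp (Fin 3)).comp e.measurePreserving_repr).comp
    (measurePreserving_sub_right (volume : Measure R3) b)
  have e1 := h.measure_preimage (s := Set.pi univ fun i => Ioo (-l i) (l i))
    (MeasurableSet.univ_pi fun i => measurableSet_Ioo).nullMeasurableSet
  rw [Real.volume_pi_Ioo, Fin.prod_univ_three, ← ENNReal.ofReal_mul (by linarith [hl 0]),
    ← ENNReal.ofReal_mul (mul_nonneg (by linarith [hl 0]) (by linarith [hl 1]))] at e1
  convert e1 using 2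
  · ext u
    simp [abs_lt, e.repr_apply_apply, inner_sub_right]
  · ring
/-- Newton potential of a box that is thin in the direction `e 2` -/
lemma pot_box (e : OrthonormalBasis (Fin 3) ℝ R3) (b v : R3) {l l' : ℝ} (hl : 0 ≤ l) (hl' : 0 ≤ l') :
    pot (fun u => if |inner ℝ (e 0) (u - b)| ≤ l ∧ |inner ℝ (e 1) (u - b)| ≤ l ∧
      |inner ℝ (e 2) (u - b)| ≤ l' then (1:ℝ≥0∞) else 0) v ≤ ENNReal.ofReal (100 * l * l') := by
  have hmeas : Measurable fun u : R3 => if |inner ℝ (e 0) (u - b)| ≤ l ∧ |inner ℝ (e 1) (u - b)| ≤ l ∧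
      |inner ℝ (e 2) (u - b)| ≤ l' then (1:ℝ≥0∞) else 0 := by
    have hm : ∀ (i : Fin 3) (c : ℝ), MeasurableSet {u : R3 | |inner ℝ (e i) (u - b)| ≤ c} :=
      fun i c => measurableSet_le (by fun_prop) measurable_const
    refine Measurable.ite ?_ measurable_const measurable_const
    exact (hm 0 l).inter ((hm 1 l).inter (hm 2 l'))
  have hφ : Measurable fun η : R3 => ENNReal.ofReal ‖v - η‖⁻¹ *
      if |inner ℝ (e 0) (η - b)| ≤ l ∧ |inner ℝ (e 1) (η - b)| ≤ l ∧
        |inner ℝ (e 2) (η - b)| ≤ l' then (1:ℝ≥0∞) else 0 := Measurable.mul (by fun_prop) hmeas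
  rw [pot, lintegral_onb e hφ]
  set I : ℝ → ℝ → ℝ → ℝ≥0∞ := fun y ρ t => if |t - y| ≤ ρ then (1:ℝ≥0∞) else 0 with hI
  have mI : ∀ y ρ, Measurable (I y ρ) := pb_meas_ind
  have iI : ∀ y ρ, ∫⁻ t, I y ρ t = ENNReal.ofReal (2 * ρ) := pb_int_ind
  have mK : ∀ r, Measurable fun s => pbK l (r - inner ℝ (e 0) v) (s - inner ℝ (e 1) v) := fun r =>
    (pb_measK l).comp (f := fun s : ℝ => (r - inner ℝ (e 0) v, s - inner ℝ (e 1) v)) (by fun_prop)
  have mK2 : Measurable fun r => ∫⁻ s, pbK l (r - inner ℝ (e 0) v) (s - inner ℝ (e 1) v) :=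
    Measurable.lintegral_prod_right' (f := fun p : ℝ × ℝ =>
      pbK l (p.1 - inner ℝ (e 0) v) (p.2 - inner ℝ (e 1) v)) ((pb_measK l).comp
      (f := fun p : ℝ × ℝ => (p.1 - inner ℝ (e 0) v, p.2 - inner ℝ (e 1) v)) (by fun_prop))
  calc _ ≤ ∫⁻ r : ℝ, ∫⁻ s : ℝ, ∫⁻ t : ℝ, (pbK l (r - inner ℝ (e 0) v) (s - inner ℝ (e 1) v) +
        (ENNReal.ofReal l)⁻¹ * I (inner ℝ (e 0) b) l r * I (inner ℝ (e 1) b) l s) *
          I (inner ℝ (e 2) b) l' t := by
        refine lintegral_mono fun r => lintegral_mono fun s => lintegral_mono fun t => ?_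
        simp only [inner_sub_right, pb_inner0, pb_inner1, pb_inner2]
        split_ifs with h
        · simp only [hI, if_pos h.1, if_pos h.2.1, if_pos h.2.2, mul_one]
          have h1 : √((r - inner ℝ (e 0) v) ^ 2 + (s - inner ℝ (e 1) v) ^ 2) ≤
              ‖v - (r • e 0 + s • e 1 + t • e 2)‖ := by
            refine Real.sqrt_le_iff.2 ⟨norm_nonneg _, ?_⟩
            rw [norm_sub_rev, pb_norm_sq]
            linarith [sq_nonneg (t - inner ℝ (e 2) v)]
          refine ENNReal.ofReal_inv_le.trans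
            ((ENNReal.inv_le_inv.2 (ENNReal.ofReal_le_ofReal h1)).trans ?_)
          rw [pbK]
          split_ifs with h2
          · exact le_self_add
          · rw [zero_add]
            exact ENNReal.inv_le_inv.2 (ENNReal.ofReal_le_ofReal (not_le.1 h2).le)
        · simp
    _ = ((∫⁻ r : ℝ, ∫⁻ s : ℝ, pbK l (r - inner ℝ (e 0) v) (s - inner ℝ (e 1) v)) +
        (ENNReal.ofReal l)⁻¹ * ENNReal.ofReal (2 * l) * ENNReal.ofReal (2 * l)) *
          ENNReal.ofReal (2 * l') := by
        simp only [lintegral_const_mul _ (mI _ _), iI]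
        have h1 : ∀ r, ∫⁻ s : ℝ, (pbK l (r - inner ℝ (e 0) v) (s - inner ℝ (e 1) v) +
            (ENNReal.ofReal l)⁻¹ * I (inner ℝ (e 0) b) l r * I (inner ℝ (e 1) b) l s) *
              ENNReal.ofReal (2 * l') = ((∫⁻ s : ℝ, pbK l (r - inner ℝ (e 0) v) (s - inner ℝ (e 1) v)) +
            (ENNReal.ofReal l)⁻¹ * I (inner ℝ (e 0) b) l r * ENNReal.ofReal (2 * l)) *
              ENNReal.ofReal (2 * l') := fun r => by
          rw [lintegral_mul_const _ ((mK r).fun_add ((mI _ _).const_mul _)),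
            lintegral_add_left (mK r), lintegral_const_mul _ (mI _ _), iI]
        simp only [h1]
        rw [lintegral_mul_const _ (mK2.fun_add (((mI _ _).const_mul _).mul_const _)),
          lintegral_add_left mK2, lintegral_mul_const _ ((mI _ _).const_mul _),
          lintegral_const_mul _ (mI _ _), iI]
    _ ≤ (ENNReal.ofReal (2 * Real.pi * l) + ENNReal.ofReal (4 * l)) * ENNReal.ofReal (2 * l') := by
        gcongr
        · exact pb_disc _ _ _
        · rcases hl.eq_or_lt with rfl | hl0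
          · simp
          · rw [← ENNReal.ofReal_inv_of_pos hl0, ← ENNReal.ofReal_mul (by positivity),
              ← ENNReal.ofReal_mul (by positivity)]
            exact le_of_eq (by congr 1; field_simp; ring)
    _ ≤ _ := by
        rw [← ENNReal.ofReal_add (by positivity) (by positivity), ← ENNReal.ofReal_mul (by positivity)]
        refine ENNReal.ofReal_le_ofReal ?_
        nlinarith [Real.pi_le_four, mul_nonneg hl hl']

end Crest.Agent.R068
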