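import Crest.Agent.R068.St1
import Crest.Agent.R068.Excl

/-! Row 68: the fat smoothing step. -/

set_option autoImplicit false
open MeasureTheory Set Filter Topology
open scoped ENNReal
open Crest.AnalysisR.VecCalc3 Crest.AnalysisR.PDE.Boltzmann

namespace Crest.Agent.R068

lemma sm3_min {α γ : ℝ} (hα : 0 ≤ α) (hγ : 0 ≤ γ) {W h g : ℝ≥0∞}
    (h1 : h ≤ ENNReal.ofReal α * W) (h2 : h ≤ ENNReal.ofReal γ * W + g) :
    h ≤ ENNReal.ofReal (√(γ * α)) * W + g := by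
  rcases le_total α γ with hle | hle
  · have : α ≤ √(γ * α) := Real.le_sqrt_of_sq_le (by nlinarith)
    refine h1.trans (le_add_right ?_)
    gcongr
  · have : γ ≤ √(γ * α) := Real.le_sqrt_of_sq_le (by nlinarith)
    refine h2.trans ?_
    gcongr

lemma sm3_split {B W W' h g g' : R3 → ℝ≥0∞} (hB : Measurable B) (hW : Measurable W)
    (hW' : Measurable W') (hg' : Measurable g') {P : R3 → Prop} {α γ : ℝ} (hα : 0 ≤ α) (hγ : 0 ≤ γ)
    (h1 : ∀ ξ, h ξ ≤ ENNReal.ofReal α * W ξ)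
    (h2 : ∀ ξ, P ξ → h ξ ≤ ENNReal.ofReal γ * W ξ + g ξ)
    (h3 : ∀ ξ, P ξ → g ξ ≤ g' ξ) (h4 : ∀ ξ, ¬ P ξ → W ξ ≤ W' ξ) (v : R3) :
    gain B h v ≤ ENNReal.ofReal (√(γ * α)) * gain B W v + gain B g' v +
      ENNReal.ofReal α * gain B W' v := by
  have hA : Measurable fun ξ => ENNReal.ofReal (√(γ * α)) * W ξ := hW.const_mul _
  have hC : Measurable fun ξ => ENNReal.ofReal α * W' ξ := hW'.const_mul _
  have hAg : Measurable fun ξ => ENNReal.ofReal (√(γ * α)) * W ξ + g' ξ := hA.add hg'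
  rw [← gain_const_mul_right hB hW, ← gain_const_mul_right hB hW', ← gain_add_right hB hA hg',
    ← gain_add_right hB hAg hC]
  refine gain_mono (fun _ => le_rfl) (fun ξ => ?_) v
  by_cases hP : P ξ
  · refine le_add_right ((sm3_min hα hγ (h1 ξ) (h2 ξ hP)).trans ?_)
    gcongr
    exact h3 ξ hP
  · refine le_add_left ((h1 ξ).trans ?_)
    gcongr
    exact h4 ξ hP

lemma sm3_fat {p : Par} (hs : p.Std) {n : ℕ∞} {s : ℝ} {y v : R3} {k : Fin 3 → ℤ} {j : ℕ}
    (hw : p.Wit n s y k j) {b : ℝ} (hb : 0 < b) (hbj : b ≤ p.r j) {g : R3 → ℝ≥0∞}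
    (hg : Measurable g) (hfar : ∀ u, g u ≠ 0 → p.κ0 ≤ ‖v - u‖) (hκ : 4 * p.V ^ 5 * b ≤ p.κ0) :
    2 * gain (p.B n s y) g v ≤ ENNReal.ofReal ((b ^ 6)⁻¹) * ∫⁻ u, g u := by
  have hB : Measurable (p.B n s y) := (p.meas_B n).slice s y
  have hV : 0 < p.V := by linarith [Par.std_V hs]
  have hκ0 := hs.κ0_pos
  have hr := Par.r_pos hs j
  set C : ℝ≥0∞ := ENNReal.ofReal (p.V ^ 5 / p.r j ^ 5) with hC
  have h1 : gain g (p.B n s y) v ≤ 2 * pot (fun η => g η * C) v :=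
    gain_le_pot (Ψ := fun _ => C) hg hB measurable_const (fun w a hw1 _ _ => hw.plane v w hw1)
  have h2 : pot (fun η => g η * C) v ≤ ENNReal.ofReal p.κ0⁻¹ * ∫⁻ u, g u * C :=
    pot_le_of_far (hg.mul_const C) hκ0 (fun u hu => hfar u (left_ne_zero_of_mul hu))
  rw [lintegral_mul_const C hg] at h2
  rw [gain_comm hB hg]
  have h3 : 4 * (p.κ0⁻¹ * (p.V ^ 5 / p.r j ^ 5)) ≤ (b ^ 6)⁻¹ := by
    have h4 : b ^ 5 ≤ p.r j ^ 5 := pow_le_pow_left₀ hb.le hbj 5
    calc 4 * (p.κ0⁻¹ * (p.V ^ 5 / p.r j ^ 5)) ≤ 4 * (p.κ0⁻¹ * (p.V ^ 5 / b ^ 5)) := by gcongr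
      _ = (4 * p.V ^ 5 * b) / p.κ0 * (b ^ 6)⁻¹ := by field_simp
      _ ≤ 1 * (b ^ 6)⁻¹ := by
          gcongr
          exact (div_le_one hκ0).2 hκ
      _ = _ := one_mul _
  calc 2 * gain g (p.B n s y) v ≤ 2 * (2 * (ENNReal.ofReal p.κ0⁻¹ * ((∫⁻ u, g u) * C))) := by
        gcongr
        exact h1.trans (by gcongr)
    _ = (ENNReal.ofReal 4 * (ENNReal.ofReal p.κ0⁻¹ * C)) * ∫⁻ u, g u := by
        rw [ENNReal.ofReal_ofNat]
        ring
    _ ≤ _ := by
        gcongr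
        rw [hC, ← ENNReal.ofReal_mul (by positivity), ← ENNReal.ofReal_mul (by positivity)]
        exact ENNReal.ofReal_le_ofReal h3

lemma sm3_int {c d a t : ℝ} (hc : 0 ≤ c) (hd : 0 ≤ d) (ha : 0 < a) (hat : a ≤ t) :
    ∫⁻ s in Ioo a t, ENNReal.ofReal (c / √s + d) ≤ ENNReal.ofReal (2 * c * √t + d * t) := by
  have h := lintegral_le_of_deriv (u := fun s => 2 * c * √s + d * s) (u' := fun s => c / √s + d)
    (ρ := fun s => ENNReal.ofReal (c / √s + d)) hat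
    (fun s hs => by
      have hs0 : s ≠ 0 := (ha.trans_le hs.1).ne'
      have h1 := ((Real.hasDerivAt_sqrt hs0).const_mul (2 * c)).add ((hasDerivAt_id s).const_mul d)
      have : √s ≠ 0 := (Real.sqrt_pos.2 (ha.trans_le hs.1)).ne'
      refine HasDerivAt.congr_deriv h1 ?_
      field_simp)
    (by
      refine ContinuousOn.add (ContinuousOn.div continuousOn_const
        Real.continuous_sqrt.continuousOn fun s hs => ?_) continuousOn_const
      exact (Real.sqrt_pos.2 (ha.trans_le hs.1)).ne')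
    (by positivity) (fun s _ => le_rfl) (fun s _ => by positivity)
  exact le_add_self.trans h

lemma sm3_h : ∀ᶠ p in PF, 4 * p.V ^ 6 * (3 * p.h + 8 * p.h / p.δ1) ≤ 6 * p.e0 := by
  refine ev_h (Q := fun p x => 4 * p.V ^ 6 * (3 * x + 8 * x / p.δ1) ≤ 6 * p.e0) ?_
  filter_upwards [ev_std] with p hp
  have he := Par.e0_pos hp
  have hc : ContinuousAt (fun x : ℝ => 4 * p.V ^ 6 * (3 * x + 8 * x / p.δ1)) 0 := by fun_prop
  have := hc.eventually (gt_mem_nhds (show (fun x : ℝ => 4 * p.V ^ 6 * (3 * x + 8 * x / p.δ1)) 0 <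
    6 * p.e0 by simp; positivity))
  exact (this.filter_mono nhdsWithin_le_nhds).mono fun x hx => hx.le

lemma sm3_two {c d e : ℝ} (hc : 0 ≤ c) (hcd : 2 * (c * d) ≤ e) {G W : ℝ≥0∞}
    (h : G ≤ ENNReal.ofReal d * W) : 2 * (ENNReal.ofReal c * G) ≤ ENNReal.ofReal e * W := by
  calc 2 * (ENNReal.ofReal c * G) ≤ 2 * (ENNReal.ofReal c * (ENNReal.ofReal d * W)) := by gcongr
    _ = ENNReal.ofReal (2 * (c * d)) * W := by
        rw [ENNReal.ofReal_mul (by norm_num), ENNReal.ofReal_mul hc, ENNReal.ofReal_ofNat]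
        ring
    _ ≤ _ := by gcongr

lemma sm3_measGd (p : Par) (ρ s : ℝ) (y v : R3) :
    MeasurableSet {ξ : R3 | p.Gd ρ s y ξ ∧ p.κ0 ≤ ‖v - ξ‖} := by
  have h1 : MeasurableSet {ξ : R3 | p.Far (1 / 4) s y ξ} := by
    have hm : Measurable fun ξ : R3 => ((s, y, ξ) : ℝ × R3 × R3) := by fun_prop
    exact hm (p.meas_Far (1 / 4))
  have h2 : MeasurableSet {ξ : R3 | p.δ1 ≤ |nc ξ|} :=
    measurableSet_le measurable_const continuous_nc.abs.measurable
  have h3 : MeasurableSet {ξ : R3 | ‖ξ‖ ≤ ρ} := measurableSet_le measurable_norm measurable_const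
  have h4 : MeasurableSet {ξ : R3 | p.κ0 ≤ ‖v - ξ‖} :=
    measurableSet_le measurable_const (by fun_prop)
  exact (h1.inter (h2.inter h3)).inter h4

lemma sm3_measGood (δ V : ℝ) : MeasurableSet (goodV δ V) :=
  (measurableSet_le measurable_const continuous_nc.abs.measurable).inter
    (measurableSet_le measurable_norm measurable_const)

open Classical in
lemma sm3_point {p : Par} (hs : p.Std) {n : ℕ∞} {ε β ρ τ s a : ℝ} {y v : R3} {h g : R3 → ℝ≥0∞}
    (hg : Measurable g)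
    (hwit : ((∀ v, p.B n s y v = 0) ∧ ∀ v, p.Gr n s y v = 0) ∨ ∃ k j, p.Wit n s y k j)
    (hW1 : ∀ k j, p.Wit n s y k j → gain (p.B n s y) (p.W n a s y) v ≤
      ENNReal.ofReal (p.V ^ 6 / (‖y - lat k‖ + s)) * p.W n a s y v)
    (hex : gain (p.B n s y)
      (fun ξ => if p.Gd (ρ + p.V / 4) s y ξ ∧ p.κ0 ≤ ‖v - ξ‖ then 0 else p.W n a s y ξ) v ≤
      ENNReal.ofReal (p.e0 / s) * p.W n a s y v)
    (h1 : ∀ ξ, h ξ ≤ ENNReal.ofReal (2 * ε * s) * p.W n a s y ξ)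
    (h2 : ∀ ξ, p.Gd (ρ + p.V / 4) s y ξ → h ξ ≤ ENNReal.ofReal β * p.W n a s y ξ + g ξ)
    (hs0 : 0 < s) (hsτ : s ≤ τ) (hτ : τ ≤ p.t0) (hε : 0 ≤ ε) (hβ : 0 ≤ β) (hρ : ρ ≤ 3 * p.V / 4) :
    2 * gain (p.B n s y) h v ≤ ENNReal.ofReal (4 * ε * p.V ^ 6) * p.W n a s y v ∧
    ((¬ ∃ k : Fin 3 → ℤ, ‖y - lat k‖ ≤ 1 / 8 ∧ |nc (y - lat k)| < p.h * τ) →
      2 * gain (p.B n s y) h v ≤
        ENNReal.ofReal (2 * p.V ^ 6 * √(2 * β * ε) / √s + (4 * ε * p.e0 + 4 * ε * p.V ^ 6 * p.h)) *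
          p.W n a s y v + ENNReal.ofReal (((p.h * τ) ^ 6)⁻¹) *
          if ∃ k : Fin 3 → ℤ, ‖y - lat k‖ ≤ τ / p.h then ∫⁻ ξ in goodV p.δ1 p.V, g ξ else 0) := by
  have hB : Measurable (p.B n s y) := (p.meas_B n).slice s y
  have hW : Measurable (p.W n a s y) := (p.meas_W n a).slice s y
  have hV : 8000 ≤ p.V := Par.std_V hs
  have hV0 : 0 < p.V := by linarith
  have hh0 := hs.h_pos
  have he0 := Par.e0_pos hs
  have hτ0 : 0 < τ := hs0.trans_le hsτ
  rcases hwit with ⟨h0, -⟩ | ⟨k, j, hw⟩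
  · have : p.B n s y = fun _ => 0 := funext h0
    rw [this, gain_zero_left, mul_zero]
    exact ⟨zero_le, fun _ => zero_le⟩
  have hbase : gain (p.B n s y) h v ≤ ENNReal.ofReal (2 * ε * s) * gain (p.B n s y) (p.W n a s y) v := by
    rw [← gain_const_mul_right hB hW]
    exact gain_mono (fun _ => le_rfl) h1 v
  have hWs : gain (p.B n s y) (p.W n a s y) v ≤ ENNReal.ofReal (p.V ^ 6 / s) * p.W n a s y v := by
    refine (hW1 k j hw).trans ?_
    gcongr
    linarith [norm_nonneg (y - lat k)]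
  refine ⟨?_, fun hthin => ?_⟩
  · refine le_trans (by gcongr) (sm3_two (c := 2 * ε * s) (by positivity) (le_of_eq ?_) hWs)
    field_simp
    ring
  by_cases hnear : ∃ k : Fin 3 → ℤ, ‖y - lat k‖ ≤ τ / p.h
  · rw [if_pos hnear]
    have hr0 := Par.std_r0 hs
    have ht0 : p.t0 ≤ p.r0 := by
      have := Par.t0_le_r0 hs
      have := Par.t0_pos hs
      nlinarith
    have hk : ‖y - lat k‖ ≤ 1 / 8 := by
      have := hw.near
      linarith
    have hbj : p.h * τ ≤ p.r j := by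
      by_contra hlt
      exact hthin ⟨k, hk, hw.hi.trans (not_le.1 hlt)⟩
    have hκ : 4 * p.V ^ 5 * (p.h * τ) ≤ p.κ0 := by
      have h3 : p.V ^ 5 * τ ≤ 1 := by
        have h4 : p.V ^ 5 ≤ 1000 * p.V ^ 10 := by
          have h5 : p.V ^ 5 ≤ p.V ^ 10 := pow_le_pow_right₀ (by linarith) (by norm_num)
          have h6 : 0 ≤ p.V ^ 10 := by positivity
          linarith
        calc p.V ^ 5 * τ ≤ (1000 * p.V ^ 10) * p.r0 := by
              gcongr
              linarith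
          _ ≤ 1 := by linarith [hs.r0_V]
      have h7 : 4 * p.h ≤ p.κ0 := by
        have := hs.h_le
        have := hs.δ1_le
        have := hs.κ0_pos
        nlinarith
      calc 4 * p.V ^ 5 * (p.h * τ) = 4 * p.h * (p.V ^ 5 * τ) := by ring
        _ ≤ 4 * p.h * 1 := by gcongr
        _ ≤ p.κ0 := by linarith
    have hE := sm3_measGd p (ρ + p.V / 4) s y v
    set g' : R3 → ℝ≥0∞ := {ξ : R3 | p.Gd (ρ + p.V / 4) s y ξ ∧ p.κ0 ≤ ‖v - ξ‖}.indicator g with hg'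
    have hg'm : Measurable g' := hg.indicator hE
    have hsp := sm3_split (P := fun ξ => p.Gd (ρ + p.V / 4) s y ξ ∧ p.κ0 ≤ ‖v - ξ‖) (g := g) (g' := g')
      (W' := fun ξ => if p.Gd (ρ + p.V / 4) s y ξ ∧ p.κ0 ≤ ‖v - ξ‖ then 0 else p.W n a s y ξ)
      hB hW (Measurable.ite hE measurable_const hW) hg'm (by positivity) hβ h1
      (fun ξ hξ => h2 ξ hξ.1) (fun ξ hξ => by rw [hg', indicator_of_mem (by exact hξ)])
      (fun ξ hξ => by rw [if_neg hξ]) v
    have hfat := sm3_fat hs hw (v := v) (mul_pos hh0 hτ0) hbj hg'm (fun u hu => by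
      by_contra hlt
      exact hu (indicator_of_notMem (fun hm => hlt hm.2) _)) hκ
    have hint : ∫⁻ u, g' u ≤ ∫⁻ ξ in goodV p.δ1 p.V, g ξ := by
      rw [hg', lintegral_indicator hE]
      refine lintegral_mono_set fun ξ hξ => ⟨hξ.1.2.1, ?_⟩
      have := hξ.1.2.2
      linarith
    have hsq : 0 < √s := Real.sqrt_pos.2 hs0
    have hA := sm3_two (c := √(β * (2 * ε * s))) (e := 2 * p.V ^ 6 * √(2 * β * ε) / √s)
      (Real.sqrt_nonneg _) (le_of_eq (by
        rw [show β * (2 * ε * s) = (2 * β * ε) * s by ring, Real.sqrt_mul (by positivity)]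
        have h8 : s = √s * √s := (Real.mul_self_sqrt hs0.le).symm
        rw [div_eq_mul_inv _ s]
        nth_rewrite 2 [h8]
        field_simp)) hWs
    have hC := sm3_two (c := 2 * ε * s) (e := 4 * ε * p.e0 + 4 * ε * p.V ^ 6 * p.h) (by positivity)
      (by
        have h8 : 2 * (2 * ε * s * (p.e0 / s)) = 4 * ε * p.e0 := by field_simp; ring
        have h9 : 0 ≤ 4 * ε * p.V ^ 6 * p.h := by positivity
        linarith) hex
    rw [ENNReal.ofReal_add (by positivity) (by positivity)]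
    calc 2 * gain (p.B n s y) h v ≤ _ := mul_le_mul_right hsp 2
      _ = _ := by rw [mul_add, mul_add]
      _ ≤ ENNReal.ofReal (2 * p.V ^ 6 * √(2 * β * ε) / √s) * p.W n a s y v +
          ENNReal.ofReal (((p.h * τ) ^ 6)⁻¹) * (∫⁻ ξ in goodV p.δ1 p.V, g ξ) +
          ENNReal.ofReal (4 * ε * p.e0 + 4 * ε * p.V ^ 6 * p.h) * p.W n a s y v :=
          add_le_add (add_le_add hA (hfat.trans (by gcongr))) hC
      _ = _ := by ring
  · refine le_add_right ?_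
    have hk : τ / p.h < ‖y - lat k‖ := by
      by_contra hle
      exact hnear ⟨k, not_lt.1 hle⟩
    refine le_trans (by gcongr) (sm3_two (c := 2 * ε * s) (by positivity) ?_ (hW1 k j hw))
    have h3 : p.V ^ 6 / (‖y - lat k‖ + s) ≤ p.V ^ 6 / (τ / p.h) := by
      gcongr
      linarith
    have h4 : 2 * (2 * ε * s * (p.V ^ 6 / (‖y - lat k‖ + s))) ≤ 4 * ε * p.V ^ 6 * p.h := by
      calc _ ≤ 2 * (2 * ε * τ * (p.V ^ 6 / (τ / p.h))) := by gcongr
        _ = _ := by field_simp; ring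
    have h5 : 0 ≤ 2 * p.V ^ 6 * √(2 * β * ε) / √s := by positivity
    have h6 : 0 ≤ 4 * ε * p.e0 := by positivity
    linarith

theorem sm3_main : ∀ᶠ p in PF, ∀ (n : ℕ) (ε a : ℝ) (F : ℝ → R3 → R3 → ℝ), p.Sol n ε a F → p.In1 n ε F →
    ∀ τ ∈ Icc (p.tn n) p.t0, ∀ β ρ : ℝ, 0 ≤ β → p.V / 4 ≤ ρ → ρ ≤ 3 * p.V / 4 → ∀ g : TF, MeasT g →
    (∀ s ∈ Icc (p.tn n) τ, ∀ y ξ, p.Gd (ρ + p.V / 4) s y ξ →
      p.hh n F s y ξ ≤ ENNReal.ofReal β * p.W n (p.aa s) s y ξ + g s y ξ) →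
    ∀ t ∈ Icc (p.tn n) τ, ∀ x v, p.Gd ρ t x v →
      p.hh n F t x v ≤ ENNReal.ofReal (p.stepC ε a τ β) * p.W n (p.aa t) t x v + p.FatOp n τ g t x v := by
  classical
  filter_upwards [ev_std, ev_H2, ev_wit, ev_gain_B_W1, ev_excl2, sm3_h] with p hs hH hwit hW1 hex hh6
  intro n ε a F hsol hin τ hτ β ρ hβ hρ1 hρ2 g hg hyp t ht x v hv
  have hV : 8000 ≤ p.V := Par.std_V hs
  have hV0 : 0 < p.V := by linarith
  have hh0 := hs.h_pos
  have he0 := Par.e0_pos hs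
  have hδ := hs.δ1_pos
  have htn := Par.tn_pos hs n
  have hε := hsol.ε0
  have ha := hsol.a0
  have hτ0 : 0 < τ := htn.trans_le hτ.1
  have ht0 : 0 < t := htn.trans_le ht.1
  have ht2 := (Par.t0_lt_t2 hs).le
  have hvV : ‖v‖ ≤ p.V := by linarith [hv.2.2]
  have hH2 := hH n ε a F hsol hin
  set Wt := p.W n (p.aa t) t x v with hWt
  set b := p.h * τ with hb
  have hb0 : 0 < b := mul_pos hh0 hτ0
  set c := 2 * p.V ^ 6 * √(2 * β * ε) with hc
  set d := 4 * ε * p.e0 + 4 * ε * p.V ^ 6 * p.h with hd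
  have hc0 : 0 ≤ c := by positivity
  have hd0 : 0 ≤ d := by positivity
  set T : Set ℝ := {r : ℝ | ∃ k : Fin 3 → ℤ, ‖x - (t - r) • v - lat k‖ ≤ 1 / 8 ∧
    |nc (x - (t - r) • v - lat k)| < b} with hT
  have hTm : MeasurableSet T := measurableSet_thin _ _ _ _ _
  set Bad : Set ℝ := (Icc 0 b ∪ Icc (t - b) t) ∪ (Ioo (p.tn n) t ∩ T) with hBad
  have hBadm : MeasurableSet Bad :=
    (measurableSet_Icc.union measurableSet_Icc).union (measurableSet_Ioo.inter hTm)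
  have hBadv : volume Bad ≤ ENNReal.ofReal (2 * b + 8 * b / p.δ1) := by
    have h1 := thin_crossing (ρ := 1 / 8) (b := b) (by norm_num) hb0.le hδ ht.1 x hv.2.1
    have h2 : (t - p.tn n) * ‖v‖ ≤ 1 / 8 := by
      have h3 := Par.t0_le_r0 hs
      have h4 := Par.std_r0 hs
      have h5 : (t - p.tn n) * ‖v‖ ≤ p.t0 * p.V := by
        gcongr
        · exact (Par.t0_pos hs).le
        · linarith [ht.2, hτ.2]
      nlinarith
    have h6 : (2 * (1 / 8 + (t - p.tn n) * ‖v‖) + 1) ^ 3 * (2 * b / p.δ1) ≤ 8 * b / p.δ1 := by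
      have h7 : 0 ≤ (t - p.tn n) * ‖v‖ := mul_nonneg (by linarith [ht.1]) (norm_nonneg _)
      calc _ ≤ (2 * (1 / 8 + 1 / 8) + 1) ^ 3 * (2 * b / p.δ1) := by gcongr
        _ = 27 / 4 * (b / p.δ1) := by ring
        _ ≤ 8 * (b / p.δ1) := by gcongr; norm_num
        _ = _ := by ring
    calc volume Bad ≤ (volume (Icc 0 b) + volume (Icc (t - b) t)) + volume (Ioo (p.tn n) t ∩ T) :=
          (measure_union_le _ _).trans (by gcongr; exact measure_union_le _ _)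
      _ ≤ (ENNReal.ofReal b + ENNReal.ofReal b) + ENNReal.ofReal (8 * b / p.δ1) := by
          refine add_le_add (le_of_eq ?_) (h1.trans (ENNReal.ofReal_le_ofReal h6))
          rw [Real.volume_Icc, Real.volume_Icc, sub_zero, sub_sub_cancel]
      _ = _ := by
          rw [← ENNReal.ofReal_add hb0.le hb0.le, ← ENNReal.ofReal_add (by positivity) (by positivity),
            two_mul]
  set H : ℝ → ℝ≥0∞ := fun s => if ∃ k : Fin 3 → ℤ, ‖x - (t - s) • v - lat k‖ ≤ τ / p.h then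
      ∫⁻ ξ in goodV p.δ1 p.V, g s (x - (t - s) • v) ξ else 0 with hHdef
  set C : ℝ≥0∞ := ENNReal.ofReal ((b ^ 6)⁻¹) with hC
  have hpt : ∀ s ∈ Ioo (p.tn n) t,
      2 * gain (p.B n s (x - (t - s) • v)) (p.hh n F s (x - (t - s) • v)) v ≤
        (ENNReal.ofReal (c / √s + d) * Wt + Bad.indicator (fun _ => ENNReal.ofReal (4 * ε * p.V ^ 6) * Wt) s) +
          (Ioo (max (p.tn n) b) (t - b)).indicator (fun s => C * H s) s := by
    intro s hsI
    have hs0 : 0 < s := htn.trans hsI.1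
    have hsτ : s ≤ τ := hsI.2.le.trans ht.2
    have hst0 : s ≤ p.t0 := hsτ.trans hτ.2
    have haa := Par.aa_mem hs hs0.le (hst0.trans ht2)
    have ha8 : 1 / 8 ≤ p.aa s := by linarith [haa.1]
    have hWm : p.W n (p.aa s) s (x - (t - s) • v) v ≤ Wt :=
      Wf_mono _ (Par.aa_anti hs hsI.2.le) hsI.2.le x v
    obtain ⟨hP1, hP2⟩ := sm3_point hs (n := n) (ε := ε) (β := β) (ρ := ρ) (τ := τ) (s := s)
      (a := p.aa s) (y := x - (t - s) • v) (v := v) (h := p.hh n F s (x - (t - s) • v))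
      (g := g s (x - (t - s) • v)) (hg.slice _ _) (hwit n s _ hs0.le)
      (fun k j hw => hW1 n s _ _ v k j hs0 (hst0.trans ht2) ha8 haa.2 hw)
      (hex n s _ ρ _ v hs0 hst0 ha8 haa.2 hρ1 hρ2 hv.2.2
        (Par.Far_back hs hs0.le hsI.2.le (ht.2.trans hτ.2) hvV hv.1))
      (fun ξ => (hH2 s ⟨hsI.1.le, hst0⟩ _ ξ).1) (fun ξ hξ => hyp s ⟨hsI.1.le, hsτ⟩ _ ξ hξ)
      hs0 hsτ hτ.2 hε hβ hρ2
    by_cases hsB : s ∈ Bad
    · rw [indicator_of_mem hsB]
      refine le_add_right (le_add_left (hP1.trans ?_))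
      gcongr
    · have h1 : b < s := by
        by_contra hle
        exact hsB (Or.inl (Or.inl ⟨hs0.le, not_lt.1 hle⟩))
      have h2 : s < t - b := by
        by_contra hle
        exact hsB (Or.inl (Or.inr ⟨not_lt.1 hle, hsI.2.le⟩))
      have h3 : s ∉ T := fun hm => hsB (Or.inr ⟨hsI, hm⟩)
      rw [indicator_of_notMem hsB, add_zero, indicator_of_mem (show s ∈ Ioo (max (p.tn n) b) (t - b) from
        ⟨max_lt hsI.1 h1, h2⟩)]
      refine (hP2 h3).trans ?_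
      gcongr
  have hm1 : Measurable fun s : ℝ => ENNReal.ofReal (c / √s + d) :=
    ENNReal.measurable_ofReal.comp (by fun_prop)
  have hm2 : Measurable (Bad.indicator fun _ : ℝ => ENNReal.ofReal (4 * ε * p.V ^ 6) * Wt) :=
    measurable_const.indicator hBadm
  have hm3 : Measurable fun s : ℝ => ENNReal.ofReal (c / √s + d) * Wt := hm1.mul_const Wt
  have hm4 : Measurable fun s : ℝ => ENNReal.ofReal (c / √s + d) * Wt +
      Bad.indicator (fun _ : ℝ => ENNReal.ofReal (4 * ε * p.V ^ 6) * Wt) s := hm3.add hm2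
  have hI := setLIntegral_mono' (μ := volume) measurableSet_Ioo hpt
  rw [lintegral_add_left hm4, lintegral_add_left hm3, lintegral_mul_const Wt hm1] at hI
  have hI1 := sm3_int hc0 hd0 htn ht.1
  have hI2 : ∫⁻ s in Ioo (p.tn n) t, Bad.indicator (fun _ : ℝ => ENNReal.ofReal (4 * ε * p.V ^ 6) * Wt) s ≤
      ENNReal.ofReal (4 * ε * p.V ^ 6 * (2 * b + 8 * b / p.δ1)) * Wt := by
    refine (setLIntegral_le_lintegral _ _).trans ?_
    rw [lintegral_indicator_const hBadm, ENNReal.ofReal_mul (by positivity) (q := 2 * b + 8 * b / p.δ1),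
      mul_right_comm]
    gcongr
  have hI3 : ∫⁻ s in Ioo (p.tn n) t, (Ioo (max (p.tn n) b) (t - b)).indicator (fun s => C * H s) s ≤
      p.FatOp n τ g t x v := by
    refine (setLIntegral_le_lintegral _ _).trans (le_of_eq ?_)
    rw [lintegral_indicator measurableSet_Ioo, lintegral_const_mul' _ _ ENNReal.ofReal_ne_top]
    rfl
  have hfin : (55 * a + 2 * p.e0 * ε * t) + ((2 * c * √t + d * t) +
      4 * ε * p.V ^ 6 * (2 * b + 8 * b / p.δ1)) ≤ p.stepC ε a τ β := by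
    have h1 : 2 * c * √t ≤ 4 * p.V ^ 6 * √(2 * β * ε * τ) := by
      rw [Real.sqrt_mul (by positivity : 0 ≤ 2 * β * ε) τ]
      calc 2 * c * √t ≤ 2 * c * √τ := by gcongr; exact ht.2
        _ = _ := by rw [hc]; ring
    have h2 : d * t ≤ d * τ := by gcongr; exact ht.2
    have h3 : 2 * p.e0 * ε * t ≤ 2 * p.e0 * ε * τ := by gcongr; exact ht.2
    have h4 : (ε * τ) * (4 * p.V ^ 6 * (3 * p.h + 8 * p.h / p.δ1)) ≤ (ε * τ) * (6 * p.e0) := by gcongr
    have h5 : d * τ + 4 * ε * p.V ^ 6 * (2 * b + 8 * b / p.δ1) =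
        4 * p.e0 * ε * τ + (ε * τ) * (4 * p.V ^ 6 * (3 * p.h + 8 * p.h / p.δ1)) := by
      rw [hd, hb]; ring
    unfold Par.stepC
    linarith
  refine (hH2 t ⟨ht.1, ht.2.trans hτ.2⟩ x v).2.trans ?_
  calc _ ≤ ENNReal.ofReal (55 * a + 2 * p.e0 * ε * t) * Wt +
        ((ENNReal.ofReal (2 * c * √t + d * t) * Wt +
          ENNReal.ofReal (4 * ε * p.V ^ 6 * (2 * b + 8 * b / p.δ1)) * Wt) + p.FatOp n τ g t x v) := by
        refine add_le_add le_rfl (hI.trans (add_le_add (add_le_add ?_ hI2) hI3))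
        gcongr
    _ = ENNReal.ofReal ((55 * a + 2 * p.e0 * ε * t) + ((2 * c * √t + d * t) +
          4 * ε * p.V ^ 6 * (2 * b + 8 * b / p.δ1))) * Wt + p.FatOp n τ g t x v := by
        rw [ENNReal.ofReal_add (p := 55 * a + 2 * p.e0 * ε * t) (by positivity) (by positivity),
          ENNReal.ofReal_add (p := 2 * c * √t + d * t) (by positivity) (by positivity)]
        ring
    _ ≤ _ := by gcongr

end Crest.Agent.R068
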