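import Crest.Agent.R068.St1
import Crest.Agent.R068.Excl
import Crest.Agent.R068.SmAux3

/-! Row 68: smoothing steps. -/

set_option autoImplicit false
open MeasureTheory Set Filter Topology
open scoped ENNReal
open Crest.AnalysisR.VecCalc3 Crest.AnalysisR.PDE.Boltzmann

namespace Crest.Agent.R068

lemma sm12_int {c d a b : ℝ} (hc : 0 ≤ c) (hd : 0 ≤ d) (ha : 0 < a) (hab : a ≤ b) :
    ∫⁻ s in Ioo a b, ENNReal.ofReal (c / Real.sqrt s + d) ≤
      ENNReal.ofReal (2 * c * Real.sqrt b + d * b) := by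
  have h := lintegral_le_of_deriv (u := fun s => 2 * c * Real.sqrt s + d * s)
    (u' := fun s => c / Real.sqrt s + d) (ρ := fun s => ENNReal.ofReal (c / Real.sqrt s + d)) hab
    (fun s hs => by
      have hs0 : 0 < s := ha.trans_le hs.1
      have h1 := ((Real.hasDerivAt_sqrt hs0.ne').const_mul (2 * c)).add ((hasDerivAt_id s).const_mul d)
      have h2 : Real.sqrt s ≠ 0 := (Real.sqrt_pos.2 hs0).ne'
      refine h1.congr_deriv ?_
      field_simp)
    ((continuousOn_const.div Real.continuous_sqrt.continuousOn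
      fun s hs => (Real.sqrt_pos.2 (ha.trans_le hs.1)).ne').add continuousOn_const)
    (by positivity) (fun s _ => le_rfl) (fun s _ => by positivity)
  exact le_add_self.trans h

lemma sm12_min {β γ : ℝ} (hβ : 0 ≤ β) (hγ : 0 ≤ γ) {z w : ℝ≥0∞} (h1 : z ≤ ENNReal.ofReal β * w)
    (h2 : z ≤ ENNReal.ofReal γ * w) : z ≤ ENNReal.ofReal (Real.sqrt (β * γ)) * w := by
  rcases le_total β γ with h | h
  · refine h1.trans (mul_le_mul_left (ENNReal.ofReal_le_ofReal ?_) _)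
    exact Real.le_sqrt_of_sq_le (by nlinarith)
  · refine h2.trans (mul_le_mul_left (ENNReal.ofReal_le_ofReal ?_) _)
    exact Real.le_sqrt_of_sq_le (by nlinarith)

open Classical in
/-- the common part of the two smoothing steps -/
lemma sm12_core {p : Par} (hs : p.Std) {n : ℕ} {ε a τ β t : ℝ} {F : ℝ → R3 → R3 → ℝ}
    (hS : p.Sol n ε a F) (hτ : τ ∈ Icc (p.tn n) p.t0) (hβ : 0 ≤ β) (ht : t ∈ Icc (p.tn n) τ)
    (hH : ∀ t ∈ Icc (p.tn n) p.t0, ∀ x v,
      p.hh n F t x v ≤ ENNReal.ofReal (2 * ε * t) * p.W n (p.aa t) t x v ∧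
      p.hh n F t x v ≤ ENNReal.ofReal (55 * a + 2 * p.e0 * ε * t) * p.W n (p.aa t) t x v +
        ∫⁻ s in Ioo (p.tn n) t,
          2 * gain (p.B n s (x - (t - s) • v)) (p.hh n F s (x - (t - s) • v)) v)
    (hB : ∀ (n : ℕ∞) (t a : ℝ) (x v : R3), 0 < t → t ≤ p.t2 → 1 / 8 ≤ a → a ≤ 1 / 4 →
      gain (p.B n t x) (p.W n a t x) v ≤ ENNReal.ofReal (p.V ^ 6 / t) * p.W n a t x v)
    (x v : R3) (P : ℝ → R3 → R3 → Prop) (hP : ∀ s y, MeasurableSet {ξ | P s y ξ})
    (hgood : ∀ s ∈ Icc (p.tn n) τ, ∀ y ξ, P s y ξ →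
      p.hh n F s y ξ ≤ ENNReal.ofReal β * p.W n (p.aa s) s y ξ)
    (hex : ∀ s ∈ Ioo (p.tn n) t, gain (p.B n s (x - (t - s) • v))
      (fun ξ => if P s (x - (t - s) • v) ξ then 0 else p.W n (p.aa s) s (x - (t - s) • v) ξ) v ≤
        ENNReal.ofReal (p.e0 / s) * p.W n (p.aa s) s (x - (t - s) • v) v) :
    p.hh n F t x v ≤ ENNReal.ofReal (p.stepC ε a τ β) * p.W n (p.aa t) t x v := by
  have htn := Par.tn_pos hs n
  have he0 := Par.e0_pos hs
  have hε := hS.ε0
  have ha := hS.a0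
  have ht0 : 0 < t := htn.trans_le ht.1
  have hV : 0 ≤ p.V ^ 6 := by positivity
  have hq : 0 ≤ Real.sqrt (2 * β * ε) := Real.sqrt_nonneg _
  have key : ∀ s ∈ Ioo (p.tn n) t,
      2 * gain (p.B n s (x - (t - s) • v)) (p.hh n F s (x - (t - s) • v)) v ≤
        ENNReal.ofReal (2 * p.V ^ 6 * Real.sqrt (2 * β * ε) / Real.sqrt s + 4 * p.e0 * ε) *
          p.W n (p.aa t) t x v := by
    intro s hs'
    have hs0 : 0 < s := htn.trans hs'.1
    have hsτ : s ∈ Icc (p.tn n) τ := ⟨hs'.1.le, hs'.2.le.trans ht.2⟩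
    have hst0 : s ∈ Icc (p.tn n) p.t0 := ⟨hs'.1.le, hsτ.2.trans hτ.2⟩
    have hs2 : s ≤ p.t2 := hst0.2.trans (Par.t0_lt_t2 hs).le
    have haa := Par.aa_mem hs hs0.le hs2
    have hW : p.W n (p.aa s) s (x - (t - s) • v) v ≤ p.W n (p.aa t) t x v :=
      Wf_mono _ (Par.aa_anti hs hs'.2.le) hs'.2.le x v
    have hex' := hex s hs'
    have hB' := hB n s (p.aa s) (x - (t - s) • v) v hs0 hs2 (by linarith [haa.1]) haa.2
    generalize x - (t - s) • v = y at hW hex' hB' ⊢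
    have mB : Measurable (p.B n s y) := (p.meas_B n).slice s y
    have mW : Measurable (p.W n (p.aa s) s y) := (p.meas_W n _).slice s y
    have mE : Measurable fun ξ => if P s y ξ then 0 else p.W n (p.aa s) s y ξ :=
      Measurable.ite (hP s y) measurable_const mW
    have h1 : ∀ ξ, p.hh n F s y ξ ≤
        ENNReal.ofReal (Real.sqrt (β * (2 * ε * s))) * p.W n (p.aa s) s y ξ +
          ENNReal.ofReal (2 * ε * s) * if P s y ξ then 0 else p.W n (p.aa s) s y ξ := by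
      intro ξ
      split_ifs with hξ
      · exact (sm12_min hβ (by positivity) (hgood s hsτ y ξ hξ) (hH s hst0 y ξ).1).trans le_self_add
      · exact (hH s hst0 y ξ).1.trans le_add_self
    have h2 := gain_mono (f := p.B n s y) (fun _ => le_rfl) h1 v
    rw [gain_add_right mB (mW.const_mul _) (mE.const_mul _), gain_const_mul_right mB mW,
      gain_const_mul_right mB mE] at h2
    have hsq : 0 < Real.sqrt s := Real.sqrt_pos.2 hs0
    have e1 : Real.sqrt (β * (2 * ε * s)) = Real.sqrt (2 * β * ε) * Real.sqrt s := by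
      rw [← Real.sqrt_mul (by positivity)]; congr 1; ring
    have e2 : 2 * p.V ^ 6 * Real.sqrt (2 * β * ε) / Real.sqrt s + 4 * p.e0 * ε =
        2 * (Real.sqrt (β * (2 * ε * s)) * (p.V ^ 6 / s) + 2 * ε * s * (p.e0 / s)) := by
      rw [e1]
      have e3 : s = Real.sqrt s * Real.sqrt s := (Real.mul_self_sqrt hs0.le).symm
      generalize Real.sqrt s = r at hsq e3
      subst e3
      field_simp
      ring
    calc 2 * gain (p.B n s y) (p.hh n F s y) v
        ≤ 2 * (ENNReal.ofReal (Real.sqrt (β * (2 * ε * s))) *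
            (ENNReal.ofReal (p.V ^ 6 / s) * p.W n (p.aa t) t x v) +
          ENNReal.ofReal (2 * ε * s) * (ENNReal.ofReal (p.e0 / s) * p.W n (p.aa t) t x v)) := by
          refine mul_le_mul_right (h2.trans (add_le_add ?_ ?_)) _
          · exact mul_le_mul_right (hB'.trans (mul_le_mul_right hW _)) _
          · exact mul_le_mul_right (hex'.trans (mul_le_mul_right hW _)) _
      _ = _ := by
          rw [e2, ENNReal.ofReal_mul (p := 2) (q := _ + _) (by norm_num),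
            ENNReal.ofReal_add (by positivity) (by positivity),
            ENNReal.ofReal_mul (p := Real.sqrt _) (by positivity),
            ENNReal.ofReal_mul (p := 2 * ε * s) (by positivity),
            ENNReal.ofReal_ofNat]
          ring
  have mI : Measurable fun s : ℝ =>
      ENNReal.ofReal (2 * p.V ^ 6 * Real.sqrt (2 * β * ε) / Real.sqrt s + 4 * p.e0 * ε) :=
    ENNReal.measurable_ofReal.comp
      ((measurable_const.div Real.continuous_sqrt.measurable).add measurable_const)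
  have h3 := setLIntegral_mono' (μ := volume) measurableSet_Ioo key
  rw [lintegral_mul_const _ mI] at h3
  have h4 := sm12_int (c := 2 * p.V ^ 6 * Real.sqrt (2 * β * ε)) (d := 4 * p.e0 * ε)
    (by positivity) (by positivity) htn ht.1
  refine (hH t ⟨ht.1, ht.2.trans hτ.2⟩ x v).2.trans ?_
  refine (add_le_add le_rfl (h3.trans (mul_le_mul_left h4 _))).trans ?_
  rw [← add_mul, ← ENNReal.ofReal_add (by positivity) (by positivity)]
  refine mul_le_mul_left (ENNReal.ofReal_le_ofReal ?_) _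
  rw [Par.stepC, Real.sqrt_mul (show 0 ≤ 2 * β * ε by positivity) τ]
  have h5 : Real.sqrt t ≤ Real.sqrt τ := Real.sqrt_le_sqrt ht.2
  have h6 : p.V ^ 6 * Real.sqrt (2 * β * ε) * Real.sqrt t ≤
      p.V ^ 6 * Real.sqrt (2 * β * ε) * Real.sqrt τ := mul_le_mul_of_nonneg_left h5 (by positivity)
  have h7 : p.e0 * ε * t ≤ p.e0 * ε * τ := mul_le_mul_of_nonneg_left ht.2 (by positivity)
  have h8 : 0 ≤ p.e0 * ε * t := by positivity
  linarith

lemma sm12_far (p : Par) (ρ s : ℝ) (y : R3) : MeasurableSet {ξ | p.Far ρ s y ξ} :=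
  (measurable_const.prodMk (measurable_const.prodMk measurable_id) :
    Measurable fun ξ : R3 => (s, y, ξ)) (p.meas_Far ρ)

theorem ev_sm1 : ∀ᶠ p in PF, ∀ (n : ℕ) (ε a : ℝ) (F : ℝ → R3 → R3 → ℝ), p.Sol n ε a F → p.In1 n ε F →
    ∀ τ ∈ Icc (p.tn n) p.t0, ∀ β : ℝ, 0 ≤ β →
    (∀ s ∈ Icc (p.tn n) τ, ∀ y ξ, p.G1 s y ξ → p.hh n F s y ξ ≤ ENNReal.ofReal β * p.W n (p.aa s) s y ξ) →
    ∀ t ∈ Icc (p.tn n) τ, ∀ x v, ‖v‖ ≤ p.R →
      p.hh n F t x v ≤ ENNReal.ofReal (p.stepC ε a τ β) * p.W n (p.aa t) t x v := by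
  filter_upwards [ev_std, ev_H2, ev_gain_B_W1', ev_excl1] with p hs hH hB hE
  intro n ε a F hS hI τ hτ β hβ hg t ht x v hv
  refine sm12_core hs hS hτ hβ ht (hH n ε a F hS hI) hB x v p.G1 (fun s y => ?_) hg fun s hs' => ?_
  · exact (sm12_far p _ s y).inter (measurableSet_le measurable_norm measurable_const)
  · have hs0 : 0 < s := (Par.tn_pos hs n).trans hs'.1
    have hst0 : s ≤ p.t0 := hs'.2.le.trans (ht.2.trans hτ.2)
    have haa := Par.aa_mem hs hs0.le (hst0.trans (Par.t0_lt_t2 hs).le)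
    exact hE n s _ _ v hs0 hst0 (by linarith [haa.1]) haa.2 hv
theorem ev_sm2 : ∀ᶠ p in PF, ∀ (n : ℕ) (ε a : ℝ) (F : ℝ → R3 → R3 → ℝ), p.Sol n ε a F → p.In1 n ε F →
    ∀ τ ∈ Icc (p.tn n) p.t0, ∀ β : ℝ, 0 ≤ β →
    (∀ s ∈ Icc (p.tn n) τ, ∀ y ξ, p.Gd (p.V / 2) s y ξ →
      p.hh n F s y ξ ≤ ENNReal.ofReal β * p.W n (p.aa s) s y ξ) →
    ∀ t ∈ Icc (p.tn n) τ, ∀ x v, p.G1 t x v →
      p.hh n F t x v ≤ ENNReal.ofReal (p.stepC ε a τ β) * p.W n (p.aa t) t x v := by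
  filter_upwards [ev_std, ev_H2, ev_gain_B_W1', ev_excl2] with p hs hH hB hE
  intro n ε a F hS hI τ hτ β hβ hg t ht x v hv
  have hV : 0 ≤ p.V := by linarith [hs.R_ge, hs.V_ge]
  refine sm12_core hs hS hτ hβ ht (hH n ε a F hS hI) hB x v
    (fun s y ξ => p.Gd (p.V / 4 + p.V / 4) s y ξ ∧ p.κ0 ≤ ‖v - ξ‖) (fun s y => ?_)
    (fun s hs' y ξ hξ => hg s hs' y ξ ?_) fun s hs' => ?_
  · refine ((sm12_far p _ s y).inter ((measurableSet_le measurable_const
      continuous_nc.abs.measurable).inter (measurableSet_le measurable_norm measurable_const))).inter ?_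
    exact measurableSet_le measurable_const (measurable_const.sub measurable_id).norm
  · rw [show p.V / 2 = p.V / 4 + p.V / 4 by ring]
    exact hξ.1
  · have hs0 : 0 < s := (Par.tn_pos hs n).trans hs'.1
    have hst0 : s ≤ p.t0 := hs'.2.le.trans (ht.2.trans hτ.2)
    have haa := Par.aa_mem hs hs0.le (hst0.trans (Par.t0_lt_t2 hs).le)
    have h1 := hE n s _ (p.V / 4) _ v hs0 hst0 (by linarith [haa.1]) haa.2 le_rfl (by linarith) hv.2
      (Par.Far_back hs hs0.le hs'.2.le (ht.2.trans hτ.2) (by linarith [hv.2]) hv.1)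
    convert h1
/-- the fat step -/
theorem ev_sm3 : ∀ᶠ p in PF, ∀ (n : ℕ) (ε a : ℝ) (F : ℝ → R3 → R3 → ℝ), p.Sol n ε a F → p.In1 n ε F →
    ∀ τ ∈ Icc (p.tn n) p.t0, ∀ β ρ : ℝ, 0 ≤ β → p.V / 4 ≤ ρ → ρ ≤ 3 * p.V / 4 → ∀ g : TF, MeasT g →
    (∀ s ∈ Icc (p.tn n) τ, ∀ y ξ, p.Gd (ρ + p.V / 4) s y ξ →
      p.hh n F s y ξ ≤ ENNReal.ofReal β * p.W n (p.aa s) s y ξ + g s y ξ) →
    ∀ t ∈ Icc (p.tn n) τ, ∀ x v, p.Gd ρ t x v →
      p.hh n F t x v ≤ ENNReal.ofReal (p.stepC ε a τ β) * p.W n (p.aa t) t x v + p.FatOp n τ g t x v :=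
  sm3_main

end Crest.Agent.R068
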