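import Crest.Agent.R068.Basic

/-! Row 68: the sphere: spherical coordinates, polar formula, hat-box, sigma representation. -/

set_option autoImplicit false
open MeasureTheory Set Filter Topology
open scoped ENNReal
open Crest.AnalysisR.VecCalc3 Crest.AnalysisR.PDE.Boltzmann

namespace Crest.Agent.R068

lemma sph_emb : MeasurableEmbedding (Subtype.val : Metric.sphere (0 : R3) 1 → R3) :=
  MeasurableEmbedding.subtype_coe Metric.isClosed_sphere.measurableSet

lemma sph_polar {φ : R3 → ℝ≥0∞} (hφ : Measurable φ) :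
    ∫⁻ η, φ η =
      ∫⁻ w, (∫⁻ r in Ioi (0:ℝ), ENNReal.ofReal (r ^ 2) * φ (r • w)) ∂sphereMeasure := by
  have h := (volume : Measure R3).measurePreserving_homeomorphUnitSphereProd
  rw [finrank_euclideanSpace_fin] at h
  have h2 := MeasurePreserving.symm (homeomorphUnitSphereProd R3).toMeasurableEquiv h
  have h3 : MeasurePreserving (Subtype.val : ({0}ᶜ : Set R3) → R3)
      ((volume : Measure R3).comap Subtype.val) volume := by
    have := measurePreserving_subtype_coe (μa := (volume : Measure R3))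
      (measurableSet_singleton (0 : R3)).compl
    rwa [restrict_compl_singleton] at this
  have h4 : MeasurePreserving
      (fun q : Metric.sphere (0 : R3) 1 × Ioi (0 : ℝ) => q.2.1 • q.1.1) _ _ := h3.comp h2
  have h5 : Measurable fun q : Metric.sphere (0 : R3) 1 × Ioi (0 : ℝ) => φ (q.2.1 • q.1.1) :=
    hφ.comp h4.measurable
  rw [← h4.lintegral_comp hφ, lintegral_prod _ h5.aemeasurable,
    sphereMeasure, sph_emb.lintegral_map]
  refine lintegral_congr fun b => ?_
  have h6 : Measurable fun r : Ioi (0 : ℝ) => φ (r.1 • b.1) := h5.comp measurable_prodMk_left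
  rw [Measure.volumeIoiPow, lintegral_withDensity_eq_lintegral_mul _ (by fun_prop) h6,
    ← lintegral_subtype_comap measurableSet_Ioi]
  rfl

lemma sph_cube {s : ℝ} (hs : 0 ≤ s) :
    ∫⁻ r in Ioi (0:ℝ), ENNReal.ofReal (r ^ 2) * (Iio s).indicator 1 r =
      ENNReal.ofReal (s ^ 3 / 3) := by
  have e : ∀ r : ℝ, ENNReal.ofReal (r ^ 2) * (Iio s).indicator 1 r =
      (Iio s).indicator (fun r => ENNReal.ofReal (r ^ 2)) r := fun r => by
    by_cases h : r ∈ Iio s <;> simp [h]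
  simp only [e]
  rw [lintegral_indicator measurableSet_Iio, Measure.restrict_restrict measurableSet_Iio,
    inter_comm, Ioi_inter_Iio, Measure.restrict_congr_set Ioo_ae_eq_Ioc,
    ← ofReal_integral_eq_lintegral_ofReal (intervalIntegral.intervalIntegrable_pow _).1
      (Eventually.of_forall fun y => sq_nonneg y), ← intervalIntegral.integral_of_le hs]
  norm_num

/-- the homogeneous extension, cut off at the unit ball -/
noncomputable def sph_cone (φ : R3 → ℝ≥0∞) (η : R3) : ℝ≥0∞ :=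
  (Iio (1:ℝ)).indicator 1 ‖η‖ * φ (‖η‖⁻¹ • η)

lemma sph_cone_meas {φ : R3 → ℝ≥0∞} (hφ : Measurable φ) : Measurable (sph_cone φ) :=
  ((measurable_one.indicator measurableSet_Iio).comp measurable_norm).mul
    (hφ.comp (by fun_prop))

lemma sph_cone_smul (φ : R3 → ℝ≥0∞) {r : ℝ} (hr : 0 < r) {w : R3} (hw : ‖w‖ = 1) :
    sph_cone φ (r • w) = (Iio (1:ℝ)).indicator 1 r * φ w := by
  rw [sph_cone, norm_smul, hw, mul_one, Real.norm_of_nonneg hr.le, smul_smul,
    inv_mul_cancel₀ hr.ne', one_smul]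

lemma sph_cone_eq {φ : R3 → ℝ≥0∞} (hφ : Measurable φ) :
    ∫⁻ η, sph_cone φ η = ENNReal.ofReal (1 / 3) * ∫⁻ w, φ w ∂sphereMeasure := by
  rw [sph_polar (sph_cone_meas hφ), ← lintegral_const_mul _ hφ]
  refine lintegral_congr_ae ?_
  filter_upwards [sphere_ae_unit] with w hw
  rw [setLIntegral_congr_fun measurableSet_Ioi
    (g := fun r => (ENNReal.ofReal (r ^ 2) * (Iio (1:ℝ)).indicator 1 r) * φ w)
    fun r hr => by simp only [sph_cone_smul φ hr hw, mul_assoc],
    lintegral_mul_const (f := fun r : ℝ => ENNReal.ofReal (r ^ 2) * (Iio (1:ℝ)).indicator 1 r) _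
      (Measurable.mul (by fun_prop) (measurable_one.indicator measurableSet_Iio)),
    sph_cube zero_le_one]
  norm_num

lemma sph_cancel {a b : ℝ≥0∞} (h : ENNReal.ofReal (1 / 3) * a = ENNReal.ofReal (1 / 3) * b) :
    a = b :=
  (ENNReal.mul_right_inj (ENNReal.ofReal_pos.2 (by norm_num)).ne' ENNReal.ofReal_ne_top).1 h

lemma sph_comb (e : OrthonormalBasis (Fin 3) ℝ R3) (a b c : ℝ) :
    a • e 0 + b • e 1 + c • e 2 = e.repr.symm (WithLp.toLp 2 ![a, b, c]) := by
  rw [← e.sum_repr_symm, Fin.sum_univ_three]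
  simp

lemma sph_mp (e : OrthonormalBasis (Fin 3) ℝ R3) :
    MeasurePreserving (fun p : ℝ × ℝ × ℝ => p.1 • e 0 + p.2.1 • e 1 + p.2.2 • e 2)
      volume volume := by
  have h1 := (volume_preserving_piFinSuccAbove (fun _ : Fin 3 => ℝ) 0).symm
  have h2 := (MeasurePreserving.id (volume : Measure ℝ)).prod
    (volume_preserving_finTwoArrow ℝ).symm
  have h := e.measurePreserving_repr_symm.comp
    ((PiLp.volume_preserving_toLp (Fin 3)).comp (h1.comp h2))
  have e1 : (fun p : ℝ × ℝ × ℝ => p.1 • e 0 + p.2.1 • e 1 + p.2.2 • e 2) =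
      e.repr.symm ∘ WithLp.toLp 2 ∘ (MeasurableEquiv.piFinSuccAbove (fun _ : Fin 3 => ℝ) 0).symm ∘
        Prod.map id MeasurableEquiv.finTwoArrow.symm := by
    funext p
    rw [sph_comb]
    simp only [Function.comp_apply]
    congr 2
    ext i
    fin_cases i <;> rfl
  rw [e1]
  exact h

lemma sph_unit (e : OrthonormalBasis (Fin 3) ℝ R3) {z : ℝ} (hz : z ∈ Ioo (-1:ℝ) 1) (θ : ℝ) :
    ‖z • e 0 + (Real.sqrt (1 - z ^ 2) * Real.cos θ) • e 1 +
      (Real.sqrt (1 - z ^ 2) * Real.sin θ) • e 2‖ = 1 := by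
  have h : 0 ≤ 1 - z ^ 2 := by nlinarith [hz.1, hz.2]
  rw [sph_comb, LinearIsometryEquiv.norm_map, EuclideanSpace.norm_eq, Fin.sum_univ_three,
    Real.sqrt_eq_one]
  simp only [Matrix.cons_val_zero, Matrix.cons_val_one, Matrix.cons_val, Real.norm_eq_abs, sq_abs,
    mul_pow, Real.sq_sqrt h]
  linear_combination (1 - z ^ 2) * Real.cos_sq_add_sin_sq θ

/-- the substitution `x = ρ z / √(1 - z²)` -/
lemma sph_subst {ρ : ℝ} (hρ : 0 < ρ) (g : ℝ → ℝ≥0∞) :
    ∫⁻ x, g x = ∫⁻ z in Ioo (-1:ℝ) 1,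
      ENNReal.ofReal (ρ / √(1 - z ^ 2) ^ 3) * g (ρ / √(1 - z ^ 2) * z) := by
  have hd : ∀ z ∈ Ioo (-1:ℝ) 1,
      HasDerivAt (fun z : ℝ => ρ / √(1 - z ^ 2) * z) (ρ / √(1 - z ^ 2) ^ 3) z := fun z hz => by
    have h : 0 < 1 - z ^ 2 := by nlinarith [hz.1, hz.2]
    have hs : 0 < √(1 - z ^ 2) := Real.sqrt_pos.2 h
    have h1 : HasDerivAt (fun z : ℝ => 1 - z ^ 2) (-(2 * z)) z := by
      simpa using (hasDerivAt_pow 2 z).const_sub 1
    have h2 := ((hasDerivAt_const z ρ).div (h1.sqrt h.ne') hs.ne').mul (hasDerivAt_id z)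
    refine HasDerivAt.congr_deriv h2 ?_
    have h3 := Real.sq_sqrt h.le
    simp only [id, Pi.div_apply]
    field_simp
    nlinarith
  have hpos : ∀ z ∈ Ioo (-1:ℝ) 1, 0 < ρ / √(1 - z ^ 2) ^ 3 := fun z hz => by
    have h : 0 < 1 - z ^ 2 := by nlinarith [hz.1, hz.2]
    have hs : 0 < √(1 - z ^ 2) := Real.sqrt_pos.2 h
    positivity
  have hm : StrictMonoOn (fun z : ℝ => ρ / √(1 - z ^ 2) * z) (Ioo (-1:ℝ) 1) :=
    strictMonoOn_of_deriv_pos (convex_Ioo _ _)
      (fun z hz => (hd z hz).continuousAt.continuousWithinAt) fun z hz => by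
        rw [interior_Ioo] at hz
        rw [(hd z hz).deriv]
        exact hpos z hz
  have him : (fun z : ℝ => ρ / √(1 - z ^ 2) * z) '' Ioo (-1:ℝ) 1 = univ := by
    refine eq_univ_of_forall fun x => ?_
    have h : 0 < ρ ^ 2 + x ^ 2 := by positivity
    have hs : 0 < √(ρ ^ 2 + x ^ 2) := Real.sqrt_pos.2 h
    have h3 := Real.sq_sqrt h.le
    have h4 : |x| < √(ρ ^ 2 + x ^ 2) := Real.lt_sqrt_of_sq_lt (by rw [sq_abs]; nlinarith)
    have h5 : √(1 - (x / √(ρ ^ 2 + x ^ 2)) ^ 2) = ρ / √(ρ ^ 2 + x ^ 2) := by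
      rw [Real.sqrt_eq_iff_mul_self_eq (by
        rw [div_pow, h3, sub_nonneg, div_le_one h]; nlinarith) (by positivity)]
      rw [div_pow, div_mul_div_comm, ← sq, ← sq, h3]
      field_simp
      ring
    refine ⟨x / √(ρ ^ 2 + x ^ 2), ?_, ?_⟩
    · rw [mem_Ioo, ← abs_lt, abs_div, abs_of_pos hs, div_lt_one hs]
      exact h4
    · simp only [h5]
      field_simp
  rw [← setLIntegral_univ, ← him, lintegral_image_eq_lintegral_abs_deriv_mul measurableSet_Ioo
    (fun z hz => (hd z hz).hasDerivWithinAt) hm.injOn]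
  exact setLIntegral_congr_fun measurableSet_Ioo fun z hz => by rw [abs_of_pos (hpos z hz)]

lemma sph_coords (e : OrthonormalBasis (Fin 3) ℝ R3) {φ : R3 → ℝ≥0∞} (hφ : Measurable φ) :
    ∫⁻ w, φ w ∂sphereMeasure = ∫⁻ z in Ioo (-1:ℝ) 1, ∫⁻ θ in Ioo (-Real.pi) Real.pi,
      φ (z • e 0 + (Real.sqrt (1 - z ^ 2) * Real.cos θ) • e 1 +
        (Real.sqrt (1 - z ^ 2) * Real.sin θ) • e 2) := by
  set ψ : ℝ → ℝ → ℝ≥0∞ := fun z θ => φ (z • e 0 + (Real.sqrt (1 - z ^ 2) * Real.cos θ) • e 1 +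
    (Real.sqrt (1 - z ^ 2) * Real.sin θ) • e 2) with hψ
  have mψ : Measurable fun p : ℝ × ℝ => ψ p.1 p.2 := hφ.comp (by fun_prop)
  set a : ℝ → ℝ → ℝ≥0∞ := fun z ρ => ENNReal.ofReal ((√(1 - z ^ 2) ^ 3)⁻¹) *
    (ENNReal.ofReal (ρ ^ 2) * (Iio (√(1 - z ^ 2))).indicator 1 ρ) with ha
  have ma : Measurable fun p : ℝ × ℝ => a p.1 p.2 := by
    refine Measurable.mul (by fun_prop) (Measurable.mul (by fun_prop) ?_)
    exact measurable_one.indicator (s := {p : ℝ × ℝ | p.2 < √(1 - p.1 ^ 2)})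
      (measurableSet_lt (by fun_prop) (by fun_prop))
  refine sph_cancel ?_
  have hc := sph_cone_meas hφ
  have hc' : Measurable fun p : ℝ × ℝ × ℝ => sph_cone φ (p.1 • e 0 + p.2.1 • e 1 + p.2.2 • e 2) :=
    hc.comp (sph_mp e).measurable
  rw [← sph_cone_eq hφ, ← (sph_mp e).lintegral_comp hc, Measure.volume_eq_prod,
    lintegral_prod_symm _ hc'.aemeasurable,
    ← lintegral_comp_polarCoord_symm]
  have step : ∀ p ∈ polarCoord.target, ENNReal.ofReal p.1 • ∫⁻ x : ℝ, sph_cone φ (x • e 0 +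
      (polarCoord.symm p).1 • e 1 + (polarCoord.symm p).2 • e 2) =
      ∫⁻ z in Ioo (-1:ℝ) 1, a z p.1 * ψ z p.2 := by
    rintro ⟨ρ, θ⟩ ⟨hρ, -⟩
    have hρ : 0 < ρ := hρ
    rw [sph_subst hρ, smul_eq_mul, ← lintegral_const_mul' _ _ ENNReal.ofReal_ne_top]
    refine setLIntegral_congr_fun measurableSet_Ioo fun z hz => ?_
    have h : 0 < 1 - z ^ 2 := by nlinarith [hz.1, hz.2]
    have hs : 0 < √(1 - z ^ 2) := Real.sqrt_pos.2 h
    have e1 : (ρ / √(1 - z ^ 2) * z) • e 0 + (polarCoord.symm (ρ, θ)).1 • e 1 +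
        (polarCoord.symm (ρ, θ)).2 • e 2 = (ρ / √(1 - z ^ 2)) • (z • e 0 +
          (Real.sqrt (1 - z ^ 2) * Real.cos θ) • e 1 +
          (Real.sqrt (1 - z ^ 2) * Real.sin θ) • e 2) := by
      simp only [polarCoord_symm_apply, smul_add, smul_smul, ← mul_assoc,
        div_mul_cancel₀ _ hs.ne']
    have e2 : (Iio (1:ℝ)).indicator (1 : ℝ → ℝ≥0∞) (ρ / √(1 - z ^ 2)) =
        (Iio (√(1 - z ^ 2))).indicator 1 ρ := by
      by_cases k : ρ < √(1 - z ^ 2)
      · rw [indicator_of_mem (mem_Iio.2 ((div_lt_one hs).2 k)), indicator_of_mem (mem_Iio.2 k)]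
        rfl
      · rw [indicator_of_notMem (mt mem_Iio.1 (mt (div_lt_one hs).1 k)),
          indicator_of_notMem (mt mem_Iio.1 k)]
    have e3 : ENNReal.ofReal ρ * ENNReal.ofReal (ρ / √(1 - z ^ 2) ^ 3) =
        ENNReal.ofReal ((√(1 - z ^ 2) ^ 3)⁻¹) * ENNReal.ofReal (ρ ^ 2) := by
      rw [← ENNReal.ofReal_mul hρ.le, ← ENNReal.ofReal_mul (by positivity)]
      congr 1
      ring
    simp only
    rw [e1, sph_cone_smul φ (div_pos hρ hs) (sph_unit e hz θ), e2, ← mul_assoc, e3]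
    simp only [ha, hψ, mul_assoc]
  rw [setLIntegral_congr_fun polarCoord.open_target.measurableSet step,
    lintegral_lintegral_swap (f := fun (p : ℝ × ℝ) (z : ℝ) => a z p.1 * ψ z p.2)
      (((ma.comp (measurable_snd.prodMk (measurable_fst.comp measurable_fst))).mul
        (mψ.comp (measurable_snd.prodMk (measurable_snd.comp measurable_fst)))).aemeasurable),
    ← lintegral_const_mul' _ _ ENNReal.ofReal_ne_top]
  refine setLIntegral_congr_fun measurableSet_Ioo fun z hz => ?_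
  have h : 0 < 1 - z ^ 2 := by nlinarith [hz.1, hz.2]
  have hs : 0 < √(1 - z ^ 2) := Real.sqrt_pos.2 h
  rw [polarCoord_target, Measure.volume_eq_prod, ← Measure.prod_restrict,
    lintegral_prod_mul (f := a z) (g := ψ z) (ma.comp measurable_prodMk_left).aemeasurable
      (mψ.comp measurable_prodMk_left).aemeasurable]
  congr 1
  simp only [ha]
  rw [lintegral_const_mul' _ _ ENNReal.ofReal_ne_top, sph_cube hs.le,
    ← ENNReal.ofReal_mul (by positivity)]
  congr 1
  field_simp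

/-- invariance under linear isometries -/
lemma lintegral_sphere_isometry (A : R3 ≃ₗᵢ[ℝ] R3) {φ : R3 → ℝ≥0∞} (hφ : Measurable φ) :
    ∫⁻ w, φ (A w) ∂sphereMeasure = ∫⁻ w, φ w ∂sphereMeasure := by
  refine sph_cancel ?_
  rw [← sph_cone_eq hφ, ← sph_cone_eq (φ := fun w => φ (A w)) (hφ.comp A.continuous.measurable),
    ← A.measurePreserving.lintegral_comp (sph_cone_meas hφ)]
  simp only [sph_cone, LinearIsometryEquiv.norm_map, map_smul]
/-- polar coordinates -/
lemma lintegral_polar {φ : R3 → ℝ≥0∞} (hφ : Measurable φ) :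
    ∫⁻ η, φ η = ∫⁻ w, (∫⁻ r in Ioi (0:ℝ), ENNReal.ofReal (r ^ 2) * φ (r • w)) ∂sphereMeasure :=
  sph_polar hφ
/-- spherical coordinates with respect to an orthonormal basis -/
lemma lintegral_sphere_coords (e : OrthonormalBasis (Fin 3) ℝ R3) {φ : R3 → ℝ≥0∞} (hφ : Measurable φ) :
    ∫⁻ w, φ w ∂sphereMeasure = ∫⁻ z in Ioo (-1:ℝ) 1, ∫⁻ θ in Ioo (-Real.pi) Real.pi,
      φ (z • e 0 + (Real.sqrt (1 - z ^ 2) * Real.cos θ) • e 1 +
        (Real.sqrt (1 - z ^ 2) * Real.sin θ) • e 2) := sph_coords e hφ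
/-- every unit vector starts an orthonormal basis -/
lemma exists_onb {n : R3} (hn : ‖n‖ = 1) : ∃ e : OrthonormalBasis (Fin 3) ℝ R3, e 0 = n := by
  have h : Orthonormal ℝ (({0} : Set (Fin 3)).domRestrict fun _ => n) :=
    ⟨fun _ => hn, fun i j hij => absurd (Subsingleton.elim i j) hij⟩
  obtain ⟨b, hb⟩ := h.exists_orthonormalBasis_extension_of_card_eq (by simp)
  exact ⟨b, hb 0 rfl⟩
/-- Archimedes' hat-box theorem -/
lemma lintegral_hatbox {n : R3} (hn : ‖n‖ = 1) {φ : ℝ → ℝ≥0∞} (hφ : Measurable φ) :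
    ∫⁻ w, φ (inner ℝ n w) ∂sphereMeasure = ENNReal.ofReal (2 * Real.pi) * ∫⁻ z in Ioo (-1:ℝ) 1, φ z := by
  obtain ⟨e, rfl⟩ := exists_onb hn
  rw [sph_coords e (φ := fun w => φ (inner ℝ (e 0) w)) (hφ.comp (by fun_prop)),
    ← lintegral_const_mul _ hφ]
  refine lintegral_congr fun z => ?_
  have h1 : inner ℝ (e 0) (e 1) = 0 := e.inner_eq_zero (by decide)
  have h2 : inner ℝ (e 0) (e 2) = 0 := e.inner_eq_zero (by decide)
  simp only [inner_add_right, inner_smul_right, e.inner_eq_one, h1, h2, mul_zero, mul_one,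
    add_zero, setLIntegral_const, Real.volume_Ioo]
  rw [mul_comm]
  congr 2
  ring
lemma sphereMeasure_univ : sphereMeasure univ = ENNReal.ofReal (4 * Real.pi) := by
  have h := lintegral_hatbox (n := EuclideanSpace.single 0 1) (by simp) (φ := fun _ => 1)
    measurable_const
  rw [lintegral_one, setLIntegral_one, Real.volume_Ioo, ← ENNReal.ofReal_mul (by positivity)] at h
  rw [h]
  congr 1
  ring
/-- lines through `v` -/
lemma lintegral_lines {φ : R3 → ℝ≥0∞} (hφ : Measurable φ) (v : R3) :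
    ∫⁻ w, (∫⁻ a : ℝ, ENNReal.ofReal |a| * φ (v - a • w)) ∂sphereMeasure = 2 * pot φ v := by
  set P : R3 → ℝ≥0∞ := fun w => ∫⁻ r in Ioi (0:ℝ), ENNReal.ofReal |r| * φ (v - r • w) with hP
  have mP : Measurable P :=
    Measurable.lintegral_prod_right' (f := fun p : R3 × ℝ =>
      ENNReal.ofReal |p.2| * φ (v - p.2 • p.1)) (Measurable.mul (by fun_prop) (hφ.comp (by fun_prop)))
  have h1 : ∀ w, ∫⁻ a : ℝ, ENNReal.ofReal |a| * φ (v - a • w) = P w + P (-w) := fun w => by
    rw [← lintegral_add_compl _ (measurableSet_Ioi (a := (0:ℝ)))]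
    congr 1
    rw [← (Measure.measurePreserving_neg (volume : Measure ℝ)).setLIntegral_comp_preimage_emb
      (Homeomorph.neg ℝ).measurableEmbedding]
    simp only [hP, compl_Ioi, neg_preimage, neg_Iic, neg_zero, abs_neg, neg_smul, smul_neg]
    exact setLIntegral_congr Ioi_ae_eq_Ici.symm
  have h2 : pot φ v = ∫⁻ w, P w ∂sphereMeasure := by
    rw [pot, ← lintegral_sub_left_eq_self _ v]
    simp only [sub_sub_cancel]
    rw [sph_polar (φ := fun ξ => ENNReal.ofReal ‖ξ‖⁻¹ * φ (v - ξ))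
      (Measurable.mul (by fun_prop) (hφ.comp (by fun_prop)))]
    refine lintegral_congr_ae ?_
    filter_upwards [sphere_ae_unit] with w hw
    refine setLIntegral_congr_fun measurableSet_Ioi fun r hr => ?_
    have hr : 0 < r := hr
    rw [← mul_assoc, ← ENNReal.ofReal_mul (sq_nonneg r), norm_smul, hw, mul_one,
      Real.norm_of_nonneg hr.le, abs_of_pos hr]
    congr 2
    field_simp
  simp only [h1]
  rw [lintegral_add_left mP, h2, two_mul]
  congr 1
  exact lintegral_sphere_isometry (LinearIsometryEquiv.neg ℝ) mP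
lemma lintegral_abs_inner (u : R3) :
    ∫⁻ w, ENNReal.ofReal |inner ℝ u w| ∂sphereMeasure = ENNReal.ofReal (2 * Real.pi * ‖u‖) := by
  rcases eq_or_ne u 0 with rfl | hu
  · simp
  have h0 : 0 < ‖u‖ := norm_pos_iff.2 hu
  have h := lintegral_hatbox (n := ‖u‖⁻¹ • u) (by simp [norm_smul, hu])
    (φ := fun z => ENNReal.ofReal (‖u‖ * |z|)) (by fun_prop)
  have e : ∀ w : R3, ‖u‖ * |inner ℝ (‖u‖⁻¹ • u) w| = |inner ℝ u w| := fun w => by
    rw [real_inner_smul_left, abs_mul, abs_of_pos (inv_pos.2 h0), ← mul_assoc,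
      mul_inv_cancel₀ h0.ne', one_mul]
  have i1 : ∫ z in (-1:ℝ)..1, |z| = 1 := by
    rw [← intervalIntegral.integral_add_adjacent_intervals (b := 0)
      (continuous_abs.intervalIntegrable _ _) (continuous_abs.intervalIntegrable _ _),
      intervalIntegral.integral_congr (a := -1) (b := 0) (g := fun z => -z) fun z hz => by
        rw [uIcc_of_le (by norm_num)] at hz
        exact abs_of_nonpos hz.2,
      intervalIntegral.integral_congr (a := 0) (b := 1) (g := fun z => z) fun z hz => by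
        rw [uIcc_of_le (by norm_num)] at hz
        exact abs_of_nonneg hz.1, intervalIntegral.integral_neg, integral_id, integral_id]
    norm_num
  have i2 : ∫⁻ z in Ioo (-1:ℝ) 1, ENNReal.ofReal (‖u‖ * |z|) = ENNReal.ofReal ‖u‖ := by
    rw [Measure.restrict_congr_set Ioo_ae_eq_Ioc, ← ofReal_integral_eq_lintegral_ofReal
      ((by fun_prop : Continuous fun z : ℝ => ‖u‖ * |z|).intervalIntegrable _ _).1
      (Eventually.of_forall fun y => by positivity),
      ← intervalIntegral.integral_of_le (by norm_num), intervalIntegral.integral_const_mul, i1,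
      mul_one]
  simp only [e] at h
  rw [h, i2, ← ENNReal.ofReal_mul (by positivity)]
lemma collLoss_eq {F : ℝ → R3 → R3 → ℝ} {t : ℝ} {x : R3} (hm : Measurable (F t x))
    (h0 : ∀ v, 0 ≤ F t x v) (v : R3) : collLoss F t x v = up F t x v * freq (up F t x) v := by
  rw [collLoss, freq, up, ← lintegral_const_mul' _ _ ENNReal.ofReal_ne_top]
  refine lintegral_congr fun vs => ?_
  simp only [mul_assoc, ENNReal.ofReal_mul (abs_nonneg _)]
  rw [lintegral_mul_const' _ _ ENNReal.ofReal_ne_top, lintegral_abs_inner,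
    ENNReal.ofReal_mul (h0 v), mul_left_comm, mul_assoc]
  rfl

end Crest.Agent.R068
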