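import Crest.Agent.R068.OmS
import Crest.Agent.R068.Cut

/-! Row 68: closing the first stage (auxiliary lemmas for `ev_In1`). -/

set_option autoImplicit false
open MeasureTheory Set Filter Topology
open scoped ENNReal
open Crest.AnalysisR.VecCalc3 Crest.AnalysisR.PDE.Boltzmann

namespace Crest.Agent.R068

variable {p : Par}

lemma in1_slice {N : TF} (h : MeasT N) (s : ℝ) (y : R3) : Measurable (N s y) :=
  Measurable.comp (g := fun q : ℝ × R3 × R3 => N q.1 q.2.1 q.2.2) (f := fun u : R3 => (s, y, u)) h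
    (by fun_prop)

lemma in1_two (c : ℝ) : (2 : ℝ≥0∞) * ENNReal.ofReal c = ENNReal.ofReal (2 * c) := by
  rw [ENNReal.ofReal_mul (by norm_num), ENNReal.ofReal_ofNat]

/-- the excess of the clamp is at most `A W` -/
lemma in1_gain (hs : p.Std) (n : ℕ) {ε : ℝ} (hε : 0 ≤ ε) {F : ℝ → R3 → R3 → ℝ} {s : ℝ}
    (h0 : 0 ≤ s) (h2 : s ≤ p.t2) (y v : R3) {b : R3 → ℝ≥0∞} (hb : Measurable b) :
    gain b (fun u => p.Nn n ε F s y u - p.U1 n 0 s y u) v ≤
      ENNReal.ofReal (p.AA ε s) * gain b (p.W n (p.aa s) s y) v := by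
  rw [← gain_const_mul_right hb (in1_slice (p.meas_W n _) s y)]
  refine gain_mono (fun _ => le_rfl) (fun u => ?_) v
  rw [tsub_le_iff_left, Par.Nn_eq1 n ε F h2, ← Par.U1_split hs n hε h0]
  exact min_le_right _ _

lemma in1_e0 (hs : p.Std) : p.e0 ≤ 1 / 4 := by
  have h1 := hs.R_ge
  have h2 := hs.V_ge
  have h3 : (4 : ℝ) ≤ p.V ^ 100 := le_trans (by linarith) (le_self_pow₀ (by linarith) (by norm_num))
  unfold Par.e0
  rw [one_div]
  exact inv_anti₀ (by norm_num) h3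

lemma in1_sum {A c1 c2 c3 : ℝ} (h1 : 0 ≤ c1) (h2 : 0 ≤ c2) (h3 : 0 ≤ c3) (h : c1 + c2 + c3 ≤ A)
    (U W : ℝ≥0∞) : U + ENNReal.ofReal c1 * W + ENNReal.ofReal c2 * W + ENNReal.ofReal c3 * W ≤
      U + ENNReal.ofReal A * W := by
  rw [add_assoc, add_assoc, ← add_mul, ← add_mul, ← ENNReal.ofReal_add h2 h3,
    ← ENNReal.ofReal_add h1 (add_nonneg h2 h3)]
  gcongr
  linarith

/-- large velocities -/
lemma in1_far (hs : p.Std) {n : ℕ} {ε a : ℝ} {F : ℝ → R3 → R3 → ℝ} (hF : p.Sol n ε a F)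
    (hw : ∀ (t : ℝ) (x : R3), 0 ≤ t →
      ((∀ v, p.B n t x v = 0) ∧ ∀ v, p.Gr n t x v = 0) ∨ ∃ k j, p.Wit n t x k j)
    {t : ℝ} (ht : t ≤ p.t2) (h0 : 0 ≤ t) (x : R3) {v : R3} (hv : p.R ≤ ‖v‖) :
    ∫⁻ s in Ioo (p.tn n) t, damp (p.Nn n ε F) s t x v *
      (2 * gain (fun u => min (p.Nn n ε F s (x - (t - s) • v) u) (p.B n s (x - (t - s) • v) u))
        (fun u => p.Nn n ε F s (x - (t - s) • v) u - p.U1 n 0 s (x - (t - s) • v) u) v) ≤
      ENNReal.ofReal (p.AA ε t / 4) * p.W n (p.aa t) t x v := by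
  have hN := p.meas_Nn n ε hF.dens.meas
  set b : TF := fun s y u => min (p.Nn n ε F s y u) (p.B n s y u) with hb
  have mb : MeasT b := Measurable.min hN (p.meas_B n)
  have hR := hs.R_ge
  have hA := Par.AA_nonneg hs hF.ε0 h0
  have key := lintegral_damp_freq_le hN mb (s := p.tn n) (t := t)
    (fun r _ y u => min_le_left _ _) x v
  have hc : ENNReal.ofReal (p.AA ε t / 4) * gs (p.aa t) v ≠ ⊤ :=
    ENNReal.mul_ne_top ENNReal.ofReal_ne_top (gs_ne_top _ _)
  calc _ ≤ ∫⁻ s in Ioo (p.tn n) t, (ENNReal.ofReal (p.AA ε t / 4) * gs (p.aa t) v) *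
        (damp (p.Nn n ε F) s t x v * freq (b s (x - (t - s) • v)) v) := by
        refine setLIntegral_mono' measurableSet_Ioo fun s hs' => ?_
        have s0 : 0 ≤ s := ((Par.tn_pos hs n).trans hs'.1).le
        have s2 : s ≤ p.t2 := hs'.2.le.trans ht
        have ms := in1_slice mb s (x - (t - s) • v)
        have hsupp : ∀ u, b s (x - (t - s) • v) u ≠ 0 → ‖u‖ ≤ 2 := by
          intro u hu
          have hB : p.B n s (x - (t - s) • v) u ≠ 0 := by
            intro h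
            exact hu (by simp only [hb, h, min_zero])
          rcases hw s (x - (t - s) • v) s0 with h | ⟨k, j, h⟩
          · exact (hB (h.1 u)).elim
          · exact (h.supp u hB).2
        have ha := Par.aa_mem hs s0 s2
        have g1 := in1_gain hs n hF.ε0 (F := F) s0 s2 (x - (t - s) • v) v ms
        have g2 := gain_Wf_pot (η := p.etaS n) (a := p.aa s) (by linarith [ha.1]) ha.2 s0
          (x - (t - s) • v) ms hsupp v
        have g3 := pot_le_freq ms hsupp (v := v) (by linarith)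
        have g4 := gs_anti (Par.aa_anti hs hs'.2.le) v
        have g5 : CW s ≤ 100 := CW_le s0 (by linarith [hs.t2_le])
        have g6 := Par.AA_mono hs hF.ε0 le_rfl s0 hs'.2.le
        have g7 : (‖v‖ ^ 2)⁻¹ ≤ (1000 ^ 2)⁻¹ :=
          inv_anti₀ (by norm_num) (pow_le_pow_left₀ (by norm_num) (by linarith) 2)
        have g8 : (2 : ℝ≥0∞) * (ENNReal.ofReal (p.AA ε s) * (ENNReal.ofReal (140 * CW s) *
            ENNReal.ofReal ((‖v‖ ^ 2)⁻¹))) ≤ ENNReal.ofReal (p.AA ε t / 4) := by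
          have cw0 : 0 ≤ CW s := zero_le_one.trans (one_le_CW s0)
          have a0 := Par.AA_nonneg hs hF.ε0 s0
          rw [← ENNReal.ofReal_mul (by positivity), ← ENNReal.ofReal_mul a0, in1_two]
          refine ENNReal.ofReal_le_ofReal ?_
          have : 140 * CW s * (‖v‖ ^ 2)⁻¹ ≤ 140 * 100 * (1000 ^ 2)⁻¹ := by gcongr
          have := mul_le_mul g6 this (by positivity) hA
          norm_num at this ⊢
          linarith
        rw [mul_left_comm (ENNReal.ofReal (p.AA ε t / 4) * gs (p.aa t) v)]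
        refine mul_le_mul' le_rfl ?_
        calc _ ≤ 2 * (ENNReal.ofReal (p.AA ε s) * (ENNReal.ofReal (140 * CW s) * gs (p.aa t) v *
              (ENNReal.ofReal ((‖v‖ ^ 2)⁻¹) * freq (b s (x - (t - s) • v)) v))) :=
            mul_le_mul' le_rfl (g1.trans (mul_le_mul' le_rfl (g2.trans
              (mul_le_mul' (mul_le_mul' le_rfl g4) g3))))
          _ = 2 * (ENNReal.ofReal (p.AA ε s) * (ENNReal.ofReal (140 * CW s) *
              ENNReal.ofReal ((‖v‖ ^ 2)⁻¹))) * gs (p.aa t) v * freq (b s (x - (t - s) • v)) v := by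
            ring
          _ ≤ _ := by gcongr
    _ ≤ ENNReal.ofReal (p.AA ε t / 4) * gs (p.aa t) v := by
        rw [lintegral_const_mul' _ _ hc]
        exact mul_le_of_le_one_right' key
    _ ≤ _ := mul_le_mul' le_rfl (gs_le_Wf _ _ _ _ _)

/-- late times -/
lemma in1_late (hs : p.Std) {n : ℕ} {ε a : ℝ} {F : ℝ → R3 → R3 → ℝ} (hF : p.Sol n ε a F)
    (hg : ∀ (t a : ℝ) (x v : R3), 0 < t → t ≤ p.t2 → 1 / 8 ≤ a → a ≤ 1 / 4 →
      gain (p.B n t x) (p.W n a t x) v ≤ ENNReal.ofReal (p.V ^ 6 / t) * p.W n a t x v)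
    {t : ℝ} (ht : t ≤ p.t2) (h0 : p.t0 < t) (x v : R3) :
    ∫⁻ s in Ioo (p.tn n) t, damp (p.Nn n ε F) s t x v *
      (2 * gain (fun u => min (p.Nn n ε F s (x - (t - s) • v) u) (p.B n s (x - (t - s) • v) u))
        (fun u => p.Nn n ε F s (x - (t - s) • v) u - p.U1 n 0 s (x - (t - s) • v) u) v) ≤
      ENNReal.ofReal (p.AA ε t / 4) * p.W n (p.aa t) t x v := by
  have hN := p.meas_Nn n ε hF.dens.meas
  have hR := hs.R_ge
  have hV := hs.V_ge
  have V0 : 0 < p.V := by linarith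
  have hA := Par.AA_nonneg hs hF.ε0 ((Par.t0_pos hs).trans h0).le
  calc _ ≤ ∫⁻ s in Ioo (p.tn n) t, ENNReal.ofReal (p.AA ε s / s) *
        (ENNReal.ofReal (2 * p.V ^ 6) * p.W n (p.aa t) t x v) := by
        refine setLIntegral_mono' measurableSet_Ioo fun s hs' => ?_
        have s0 : 0 < s := (Par.tn_pos hs n).trans hs'.1
        have s2 : s ≤ p.t2 := hs'.2.le.trans ht
        have ms : Measurable fun u => min (p.Nn n ε F s (x - (t - s) • v) u)
            (p.B n s (x - (t - s) • v) u) :=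
          (in1_slice hN s _).min (in1_slice (p.meas_B n) s _)
        have ha := Par.aa_mem hs s0.le s2
        have g1 := in1_gain hs n hF.ε0 (F := F) s0.le s2 (x - (t - s) • v) v ms
        have g2 := hg s (p.aa s) (x - (t - s) • v) v s0 s2 (by linarith [ha.1]) ha.2
        have g3 : p.W n (p.aa s) s (x - (t - s) • v) v ≤ p.W n (p.aa t) t x v :=
          Wf_mono _ (Par.aa_anti hs hs'.2.le) hs'.2.le x v
        have a0 := Par.AA_nonneg hs hF.ε0 s0.le
        have g4 : (2 : ℝ≥0∞) * (ENNReal.ofReal (p.AA ε s) * ENNReal.ofReal (p.V ^ 6 / s)) =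
            ENNReal.ofReal (p.AA ε s / s) * ENNReal.ofReal (2 * p.V ^ 6) := by
          rw [← ENNReal.ofReal_mul a0, in1_two, ← ENNReal.ofReal_mul (by positivity)]
          congr 1
          ring
        calc _ ≤ 1 * (2 * (ENNReal.ofReal (p.AA ε s) * (ENNReal.ofReal (p.V ^ 6 / s) *
              p.W n (p.aa t) t x v))) :=
            mul_le_mul' (damp_le_one _ _ _ _ _) (mul_le_mul' le_rfl (g1.trans (mul_le_mul' le_rfl
              (((gain_mono (fun _ => min_le_right _ _) (fun _ => le_rfl) v).trans g2).trans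
                (mul_le_mul' le_rfl g3)))))
          _ = _ := by rw [← mul_assoc (ENNReal.ofReal (p.AA ε s / s)), ← g4]; ring
    _ = (∫⁻ s in Ioo (p.tn n) t, ENNReal.ofReal (p.AA ε s / s)) *
        (ENNReal.ofReal (2 * p.V ^ 6) * p.W n (p.aa t) t x v) :=
        lintegral_mul_const _ ((p.meas_AA ε).div measurable_id).ennreal_ofReal
    _ ≤ ENNReal.ofReal (2 * p.AA ε t / p.Lam) *
        (ENNReal.ofReal (2 * p.V ^ 6) * p.W n (p.aa t) t x v) :=
        mul_le_mul' ((lintegral_mono_set (Ioo_subset_Ioo_left (Par.tn_pos hs n).le)).trans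
          (Par.lintegral_AA_div hs hF.ε0 h0)) le_rfl
    _ ≤ _ := by
        rw [← mul_assoc, ← ENNReal.ofReal_mul (by positivity)]
        refine mul_le_mul' (ENNReal.ofReal_le_ofReal ?_) le_rfl
        have hL := p.Lam_ge
        have L0 : (0 : ℝ) < p.Lam := lt_of_lt_of_le (by positivity) hL
        have h6 : 0 < p.V ^ 6 := by positivity
        have : 16 * p.V ^ 6 ≤ p.Lam := by
          refine le_trans ?_ hL
          rw [pow_succ p.V 6]
          nlinarith
        rw [div_mul_eq_mul_div, div_le_iff₀ L0]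
        nlinarith

lemma in1_seed (hs : p.Std) {n : ℕ} {ε a : ℝ} {F : ℝ → R3 → R3 → ℝ} (hF : p.Sol n ε a F)
    {t : ℝ} (h0 : p.t0 < t) : 55 * a ≤ p.AA ε t / 4 := by
  have hR := hs.R_ge
  have hV := hs.V_ge
  have t0 := Par.t0_pos hs
  have hL : (220 : ℝ) ≤ p.Lam := by
    refine le_trans ?_ p.Lam_ge
    exact le_trans (by linarith) (le_self_pow₀ (by linarith) (by norm_num))
  have h1 : 1 ≤ (t / p.t0) ^ p.Lam := one_le_pow₀ ((one_le_div t0).2 h0.le)
  have h2 : a ≤ 2 * ε * p.t0 :=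
    hF.a1.trans (mul_le_mul_of_nonneg_left hF.tn0 (by linarith [hF.ε0]))
  have h3 : 0 ≤ 2 * ε * p.t0 := hF.a0.trans h2
  unfold Par.AA
  rw [if_neg (not_le.2 h0)]
  have h4 : 2 * ε * p.t0 * 220 ≤ 2 * ε * p.t0 * p.Lam := mul_le_mul_of_nonneg_left hL h3
  have h5 := le_mul_of_one_le_right (le_trans (by positivity) h4) h1
  linarith

lemma in1_main (hs : p.Std) {n : ℕ} {ε a : ℝ} {F : ℝ → R3 → R3 → ℝ} (hF : p.Sol n ε a F)
    (hw : ∀ (t : ℝ) (x : R3), 0 ≤ t →
      ((∀ v, p.B n t x v = 0) ∧ ∀ v, p.Gr n t x v = 0) ∨ ∃ k j, p.Wit n t x k j)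
    (hg : ∀ (t a : ℝ) (x v : R3), 0 < t → t ≤ p.t2 → 1 / 8 ≤ a → a ≤ 1 / 4 →
      gain (p.B n t x) (p.W n a t x) v ≤ ENNReal.ofReal (p.V ^ 6 / t) * p.W n a t x v)
    (h1 : ∀ t ∈ Icc (p.tn n) p.t2, ∀ x v, up F t x v ≤ p.U1 n 0 t x v + p.seed n a (x - t • v) v +
      ENNReal.ofReal (p.e0 * p.AA ε t) * p.W n (p.aa t) t x v +
      ∫⁻ s in Ioo (p.tn n) t, damp (p.Nn n ε F) s t x v *
        (2 * gain (fun u => min (p.Nn n ε F s (x - (t - s) • v) u) (p.B n s (x - (t - s) • v) u))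
          (fun u => p.Nn n ε F s (x - (t - s) • v) u - p.U1 n 0 s (x - (t - s) • v) u) v))
    (h2 : ∀ t ∈ Icc (p.tn n) p.t0, ∀ x v, ‖v‖ ≤ p.R →
      up F t x v ≤ p.U1 n 0 t x v + ENNReal.ofReal (ε * t) * p.W n (p.aa t) t x v) :
    p.In1 n ε F := by
  intro t ht x v
  have t0 : 0 ≤ t := (Par.tn_pos hs n).le.trans ht.1
  have hA := Par.AA_nonneg hs hF.ε0 t0
  have he := in1_e0 hs
  have he0 := Par.e0_pos hs
  have he1 : p.e0 * p.AA ε t ≤ p.AA ε t / 4 := by nlinarith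
  have hR := hs.R_ge
  rw [Par.U1_split hs n hF.ε0 t0]
  rcases le_or_gt t p.t0 with h | h
  · rcases le_total ‖v‖ p.R with hv | hv
    · refine (h2 t ⟨ht.1, h⟩ x v hv).trans ?_
      gcongr
      unfold Par.AA
      rw [if_pos h]
      nlinarith [mul_nonneg hF.ε0 t0]
    · have hz : p.seed n a (x - t • v) v = 0 := by
        by_contra hne
        linarith [Par.seed_supp hne]
      refine (h1 t ht x v).trans (le_trans ?_ (in1_sum (c1 := 0) (c2 := p.e0 * p.AA ε t)
        (c3 := p.AA ε t / 4) le_rfl (by positivity) (by positivity) (by linarith) _ _))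
      rw [hz, ENNReal.ofReal_zero, zero_mul]
      gcongr
      exact in1_far hs hF hw ht.2 t0 x hv
  · have ha := Par.aa_mem hs t0 ht.2
    have hz := Par.seed_le_gs hs hF.tn0 a (b := p.aa t) (by linarith [ha.1]) ha.2 (x - t • v) v
    have h55 := in1_seed hs hF h
    refine (h1 t ht x v).trans (le_trans ?_ (in1_sum (c1 := 55 * a) (c2 := p.e0 * p.AA ε t)
      (c3 := p.AA ε t / 4) (by linarith [hF.a0]) (by positivity) (by positivity) (by linarith) _ _))
    gcongr
    · exact hz.trans (mul_le_mul' le_rfl (gs_le_Wf _ _ _ _ _))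
    · exact in1_late hs hF hg ht.2 h x v

end Crest.Agent.R068
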