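import Crest.Agent.R068.OmS
import Crest.Agent.R068.Cut
import Crest.Agent.R068.St1AuxIn1

/-! Row 68: the first stage: the clamp is inactive. -/

set_option autoImplicit false
open MeasureTheory Set Filter Topology
open scoped ENNReal
open Crest.AnalysisR.VecCalc3 Crest.AnalysisR.PDE.Boltzmann

namespace Crest.Agent.R068

lemma st1_gain_split {N U0 B W : R3 → ℝ≥0∞} (hN : Measurable N) (hU : Measurable U0)
    (hB : Measurable B) (hW : Measurable W) (O A : ℝ≥0∞) (hU0 : ∀ u, U0 u = B u + O * W u)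
    (hle : ∀ u, N u ≤ U0 u + A * W u) (v : R3) :
    gain N N v ≤ gain U0 U0 v + (2 * (O * A) + A * A) * gain W W v +
      2 * gain (fun u => min (N u) (B u)) (fun u => N u - U0 u) v := by
  have hm : Measurable fun u => min (N u) (U0 u) := hN.min hU
  have hg : Measurable fun u => N u - U0 u := hN.sub hU
  have hb : Measurable fun u => min (N u) (B u) := hN.min hB
  have hOW : Measurable fun u => O * W u := hW.const_mul O
  have hAW : Measurable fun u => A * W u := hW.const_mul A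
  have e : N = fun u => min (N u) (U0 u) + (N u - U0 u) := by
    funext u
    rw [add_comm, tsub_add_min]
  have hgA : ∀ u, N u - U0 u ≤ A * W u := fun u => tsub_le_iff_left.mpr (hle u)
  have h1 : gain (fun u => min (N u) (U0 u)) (fun u => min (N u) (U0 u)) v ≤ gain U0 U0 v :=
    gain_mono (fun u => min_le_right _ _) (fun u => min_le_right _ _) v
  have h2 : gain (fun u => min (N u) (U0 u)) (fun u => N u - U0 u) v ≤
      gain (fun u => min (N u) (B u)) (fun u => N u - U0 u) v + O * A * gain W W v := by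
    have h21 : ∀ u, min (N u) (U0 u) ≤ min (N u) (B u) + O * W u := by
      intro u
      rw [hU0 u]
      rcases le_total (N u) (B u) with h | h
      · rw [min_eq_left h]
        exact (min_le_left _ _).trans le_self_add
      · rw [min_eq_right h]
        exact min_le_right _ _
    refine (gain_mono h21 (fun u => le_rfl) v).trans ?_
    rw [gain_add_left hb hOW hg]
    gcongr
    refine (gain_mono (fun u => le_rfl) hgA v).trans (le_of_eq ?_)
    rw [gain_const_mul_left hW hAW, gain_const_mul_right hW hW, mul_assoc]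
  have h3 : gain (fun u => N u - U0 u) (fun u => N u - U0 u) v ≤ A * A * gain W W v := by
    refine (gain_mono hgA hgA v).trans (le_of_eq ?_)
    rw [gain_const_mul_left hW hAW, gain_const_mul_right hW hW, mul_assoc]
  calc gain N N v = gain (fun u => min (N u) (U0 u) + (N u - U0 u))
        (fun u => min (N u) (U0 u) + (N u - U0 u)) v := by rw [← e]
    _ = _ := gain_add_add hm hg v
    _ ≤ gain U0 U0 v + 2 * (gain (fun u => min (N u) (B u)) (fun u => N u - U0 u) v +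
          O * A * gain W W v) + A * A * gain W W v := by gcongr
    _ = _ := by ring

lemma st1_ev_small : ∀ᶠ p in PF, 10 ^ 11 * p.C0 * p.R * p.r1 ≤ p.e0 := by
  refine ev_r1 (Q := fun p x => 10 ^ 11 * p.C0 * p.R * x ≤ p.e0) ?_
  filter_upwards [ev_std] with p hp
  have hc : Continuous fun x : ℝ => 10 ^ 11 * p.C0 * p.R * x := by fun_prop
  have h0 : Tendsto (fun x : ℝ => 10 ^ 11 * p.C0 * p.R * x) (𝓝[>] 0) (𝓝 0) := by
    have := hc.tendsto 0
    rw [mul_zero] at this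
    exact this.mono_left nhdsWithin_le_nhds
  exact h0.eventually (eventually_le_nhds (Par.e0_pos hp))

lemma st1_U0_eq (p : Par) (n : ℕ∞) (t : ℝ) (x v : R3) :
    p.U1 n 0 t x v = p.B n t x v + ENNReal.ofReal (p.Om t x) * p.W n (p.aa t) t x v := by
  unfold Par.U1
  rw [Par.AA_zero, zero_add]

/-- pointwise bound for the quadratic remainder -/
lemma st1_rem {p : Par} (hp : p.Std) (n : ℕ∞) {ε s t : ℝ} (hε : 0 ≤ ε) (hε' : ε ≤ p.eps)
    (hs : 0 ≤ s) (hst : s ≤ t) (ht : t ≤ p.t2) (y v : R3) :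
    (2 * (ENNReal.ofReal (p.Om s y) * ENNReal.ofReal (p.AA ε s)) +
      ENNReal.ofReal (p.AA ε s) * ENNReal.ofReal (p.AA ε s)) *
        gain (p.W n (p.aa s) s y) (p.W n (p.aa s) s y) v ≤
      (ENNReal.ofReal (2 * 10 ^ 10 * p.C0 * p.AA ε t) * gs (p.aa t) v) *
        (ENNReal.ofReal (1 + ‖v‖) * gs ((16 * p.R * p.r1)⁻¹ * (t - s)) v) := by
  have hA := Par.AA_nonneg hp hε hs
  have hO := Par.Om_nonneg hp hs y
  have hAO := Par.AA_Om_le hp hε hε' hs (hst.trans ht) y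
  have hAm := Par.AA_mono hp hε le_rfl hs hst
  have ha := Par.aa_mem hp hs (hst.trans ht)
  have hCW := CW_le hs ((hst.trans ht).trans (hp.t2_le.trans (by norm_num)))
  have hCW1 := one_le_CW hs
  have hC0 := Par.one_le_C0 hp
  have hv : 0 ≤ 1 + ‖v‖ := by positivity
  have hg := gain_Wf_Wf (η := p.etaS n) (a := p.aa s) (t := s) (by linarith [ha.1]) ha.2 hs y v
  have e1 : 2 * (ENNReal.ofReal (p.Om s y) * ENNReal.ofReal (p.AA ε s)) +
      ENNReal.ofReal (p.AA ε s) * ENNReal.ofReal (p.AA ε s) =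
      ENNReal.ofReal (2 * (p.Om s y * p.AA ε s) + p.AA ε s * p.AA ε s) := by
    rw [ENNReal.ofReal_add (by positivity) (by positivity), ENNReal.ofReal_mul zero_le_two,
      ENNReal.ofReal_mul hO, ENNReal.ofReal_mul hA, ENNReal.ofReal_ofNat]
  have h1 : 2 * (p.Om s y * p.AA ε s) + p.AA ε s * p.AA ε s ≤ 2 * p.C0 * p.AA ε t := by
    have : 2 * (p.Om s y * p.AA ε s) + p.AA ε s * p.AA ε s ≤ 2 * p.C0 * p.AA ε s := by nlinarith
    nlinarith
  have h2 : 10 ^ 6 * CW s ^ 2 * (1 + ‖v‖) ≤ 10 ^ 10 * (1 + ‖v‖) := by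
    have : CW s ^ 2 ≤ 10 ^ 4 := by nlinarith
    nlinarith
  have hAt : 0 ≤ p.AA ε t := hA.trans hAm
  calc _ ≤ ENNReal.ofReal (2 * p.C0 * p.AA ε t) *
        (ENNReal.ofReal (10 ^ 10 * (1 + ‖v‖)) * gs (p.aa s) v) := by
        rw [e1]
        refine mul_le_mul' (ENNReal.ofReal_le_ofReal h1) (hg.trans ?_)
        exact mul_le_mul' (ENNReal.ofReal_le_ofReal h2) le_rfl
    _ = _ := by
        rw [Par.aa_sub p s t, gs_add, ENNReal.ofReal_mul (by positivity : (0:ℝ) ≤ 10 ^ 10),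
          show 2 * 10 ^ 10 * p.C0 * p.AA ε t = (2 * p.C0 * p.AA ε t) * 10 ^ 10 by ring,
          ENNReal.ofReal_mul (by positivity : (0:ℝ) ≤ 2 * p.C0 * p.AA ε t)]
        ring

lemma st1_rem_int {p : Par} (hp : p.Std) (hsm : 10 ^ 11 * p.C0 * p.R * p.r1 ≤ p.e0) (n : ℕ∞)
    {ε s t : ℝ} (hε : 0 ≤ ε) (hs : 0 ≤ s) (hst : s ≤ t) (ht : t ≤ p.t2) (x v : R3) :
    ∫⁻ r in Ioo s t, (ENNReal.ofReal (2 * 10 ^ 10 * p.C0 * p.AA ε t) * gs (p.aa t) v) *
        (ENNReal.ofReal (1 + ‖v‖) * gs ((16 * p.R * p.r1)⁻¹ * (t - r)) v) ≤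
      ENNReal.ofReal (p.e0 * p.AA ε t) * p.W n (p.aa t) t x v := by
  have hR : 0 < p.R := by linarith [hp.R_ge]
  have hr := hp.r1_pos
  have hRr : 0 < p.R * p.r1 := mul_pos hR hr
  have hβ : 0 < (16 * p.R * p.r1)⁻¹ := by positivity
  have hAt : 0 ≤ p.AA ε t := Par.AA_nonneg hp hε (hs.trans hst)
  have hC0 := Par.one_le_C0 hp
  have ht' : t - s ≤ p.R * p.r1 := by unfold Par.t2 at ht; linarith
  have hsq : Real.sqrt ((t - s) / (16 * p.R * p.r1)⁻¹) ≤ 4 * (p.R * p.r1) := by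
    rw [Real.sqrt_le_left (by positivity), div_inv_eq_mul]
    nlinarith
  rw [lintegral_const_mul' _ _ (ENNReal.mul_ne_top ENNReal.ofReal_ne_top (gs_ne_top _ _))]
  calc _ ≤ (ENNReal.ofReal (2 * 10 ^ 10 * p.C0 * p.AA ε t) * gs (p.aa t) v) *
        ENNReal.ofReal (5 * (p.R * p.r1)) := by
        refine mul_le_mul' le_rfl ((lintegral_weight_decay hβ hst v).trans ?_)
        exact ENNReal.ofReal_le_ofReal (by linarith)
    _ = ENNReal.ofReal (2 * 10 ^ 10 * p.C0 * p.AA ε t * (5 * (p.R * p.r1))) * gs (p.aa t) v := by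
        rw [ENNReal.ofReal_mul (by positivity : (0:ℝ) ≤ 2 * 10 ^ 10 * p.C0 * p.AA ε t)]
        ring
    _ ≤ _ := by
        refine mul_le_mul' (ENNReal.ofReal_le_ofReal ?_) (gs_le_Wf _ _ _ _ _)
        nlinarith

/-- the basic inequality for the excess -/
theorem ev_H1 : ∀ᶠ p in PF, ∀ (n : ℕ) (ε a : ℝ) (F : ℝ → R3 → R3 → ℝ), p.Sol n ε a F →
    ∀ t ∈ Icc (p.tn n) p.t2, ∀ x v, up F t x v ≤ p.U1 n 0 t x v + p.seed n a (x - t • v) v +
      ENNReal.ofReal (p.e0 * p.AA ε t) * p.W n (p.aa t) t x v +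
      ∫⁻ s in Ioo (p.tn n) t, damp (p.Nn n ε F) s t x v *
        (2 * gain (fun u => min (p.Nn n ε F s (x - (t - s) • v) u) (p.B n s (x - (t - s) • v) u))
          (fun u => p.Nn n ε F s (x - (t - s) • v) u - p.U1 n 0 s (x - (t - s) • v) u) v) := by
  filter_upwards [ev_std, st1_ev_small, ev_U0_super] with p hp hsm hsup n ε a F hS t ht x v
  have htn := (Par.tn_pos hp n).le
  have ht0 : 0 ≤ t := htn.trans ht.1
  have hNm : MeasT (p.Nn n ε F) := p.meas_Nn n ε hS.dens.meas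
  set G0 : ℝ → ℝ≥0∞ := fun s =>
    gain (p.U1 n 0 s (x - (t - s) • v)) (p.U1 n 0 s (x - (t - s) • v)) v with hG0
  set L : ℝ → ℝ≥0∞ := fun s =>
    (ENNReal.ofReal (2 * 10 ^ 10 * p.C0 * p.AA ε t) * gs (p.aa t) v) *
      (ENNReal.ofReal (1 + ‖v‖) * gs ((16 * p.R * p.r1)⁻¹ * (t - s)) v) with hL
  set D : ℝ → ℝ≥0∞ := fun s => damp (p.Nn n ε F) s t x v *
    (2 * gain (fun u => min (p.Nn n ε F s (x - (t - s) • v) u) (p.B n s (x - (t - s) • v) u))
      (fun u => p.Nn n ε F s (x - (t - s) • v) u - p.U1 n 0 s (x - (t - s) • v) u) v) with hD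
  have hG0m : Measurable G0 :=
    (MeasT.gain (p.meas_U1 n 0) (p.meas_U1 n 0)).comp measurable_id (by fun_prop) measurable_const
  have hLm : Measurable L := by
    refine Measurable.const_mul (Measurable.const_mul ?_ _) _
    exact measurable_gs'.comp (f := fun s : ℝ => ((16 * p.R * p.r1)⁻¹ * (t - s), v)) (by fun_prop)
  have hpt : ∀ s ∈ Ioo (p.tn n) t, damp (p.Nn n ε F) s t x v *
      gain (p.Nn n ε F s (x - (t - s) • v)) (p.Nn n ε F s (x - (t - s) • v)) v ≤
      G0 s + L s + D s := by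
    intro s hs
    have hs0 : 0 ≤ s := htn.trans hs.1.le
    have hs2 : s ≤ p.t2 := hs.2.le.trans ht.2
    have h1 := st1_gain_split (hNm.slice s (x - (t - s) • v))
      ((p.meas_U1 n 0).slice s (x - (t - s) • v)) ((p.meas_B n).slice s (x - (t - s) • v))
      ((p.meas_W n (p.aa s)).slice s (x - (t - s) • v))
      (ENNReal.ofReal (p.Om s (x - (t - s) • v))) (ENNReal.ofReal (p.AA ε s))
      (fun u => st1_U0_eq p n s _ u)
      (fun u => by
        rw [← Par.U1_split hp n hS.ε0 hs0, Par.Nn_eq1 n ε F hs2]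
        exact min_le_right _ _) v
    have h2 := st1_rem hp n hS.ε0 hS.ε1 hs0 hs.2.le ht.2 (x - (t - s) • v) v
    refine (mul_le_mul' le_rfl h1).trans ?_
    rw [mul_add]
    refine add_le_add ?_ le_rfl
    refine (mul_le_mul' (damp_le_one _ _ _ _ _) le_rfl).trans ?_
    rw [one_mul]
    exact add_le_add le_rfl h2
  have hint : ∫⁻ s in Ioo (p.tn n) t, damp (p.Nn n ε F) s t x v *
      gain (p.Nn n ε F s (x - (t - s) • v)) (p.Nn n ε F s (x - (t - s) • v)) v ≤
      (∫⁻ s in Ioo (p.tn n) t, G0 s) + (∫⁻ s in Ioo (p.tn n) t, L s) +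
        ∫⁻ s in Ioo (p.tn n) t, D s := by
    rw [← lintegral_add_left hG0m, ← lintegral_add_left (f := fun s => G0 s + L s) (hG0m.add hLm)]
    exact setLIntegral_mono' measurableSet_Ioo hpt
  have h3 := hsup n (p.tn n) t x v htn ht0 ht.2
  have h4 := st1_rem_int hp hsm n hS.ε0 htn ht.1 ht.2 x v
  have h5 : damp (p.Nn n ε F) (p.tn n) t x v * p.f0 n a (x - t • v) v ≤
      p.amb (x - t • v) v + p.Sd n (x - t • v) v + p.seed n a (x - t • v) v := by
    refine (mul_le_mul' (damp_le_one _ _ _ _ _) le_rfl).trans ?_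
    rw [one_mul]
    exact le_rfl
  calc up F t x v = _ := hS.mild t x v
    _ ≤ (p.amb (x - t • v) v + p.Sd n (x - t • v) v + p.seed n a (x - t • v) v) +
        ((∫⁻ s in Ioo (p.tn n) t, G0 s) + (∫⁻ s in Ioo (p.tn n) t, L s) +
          ∫⁻ s in Ioo (p.tn n) t, D s) := add_le_add h5 hint
    _ = (p.amb (x - t • v) v + p.Sd n (x - t • v) v + ∫⁻ s in Ioo (p.tn n) t, G0 s) +
        p.seed n a (x - t • v) v + (∫⁻ s in Ioo (p.tn n) t, L s) +
          ∫⁻ s in Ioo (p.tn n) t, D s := by ring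
    _ ≤ _ := by gcongr
/-- closing the first stage from the normalisation on bounded velocities -/
theorem ev_In1 : ∀ᶠ p in PF, ∀ (n : ℕ) (ε a : ℝ) (F : ℝ → R3 → R3 → ℝ), p.Sol n ε a F →
    (∀ t ∈ Icc (p.tn n) p.t0, ∀ x v, ‖v‖ ≤ p.R →
      up F t x v ≤ p.U1 n 0 t x v + ENNReal.ofReal (ε * t) * p.W n (p.aa t) t x v) → p.In1 n ε F := by
  filter_upwards [ev_std, ev_wit, ev_gain_B_W1', ev_H1] with p hs hw hg h1 n ε a F hF h2
  exact in1_main hs hF (hw n) (hg n) (h1 n ε a F hF) h2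
/-- without seed and without room for perturbations nothing happens -/
theorem ev_In1_zero : ∀ᶠ p in PF, ∀ (n : ℕ) (F : ℝ → R3 → R3 → ℝ), p.Sol n 0 0 F → p.In1 n 0 F := by
  filter_upwards [ev_std, ev_H1] with p hp h1 n F hS t ht x v
  have h := h1 n 0 0 F hS t ht x v
  have hseed : p.seed n 0 (x - t • v) v = 0 :=
    le_antisymm ((Par.seed_le hp hS.tn0 0 _ _).trans (by simp)) zero_le
  have hint : ∫⁻ s in Ioo (p.tn n) t, damp (p.Nn n 0 F) s t x v *
      (2 * gain (fun u => min (p.Nn n 0 F s (x - (t - s) • v) u) (p.B n s (x - (t - s) • v) u))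
        (fun u => p.Nn n 0 F s (x - (t - s) • v) u - p.U1 n 0 s (x - (t - s) • v) u) v) = 0 := by
    refine le_antisymm ?_ zero_le
    refine (setLIntegral_mono' (g := fun _ => 0) measurableSet_Ioo fun s hs => ?_).trans (by simp)
    have e : (fun u => p.Nn n 0 F s (x - (t - s) • v) u - p.U1 n 0 s (x - (t - s) • v) u) =
        fun _ => 0 := by
      funext u
      rw [tsub_eq_zero_iff_le, Par.Nn_eq1 n 0 F (hs.2.le.trans ht.2)]
      exact min_le_right _ _
    rw [e, gain_zero_right]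
    simp
  rw [hseed, hint, Par.AA_zero] at h
  simpa using h
/-- the linear inequality used for smoothing -/
theorem ev_H2 : ∀ᶠ p in PF, ∀ (n : ℕ) (ε a : ℝ) (F : ℝ → R3 → R3 → ℝ), p.Sol n ε a F → p.In1 n ε F →
    ∀ t ∈ Icc (p.tn n) p.t0, ∀ x v,
      p.hh n F t x v ≤ ENNReal.ofReal (2 * ε * t) * p.W n (p.aa t) t x v ∧
      p.hh n F t x v ≤ ENNReal.ofReal (55 * a + 2 * p.e0 * ε * t) * p.W n (p.aa t) t x v +
        ∫⁻ s in Ioo (p.tn n) t,
          2 * gain (p.B n s (x - (t - s) • v)) (p.hh n F s (x - (t - s) • v)) v := by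
  filter_upwards [ev_std, ev_H1] with p hp h1 n ε a F hS hin t ht x v
  have htn := (Par.tn_pos hp n).le
  have ht0 : 0 ≤ t := htn.trans ht.1
  have ht2 : t ≤ p.t2 := ht.2.trans (Par.t0_lt_t2 hp).le
  have hA : p.AA ε t = 2 * ε * t := if_pos ht.2
  constructor
  · refine tsub_le_iff_left.mpr ?_
    rw [← hA, ← Par.U1_split hp n hS.ε0 ht0]
    exact hin t ⟨ht.1, ht2⟩ x v
  · refine tsub_le_iff_left.mpr ((h1 n ε a F hS t ⟨ht.1, ht2⟩ x v).trans ?_)
    have ha := Par.aa_mem hp ht0 ht2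
    have hseed : p.seed n a (x - t • v) v ≤ ENNReal.ofReal (55 * a) * p.W n (p.aa t) t x v :=
      (Par.seed_le_gs hp hS.tn0 a (by linarith [ha.1]) ha.2 _ _).trans
        (mul_le_mul' le_rfl (gs_le_Wf _ _ _ _ _))
    have he := (Par.e0_pos hp).le
    have hε := hS.ε0
    have ha0 := hS.a0
    rw [ENNReal.ofReal_add (by positivity) (by positivity), add_mul, hA,
      show p.e0 * (2 * ε * t) = 2 * p.e0 * ε * t by ring, add_assoc, add_assoc, add_assoc]
    refine add_le_add le_rfl (add_le_add hseed (add_le_add le_rfl ?_))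
    refine setLIntegral_mono' measurableSet_Ioo fun s hs => ?_
    refine (mul_le_mul' (damp_le_one _ _ _ _ _) le_rfl).trans ?_
    rw [one_mul]
    refine mul_le_mul' le_rfl (gain_mono (fun u => min_le_right _ _) (fun u => ?_) v)
    rw [Par.Nn_eq_of_In1 hin ⟨hs.1.le, hs.2.le.trans ht2⟩]
    exact le_rfl
theorem ev_sol_exists : ∀ᶠ p in PF, ∀ (n : ℕ) (ε a : ℝ), 0 ≤ ε → ε ≤ p.eps → 0 ≤ a →
    a ≤ 2 * ε * p.tn n → p.tn n ≤ p.t0 → ∃ F, p.Sol n ε a F := by
  filter_upwards [ev_std, ev_bdd] with p hp hb n ε a h0 h1 h2 h3 h4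
  have htn := (Par.tn_pos hp n).le
  obtain ⟨F, hF, hm⟩ := cut_exists htn (p.meas_f0 n a) (p.per_f0 n a) (p.meas_Lo n) (p.per_Lo n)
    (p.meas_Up n ε) (p.per_Up n ε)
    (by
      obtain ⟨C, hC⟩ := hb n h4 ε a 0
      exact ⟨C, (hC ε a h0 le_rfl le_rfl).1⟩)
    (by
      intro T
      obtain ⟨C, hC⟩ := hb n h4 ε a T
      refine ⟨C, fun t ht x v => ?_⟩
      have := (hC ε a h0 le_rfl le_rfl).2 t ⟨htn.trans ht.1.le, ht.2.le⟩ x v
      exact ⟨this.2, this.1⟩)
  exact ⟨F, hF, hm, h0, h1, h2, h3, h4⟩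

end Crest.Agent.R068
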