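import Crest.Agent.R068.Geo

/-! Row 68: elementary facts on the parameters; measurability, periodicity, boundedness. -/

set_option autoImplicit false
open MeasureTheory Set Filter Topology
open scoped ENNReal
open Crest.AnalysisR.VecCalc3 Crest.AnalysisR.PDE.Boltzmann

namespace Crest.Agent.R068

theorem ev_std : ∀ᶠ p in PF, p.Std := by
  rw [PF_iff]
  filter_upwards [Ioc_mem_nhdsGT (show (0:ℝ) < 1 / 10 ^ 7 by norm_num)] with δ hδ
  filter_upwards [Ioc_mem_nhdsGT (show (0:ℝ) < 1 / 10 ^ 7 by norm_num)] with e he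
  filter_upwards [eventually_ge_atTop (1000:ℝ)] with R hR
  filter_upwards [eventually_ge_atTop (8 * R)] with V hV
  have hR0 : 0 < R := by linarith
  have hV0 : 0 < V := by linarith
  filter_upwards [Ioc_mem_nhdsGT (show (0:ℝ) < 1 / 1000 by norm_num)] with κ0 hκ0
  filter_upwards [Ioc_mem_nhdsGT (show (0:ℝ) < κ0 / 1000 by have := hκ0.1; positivity)] with δ1 hδ1
  filter_upwards [Ioc_mem_nhdsGT (show (0:ℝ) < δ1 / (1000 * V) by have := hδ1.1; positivity)]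
    with h hh
  filter_upwards [eventually_ge_atTop 1] with M hM
  have hM0 : (0:ℝ) < M := by exact_mod_cast hM
  filter_upwards [Ioc_mem_nhdsGT (show (0:ℝ) < 1 / 1000 / R by positivity)] with r1 hr1
  filter_upwards [eventually_ge_atTop (1000:ℝ)] with S hS
  filter_upwards [Ioc_mem_nhdsGT (show (0:ℝ) < R * r1 / 1000 by have := hr1.1; positivity)]
    with κ hκ
  have hc : 0 ≤ 2 * h ^ 2 * (⌈V ^ 7⌉₊ : ℝ) * (R * r1 / h ^ 2) ^ ⌈V ^ 7⌉₊ := by
    have := hr1.1; positivity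
  filter_upwards [Ioc_mem_nhdsGT (show (0:ℝ) < κ / 1000 by have := hκ.1; positivity),
    Ioc_mem_nhdsGT (show (0:ℝ) < δ1 / 1000 by have := hδ1.1; positivity),
    Ioc_mem_nhdsGT (show (0:ℝ) < 1 / (1000 * V ^ 10) by positivity),
    Ioc_mem_nhdsGT (show (0:ℝ) < 1 / (10 ^ 6 * M) by positivity),
    Ioc_mem_nhdsGT (show (0:ℝ) < 1 / (2 * h ^ 2 * (⌈V ^ 7⌉₊ : ℝ) * (R * r1 / h ^ 2) ^ ⌈V ^ 7⌉₊ + 1)
      by positivity)] with r0 h1 h2 h3 h4 h5
  have hhV : h * (1000 * V) ≤ δ1 := (le_div_iff₀ (by positivity)).1 hh.2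
  refine ⟨hδ.1, hδ.2, he.1, he.2, hR, hV, hκ0.1, hκ0.2, hδ1.1, hδ1.2, hh.1, hhV, hM, hr1.1, ?_, hS,
    hκ.1, hκ.2, h1.1, h1.2, h2.2, (le_div_iff₀ (by positivity)).1 h3.2,
    (le_div_iff₀ (by positivity)).1 h4.2, ?_⟩
  · have := (le_div_iff₀ hR0).1 hr1.2
    simp only [Par.t2]
    linarith
  · have hh1 : h ≤ 1 := by nlinarith [hh.1, hδ1.2, hκ0.2]
    have hh2 : h ^ 2 ≤ 1 := pow_le_one₀ hh.1.le hh1
    have ht : ¬ R * r1 ≤ r0 * h ^ 2 := by
      have := mul_le_mul_of_nonneg_left hh2 h1.1.le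
      linarith [h1.2, hκ.2, hκ.1]
    have h6 := (le_div_iff₀ (by positivity)).1 h5.2
    have h0 := h1.1
    have hh0 := hh.1
    simp only [Par.AA, Par.t2, Par.t0, Par.eps, Par.Lam, ht, if_false]
    calc _ = r0 * (r0 * (2 * h ^ 2 * (⌈V ^ 7⌉₊ : ℝ) * (R * r1 / h ^ 2) ^ ⌈V ^ 7⌉₊)) := by
          simp only [div_pow, mul_pow]
          field_simp
          ring
      _ ≤ r0 * 1 := mul_le_mul_of_nonneg_left (by nlinarith) h0.le
      _ = r0 := mul_one _

lemma std_shift {M : ℕ} {y y' a b d : ℝ} (h1 : M < |y|) (h2 : |y| < 2 * M) (h3 : a ≤ Int.fract y)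
    (h4 : Int.fract y ≤ b) (hd : |y' - y| ≤ d) (ha : 0 < a - d) (hb : b + d < 1) :
    M < |y'| ∧ |y'| < 2 * M ∧ a - d ≤ Int.fract y' ∧ Int.fract y' ≤ b + d := by
  have h5 := abs_le.1 hd
  have h6 : (⌊y⌋ : ℝ) + Int.fract y = y := Int.floor_add_fract y
  have h7 : Int.fract y' = y' - ⌊y⌋ :=
    Int.fract_eq_iff.2 ⟨by linarith, by linarith, ⌊y⌋, by ring⟩
  have hd0 : 0 ≤ d := (abs_nonneg _).trans hd
  have hM : (0 : ℝ) ≤ M := Nat.cast_nonneg M
  rw [h7]
  refine ⟨?_, ?_, by linarith, by linarith⟩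
  · rcases lt_abs.1 h1 with h | h
    · have h8 : ((M : ℤ) : ℝ) < (⌊y⌋ + 1 : ℤ) := by push_cast; linarith
      have h9 : ((M : ℤ) : ℝ) ≤ ⌊y⌋ := Int.cast_le.2 (Int.lt_add_one_iff.1 (Int.cast_lt.1 h8))
      push_cast at h9
      exact lt_abs.2 (Or.inl (by linarith))
    · have h8 : (⌊y⌋ : ℝ) < (-M : ℤ) := by push_cast; linarith
      have h9 : ((⌊y⌋ + 1 : ℤ) : ℝ) ≤ (-M : ℤ) := Int.cast_le.2 (Int.cast_lt.1 h8)
      push_cast at h9
      exact lt_abs.2 (Or.inr (by linarith))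
  · have h := abs_lt.1 h2
    have h8 : (⌊y⌋ : ℝ) < (2 * M : ℤ) := by push_cast; linarith
    have h9 : ((⌊y⌋ + 1 : ℤ) : ℝ) ≤ (2 * M : ℤ) := Int.cast_le.2 (Int.cast_lt.1 h8)
    have h10 : ((-(2 * M) : ℤ) : ℝ) < (⌊y⌋ + 1 : ℤ) := by push_cast; linarith
    have h11 : ((-(2 * M) : ℤ) : ℝ) ≤ ⌊y⌋ :=
      Int.cast_le.2 (Int.lt_add_one_iff.1 (Int.cast_lt.1 h10))
    push_cast at h9 h11
    exact abs_lt.2 ⟨by linarith, by linarith⟩

namespace Par
variable {p : Par}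
lemma std_M (h : p.Std) : (1 : ℝ) ≤ p.M := by exact_mod_cast h.M_ge
lemma std_r0 (h : p.Std) : p.r0 ≤ 1 / 10 ^ 6 := by nlinarith [h.r0_M, std_M h, h.r0_pos]
lemma std_V (h : p.Std) : 8000 ≤ p.V := by linarith [h.R_ge, h.V_ge]
lemma std_h (h : p.Std) : p.h ≤ 1 := by nlinarith [h.h_le, h.δ1_le, h.κ0_le, std_V h, h.h_pos]
lemma std_θ (h : p.Std) : 0 ≤ p.θ := by
  have : 0 ≤ p.R := by linarith [h.R_ge]
  unfold θ; positivity
lemma std_Lam (h : p.Std) : (1 : ℝ) ≤ p.Lam :=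
  (one_le_pow₀ (by linarith [std_V h])).trans (Nat.le_ceil (p.V ^ 7))
lemma r_pos (h : p.Std) (j : ℕ) : 0 < p.r j := by
  have := h.r0_pos; unfold r; positivity
lemma r_le (h : p.Std) (j : ℕ) : p.r j ≤ p.r0 := by
  exact div_le_self h.r0_pos.le (one_le_pow₀ (by norm_num))
lemma r_anti (h : p.Std) {i j : ℕ} (hij : i ≤ j) : p.r j ≤ p.r i := by
  exact div_le_div_of_nonneg_left h.r0_pos.le (by positivity) (pow_le_pow_right₀ (by norm_num) hij)
lemma wd_pos (h : p.Std) (j : ℕ) : 0 < p.wd j := by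
  have := r_pos h j; have := std_M h; unfold wd; positivity
lemma one_le_TT (h : p.Std) (j : ℕ) : 1 ≤ p.TT j := by
  have h1 := Real.log_le_sub_one_of_pos (r_pos h j)
  have h2 := r_le h j
  have h3 := std_r0 h
  unfold TT; linarith
lemma exp_neg_TT (h : p.Std) (j : ℕ) : Real.exp (-(p.TT j / 2)) = p.r j ^ 20 := by
  rw [show -(p.TT j / 2) = (20 : ℕ) * Real.log (p.r j) by unfold TT; push_cast; ring,
    Real.exp_nat_mul, Real.exp_log (r_pos h j)]
lemma DD_TT_lt (h : p.Std) (j : ℕ) : p.DD j * p.TT j < p.wd j / 16 := by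
  have h0 := r_pos h j
  have hM := std_M h
  have h1 : -Real.log (p.r j) * p.r j ≤ 1 := by
    have := Real.log_le_sub_one_of_pos (inv_pos.2 h0)
    rw [Real.log_inv] at this
    have h2 := mul_le_mul_of_nonneg_right this h0.le
    rw [sub_mul, inv_mul_cancel₀ h0.ne'] at h2
    linarith
  have h2 : p.r j * (10 ^ 6 * p.M) ≤ 1 :=
    (mul_le_mul_of_nonneg_right (r_le h j) (by positivity)).trans h.r0_M
  unfold DD TT wd
  rw [div_div, lt_div_iff₀ (by positivity)]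
  have h3 : 0 < p.r j * (p.r j * p.M) := by positivity
  calc _ = 1280 * (-Real.log (p.r j) * p.r j) * (p.r j * (p.r j * p.M)) := by ring
    _ ≤ 1280 * 1 * (p.r j * (p.r j * p.M)) := by gcongr
    _ < p.r j := by nlinarith
lemma DD_le (h : p.Std) (j : ℕ) : p.DD j ≤ p.r0 := by
  have h1 : p.r j ≤ 1 := (r_le h j).trans (by linarith [std_r0 h])
  exact (pow_le_of_le_one (r_pos h j).le h1 (by norm_num)).trans (r_le h j)
lemma etaS_nonneg (h : p.Std) (n : ℕ∞) : 0 ≤ p.etaS n := by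
  have _ := h
  unfold etaS eta; split_ifs <;> positivity
lemma etaS_le (h : p.Std) {n : ℕ∞} {j : ℕ} (hj : (j : ℕ∞) ≤ n) : p.etaS n ≤ p.eta j := by
  unfold etaS
  split_ifs with hn
  · unfold eta; positivity
  · lift n to ℕ using hn
    exact pow_le_pow_left₀ (r_pos h _).le (r_anti h (by simpa using hj)) 4
lemma etaS_pos (h : p.Std) (n : ℕ) : 0 < p.etaS n := by
  have := r_pos h n
  simp only [etaS, ENat.natCast_ne_top, if_false, ENat.toNat_natCast, eta]; positivity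
lemma tn_pos (h : p.Std) (n : ℕ) : 0 < p.tn n := by
  have := r_pos h n; have := std_M h; unfold tn; positivity
lemma tendsto_tn (p : Par) : Tendsto p.tn atTop (𝓝 0) := by
  have := ((tendsto_pow_atTop_atTop_of_one_lt (show (1:ℝ) < 2 by norm_num)).const_div_atTop
    p.r0).const_mul (p.M : ℝ)
  rw [mul_zero] at this
  exact this
lemma t0_pos (h : p.Std) : 0 < p.t0 := by
  have := h.r0_pos; have := h.h_pos; unfold t0; positivity
lemma t0_le_r0 (h : p.Std) : p.t0 * (1000 * p.V) ≤ p.r0 := by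
  have h1 : p.h * (1000 * p.V) ≤ 1 := by linarith [h.h_le, h.δ1_le, h.κ0_le]
  have h2 := mul_le_one₀ (std_h h) (mul_nonneg h.h_pos.le (by linarith [std_V h])) h1
  unfold t0
  nlinarith [h.r0_pos]
lemma t0_lt_t2 (h : p.Std) : p.t0 < p.t2 := by
  have h1 := t0_le_r0 h
  have h2 := t0_pos h
  nlinarith [std_V h, h.r0_κ, h.κ_le, h.κ_pos]
lemma t2_pos (h : p.Std) : 0 < p.t2 := by
  exact (t0_pos h).trans (t0_lt_t2 h)
lemma eps_pos (h : p.Std) : 0 < p.eps := by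
  exact pow_pos h.r0_pos _
lemma e0_pos (h : p.Std) : 0 < p.e0 := by
  have : 0 < p.V := by linarith [std_V h]
  unfold e0; positivity
lemma Lam_ge (p : Par) : p.V ^ 7 ≤ p.Lam := by
  exact Nat.le_ceil _
lemma aa_mem (h : p.Std) {t : ℝ} (h0 : 0 ≤ t) (h1 : t ≤ p.t2) : 3 / 16 ≤ p.aa t ∧ p.aa t ≤ 1 / 4 := by
  have h2 := t2_pos h
  unfold t2 at h1 h2
  have h3 : t / (16 * p.R * p.r1) ≤ 1 / 16 := by
    rw [div_le_iff₀ (by linarith)]; linarith
  have h4 : 0 ≤ t / (16 * p.R * p.r1) := div_nonneg h0 (by linarith)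
  unfold aa; constructor <;> linarith
lemma aa_sub (p : Par) (s t : ℝ) : p.aa s = p.aa t + (16 * p.R * p.r1)⁻¹ * (t - s) := by
  unfold aa; ring
lemma aa_anti (h : p.Std) {s t : ℝ} (hst : s ≤ t) : p.aa t ≤ p.aa s := by
  have h2 := t2_pos h
  unfold t2 at h2
  rw [aa_sub p s t]
  exact le_add_of_nonneg_right (mul_nonneg (inv_nonneg.2 (by linarith)) (by linarith))
lemma Om_nonneg (h : p.Std) {t : ℝ} (ht : 0 ≤ t) (x : R3) : 0 ≤ p.Om t x := by
  have := sn_nonneg x; have := std_θ h; have := h.r1_pos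
  unfold Om; positivity
lemma AA_nonneg (h : p.Std) {ε t : ℝ} (hε : 0 ≤ ε) (ht : 0 ≤ t) : 0 ≤ p.AA ε t := by
  have := t0_pos h
  unfold AA; split_ifs <;> positivity
lemma AA_zero (p : Par) (t : ℝ) : p.AA 0 t = 0 := by
  simp [AA]
lemma AA_mono (h : p.Std) {ε ε' s t : ℝ} (hε : 0 ≤ ε) (hεε : ε ≤ ε') (hs : 0 ≤ s) (hst : s ≤ t) :
    p.AA ε s ≤ p.AA ε' t := by
  have h0 := t0_pos h
  have hε' : 0 ≤ ε' := hε.trans hεε
  have hL := std_Lam h
  unfold AA
  split_ifs with h1 h2 h2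
  · gcongr
  · push Not at h2
    have h3 : 1 ≤ (t / p.t0) ^ p.Lam := one_le_pow₀ ((one_le_div h0).2 h2.le)
    calc 2 * ε * s ≤ 2 * ε' * p.t0 * 1 * 1 := by rw [mul_one, mul_one]; gcongr
      _ ≤ _ := by gcongr
  · exact absurd (hst.trans h2) h1
  · gcongr
lemma AA_Om_le (h : p.Std) {ε t : ℝ} (hε : 0 ≤ ε) (hε' : ε ≤ p.eps) (h0 : 0 ≤ t) (h1 : t ≤ p.t2) (x : R3) :
    p.AA ε t + p.Om t x ≤ p.C0 := by
  have h2 := (AA_mono h hε hε' h0 h1).trans h.AA_le
  have h3 := std_r0 h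
  have h4 := sn_nonneg x
  have h5 := std_θ h
  have h6 := h.r1_pos
  have h7 : sn x / (sn x + p.r1 ^ 2) ≤ 1 := div_le_one_of_le₀ (by nlinarith) (by positivity)
  have h8 : p.θ * t / p.r1 ≤ p.θ * p.R := by
    rw [div_le_iff₀ h6, mul_assoc]
    exact mul_le_mul_of_nonneg_left h1 h5
  have h9 : p.Om t x ≤ (2 * (1 + p.θ * p.R)) ^ p.K :=
    pow_le_pow_left₀ (by positivity) (by linarith) _
  unfold C0; linarith
/-- `∫ A(s)/s ds ≤ 2 A(t)/Λ` after `t0`, and `≤ A(t)` always -/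
lemma lintegral_AA_div (h : p.Std) {ε t : ℝ} (hε : 0 ≤ ε) (ht : p.t0 < t) :
    ∫⁻ s in Ioo 0 t, ENNReal.ofReal (p.AA ε s / s) ≤ ENNReal.ofReal (2 * p.AA ε t / p.Lam) := by
  have h0 := t0_pos h
  have ht0 : 0 < t := h0.trans ht
  obtain ⟨m, hm⟩ : ∃ m, p.Lam = m + 1 :=
    Nat.exists_eq_add_one_of_ne_zero (by have := std_Lam h; intro h1; rw [h1] at this; norm_num at this)
  have hcont : Continuous fun s : ℝ => 2 * ε + 2 * ε * (m + 1) * (s / p.t0) ^ m := by fun_prop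
  have hd : ∀ s ∈ uIcc 0 t, HasDerivAt (fun s : ℝ => 2 * ε * s + 2 * ε * p.t0 * (s / p.t0) ^ (m + 1))
      (2 * ε + 2 * ε * (m + 1) * (s / p.t0) ^ m) s := by
    intro s _
    have h1 := ((hasDerivAt_id' s).const_mul (2 * ε)).fun_add
      ((((hasDerivAt_id' s).div_const p.t0).fun_pow (m + 1)).const_mul (2 * ε * p.t0))
    refine h1.congr_deriv ?_
    simp only [Nat.add_sub_cancel]
    push_cast
    field_simp
  calc _ ≤ ∫⁻ s in Ioo 0 t, ENNReal.ofReal (2 * ε + 2 * ε * (m + 1) * (s / p.t0) ^ m) := by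
        refine setLIntegral_mono' measurableSet_Ioo fun s hs => ENNReal.ofReal_le_ofReal ?_
        have hs0 := hs.1
        unfold AA
        split_ifs
        · rw [mul_div_assoc, div_self hs0.ne', mul_one]
          exact le_add_of_nonneg_right (by positivity)
        · rw [hm]
          refine le_add_of_nonneg_of_le (by positivity) (le_of_eq ?_)
          push_cast
          rw [pow_succ]
          field_simp
    _ = ENNReal.ofReal (2 * ε * t + 2 * ε * p.t0 * (t / p.t0) ^ (m + 1)) := by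
        rw [← ofReal_integral_eq_lintegral_ofReal
          ((hcont.integrableOn_Icc (a := 0) (b := t)).mono_set Ioo_subset_Icc_self)
          ((ae_restrict_iff' measurableSet_Ioo).2 (Eventually.of_forall fun s hs => by
            have := hs.1; positivity)), ← integral_Ioc_eq_integral_Ioo,
          ← intervalIntegral.integral_of_le ht0.le,
          intervalIntegral.integral_eq_sub_of_hasDerivAt hd (hcont.intervalIntegrable _ _)]
        simp
    _ ≤ _ := by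
        refine ENNReal.ofReal_le_ofReal ?_
        have h1 : t / p.t0 ≤ (t / p.t0) ^ (m + 1) :=
          le_self_pow₀ ((one_le_div h0).2 ht.le) (by omega)
        have h2 : t ≤ p.t0 * (t / p.t0) ^ (m + 1) := by
          rwa [div_le_iff₀' h0] at h1
        have h3 : 2 * p.AA ε t / p.Lam = 2 * (2 * ε * p.t0 * (t / p.t0) ^ (m + 1)) := by
          rw [AA, if_neg (not_le.2 ht), hm]
          push_cast
          field_simp
        rw [h3]
        nlinarith [mul_le_mul_of_nonneg_left h2 hε]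
lemma one_le_C0 (h : p.Std) : 1 ≤ p.C0 := by
  have := std_θ h
  have : 0 ≤ p.R := by linarith [h.R_ge]
  exact le_add_of_nonneg_left (by positivity)
lemma Om_le_near (h : p.Std) {t : ℝ} (ht : 0 ≤ t) (x : R3) (k : Fin 3 → ℤ) :
    p.Om t x ≤ (20 * ‖x - lat k‖ ^ 2 / p.r1 ^ 2 + 2 * p.θ * t / p.r1) ^ p.K := by
  have h4 := sn_nonneg x
  have h5 := std_θ h
  have h6 := h.r1_pos
  have h1 : sn x ≤ 10 * ‖x - lat k‖ ^ 2 := by
    have h2 := pow_le_pow_left₀ (Real.sqrt_nonneg _) (sqrt_sn_le x k) 2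
    rw [Real.sq_sqrt h4, mul_pow] at h2
    have h3 : Real.pi ^ 2 ≤ 10 := by nlinarith [Real.pi_lt_d2, Real.pi_pos]
    exact h2.trans (mul_le_mul_of_nonneg_right h3 (sq_nonneg _))
  have h2 : sn x / (sn x + p.r1 ^ 2) ≤ 10 * ‖x - lat k‖ ^ 2 / p.r1 ^ 2 :=
    div_le_div₀ (by positivity) h1 (by positivity) (by linarith)
  refine pow_le_pow_left₀ (by positivity) ?_ _
  calc _ ≤ 2 * (10 * ‖x - lat k‖ ^ 2 / p.r1 ^ 2 + p.θ * t / p.r1) := by linarith
    _ = _ := by ring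
lemma one_le_Om (h : p.Std) {x : R3} (hx : p.r1 ^ 2 ≤ sn x) : 1 ≤ p.Om 0 x := by
  have h6 := h.r1_pos
  have h4 := sn_nonneg x
  refine one_le_pow₀ ?_
  rw [mul_zero, zero_div, add_zero, ← mul_div_assoc, one_le_div (by positivity)]
  linarith
lemma CK_nonneg (h : p.Std) (t : ℝ) : 0 ≤ p.CK t := by
  have := one_le_C0 h
  unfold CK; positivity
lemma CK_le (h : p.Std) {t : ℝ} (ht : p.t2 ≤ t) : p.CK t ≤ p.Cmax * Real.exp (-((t - p.t2) / 4)) := by
  have _ := ht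
  have h1 := one_le_C0 h
  have h2 : 0 ≤ p.lam0 := by
    have := t2_pos h
    unfold lam0; positivity
  unfold CK Cmax
  rw [mul_comm]
  have h3 : 16 * p.lam0 * (1 - Real.exp (-((t - p.t2) / 8))) ≤ 16 * p.lam0 :=
    mul_le_of_le_one_right (by positivity) (by linarith [Real.exp_pos (-((t - p.t2) / 8))])
  exact mul_le_mul_of_nonneg_right (mul_le_mul_of_nonneg_left (Real.exp_le_exp.2 h3) (by linarith))
    (Real.exp_pos _).le
lemma CK_t2 (p : Par) : p.CK p.t2 = p.C0 := by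
  simp [CK]
lemma Dm_le_one (p : Par) {t : ℝ} (ht : p.t2 ≤ t) : p.Dm t ≤ 1 := by
  exact Real.exp_le_one_iff.2 (by linarith)
/-- moving inside the slabs -/
lemma Fat_shift (h : p.Std) {j : ℕ} {s : Fin 4} {ρ ρ' z z' : ℝ} (hz : z ∈ p.Fat j s ρ)
    (hd : |z' - z| ≤ ρ') (hlt : ρ + ρ' < p.wd j / 16) : z' ∈ p.Fat j s (ρ + ρ') := by
  have hw := wd_pos h j
  have hM := std_M h
  have hr : p.r j = 2 * p.M * p.wd j := by unfold wd; field_simp
  obtain ⟨h1, h2, h3, h4⟩ := hz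
  have hs : ((s : ℕ) : ℝ) ≤ 3 := by exact_mod_cast Nat.lt_succ_iff.1 s.2
  have hs0 : (0 : ℝ) ≤ (s : ℕ) := Nat.cast_nonneg _
  have h5 : ρ / p.wd j + ρ' / p.wd j < 1 / 16 := by
    rw [← add_div, div_lt_iff₀ hw]; linarith
  have habs : ∀ y : ℝ, |y / p.wd j| = |y| / p.wd j := fun y => by rw [abs_div, abs_of_pos hw]
  obtain ⟨k1, k2, k3, k4⟩ := std_shift (M := p.M) (y := z / p.wd j) (y' := z' / p.wd j)
    (d := ρ' / p.wd j) (by rw [habs, lt_div_iff₀ hw]; linarith)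
    (by rw [habs, div_lt_iff₀ hw]; linarith) h3 h4
    (by rw [← sub_div, habs]; exact div_le_div_of_nonneg_right hd hw.le) (by linarith) (by linarith)
  rw [habs, lt_div_iff₀ hw] at k1
  rw [habs, div_lt_iff₀ hw] at k2
  refine ⟨by linarith, by linarith, ?_, ?_⟩ <;> rw [add_div] <;> linarith
lemma Fat_mono (h : p.Std) {j : ℕ} {s : Fin 4} {ρ ρ' : ℝ} (hρ : ρ ≤ ρ') : p.Fat j s ρ ⊆ p.Fat j s ρ' := by
  rintro z ⟨h1, h2, h3, h4⟩
  have := div_le_div_of_nonneg_right hρ (wd_pos h j).le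
  exact ⟨h1, h2, by linarith, by linarith⟩
lemma Fat_disjoint (h : p.Std) {j j' : ℕ} {s s' : Fin 4} {ρ ρ' z : ℝ} (hz : z ∈ p.Fat j s ρ)
    (hz' : z ∈ p.Fat j' s' ρ') (hρ : ρ < p.wd j / 16) (hρ' : ρ' < p.wd j' / 16) : j = j' ∧ s = s' := by
  obtain ⟨h1, h2, h3, h4⟩ := hz
  obtain ⟨k1, k2, k3, k4⟩ := hz'
  have key : ∀ {i i' : ℕ}, i < i' → p.r i' ≤ p.r i / 2 := fun {i i'} hi =>
    (r_anti h hi).trans (le_of_eq (by unfold r; rw [pow_succ, div_div]))
  obtain rfl : j = j' := by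
    rcases lt_trichotomy j j' with hj | hj | hj
    · linarith [key hj]
    · exact hj
    · linarith [key hj]
  have hw := wd_pos h j
  have h5 : ρ / p.wd j < 1 / 16 := by rw [div_lt_iff₀ hw]; linarith
  have h6 : ρ' / p.wd j < 1 / 16 := by rw [div_lt_iff₀ hw]; linarith
  have h7 : ((s : ℕ) : ℝ) < ((s' : ℕ) + 1 : ℕ) := by push_cast; linarith
  have h8 : ((s' : ℕ) : ℝ) < ((s : ℕ) + 1 : ℕ) := by push_cast; linarith
  have h9 := Nat.cast_lt.1 h7
  have h10 := Nat.cast_lt.1 h8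
  exact ⟨rfl, Fin.ext (by omega)⟩
lemma measurableSet_Fat (p : Par) (j : ℕ) (s : Fin 4) :
    MeasurableSet {q : ℝ × ℝ | q.2 ∈ p.Fat j s q.1} := by
  have hf : Measurable fun q : ℝ × ℝ => Int.fract (q.2 / p.wd j) :=
    measurable_fract.comp (measurable_snd.div_const _)
  have ha : Measurable fun q : ℝ × ℝ => |q.2| := by fun_prop
  have hb : Measurable fun q : ℝ × ℝ => q.1 / p.wd j := by fun_prop
  exact (measurableSet_lt measurable_const ha).inter
    ((measurableSet_lt ha measurable_const).inter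
      ((measurableSet_le (measurable_const.sub hb) hf).inter
        (measurableSet_le hf (measurable_const.add hb))))
lemma measurableSet_bulk (p : Par) (n : ℕ) (s : Fin 4) : MeasurableSet (p.bulk n s) := by
  have e : p.bulk n s = ⋃ j ∈ Iic n, p.Fat j s (-(p.wd j / 32)) := by
    ext z; simp [bulk]
  rw [e]
  exact MeasurableSet.biUnion (to_countable _) fun j _ =>
    (measurable_prodMk_left (x := -(p.wd j / 32))) (measurableSet_Fat p j s)
end Par

end Crest.Agent.R068
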