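import Crest.Agent.R068.St1

/-! Row 68: cold contributions along transversal characteristics. -/

set_option autoImplicit false
open MeasureTheory Set Filter Topology
open scoped ENNReal
open Crest.AnalysisR.VecCalc3 Crest.AnalysisR.PDE.Boltzmann

namespace Crest.Agent.R068

lemma tr2a_small (c : ℝ) {e : ℝ} (he : 0 < e) : ∀ᶠ x in 𝓝[>] (0:ℝ), c * x < e := by
  have h : Tendsto (fun x : ℝ => c * x) (𝓝[>] 0) (𝓝 (c * 0)) :=
    ((continuous_const.mul continuous_id).tendsto 0).mono_left nhdsWithin_le_nhds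
  rw [mul_zero] at h
  exact h.eventually (gt_mem_nhds he)

/-- the times at which the characteristic crosses a thin slab -/
def tr2a_T (p : Par) (x v : R3) : Set ℝ :=
  {r : ℝ | ∃ k : Fin 3 → ℤ, ‖x - (p.t2 - r) • v - lat k‖ ≤ 1 ∧
    |nc (x - (p.t2 - r) • v - lat k)| < p.r0}

lemma tr2a_measT (p : Par) (x v : R3) : MeasurableSet (tr2a_T p x v) :=
  measurableSet_thin 1 p.r0 p.t2 x v

lemma tr2a_intT {p : Par} (hs : p.Std) (x : R3) {v : R3} (hκ : p.κ ≤ |nc v|) (hv : ‖v‖ ≤ p.S)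
    {C : ℝ} (hC : 0 ≤ C) :
    ∫⁻ s in Ioo 0 p.t2, (tr2a_T p x v).indicator (fun _ => ENNReal.ofReal C) s ≤
      ENNReal.ofReal (C * ((3 + 2 * p.S) ^ 3 * (2 / p.κ)) * p.r0) := by
  rw [lintegral_indicator_const (tr2a_measT p x v), Measure.restrict_apply (tr2a_measT p x v),
    mul_assoc, ENNReal.ofReal_mul hC]
  refine mul_le_mul_right ?_ _
  have h := thin_crossing (ρ := 1) (b := p.r0) zero_le_one hs.r0_pos.le hs.κ_pos
    (Par.t2_pos hs).le x hκ
  refine le_trans (measure_mono fun r hr => ?_) (h.trans (ENNReal.ofReal_le_ofReal ?_))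
  · exact ⟨hr.2, hr.1⟩
  have h1 := hs.t2_le
  have h2 := Par.t2_pos hs
  have h3 := hs.κ_pos
  have h4 := hs.r0_pos
  have h5 : (p.t2 - 0) * ‖v‖ ≤ p.S := by nlinarith [norm_nonneg v]
  have h6 : 0 ≤ (p.t2 - 0) * ‖v‖ := by nlinarith [norm_nonneg v]
  calc (2 * (1 + (p.t2 - 0) * ‖v‖) + 1) ^ 3 * (2 * p.r0 / p.κ)
      ≤ (3 + 2 * p.S) ^ 3 * (2 * p.r0 / p.κ) :=
        mul_le_mul_of_nonneg_right (pow_le_pow_left₀ (by positivity) (by linarith) 3) (by positivity)
    _ = _ := by ring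

lemma tr2a_near {p : Par} (hs : p.Std) {n : ℕ∞} {s : ℝ} {y : R3} {k : Fin 3 → ℤ} {j : ℕ}
    (hw : p.Wit n s y k j) (h1 : s ≤ p.t2) : ‖y - lat k‖ + s ≤ 1 := by
  have := hw.near
  have := hs.t2_le
  have := hs.κ_le
  have := hs.r0_κ
  linarith

lemma tr2a_mass {p : Par} (hs : p.Std) {n : ℕ∞} {s : ℝ} {y : R3} {k : Fin 3 → ℤ} {j : ℕ}
    (hw : p.Wit n s y k j) (h0 : 0 < s) (h1 : s ≤ p.t2) :
    ∫⁻ u, p.B n s y u ≤ ENNReal.ofReal (2 * p.V ^ 5 / (‖y - lat k‖ + s)) := by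
  refine hw.mass.trans (ENNReal.ofReal_le_ofReal ?_)
  have h2 := tr2a_near hs hw h1
  have h3 : 0 < ‖y - lat k‖ + s := by positivity
  have h4 : 1 ≤ (‖y - lat k‖ + s)⁻¹ := (one_le_inv₀ h3).2 h2
  have h5 : 0 ≤ p.V ^ 5 := pow_nonneg (by have := hs.V_ge; have := hs.R_ge; linarith) 5
  rw [Par.rho, div_eq_mul_inv]
  nlinarith

lemma tr2a_memT {p : Par} (hs : p.Std) {n : ℕ∞} {s : ℝ} {x v : R3} {k : Fin 3 → ℤ} {j : ℕ}
    (hw : p.Wit n s (x - (p.t2 - s) • v) k j) (h0 : 0 < s) (h1 : s ≤ p.t2) : s ∈ tr2a_T p x v :=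
  ⟨k, by have := tr2a_near hs hw h1; linarith, hw.hi.trans_le (Par.r_le hs j)⟩

lemma tr2a_gainW {p : Par} (hs : p.Std) {n : ℕ∞} {s : ℝ} {y v : R3} {k : Fin 3 → ℤ} {j : ℕ}
    (hw : p.Wit n s y k j) (h0 : 0 < s) (h1 : s ≤ p.t2) (hκ : p.κ ≤ |nc v|) :
    gain (p.B n s y) (p.W n (p.aa s) s y) v ≤
      ENNReal.ofReal (56000 * p.V ^ 5 / p.κ / (‖y - lat k‖ + s)) * gs (1 / 8) v := by
  have ha := Par.aa_mem hs h0.le h1
  have hm : Measurable (p.B n s y) := (p.meas_B n).slice s y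
  have hk := hs.κ_pos
  have h2 := gain_Wf_pot (η := p.etaS n) (a := p.aa s) (by linarith) ha.2 h0.le y hm
    (fun u hu => (hw.supp u hu).2) v
  have h3 := pot_le_of_far hm (v := v) (d := p.κ / 2) (by positivity) (fun u hu => by
    have b1 := (hw.supp u hu).1
    have b2 := Par.DD_le hs j
    have b3 := hs.r0_κ
    have b4 := abs_nc_le (v - u)
    rw [nc_sub] at b4
    have b5 := abs_sub_abs_le_abs_sub (nc v) (nc u)
    linarith)
  have h4 := tr2a_mass hs hw h0 h1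
  have h5 : CW s ≤ 100 := CW_le h0.le (by have := hs.t2_le; linarith)
  have h6 : 0 ≤ p.V ^ 5 := pow_nonneg (by have := hs.V_ge; have := hs.R_ge; linarith) 5
  calc gain (p.B n s y) (p.W n (p.aa s) s y) v
      ≤ ENNReal.ofReal (140 * CW s) * gs (p.aa s) v * pot (p.B n s y) v := h2
    _ ≤ ENNReal.ofReal (140 * 100) * gs (1 / 8) v * (ENNReal.ofReal (p.κ / 2)⁻¹ *
          ENNReal.ofReal (2 * p.V ^ 5 / (‖y - lat k‖ + s))) := by
        gcongr
        · exact gs_anti (by linarith) v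
        · exact h3.trans (by gcongr)
    _ = _ := by
        rw [mul_right_comm, ← ENNReal.ofReal_mul (by positivity), ← ENNReal.ofReal_mul (by positivity)]
        congr 2
        field_simp
        ring

/-- the constant in the bound for `Ω` near the lattice -/
noncomputable def tr2a_C1 (p : Par) : ℝ := (20 / p.r1 ^ 2 + 2 * p.θ / p.r1) ^ p.K

lemma tr2a_Om {p : Par} (hs : p.Std) {n : ℕ∞} {s : ℝ} {y : R3} {k : Fin 3 → ℤ} {j : ℕ}
    (hw : p.Wit n s y k j) (h0 : 0 < s) (h1 : s ≤ p.t2) (h2 : s < p.κ) :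
    p.Om s y / (‖y - lat k‖ + s) ≤ tr2a_C1 p * (16 * p.κ ^ 2) := by
  set X := ‖y - lat k‖ with hX
  have hX0 : 0 ≤ X := norm_nonneg _
  have a1 : X + s ≤ 1 := tr2a_near hs hw h1
  have a2 : X + s ≤ 4 * p.κ := by have := hw.near; have := hs.r0_κ; linarith
  have a3 : 0 < X + s := by positivity
  have hr := hs.r1_pos
  have hθ : 0 ≤ p.θ := by have := hs.R_ge; unfold Par.θ; positivity
  have a4 : 20 * X ^ 2 / p.r1 ^ 2 + 2 * p.θ * s / p.r1 ≤
      (20 / p.r1 ^ 2 + 2 * p.θ / p.r1) * (X + s) := by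
    have b1 : X ^ 2 ≤ X + s := by nlinarith
    calc 20 * X ^ 2 / p.r1 ^ 2 + 2 * p.θ * s / p.r1
        ≤ 20 * (X + s) / p.r1 ^ 2 + 2 * p.θ * (X + s) / p.r1 := by gcongr; linarith
      _ = _ := by ring
  have a5 : (X + s) ^ p.K ≤ (X + s) ^ 3 :=
    pow_le_pow_of_le_one a3.le a1 (by unfold Par.K; omega)
  have hC : 0 ≤ tr2a_C1 p := by unfold tr2a_C1; positivity
  rw [div_le_iff₀ a3]
  calc p.Om s y ≤ (20 * X ^ 2 / p.r1 ^ 2 + 2 * p.θ * s / p.r1) ^ p.K := Par.Om_le_near hs h0.le y k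
    _ ≤ ((20 / p.r1 ^ 2 + 2 * p.θ / p.r1) * (X + s)) ^ p.K := by gcongr
    _ = tr2a_C1 p * (X + s) ^ p.K := by rw [mul_pow]; rfl
    _ ≤ tr2a_C1 p * ((X + s) ^ 2 * (X + s)) := by rw [← pow_succ]; gcongr
    _ ≤ tr2a_C1 p * ((4 * p.κ) ^ 2 * (X + s)) := by gcongr
    _ = _ := by ring

theorem tr2a_gain : ∀ᶠ p in PF, ∀ (n : ℕ∞) (ε : ℝ) (x v : R3), 0 ≤ ε → ε ≤ p.eps → p.κ ≤ |nc v| →
    ‖v‖ ≤ p.S →
    ∫⁻ s in Ioo 0 p.t2, ENNReal.ofReal (2 * (p.AA ε s + p.Om s (x - (p.t2 - s) • v))) *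
      gain (p.B n s (x - (p.t2 - s) • v)) (p.W n (p.aa s) s (x - (p.t2 - s) • v)) v ≤
      ENNReal.ofReal p.e * gs (1 / 8) v := by
  have q1 := ev_k (Q := fun p x => 112000 * p.V ^ 5 * tr2a_C1 p * 16 * x < p.e / 2) (by
    filter_upwards [ev_std] with p hp
    exact tr2a_small _ (half_pos hp.e_pos))
  have q2 := ev_r0 (Q := fun p x => (112000 * p.V ^ 5 / p.κ * 2 +
      112000 * p.V ^ 5 / p.κ * (p.C0 / p.κ) * ((3 + 2 * p.S) ^ 3 * (2 / p.κ))) * x < p.e / 2) (by
    filter_upwards [ev_std] with p hp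
    exact tr2a_small _ (half_pos hp.e_pos))
  filter_upwards [ev_std, ev_wit, q1, q2] with p hs hw q1 q2 n ε x v hε hε' hκ hv
  have hk := hs.κ_pos
  have hV : 1 ≤ p.V := by have := hs.V_ge; have := hs.R_ge; linarith
  set c : ℝ := 112000 * p.V ^ 5 / p.κ with hc
  have hc0 : 0 ≤ c := by positivity
  have hC1 : 0 ≤ tr2a_C1 p := by
    have hr := hs.r1_pos
    have hθ : 0 ≤ p.θ := by have := hs.R_ge; unfold Par.θ; positivity
    unfold tr2a_C1; positivity
  have hC0 : 0 ≤ p.C0 := zero_le_one.trans (Par.one_le_C0 hs)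
  have key : ∀ s ∈ Ioo 0 p.t2,
      ENNReal.ofReal (2 * (p.AA ε s + p.Om s (x - (p.t2 - s) • v))) *
        gain (p.B n s (x - (p.t2 - s) • v)) (p.W n (p.aa s) s (x - (p.t2 - s) • v)) v ≤
      (ENNReal.ofReal c * ENNReal.ofReal (p.AA ε s / s) +
        ENNReal.ofReal (c * (tr2a_C1 p * (16 * p.κ ^ 2))) +
        (tr2a_T p x v).indicator (fun _ => ENNReal.ofReal (c * (p.C0 / p.κ))) s) * gs (1 / 8) v := by
    intro s hs'
    obtain ⟨h0, h1⟩ := hs'
    rcases hw n s (x - (p.t2 - s) • v) h0.le with h | ⟨k, j, h⟩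
    · rw [show p.B n s (x - (p.t2 - s) • v) = fun _ => 0 from funext h.1, gain_zero_left, mul_zero]
      exact zero_le
    set y := x - (p.t2 - s) • v with hy
    have hA := Par.AA_nonneg hs hε h0.le
    have hO := Par.Om_nonneg hs h0.le y
    have hρ : 0 < ‖y - lat k‖ + s := by positivity
    refine (mul_le_mul_right (tr2a_gainW hs h h0 h1.le hκ) _).trans ?_
    rw [← mul_assoc, ← ENNReal.ofReal_mul (by positivity)]
    refine mul_le_mul_left ?_ _
    have e : 2 * (p.AA ε s + p.Om s y) * (56000 * p.V ^ 5 / p.κ / (‖y - lat k‖ + s)) =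
        c * (p.AA ε s / (‖y - lat k‖ + s)) + c * (p.Om s y / (‖y - lat k‖ + s)) := by
      rw [hc]; ring
    rw [e, ENNReal.ofReal_add (by positivity) (by positivity), add_assoc,
      ← ENNReal.ofReal_mul hc0]
    refine add_le_add (ENNReal.ofReal_le_ofReal ?_) ?_
    · gcongr
      exact le_add_of_nonneg_left (norm_nonneg _)
    · rcases lt_or_ge s p.κ with h2 | h2
      · refine le_add_right (ENNReal.ofReal_le_ofReal ?_)
        exact mul_le_mul_of_nonneg_left (tr2a_Om hs h h0 h1.le h2) hc0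
      · refine le_add_left ?_
        rw [indicator_of_mem (tr2a_memT hs h h0 h1.le)]
        refine ENNReal.ofReal_le_ofReal ?_
        have b1 := Par.AA_Om_le hs hε hε' h0.le h1.le y
        gcongr
        · linarith
        · exact h2.trans (le_add_of_nonneg_left (norm_nonneg _))
  refine (setLIntegral_mono' measurableSet_Ioo key).trans ?_
  rw [lintegral_mul_const' _ _ (gs_ne_top _ _)]
  refine mul_le_mul_left ?_ _
  rw [lintegral_add_right _ (measurable_const.indicator (tr2a_measT p x v)),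
    lintegral_add_right _ measurable_const, lintegral_const_mul' _ _ ENNReal.ofReal_ne_top,
    setLIntegral_const, Real.volume_Ioo]
  have i1 : ∫⁻ s in Ioo 0 p.t2, ENNReal.ofReal (p.AA ε s / s) ≤ ENNReal.ofReal (2 * p.r0) := by
    refine (Par.lintegral_AA_div hs hε (Par.t0_lt_t2 hs)).trans (ENNReal.ofReal_le_ofReal ?_)
    have b1 : p.AA ε p.t2 ≤ p.r0 :=
      (Par.AA_mono hs hε hε' (Par.t2_pos hs).le le_rfl).trans hs.AA_le
    have b2 : (1:ℝ) ≤ p.Lam := (one_le_pow₀ hV).trans p.Lam_ge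
    have b3 := Par.AA_nonneg hs hε (Par.t2_pos hs).le
    exact (div_le_self (by positivity) b2).trans (by linarith)
  have i2 : ENNReal.ofReal (p.t2 - 0) ≤ 1 := by
    rw [← ENNReal.ofReal_one]
    exact ENNReal.ofReal_le_ofReal (by have := hs.t2_le; linarith)
  have i3 := tr2a_intT hs x hκ hv (C := c * (p.C0 / p.κ)) (by positivity)
  have hr0 := hs.r0_pos
  have hS : 0 ≤ p.S := by have := hs.S_ge; linarith
  calc _ ≤ ENNReal.ofReal c * ENNReal.ofReal (2 * p.r0) +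
        ENNReal.ofReal (c * (tr2a_C1 p * (16 * p.κ ^ 2))) * 1 +
        ENNReal.ofReal (c * (p.C0 / p.κ) * ((3 + 2 * p.S) ^ 3 * (2 / p.κ)) * p.r0) := by gcongr
    _ ≤ _ := by
        rw [mul_one, ← ENNReal.ofReal_mul hc0, ← ENNReal.ofReal_add (by positivity) (by positivity),
          ← ENNReal.ofReal_add (by positivity) (by positivity)]
        refine ENNReal.ofReal_le_ofReal ?_
        have e : c * (tr2a_C1 p * (16 * p.κ ^ 2)) = 112000 * p.V ^ 5 * tr2a_C1 p * 16 * p.κ := by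
          rw [hc]; field_simp
        rw [e]
        nlinarith

theorem tr2a_loss : ∀ᶠ p in PF, ∀ (n : ℕ∞) (ε : ℝ) (x v : R3), 0 ≤ ε → ε ≤ p.eps → p.κ ≤ |nc v| →
    ‖v‖ ≤ p.S → p.r1 ^ 2 ≤ sn (x - p.t2 • v) →
    mu v * ∫⁻ s in Ioo 0 p.t2, freq (p.U1 n ε s (x - (p.t2 - s) • v)) v ≤
      ENNReal.ofReal p.e * gs (1 / 8) v := by
  have q0 := ev_r1 (Q := fun p x => 100 * (p.C0 * (2 * 10 ^ 8)) * p.R * x < p.e / 2) (by
    filter_upwards [ev_std] with p hp
    exact tr2a_small _ (half_pos hp.e_pos))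
  have q1 := ev_k (Q := fun p x => 4 * (3 + p.S) * x < p.r1) (by
    filter_upwards [ev_std] with p hp
    exact tr2a_small _ hp.r1_pos)
  have q2 := ev_r0 (Q := fun p x =>
      100 * (48 * p.V ^ 5 / p.κ * ((3 + 2 * p.S) ^ 3 * (2 / p.κ))) * x < p.e / 2) (by
    filter_upwards [ev_std] with p hp
    exact tr2a_small _ (half_pos hp.e_pos))
  filter_upwards [ev_std, ev_wit, q0, q1, q2] with p hs hw q0 q1 q2 n ε x v hε hε' hκ hv hsn
  have hk := hs.κ_pos
  have hV : 1 ≤ p.V := by have := hs.V_ge; have := hs.R_ge; linarith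
  have hC0 : 0 ≤ p.C0 := zero_le_one.trans (Par.one_le_C0 hs)
  have hS : 0 ≤ p.S := by have := hs.S_ge; linarith
  have hr0 := hs.r0_pos
  have key : ∀ s ∈ Ioo 0 p.t2, freq (p.U1 n ε s (x - (p.t2 - s) • v)) v ≤
      ((tr2a_T p x v).indicator (fun _ => ENNReal.ofReal (48 * p.V ^ 5 / p.κ)) s +
        ENNReal.ofReal (p.C0 * (2 * 10 ^ 8))) * ENNReal.ofReal (1 + ‖v‖) := by
    intro s hs'
    obtain ⟨h0, h1⟩ := hs'
    set y := x - (p.t2 - s) • v with hy
    have hm : Measurable (p.B n s y) := (p.meas_B n).slice s y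
    have hmW : Measurable (p.W n (p.aa s) s y) := (p.meas_W n (p.aa s)).slice s y
    have ha := Par.aa_mem hs h0.le h1.le
    have e : p.U1 n ε s y = fun u => p.B n s y u +
        ENNReal.ofReal (p.AA ε s + p.Om s y) * p.W n (p.aa s) s y u := rfl
    rw [e, freq_add hm (hmW.const_mul _), freq_const_mul hmW, add_mul]
    refine add_le_add ?_ ?_
    · rcases hw n s y h0.le with h | ⟨k, j, h⟩
      · rw [show p.B n s y = fun _ => 0 from funext h.1]
        simp [freq]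
      have h2 : p.κ ≤ s := by
        by_contra h2
        push Not at h2
        have b1 : x - p.t2 • v - lat k = (y - lat k) - s • v := by
          rw [hy, sub_smul]; abel
        have b2 : ‖x - p.t2 • v - lat k‖ ≤ (3 + p.S) * p.κ := by
          rw [b1]
          refine (norm_sub_le _ _).trans ?_
          rw [norm_smul, Real.norm_of_nonneg h0.le]
          have := h.near
          have := hs.r0_κ
          have : s * ‖v‖ ≤ p.κ * p.S := mul_le_mul h2.le hv (norm_nonneg _) hk.le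
          nlinarith
        have b3 := sqrt_sn_le (x - p.t2 • v) k
        have b4 : p.r1 ≤ Real.sqrt (sn (x - p.t2 • v)) := Real.le_sqrt_of_sq_le hsn
        have b5 : Real.pi * ‖x - p.t2 • v - lat k‖ ≤ 4 * ((3 + p.S) * p.κ) :=
          mul_le_mul Real.pi_le_four b2 (norm_nonneg _) (by norm_num)
        linarith
      rw [indicator_of_mem (tr2a_memT hs h h0 h1.le)]
      refine (freq_le_moment _ hm v).trans ?_
      have b1 : ∫⁻ u, ENNReal.ofReal (1 + ‖u‖) * p.B n s y u ≤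
          ENNReal.ofReal 3 * ENNReal.ofReal (2 * p.V ^ 5 / p.κ) := by
        calc _ ≤ ∫⁻ u, ENNReal.ofReal 3 * p.B n s y u := by
              refine lintegral_mono fun u => ?_
              by_cases hu : p.B n s y u = 0
              · simp [hu]
              · have := (h.supp u hu).2
                gcongr; linarith
          _ = ENNReal.ofReal 3 * ∫⁻ u, p.B n s y u :=
              lintegral_const_mul' _ _ ENNReal.ofReal_ne_top
          _ ≤ _ := by
              refine mul_le_mul_right ((tr2a_mass hs h h0 h1.le).trans ?_) _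
              gcongr
              exact h2.trans (le_add_of_nonneg_left (norm_nonneg _))
      refine (mul_le_mul_right b1 _).trans ?_
      rw [← ENNReal.ofReal_mul (by positivity), ← ENNReal.ofReal_mul (by positivity),
        ← ENNReal.ofReal_mul (by positivity)]
      refine ENNReal.ofReal_le_ofReal ?_
      calc 2 * Real.pi * (1 + ‖v‖) * (3 * (2 * p.V ^ 5 / p.κ))
          ≤ 2 * 4 * (1 + ‖v‖) * (3 * (2 * p.V ^ 5 / p.κ)) := by gcongr; exact Real.pi_le_four
        _ = _ := by ring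
    · have b1 := Par.AA_Om_le hs hε hε' h0.le h1.le y
      have b2 := freq_Wf_le (η := p.etaS n) (a := p.aa s) (by linarith) h0.le y v
      have b3 : CW s ≤ 100 := CW_le h0.le (by have := hs.t2_le; linarith)
      calc _ ≤ ENNReal.ofReal p.C0 * ENNReal.ofReal (2 * 10 ^ 6 * 100 * (1 + ‖v‖)) :=
            mul_le_mul' (ENNReal.ofReal_le_ofReal b1) (b2.trans (by gcongr))
        _ = _ := by
            rw [← ENNReal.ofReal_mul hC0, ← ENNReal.ofReal_mul (by positivity)]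
            congr 1; ring
  have i1 := setLIntegral_mono' (μ := volume) measurableSet_Ioo key
  rw [lintegral_mul_const' _ _ ENNReal.ofReal_ne_top, lintegral_add_right _ measurable_const,
    setLIntegral_const, Real.volume_Ioo] at i1
  have i3 := tr2a_intT hs x hκ hv (C := 48 * p.V ^ 5 / p.κ) (by positivity)
  have i4 : ENNReal.ofReal (1 + ‖v‖) * mu v ≤ 100 * gs (1 / 8) v :=
    (mul_le_mul_right (mu_le_gs v) _).trans (weight_absorb (by norm_num) v)
  have ht := Par.t2_pos hs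
  calc _ ≤ mu v * ((ENNReal.ofReal (48 * p.V ^ 5 / p.κ * ((3 + 2 * p.S) ^ 3 * (2 / p.κ)) * p.r0) +
        ENNReal.ofReal (p.C0 * (2 * 10 ^ 8)) * ENNReal.ofReal (p.t2 - 0)) *
          ENNReal.ofReal (1 + ‖v‖)) := mul_le_mul_right (i1.trans (by gcongr)) _
    _ = (ENNReal.ofReal (48 * p.V ^ 5 / p.κ * ((3 + 2 * p.S) ^ 3 * (2 / p.κ)) * p.r0) +
        ENNReal.ofReal (p.C0 * (2 * 10 ^ 8)) * ENNReal.ofReal (p.t2 - 0)) *
          (ENNReal.ofReal (1 + ‖v‖) * mu v) := by ring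
    _ ≤ (ENNReal.ofReal (48 * p.V ^ 5 / p.κ * ((3 + 2 * p.S) ^ 3 * (2 / p.κ)) * p.r0) +
        ENNReal.ofReal (p.C0 * (2 * 10 ^ 8)) * ENNReal.ofReal (p.t2 - 0)) *
          (100 * gs (1 / 8) v) := mul_le_mul_right i4 _
    _ ≤ _ := by
        rw [← mul_assoc]
        refine mul_le_mul_left ?_ _
        rw [← ENNReal.ofReal_mul (by positivity),
          ← ENNReal.ofReal_add (by positivity) (by rw [sub_zero]; positivity),
          show (100 : ℝ≥0∞) = ENNReal.ofReal 100 by simp,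
          ← ENNReal.ofReal_mul (by rw [sub_zero]; positivity)]
        refine ENNReal.ofReal_le_ofReal ?_
        rw [sub_zero, Par.t2]
        nlinarith

end Crest.Agent.R068
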