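import Crest.Agent.R068.St1

/-! Row 68: auxiliary lemmas for `ev_transition`. -/

set_option autoImplicit false
open MeasureTheory Set Filter Topology
open scoped ENNReal
open Crest.AnalysisR.VecCalc3 Crest.AnalysisR.PDE.Boltzmann

namespace Crest.Agent.R068

lemma t2b_tendsto_exp {c : ℝ} (hc : 0 < c) (C : ℝ) :
    Tendsto (fun x : ℝ => C * Real.exp (-(c * x ^ 2))) atTop (𝓝 0) := by
  have h1 : Tendsto (fun x : ℝ => c * x ^ 2) atTop atTop :=
    (tendsto_pow_atTop two_ne_zero).const_mul_atTop hc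
  have h2 := (Real.tendsto_exp_neg_atTop_nhds_zero.comp h1).const_mul C
  rw [mul_zero] at h2
  exact h2

theorem t2b_ev_S : ∀ᶠ p in PF, p.C0 * Real.exp (-(1 / 16 * p.S ^ 2)) ≤ p.e := by
  refine ev_S (Q := fun p x => p.C0 * Real.exp (-(1 / 16 * x ^ 2)) ≤ p.e) ?_
  filter_upwards [ev_std] with p hp
  exact (t2b_tendsto_exp (by norm_num) p.C0).eventually (eventually_le_nhds hp.e_pos)

theorem t2b_ev_R : ∀ᶠ p in PF, 1 * Real.exp (-(3 / 8 * p.R ^ 2)) ≤ p.e := by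
  refine ev_R (Q := fun p x => 1 * Real.exp (-(3 / 8 * x ^ 2)) ≤ p.e) ?_
  filter_upwards [ev_std] with p hp
  exact (t2b_tendsto_exp (by norm_num) 1).eventually (eventually_le_nhds hp.e_pos)

lemma t2b_small (C : ℝ) {e : ℝ} (he : 0 < e) : ∀ᶠ x in 𝓝[>] (0:ℝ), C * x ≤ e := by
  have h : Tendsto (fun x : ℝ => C * x) (𝓝[>] 0) (𝓝 (C * 0)) :=
    (tendsto_nhdsWithin_of_tendsto_nhds tendsto_id).const_mul C
  rw [mul_zero] at h
  exact h.eventually (eventually_le_nhds he)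

theorem t2b_ev_r1 : ∀ᶠ p in PF, (p.C0 ^ 2 * 10 ^ 12 * p.R) * p.r1 ≤ p.e := by
  refine ev_r1 (Q := fun p x => (p.C0 ^ 2 * 10 ^ 12 * p.R) * x ≤ p.e) ?_
  filter_upwards [ev_std] with p hp
  exact t2b_small _ hp.e_pos

theorem t2b_ev_r0 : ∀ᶠ p in PF, 1 * p.r0 ≤ p.e := by
  refine ev_r0 (Q := fun p x => 1 * x ≤ p.e) ?_
  filter_upwards [ev_std] with p hp
  exact t2b_small _ hp.e_pos

lemma t2b_Xi (p : Par) (n : ℕ∞) (x v : R3) :
    p.Xi n p.t2 x v = p.B n p.t2 x v + p.Kh n p.t2 x v + p.hol p.t2 x v := by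
  simp [Par.Xi, Par.Dm]

lemma t2b_W_anti (p : Par) (n : ℕ∞) {a b : ℝ} (h : b ≤ a) (t : ℝ) (x v : R3) :
    p.W n a t x v ≤ p.W n b t x v :=
  mul_le_mul_left (gs_anti h v) _

/-- the quadratic term of the first-stage barrier -/
lemma t2b_gain_U1 {p : Par} (hs : p.Std) (n : ℕ∞) {ε s : ℝ} (hε : 0 ≤ ε) (hε' : ε ≤ p.eps)
    (h0 : 0 ≤ s) (h1 : s ≤ p.t2) (y v : R3) :
    gain (p.U1 n ε s y) (p.U1 n ε s y) v ≤ gain (p.B n s y) (p.B n s y) v +
      ENNReal.ofReal (2 * (p.AA ε s + p.Om s y)) * gain (p.B n s y) (p.W n (p.aa s) s y) v +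
      ENNReal.ofReal (p.C0 ^ 2 * 10 ^ 12) * gs (1 / 8) v := by
  have hB : Measurable (p.B n s y) := (p.meas_B n).slice s y
  have hW : Measurable (p.W n (p.aa s) s y) := (p.meas_W n (p.aa s)).slice s y
  set c := p.AA ε s + p.Om s y with hc
  have hc0 : 0 ≤ c := add_nonneg (Par.AA_nonneg hs hε h0) (Par.Om_nonneg hs h0 y)
  have hc1 : c ≤ p.C0 := Par.AA_Om_le hs hε hε' h0 h1 y
  have ha := Par.aa_mem hs h0 h1
  have e : p.U1 n ε s y = fun u => p.B n s y u + ENNReal.ofReal c * p.W n (p.aa s) s y u := rfl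
  rw [e, gain_add_add hB (hW.const_mul _), gain_const_mul_right hB hW,
    gain_const_mul_left hW (hW.const_mul _), gain_const_mul_right hW hW]
  refine add_le_add (add_le_add le_rfl (le_of_eq ?_)) ?_
  · rw [ENNReal.ofReal_mul (by norm_num), ← mul_assoc]; simp
  · have hCW : CW s ≤ 100 := CW_le h0 (by linarith [hs.t2_le])
    have hCW1 : 1 ≤ CW s := one_le_CW h0
    have h2 : gain (p.W n (p.aa s) s y) (p.W n (p.aa s) s y) v ≤
        ENNReal.ofReal (10 ^ 6 * CW s ^ 2 * (1 + ‖v‖)) * gs (p.aa s) v :=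
      gain_Wf_Wf (by linarith [ha.1]) ha.2 h0 y v
    have h3 : ENNReal.ofReal (1 + ‖v‖) * gs (p.aa s) v ≤ 100 * gs (1 / 8) v :=
      weight_absorb (by linarith [ha.1]) v
    have h4 : gain (p.W n (p.aa s) s y) (p.W n (p.aa s) s y) v ≤
        ENNReal.ofReal (10 ^ 12) * gs (1 / 8) v := by
      refine h2.trans ?_
      rw [ENNReal.ofReal_mul (by positivity), mul_assoc]
      refine (mul_le_mul' (ENNReal.ofReal_le_ofReal (show 10 ^ 6 * CW s ^ 2 ≤ 10 ^ 10 by nlinarith))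
        h3).trans (le_of_eq ?_)
      rw [← mul_assoc]
      congr 1
      rw [show (100 : ℝ≥0∞) = ENNReal.ofReal 100 by simp, ← ENNReal.ofReal_mul (by norm_num)]
      norm_num
    calc ENNReal.ofReal c * (ENNReal.ofReal c * gain (p.W n (p.aa s) s y) (p.W n (p.aa s) s y) v)
        ≤ ENNReal.ofReal p.C0 * (ENNReal.ofReal p.C0 * (ENNReal.ofReal (10 ^ 12) * gs (1 / 8) v)) :=
          mul_le_mul' (ENNReal.ofReal_le_ofReal hc1)
            (mul_le_mul' (ENNReal.ofReal_le_ofReal hc1) h4)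
      _ = _ := by
          have : 0 ≤ p.C0 := hc0.trans hc1
          rw [ENNReal.ofReal_mul (by positivity), ENNReal.ofReal_pow this, sq]
          simp only [mul_assoc]

lemma t2b_seed {p : Par} (hs : p.Std) {n : ℕ} {ε a : ℝ} {F : ℝ → R3 → R3 → ℝ} (h : p.Sol n ε a F) :
    55 * a ≤ p.r0 := by
  have hV : 8000 ≤ p.V := by linarith [hs.V_ge, hs.R_ge]
  have hr1 : p.r0 ≤ 1 := by linarith [hs.r0_κ, hs.κ_le, hs.t2_le]
  have he : p.eps ≤ 1 := pow_le_one₀ hs.r0_pos.le hr1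
  have h1 := Par.t0_le_r0 hs
  have h2 := Par.t0_pos hs
  have h3 := Par.tn_pos hs n
  have h4 : ε * p.tn n ≤ 1 * p.t0 := mul_le_mul (h.ε1.trans he) h.tn0 h3.le zero_le_one
  have h5 := h.a1
  nlinarith

/-- upper bound at the transition time on transversal bounded velocities -/
lemma t2b_upper {p : Par} (hs : p.Std) {n : ℕ} {ε a : ℝ} {F : ℝ → R3 → R3 → ℝ} (h : p.Sol n ε a F)
    (hr1 : (p.C0 ^ 2 * 10 ^ 12 * p.R) * p.r1 ≤ p.e) (hr0 : 1 * p.r0 ≤ p.e) (x v : R3)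
    (hsrc : ∀ (t : ℝ) (x v : R3), 0 ≤ t →
      gain (p.B n t x) (p.B n t x) v ≤ p.Gr n t x v + ENNReal.ofReal p.r0 * gs (1 / 4) v)
    (htr : p.Sd n (x - p.t2 • v) v + ∫⁻ r in Ioo (p.tn n) p.t2, p.Gr n r (x - (p.t2 - r) • v) v ≤
      p.B n p.t2 x v)
    (hg : ∫⁻ s in Ioo 0 p.t2, ENNReal.ofReal (2 * (p.AA ε s + p.Om s (x - (p.t2 - s) • v))) *
      gain (p.B n s (x - (p.t2 - s) • v)) (p.W n (p.aa s) s (x - (p.t2 - s) • v)) v ≤
      ENNReal.ofReal p.e * gs (1 / 8) v) :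
    up F p.t2 x v ≤ mu v + (p.B n p.t2 x v + ENNReal.ofReal (5 * p.e) * gs (1 / 8) v) := by
  have htn := Par.tn_pos hs n
  have ht2 := Par.t2_pos hs
  have hC0 : 0 ≤ p.C0 := zero_le_one.trans (Par.one_le_C0 hs)
  have he := hs.e_pos
  set K : ℝ := p.r0 + p.C0 ^ 2 * 10 ^ 12 with hK
  have hK0 : 0 ≤ K := add_nonneg hs.r0_pos.le (by positivity)
  set G : ℝ → ℝ≥0∞ := fun s => ENNReal.ofReal (2 * (p.AA ε s + p.Om s (x - (p.t2 - s) • v))) *
      gain (p.B n s (x - (p.t2 - s) • v)) (p.W n (p.aa s) s (x - (p.t2 - s) • v)) v with hG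
  have hGr : Measurable fun r : ℝ => p.Gr n r (x - (p.t2 - r) • v) v :=
    (p.meas_Gr n).comp measurable_id (by fun_prop) measurable_const
  have h1 : ∫⁻ s in Ioo (p.tn n) p.t2, gain (p.Nn n ε F s (x - (p.t2 - s) • v))
      (p.Nn n ε F s (x - (p.t2 - s) • v)) v ≤
      ∫⁻ s in Ioo (p.tn n) p.t2, (p.Gr n s (x - (p.t2 - s) • v) v +
        (G s + ENNReal.ofReal K * gs (1 / 8) v)) := by
    refine setLIntegral_mono' measurableSet_Ioo fun s hs' => ?_
    have hs0 : 0 ≤ s := (htn.trans hs'.1).le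
    have hN : ∀ u, p.Nn n ε F s (x - (p.t2 - s) • v) u ≤ p.U1 n ε s (x - (p.t2 - s) • v) u := by
      intro u; rw [Par.Nn_eq1 n ε F hs'.2.le]; exact min_le_right _ _
    refine (gain_mono hN hN v).trans ((t2b_gain_U1 hs n h.ε0 h.ε1 hs0 hs'.2.le _ v).trans ?_)
    have h2 := (hsrc s (x - (p.t2 - s) • v) v hs0).trans
      (add_le_add le_rfl (mul_le_mul_right (gs_anti (show (1 / 8 : ℝ) ≤ 1 / 4 by norm_num) v) _))
    refine (add_le_add (add_le_add h2 le_rfl) le_rfl).trans (le_of_eq ?_)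
    rw [hK, ENNReal.ofReal_add hs.r0_pos.le (by positivity), add_mul]
    ring
  rw [lintegral_add_left hGr, lintegral_add_right _ measurable_const, setLIntegral_const,
    Real.volume_Ioo] at h1
  have h2 : ∫⁻ s in Ioo (p.tn n) p.t2, G s ≤ ENNReal.ofReal p.e * gs (1 / 8) v :=
    (lintegral_mono_set (Ioo_subset_Ioo_left htn.le)).trans hg
  have h3 : ENNReal.ofReal K * gs (1 / 8) v * ENNReal.ofReal (p.t2 - p.tn n) ≤
      ENNReal.ofReal (2 * p.e) * gs (1 / 8) v := by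
    rw [mul_right_comm, ← ENNReal.ofReal_mul hK0]
    refine mul_le_mul_left (ENNReal.ofReal_le_ofReal ?_) _
    have a1 : K * (p.t2 - p.tn n) ≤ K * p.t2 := mul_le_mul_of_nonneg_left (by linarith) hK0
    have a2 : p.r0 * p.t2 ≤ p.r0 * 1 :=
      mul_le_mul_of_nonneg_left (by linarith [hs.t2_le]) hs.r0_pos.le
    have a3 : p.C0 ^ 2 * 10 ^ 12 * p.t2 ≤ p.e := by
      rw [Par.t2, ← mul_assoc]; exact hr1
    have a4 : K * p.t2 = p.r0 * p.t2 + p.C0 ^ 2 * 10 ^ 12 * p.t2 := by rw [hK]; ring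
    linarith
  have h4 : p.seed n a (x - p.t2 • v) v ≤ ENNReal.ofReal p.e * gs (1 / 8) v :=
    (Par.seed_le_gs hs h.tn0 a (b := 1 / 8) (by norm_num) (by norm_num) _ v).trans
      (mul_le_mul_left (ENNReal.ofReal_le_ofReal (by linarith [t2b_seed hs h])) _)
  have h5 : p.amb (x - p.t2 • v) v ≤ mu v := by
    unfold Par.amb; split_ifs <;> simp
  have h6 : ENNReal.ofReal p.e * gs (1 / 8) v + (ENNReal.ofReal p.e * gs (1 / 8) v +
      ENNReal.ofReal (2 * p.e) * gs (1 / 8) v) ≤ ENNReal.ofReal (5 * p.e) * gs (1 / 8) v := by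
    rw [← add_mul, ← add_mul, ← ENNReal.ofReal_add he.le (by positivity),
      ← ENNReal.ofReal_add he.le (by positivity)]
    exact mul_le_mul_left (ENNReal.ofReal_le_ofReal (by linarith)) _
  calc up F p.t2 x v ≤ _ := h.mild.le p.t2 x v
    _ ≤ (mu v + p.Sd n (x - p.t2 • v) v + ENNReal.ofReal p.e * gs (1 / 8) v) +
        ((∫⁻ r in Ioo (p.tn n) p.t2, p.Gr n r (x - (p.t2 - r) • v) v) +
          (ENNReal.ofReal p.e * gs (1 / 8) v + ENNReal.ofReal (2 * p.e) * gs (1 / 8) v)) :=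
        add_le_add (add_le_add (add_le_add h5 le_rfl) h4)
          (h1.trans (add_le_add le_rfl (add_le_add h2 h3)))
    _ = mu v + ((p.Sd n (x - p.t2 • v) v +
          ∫⁻ r in Ioo (p.tn n) p.t2, p.Gr n r (x - (p.t2 - r) • v) v) +
          (ENNReal.ofReal p.e * gs (1 / 8) v + (ENNReal.ofReal p.e * gs (1 / 8) v +
            ENNReal.ofReal (2 * p.e) * gs (1 / 8) v))) := by ring
    _ ≤ _ := add_le_add le_rfl (add_le_add htr h6)

/-- lower bound at the transition time outside the hole -/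
lemma t2b_lower {p : Par} (hs : p.Std) {n : ℕ} {ε a : ℝ} {F : ℝ → R3 → R3 → ℝ} (h : p.Sol n ε a F)
    {x v : R3} (hv : ‖v‖ < p.R) (hx : p.r1 ^ 2 ≤ sn (x - p.t2 • v))
    (hl : mu v * ∫⁻ s in Ioo 0 p.t2, freq (p.U1 n ε s (x - (p.t2 - s) • v)) v ≤
      ENNReal.ofReal p.e * gs (1 / 8) v) :
    mu v ≤ up F p.t2 x v + ENNReal.ofReal p.e * gs (1 / 8) v := by
  have htn := Par.tn_pos hs n
  set y := ∫⁻ r in Ioo (p.tn n) p.t2, freq (p.Nn n ε F r (x - (p.t2 - r) • v)) v with hy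
  have h1 : y ≤ ∫⁻ s in Ioo 0 p.t2, freq (p.U1 n ε s (x - (p.t2 - s) • v)) v := by
    refine le_trans ?_ (lintegral_mono_set (Ioo_subset_Ioo_left htn.le))
    refine setLIntegral_mono' measurableSet_Ioo fun s hs' => freq_mono (fun u => ?_) v
    rw [Par.Nn_eq1 n ε F hs'.2.le]; exact min_le_right _ _
  have h2 : mu v ≤ p.f0 n a (x - p.t2 • v) v := by
    have : p.amb (x - p.t2 • v) v = mu v := by
      unfold Par.amb; rw [if_pos ⟨hv, hx⟩]
    rw [← this]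
    exact le_self_add.trans le_self_add
  have h3 : eneg y * mu v ≤ up F p.t2 x v :=
    (mul_le_mul_right h2 _).trans (h.mild.ge p.t2 x v)
  calc mu v = 1 * mu v := (one_mul _).symm
    _ ≤ (eneg y + y) * mu v := mul_le_mul_left (one_le_eneg_add y) _
    _ = eneg y * mu v + mu v * y := by ring
    _ ≤ _ := add_le_add h3 ((mul_le_mul_right h1 _).trans hl)

lemma t2b_mu_tail {ρ e : ℝ} (hρ : 0 ≤ ρ) (he : Real.exp (-(3 / 8 * ρ ^ 2)) ≤ e) {v : R3}
    (hv : ρ ≤ ‖v‖) : mu v ≤ ENNReal.ofReal e * gs (1 / 8) v := by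
  refine (mu_le_gs v).trans ((gs_tail (b := 1 / 8) (by norm_num) hρ hv).trans ?_)
  refine mul_le_mul_left (ENNReal.ofReal_le_ofReal (le_trans (le_of_eq ?_) he)) _
  norm_num

theorem t2b_transition
    (hgain : ∀ᶠ p in PF, ∀ (n : ℕ∞) (ε : ℝ) (x v : R3), 0 ≤ ε → ε ≤ p.eps → p.κ ≤ |nc v| →
      ‖v‖ ≤ p.S →
      ∫⁻ s in Ioo 0 p.t2, ENNReal.ofReal (2 * (p.AA ε s + p.Om s (x - (p.t2 - s) • v))) *
        gain (p.B n s (x - (p.t2 - s) • v)) (p.W n (p.aa s) s (x - (p.t2 - s) • v)) v ≤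
        ENNReal.ofReal p.e * gs (1 / 8) v)
    (hloss : ∀ᶠ p in PF, ∀ (n : ℕ∞) (ε : ℝ) (x v : R3), 0 ≤ ε → ε ≤ p.eps → p.κ ≤ |nc v| →
      ‖v‖ ≤ p.S → p.r1 ^ 2 ≤ sn (x - p.t2 • v) →
      mu v * ∫⁻ s in Ioo 0 p.t2, freq (p.U1 n ε s (x - (p.t2 - s) • v)) v ≤
        ENNReal.ofReal p.e * gs (1 / 8) v) :
    ∀ᶠ p in PF, ∀ (n : ℕ) (ε a : ℝ) (F : ℝ → R3 → R3 → ℝ), p.Sol n ε a F →
    p.In1 n ε F → ∀ x v, ENNReal.ofReal |F p.t2 x v - maxwellian v| ≤
      p.Xi n p.t2 x v + ENNReal.ofReal (5 * p.e) * gs (1 / 8) v := by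
  filter_upwards [ev_std, hgain, hloss, ev_src2, ev_transport1, t2b_ev_S, t2b_ev_R, t2b_ev_r1,
    t2b_ev_r0] with p hs hg hl hsrc htr hS hR hr1 hr0
  intro n ε a F h hin x v
  have htn := Par.tn_pos hs n
  have ht2 := Par.t2_pos hs
  have he := hs.e_pos
  have hC1 := Par.one_le_C0 hs
  have ha := Par.aa_mem hs ht2.le le_rfl
  have hU : up F p.t2 x v ≤ p.B n p.t2 x v + ENNReal.ofReal p.C0 * p.W n (p.aa p.t2) p.t2 x v :=
    (hin p.t2 ⟨h.tn0.trans (Par.t0_lt_t2 hs).le, le_rfl⟩ x v).trans (add_le_add le_rfl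
      (mul_le_mul_left (ENNReal.ofReal_le_ofReal (Par.AA_Om_le hs h.ε0 h.ε1 ht2.le le_rfl x)) _))
  have he5 : ENNReal.ofReal p.e * gs (1 / 8) v ≤ ENNReal.ofReal (5 * p.e) * gs (1 / 8) v :=
    mul_le_mul_left (ENNReal.ofReal_le_ofReal (by linarith)) _
  rw [t2b_Xi]
  refine mild_ofReal_abs_le (h.dens.nonneg _ _ _) (maxwellian_pos v).le ?_ ?_
  · change up F p.t2 x v ≤ mu v + _
    by_cases hκ : |nc v| < p.κ
    · refine hU.trans (le_add_left (le_add_right (le_add_right (add_le_add le_rfl ?_))))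
      unfold Par.Kh
      rw [if_pos hκ, Par.CK_t2]
      exact mul_le_mul_right (t2b_W_anti p n (by linarith [ha.1]) _ x v) _
    · by_cases hv : ‖v‖ ≤ p.S
      · refine (t2b_upper hs h hr1 hr0 x v (hsrc n) (htr n _ _ x v htn.le ht2.le
          (by linarith [hs.t2_le])) (hg n ε x v h.ε0 h.ε1 (not_lt.1 hκ) hv)).trans ?_
        exact add_le_add le_rfl (add_le_add (le_add_right le_self_add) le_rfl)
      · push Not at hv
        refine hU.trans (le_add_left (add_le_add (le_add_right le_self_add) (le_trans ?_ he5)))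
        have hS0 : 0 ≤ p.S := by linarith [hs.S_ge]
        have hY : p.W n (p.aa p.t2) p.t2 x v = gs (p.aa p.t2) v := by
          unfold Par.W Wf
          rw [Yf_eq_zero _ _ _ (by linarith [hs.S_ge]), add_zero, mul_one]
        rw [hY]
        have h1 : gs (p.aa p.t2) v ≤ ENNReal.ofReal (Real.exp (-(1 / 16 * p.S ^ 2))) * gs (1 / 8) v := by
          refine (gs_anti ha.1 v).trans ((gs_tail (b := 1 / 8) (by norm_num) hS0 hv.le).trans
            (le_of_eq ?_))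
          norm_num
        refine (mul_le_mul_right h1 _).trans ?_
        rw [← mul_assoc, ← ENNReal.ofReal_mul (by linarith)]
        exact mul_le_mul_left (ENNReal.ofReal_le_ofReal hS) _
  · change mu v ≤ up F p.t2 x v + _
    by_cases hκ : |nc v| < p.κ
    · refine le_add_left (le_add_right (le_add_right (le_add_left ?_)))
      unfold Par.Kh
      rw [if_pos hκ, Par.CK_t2]
      calc mu v ≤ gs (1 / 2) v := mu_le_gs v
        _ ≤ gs (1 / 8) v := gs_anti (by norm_num) v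
        _ ≤ p.W n (1 / 8) p.t2 x v := gs_le_Wf _ _ _ _ _
        _ = 1 * p.W n (1 / 8) p.t2 x v := (one_mul _).symm
        _ ≤ _ := mul_le_mul_left (ENNReal.one_le_ofReal.2 hC1) _
    · by_cases hx : sn (x - p.t2 • v) < p.r1 ^ 2
      · refine le_add_left (le_add_right (le_add_left (le_of_eq ?_)))
        unfold Par.hol
        rw [if_pos hx]
      · by_cases hv : ‖v‖ < p.R
        · by_cases hv' : ‖v‖ ≤ p.S
          · refine (t2b_lower hs h hv (not_lt.1 hx)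
              (hl n ε x v h.ε0 h.ε1 (not_lt.1 hκ) hv' (not_lt.1 hx))).trans ?_
            exact add_le_add le_rfl (le_add_left he5)
          · push Not at hv'
            refine le_add_left (le_add_left (le_trans ?_ he5))
            refine t2b_mu_tail (ρ := p.S) (by linarith [hs.S_ge]) ?_ hv'.le
            refine le_trans ?_ hS
            have h1 : Real.exp (-(3 / 8 * p.S ^ 2)) ≤ Real.exp (-(1 / 16 * p.S ^ 2)) :=
              Real.exp_le_exp.2 (by nlinarith [sq_nonneg p.S])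
            nlinarith [Real.exp_pos (-(1 / 16 * p.S ^ 2))]
        · refine le_add_left (le_add_left (le_trans ?_ he5))
          exact t2b_mu_tail (ρ := p.R) (by linarith [hs.R_ge]) (by linarith) (not_lt.1 hv)

end Crest.Agent.R068
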