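import Crest.Agent.R068.St1
import Crest.Agent.R068.Tr2AuxA
import Crest.Agent.R068.Tr2AuxB

/-! Row 68: the transition at time t2. -/

set_option autoImplicit false
open MeasureTheory Set Filter Topology
open scoped ENNReal
open Crest.AnalysisR.VecCalc3 Crest.AnalysisR.PDE.Boltzmann

namespace Crest.Agent.R068

/-- cold contributions along a transversal characteristic are small (gain side) -/
theorem ev_tr_gain : ∀ᶠ p in PF, ∀ (n : ℕ∞) (ε : ℝ) (x v : R3), 0 ≤ ε → ε ≤ p.eps → p.κ ≤ |nc v| →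
    ‖v‖ ≤ p.S →
    ∫⁻ s in Ioo 0 p.t2, ENNReal.ofReal (2 * (p.AA ε s + p.Om s (x - (p.t2 - s) • v))) *
      gain (p.B n s (x - (p.t2 - s) • v)) (p.W n (p.aa s) s (x - (p.t2 - s) • v)) v ≤
      ENNReal.ofReal p.e * gs (1 / 8) v := tr2a_gain
/-- ... and on the loss side, for characteristics that start outside the hole -/
theorem ev_tr_loss : ∀ᶠ p in PF, ∀ (n : ℕ∞) (ε : ℝ) (x v : R3), 0 ≤ ε → ε ≤ p.eps → p.κ ≤ |nc v| →
    ‖v‖ ≤ p.S → p.r1 ^ 2 ≤ sn (x - p.t2 • v) →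
    mu v * ∫⁻ s in Ioo 0 p.t2, freq (p.U1 n ε s (x - (p.t2 - s) • v)) v ≤
      ENNReal.ofReal p.e * gs (1 / 8) v := tr2a_loss
theorem ev_transition : ∀ᶠ p in PF, ∀ (n : ℕ) (ε a : ℝ) (F : ℝ → R3 → R3 → ℝ), p.Sol n ε a F →
    p.In1 n ε F → ∀ x v, ENNReal.ofReal |F p.t2 x v - maxwellian v| ≤
      p.Xi n p.t2 x v + ENNReal.ofReal (5 * p.e) * gs (1 / 8) v :=
  t2b_transition ev_tr_gain ev_tr_loss

end Crest.Agent.R068
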