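import Crest.Agent.R068.WeakAux

/-! Row 68: dominated mild solutions are global solutions. -/

set_option autoImplicit false
open MeasureTheory Set Filter Topology
open scoped ENNReal
open Crest.AnalysisR.VecCalc3 Crest.AnalysisR.PDE.Boltzmann

namespace Crest.Agent.R068

lemma wk_meas_char {α : Type} [MeasurableSpace α] {f : ℝ → R3 → R3 → α} (hf : MeasT f) :
    Measurable (fun p : ℝ × R3 × R3 => f p.1 (p.2.1 + p.1 • p.2.2) p.2.2) :=
  hf.comp measurable_fst (by fun_prop) (by fun_prop)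

/-- integrability is invariant under the space-time shear -/
lemma wk_integrable_char {f : ℝ → R3 → R3 → ℝ} (hf : MeasT f) (hp : PerT f) {I : Set ℝ}
    (hI : MeasurableSet I)
    (hi : IntegrableOn (fun p : ℝ × R3 × R3 => f p.1 p.2.1 p.2.2) (I ×ˢ (cell ×ˢ univ))) :
    IntegrableOn (fun p : ℝ × R3 × R3 => f p.1 (p.2.1 + p.1 • p.2.2) p.2.2)
      (I ×ˢ (cell ×ˢ univ)) := by
  refine ⟨(wk_meas_char hf).aestronglyMeasurable, ?_⟩
  have hm : MeasT (fun t x v => ‖f t x v‖ₑ) := Measurable.enorm hf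
  have hp' : PerT (fun t x v => ‖f t x v‖ₑ) := fun t v x i => congrArg (fun r : ℝ => ‖r‖ₑ) (hp t v x i)
  have := lintegral_char hm hp' hI
  exact lt_of_eq_of_lt this hi.2

/-- the identity along one characteristic -/
lemma wk_one_char {g h f u : ℝ → ℝ} {T : ℝ} (hT : 0 ≤ T) (hg : IntegrableOn g (Ioo 0 T))
    (hf : ∀ t ∈ Icc (0:ℝ) T, f t = f 0 + ∫ s in Ioo 0 t, g s)
    (hu : ∀ s, HasDerivAt u (h s) s) (hh : Continuous h) (huT : u T = 0) :
    ∫ s in Ioo 0 T, (f s * h s + g s * u s) = -(f 0 * u 0) := by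
  have hhi : IntegrableOn h (Ioo 0 T) := (hh.integrableOn_Icc (a := 0) (b := T)).mono_set Ioo_subset_Icc_self
  have hu' : ∀ t, 0 ≤ t → u 0 + ∫ s in Ioo 0 t, h s = u t := by
    intro t ht
    rw [← integral_Ioc_eq_integral_Ioo, ← intervalIntegral.integral_of_le ht,
      intervalIntegral.integral_eq_sub_of_hasDerivAt (fun s _ => hu s) (hh.intervalIntegrable _ _)]
    ring
  have key := (prod_rule hg hhi (f 0) (u 0)).2
  rw [hu' T hT, huT, mul_zero, zero_sub] at key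
  rw [key]
  refine setIntegral_congr_fun measurableSet_Ioo fun s hs => ?_
  rw [hu' s hs.1.le, ← hf s (Ioo_subset_Icc_self hs)]
  ring

theorem mild_weak {U : TF} (hU : Good U) {F : ℝ → R3 → R3 → ℝ} (hF : Dens F)
    (hm : ∀ T, Mild 0 T F) (hd : ∀ T, DomOn T F U) : IsWeakSolution F (F 0) := by
  rintro φ ⟨hφ, hper, T₁, R, hzero⟩
  set T : ℝ := max T₁ 0 + 1 with hTdef
  have hT0 : 0 ≤ T := by have := le_max_right T₁ 0; linarith
  have hT1 : T₁ < T := by have := le_max_left T₁ 0; linarith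
  have hdiff := hφ.differentiable (by simp)
  have hφc : Continuous (fun p : ℝ × R3 × R3 => φ p.1 p.2.1 p.2.2) := hφ.continuous
  have hDc := wk_transportD_cont hφ
  have hφm : MeasT φ := hφc.measurable
  have hDm : MeasT (transportD φ) := hDc.measurable
  have hφp : PerT φ := hper
  have hDp : PerT (transportD φ) := wk_transportD_per hφp
  obtain ⟨C₁, hC₁⟩ := wk_bdd hφc (R := R) (fun t x v hv => hzero t x v (Or.inr hv)) T
  obtain ⟨C₂, hC₂⟩ := wk_bdd hDc (R := R)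
    (fun t x v hv => wk_transportD_zero hzero t x v (Or.inr hv)) T
  have hS : MeasurableSet (cell ×ˢ (univ : Set R3)) := measurableSet_cell.prod MeasurableSet.univ
  have hS3 : MeasurableSet (Ioo (0:ℝ) T ×ˢ (cell ×ˢ (univ : Set R3))) := measurableSet_Ioo.prod hS
  have hreg : MeasurableSet region := measurableSet_Ioi.prod hS
  have hsub : Ioo (0:ℝ) T ×ˢ (cell ×ˢ (univ : Set R3)) ⊆ region :=
    prod_mono Ioo_subset_Ioi_self subset_rfl
  have hout : ∀ p ∈ region \ Ioo (0:ℝ) T ×ˢ (cell ×ˢ (univ : Set R3)), T₁ < p.1 := by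
    rintro p ⟨h1, h2⟩
    by_contra hc
    exact h2 ⟨⟨h1.1, by linarith [not_lt.1 hc]⟩, h1.2⟩
  have hFi : IntegrableOn (fun p : ℝ × R3 × R3 => F p.1 p.2.1 p.2.2)
      (Ioo (0:ℝ) T ×ˢ (cell ×ˢ univ)) :=
    ⟨Measurable.aestronglyMeasurable hF.meas, wk_F_lt_top hU hF (hd T)⟩
  have hRi : IntegrableOn (fun p : ℝ × R3 × R3 => Rr F p.1 p.2.1 p.2.2)
      (Ioo (0:ℝ) T ×ˢ (cell ×ˢ univ)) :=
    ⟨Measurable.aestronglyMeasurable (measurable_Rr hF.meas), wk_Rr_lt_top hU hF (hd T)⟩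
  have i1 : IntegrableOn (fun p : ℝ × R3 × R3 => F p.1 p.2.1 p.2.2 * transportD φ p.1 p.2.1 p.2.2)
      (Ioo (0:ℝ) T ×ˢ (cell ×ˢ univ)) := by
    refine Integrable.mul_bdd (c := C₂) hFi hDc.aestronglyMeasurable ?_
    filter_upwards [ae_restrict_mem hS3] with p hp
    exact hC₂ p.1 (Ioo_subset_Icc_self hp.1) p.2.1 hp.2.1 p.2.2
  have i2 : IntegrableOn (fun p : ℝ × R3 × R3 => Rr F p.1 p.2.1 p.2.2 * φ p.1 p.2.1 p.2.2)
      (Ioo (0:ℝ) T ×ˢ (cell ×ˢ univ)) := by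
    refine Integrable.mul_bdd (c := C₁) hRi hφc.aestronglyMeasurable ?_
    filter_upwards [ae_restrict_mem hS3] with p hp
    exact hC₁ p.1 (Ioo_subset_Icc_self hp.1) p.2.1 hp.2.1 p.2.2
  have i3 : IntegrableOn (fun q : R3 × R3 => F 0 q.1 q.2 * φ 0 q.1 q.2) (cell ×ˢ univ) := by
    obtain ⟨C, hC, hmass⟩ := wk_mass hU hF (hd T)
    have hF0 : IntegrableOn (fun q : R3 × R3 => F 0 q.1 q.2) (cell ×ˢ univ) :=
      ⟨(hF.meas.comp measurable_const measurable_fst measurable_snd).aestronglyMeasurable,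
        lt_of_le_of_lt (hmass 0 ⟨le_rfl, hT0⟩) hC⟩
    refine Integrable.mul_bdd (c := C₁) hF0
      (hφm.comp measurable_const measurable_fst measurable_snd).aestronglyMeasurable ?_
    filter_upwards [ae_restrict_mem hS] with q hq
    exact hC₁ 0 ⟨le_rfl, hT0⟩ q.1 hq.1 q.2
  refine ⟨?_, ?_, i3, ?_⟩
  · refine i1.of_forall_sdiff_eq_zero hreg fun p hp => ?_
    rw [wk_transportD_zero hzero _ _ _ (Or.inl (hout p hp)), mul_zero]
  · refine i2.of_forall_sdiff_eq_zero hreg fun p hp => ?_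
    rw [hzero _ _ _ (Or.inl (hout p hp).le), mul_zero]
  · set H : ℝ → R3 → R3 → ℝ := fun t x v => F t x v * transportD φ t x v + Rr F t x v * φ t x v
      with hH
    have hHm : MeasT H :=
      Measurable.add (Measurable.mul hF.meas hDm) (Measurable.mul (measurable_Rr hF.meas) hφm)
    have hHp : PerT H := by
      intro t v x i
      have a1 := hF.per t v x i
      have a2 := hDp t v x i
      have a3 := hF.per.Rr t v x i
      have a4 := hφp t v x i
      simp only at a1 a2 a3 a4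
      simp only [hH, a1, a2, a3, a4]
    have hHi : IntegrableOn (fun p : ℝ × R3 × R3 => H p.1 p.2.1 p.2.2)
        (Ioo (0:ℝ) T ×ˢ (cell ×ˢ univ)) := i1.add i2
    have e1 : ∫ p in region, H p.1 p.2.1 p.2.2 =
        ∫ p in Ioo (0:ℝ) T ×ˢ (cell ×ˢ (univ : Set R3)), H p.1 p.2.1 p.2.2 := by
      refine setIntegral_eq_of_subset_of_forall_sdiff_eq_zero hreg hsub fun p hp => ?_
      simp only [hH]
      rw [wk_transportD_zero hzero _ _ _ (Or.inl (hout p hp)), hzero _ _ _ (Or.inl (hout p hp).le)]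
      ring
    have e2 := integral_char hHm hHp (measurableSet_Ioo (a := (0:ℝ)) (b := T))
    have hHi' := wk_integrable_char hHm hHp measurableSet_Ioo hHi
    have e3 : ∫ p in Ioo (0:ℝ) T ×ˢ (cell ×ˢ (univ : Set R3)), H p.1 (p.2.1 + p.1 • p.2.2) p.2.2 =
        ∫ q in cell ×ˢ (univ : Set R3), ∫ s in Ioo (0:ℝ) T, H s (q.1 + s • q.2) q.2 := by
      unfold IntegrableOn at hHi'
      rw [wk_restrict3] at hHi' ⊢
      exact integral_prod_symm _ hHi'
    have e4 : ∫ q in cell ×ˢ (univ : Set R3), ∫ s in Ioo (0:ℝ) T, H s (q.1 + s • q.2) q.2 =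
        ∫ q in cell ×ˢ (univ : Set R3), -(F 0 q.1 q.2 * φ 0 q.1 q.2) := by
      refine integral_congr_ae ?_
      filter_upwards [ae_restrict_of_ae (hm T)] with q hq
      have := wk_one_char (g := fun s => Rr F s (q.1 + s • q.2) q.2)
        (h := fun s => transportD φ s (q.1 + s • q.2) q.2) (f := fun s => F s (q.1 + s • q.2) q.2)
        (u := fun s => φ s (q.1 + s • q.2) q.2) hT0 hq.1
        (fun t ht => by simpa using hq.2 t ht) (wk_hasDerivAt_char hdiff q.1 q.2)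
        (hDc.comp (by fun_prop : Continuous fun s : ℝ => ((s, q.1 + s • q.2, q.2) : ℝ × R3 × R3)))
        (hzero _ _ _ (Or.inl hT1.le))
      simpa [hH] using this
    have e5 : ∫ p in region, H p.1 p.2.1 p.2.2 =
        -∫ q in cell ×ˢ (univ : Set R3), F 0 q.1 q.2 * φ 0 q.1 q.2 := by
      rw [e1, ← e2, e3, e4, integral_neg]
    have e6 : (∫ p in region, H p.1 p.2.1 p.2.2) +
        ∫ q in cell ×ˢ (univ : Set R3), F 0 q.1 q.2 * φ 0 q.1 q.2 = 0 := by
      rw [e5]; ring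
    exact e6

/-- increments of an indefinite integral -/
lemma wk_incr {g : ℝ → ℝ} {T s t : ℝ} (hg : IntegrableOn g (Ioo 0 T)) (hs : s ∈ Icc (0:ℝ) T)
    (ht : t ∈ Icc (0:ℝ) T) :
    ‖(∫ r in Ioo 0 s, g r) - ∫ r in Ioo 0 t, g r‖ₑ ≤ ∫⁻ r in uIoc s t ∩ Ioo 0 T, ‖g r‖ₑ := by
  have hI : IntegrableOn g (Icc 0 T) := (integrableOn_Icc_iff_integrableOn_Ioo).2 hg
  have h1 : ∀ a ∈ Icc (0:ℝ) T, IntervalIntegrable g volume 0 a := fun a ha =>
    (hI.mono_set (by rw [uIcc_of_le ha.1]; exact Icc_subset_Icc_right ha.2)).intervalIntegrable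
  rw [← integral_Ioc_eq_integral_Ioo, ← integral_Ioc_eq_integral_Ioo,
    ← intervalIntegral.integral_of_le hs.1, ← intervalIntegral.integral_of_le ht.1,
    intervalIntegral.integral_interval_sub_left (h1 s hs) (h1 t ht)]
  have h2 : ‖∫ r in t..s, g r‖ₑ = ‖∫ r in uIoc s t, g r‖ₑ := by
    rw [← ofReal_norm, ← ofReal_norm, intervalIntegral.norm_integral_eq_norm_integral_uIoc,
      uIoc_comm]
  rw [h2]
  refine le_trans (enorm_integral_le_lintegral_enorm _) (le_of_eq ?_)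
  refine setLIntegral_congr ?_
  have h3 : uIoc s t ⊆ Ioc 0 T := by
    intro r hr
    rw [mem_uIoc] at hr
    rcases hr with hr | hr
    · exact ⟨lt_of_le_of_lt hs.1 hr.1, hr.2.trans ht.2⟩
    · exact ⟨lt_of_le_of_lt ht.1 hr.1, hr.2.trans hs.2⟩
  have h4 : (uIoc s t ∩ Ioo 0 T : Set ℝ) =ᵐ[volume] (uIoc s t ∩ Ioc 0 T : Set ℝ) :=
    ae_eq_set_inter (ae_eq_refl _) Ioo_ae_eq_Ioc
  rw [inter_eq_left.2 h3] at h4
  exact h4.symm

theorem mild_cont {U : TF} (hU : Good U) {F : ℝ → R3 → R3 → ℝ} (hF : Dens F)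
    (hm : ∀ T, Mild 0 T F) (hd : ∀ T, DomOn T F U) (t : ℝ) (ht : 0 ≤ t) :
    Tendsto (fun s => ∫⁻ q in cell ×ˢ univ, ‖F s q.1 q.2 - F t q.1 q.2‖ₑ ∂(volume : Measure (R3 × R3)))
      (nhdsWithin t (Ici 0)) (nhds 0) := by
  set T : ℝ := t + 1 with hT
  have htT : t ∈ Icc (0:ℝ) T := ⟨ht, by linarith⟩
  set μ : Measure (R3 × R3) := (volume : Measure (R3 × R3)).restrict (cell ×ˢ univ) with hμ
  have hFm : ∀ s, MeasP (F s) := fun s => hF.meas.comp measurable_const measurable_fst measurable_snd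
  have hFp : ∀ s, PerP (F s) := fun s v => hF.per s v
  -- the shear part
  obtain ⟨C, hC, hmass⟩ := wk_mass hU hF (hd T)
  have hA0 := wk_shear_cell (hFm t) (hFp t) (lt_of_le_of_lt (hmass t htT) hC)
  have hA : Tendsto (fun s : ℝ => ∫⁻ q, ‖F t (q.1 + (t - s) • q.2) q.2 - F t q.1 q.2‖ₑ ∂μ)
      (𝓝[Ici 0] t) (𝓝 0) := by
    have h1 : Tendsto (fun s : ℝ => t - s) (𝓝[Ici 0] t) (𝓝 0) := by
      have : Tendsto (fun s : ℝ => t - s) (𝓝 t) (𝓝 (t - t)) :=
        (continuous_const.sub continuous_id).tendsto t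
      rw [sub_self] at this
      exact this.mono_left nhdsWithin_le_nhds
    exact hA0.comp h1
  -- the collision part
  have hRm : MeasT (fun r x v => ‖Rr F r x v‖ₑ) := Measurable.enorm (measurable_Rr hF.meas)
  have hRp : PerT (fun r x v => ‖Rr F r x v‖ₑ) := fun r v x i =>
    congrArg (fun y : ℝ => ‖y‖ₑ) (hF.per.Rr r v x i)
  have hRc := wk_meas_char hRm
  set G : ℝ → ℝ≥0∞ := fun r => ∫⁻ q, ‖Rr F r (q.1 + r • q.2) q.2‖ₑ ∂μ with hG
  have hGfin : ∫⁻ r in Ioo (0:ℝ) T, G r ≠ ⊤ := by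
    have h1 := lintegral_char hRm hRp (measurableSet_Ioo (a := (0:ℝ)) (b := T))
    have h2 := lt_of_eq_of_lt h1 (wk_Rr_lt_top hU hF (hd T))
    rw [wk_restrict3, lintegral_prod _ hRc.aemeasurable] at h2
    exact h2.ne
  have hB : Tendsto (fun s : ℝ => ∫⁻ r in uIoc s t, G r ∂(volume.restrict (Ioo (0:ℝ) T)))
      (𝓝[Ici 0] t) (𝓝 0) := by
    refine tendsto_setLIntegral_zero hGfin ?_
    have h1 : Tendsto (fun s : ℝ => ENNReal.ofReal |t - s|) (𝓝[Ici 0] t) (𝓝 0) := by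
      have : Tendsto (fun s : ℝ => ENNReal.ofReal |t - s|) (𝓝 t) (𝓝 (ENNReal.ofReal |t - t|)) :=
        (ENNReal.continuous_ofReal.comp (continuous_const.sub continuous_id).abs).tendsto t
      rw [sub_self, abs_zero, ENNReal.ofReal_zero] at this
      exact this.mono_left nhdsWithin_le_nhds
    refine tendsto_of_tendsto_of_tendsto_of_le_of_le tendsto_const_nhds h1 (fun _ => zero_le)
      fun s => ?_
    exact le_trans (Measure.restrict_apply_le _ _) (le_of_eq Real.volume_uIoc)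
  have hsum := hB.add hA
  rw [add_zero] at hsum
  refine tendsto_of_tendsto_of_tendsto_of_le_of_le' tendsto_const_nhds hsum
    (Eventually.of_forall fun _ => zero_le) ?_
  have hev : ∀ᶠ s in 𝓝[Ici 0] t, s ∈ Icc (0:ℝ) T := by
    filter_upwards [self_mem_nhdsWithin,
      mem_nhdsWithin_of_mem_nhds (gt_mem_nhds (show t < T by linarith))] with s h1 h2
    exact ⟨h1, le_of_lt h2⟩
  filter_upwards [hev] with s hs
  have m1 : MeasP (fun x v => ‖F s x v - F t (x + (t - s) • v) v‖ₑ) :=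
    Measurable.enorm (Measurable.sub (hFm s)
      (hF.meas.comp measurable_const (by fun_prop) measurable_snd))
  have p1 : PerP (fun x v => ‖F s x v - F t (x + (t - s) • v) v‖ₑ) := by
    intro v x i
    have a1 := hF.per s v x i
    have a2 := hF.per t v (x + (t - s) • v) i
    simp only at a1 a2
    simp only [a1]
    rw [add_right_comm, a2]
  have step1 : ∫⁻ q, ‖F s q.1 q.2 - F t q.1 q.2‖ₑ ∂μ ≤
      (∫⁻ q, ‖F s q.1 q.2 - F t (q.1 + (t - s) • q.2) q.2‖ₑ ∂μ) +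
        ∫⁻ q, ‖F t (q.1 + (t - s) • q.2) q.2 - F t q.1 q.2‖ₑ ∂μ := by
    rw [← lintegral_add_left m1]
    refine lintegral_mono fun q => ?_
    have : F s q.1 q.2 - F t q.1 q.2 = (F s q.1 q.2 - F t (q.1 + (t - s) • q.2) q.2) +
        (F t (q.1 + (t - s) • q.2) q.2 - F t q.1 q.2) := by ring
    rw [this]
    exact enorm_add_le _ _
  refine le_trans step1 (add_le_add ?_ le_rfl)
  have step2 := lintegral_phase_shift m1 p1 s
  rw [hμ, ← step2, ← hμ]
  have step3 : ∫⁻ q, ‖F s (q.1 + s • q.2) q.2 - F t (q.1 + s • q.2 + (t - s) • q.2) q.2‖ₑ ∂μ ≤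
      ∫⁻ q, (∫⁻ r in uIoc s t ∩ Ioo 0 T, ‖Rr F r (q.1 + r • q.2) q.2‖ₑ) ∂μ := by
    refine lintegral_mono_ae ?_
    filter_upwards [ae_restrict_of_ae (hm T)] with q hq
    have e : q.1 + s • q.2 + (t - s) • q.2 = q.1 + t • q.2 := by
      rw [add_assoc, ← add_smul]; congr 2; ring
    rw [e, hq.2 s hs, hq.2 t htT, add_sub_add_left_eq_sub]
    exact wk_incr hq.1 hs htT
  refine le_trans step3 (le_of_eq ?_)
  rw [Measure.restrict_restrict measurableSet_uIoc]
  exact (lintegral_lintegral_swap (μ := volume.restrict (uIoc s t ∩ Ioo 0 T)) (ν := μ)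
    (f := fun r q => ‖Rr F r (q.1 + r • q.2) q.2‖ₑ) hRc.aemeasurable).symm

end Crest.Agent.R068
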