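import Crest.Agent.R068.Ent0

/-! Row 68: auxiliary lemmas for `Weak.lean` (shear continuity in `L¹`, test functions). -/

set_option autoImplicit false
open MeasureTheory Set Filter Topology
open scoped ENNReal ContDiff
open Crest.AnalysisR.VecCalc3 Crest.AnalysisR.PDE.Boltzmann

namespace Crest.Agent.R068

/-- the shear as a continuous family of continuous maps -/
noncomputable def wkShear : C(ℝ, C(R3 × R3, R3 × R3)) :=
  ContinuousMap.curry ⟨fun p : ℝ × (R3 × R3) => (p.2.1 + p.1 • p.2.2, p.2.2), by fun_prop⟩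

lemma wkShear_apply (h : ℝ) (q : R3 × R3) : wkShear h q = (q.1 + h • q.2, q.2) := rfl

lemma wk_shear_mp (h : ℝ) : MeasurePreserving (wkShear h) (volume : Measure (R3 × R3)) volume :=
  measurePreserving_shear h

/-- continuity of the shear in `L¹(ℝ³ × ℝ³)` -/
lemma wk_shear_L1 {g : R3 × R3 → ℝ} (hg : Integrable g) :
    Tendsto (fun h : ℝ => ∫⁻ q : R3 × R3, ‖g (q.1 + h • q.2, q.2) - g q‖ₑ) (𝓝 0) (𝓝 0) := by
  set G : Lp ℝ 1 (volume : Measure (R3 × R3)) := hg.toL1 g with hG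
  have hc : Continuous (fun h : ℝ => Lp.compMeasurePreserving (wkShear h) (wk_shear_mp h) G) :=
    Continuous.compMeasurePreservingLp continuous_const wkShear.continuous wk_shear_mp
      ENNReal.one_ne_top
  have hGg : (G : R3 × R3 → ℝ) =ᵐ[volume] g := hg.coeFn_toL1
  have key : ∀ h : ℝ, ∫⁻ q : R3 × R3, ‖g (q.1 + h • q.2, q.2) - g q‖ₑ =
      ‖Lp.compMeasurePreserving (wkShear h) (wk_shear_mp h) G - G‖ₑ := by
    intro h
    rw [Lp.enorm_def, eLpNorm_one_eq_lintegral_enorm]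
    refine lintegral_congr_ae ?_
    have h1 := Lp.coeFn_sub (Lp.compMeasurePreserving (wkShear h) (wk_shear_mp h) G) G
    have h2 := Lp.coeFn_compMeasurePreserving G (wk_shear_mp h)
    have h3 := (wk_shear_mp h).quasiMeasurePreserving.ae_eq_comp hGg
    filter_upwards [h1, h2, h3, hGg] with q e1 e2 e3 e4
    rw [e1, Pi.sub_apply, e2, e3, e4]
    rfl
  have h0 : ∫⁻ q : R3 × R3, ‖g (q.1 + (0:ℝ) • q.2, q.2) - g q‖ₑ = 0 := by simp
  have ht : Continuous (fun h : ℝ =>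
      ‖Lp.compMeasurePreserving (wkShear h) (wk_shear_mp h) G - G‖ₑ) :=
    (hc.sub continuous_const).enorm
  have ht2 : Continuous (fun h : ℝ => ∫⁻ q : R3 × R3, ‖g (q.1 + h • q.2, q.2) - g q‖ₑ) :=
    ht.congr fun h => (key h).symm
  have ht3 := ht2.tendsto 0
  rwa [h0] at ht3

lemma wk_point {f : R3 → ℝ} (hp : IsPeriodic3 f) (x a : R3) :
    ‖f (x + a) - f x‖ₑ ≤ ∑' k : Fin 3 → ℤ,
      ‖cell.indicator f (x - lat k + a) - cell.indicator f (x - lat k)‖ₑ := by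
  obtain ⟨k₁, h₁⟩ := exists_lat_cell (x + a)
  obtain ⟨k₀, h₀⟩ := exists_lat_cell x
  have e : ∀ k, x - lat k + a = x + a - lat k := fun k => by abel
  by_cases c1 : x - lat k₁ ∈ cell
  · refine le_trans (le_of_eq ?_) (ENNReal.le_tsum k₁)
    rw [e, indicator_of_mem h₁, indicator_of_mem c1, per_sub_lat hp, per_sub_lat hp]
  by_cases c0 : x + a - lat k₀ ∈ cell
  · refine le_trans (le_of_eq ?_) (ENNReal.le_tsum k₀)
    rw [e, indicator_of_mem h₀, indicator_of_mem c0, per_sub_lat hp, per_sub_lat hp]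
  have hne : k₁ ≠ k₀ := by
    rintro rfl
    exact c1 h₀
  classical
  refine le_trans ?_ (ENNReal.sum_le_tsum {k₁, k₀})
  rw [Finset.sum_pair hne, e, e, indicator_of_mem h₁, indicator_of_notMem c1, indicator_of_mem h₀,
    indicator_of_notMem c0, per_sub_lat hp, per_sub_lat hp, sub_zero, zero_sub, enorm_neg]
  exact enorm_sub_le

lemma wk_restrict : (volume : Measure (R3 × R3)).restrict (cell ×ˢ univ) =
    ((volume : Measure R3).restrict cell).prod volume := by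
  rw [Measure.volume_eq_prod, ← Measure.prod_restrict, Measure.restrict_univ]

/-- continuity of the shear in `L¹(cell × ℝ³)` for periodic functions -/
lemma wk_shear_cell {f : R3 → R3 → ℝ} (hf : MeasP f) (hp : PerP f)
    (hi : (∫⁻ q in cell ×ˢ univ, ‖f q.1 q.2‖ₑ ∂(volume : Measure (R3 × R3))) < ⊤) :
    Tendsto (fun h : ℝ => ∫⁻ q in cell ×ˢ univ, ‖f (q.1 + h • q.2) q.2 - f q.1 q.2‖ₑ
      ∂(volume : Measure (R3 × R3))) (𝓝 0) (𝓝 0) := by
  have hS : MeasurableSet (cell ×ˢ (univ : Set R3)) := measurableSet_cell.prod MeasurableSet.univ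
  set g : R3 × R3 → ℝ := (cell ×ˢ (univ : Set R3)).indicator (fun q => f q.1 q.2) with hgdef
  have hgm : Measurable g := Measurable.indicator hf hS
  have hg : Integrable g := by
    rw [hgdef, integrable_indicator_iff hS]
    exact ⟨Measurable.aestronglyMeasurable hf, hi⟩
  have hgx : ∀ x v, g (x, v) = cell.indicator (fun y => f y v) x := by
    intro x v
    by_cases hx : x ∈ cell
    · rw [hgdef, indicator_of_mem hx, indicator_of_mem (mk_mem_prod hx (mem_univ v))]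
    · rw [hgdef, indicator_of_notMem hx, indicator_of_notMem (fun h => hx h.1)]
  refine tendsto_of_tendsto_of_tendsto_of_le_of_le tendsto_const_nhds (wk_shear_L1 hg)
    (fun _ => zero_le) fun h => ?_
  have hm1 : Measurable (fun q : R3 × R3 => ‖g (q.1 + h • q.2, q.2) - g q‖ₑ) :=
    ((hgm.comp (by fun_prop)).sub hgm).enorm
  have hm2 : Measurable (fun q : R3 × R3 => ‖f (q.1 + h • q.2) q.2 - f q.1 q.2‖ₑ) := by
    have h1 : Measurable (fun q : R3 × R3 => f (q.1 + h • q.2) q.2) :=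
      Measurable.comp (g := fun q : R3 × R3 => f q.1 q.2) (f := fun q : R3 × R3 => (q.1 + h • q.2, q.2))
        hf (by fun_prop)
    exact (h1.sub hf).enorm
  have e1 : (∫⁻ q in cell ×ˢ univ, ‖f (q.1 + h • q.2) q.2 - f q.1 q.2‖ₑ
      ∂(volume : Measure (R3 × R3))) = ∫⁻ v, ∫⁻ x in cell, ‖f (x + h • v) v - f x v‖ₑ := by
    rw [wk_restrict, lintegral_prod_symm' _ hm2]
  have e2 : (∫⁻ q : R3 × R3, ‖g (q.1 + h • q.2, q.2) - g q‖ₑ) =
      ∫⁻ v, ∫⁻ x, ‖g (x + h • v, v) - g (x, v)‖ₑ := by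
    rw [Measure.volume_eq_prod, lintegral_prod_symm' _ hm1]
  refine e1.trans_le (le_trans (lintegral_mono fun v => ?_) e2.ge)
  have hm3 : Measurable (fun x : R3 => ‖g (x + h • v, v) - g (x, v)‖ₑ) :=
    ((hgm.comp (by fun_prop : Measurable fun x : R3 => (x + h • v, v))).sub
      (hgm.comp (by fun_prop : Measurable fun x : R3 => (x, v)))).enorm
  refine le_trans (lintegral_mono fun x => ?_) (lintegral_cell_tsum hm3).le
  have := wk_point (hp v) x (h • v)
  simp only [← hgx] at this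
  exact this

/-- the mass of a dominated density is bounded -/
lemma wk_mass {U : TF} (hU : Good U) {F : ℝ → R3 → R3 → ℝ} (hF : Dens F) {T : ℝ}
    (hd : DomOn T F U) : ∃ C : ℝ≥0∞, C < ⊤ ∧ ∀ t ∈ Icc (0:ℝ) T,
      (∫⁻ q in cell ×ˢ univ, ‖F t q.1 q.2‖ₑ ∂(volume : Measure (R3 × R3))) ≤ C := by
  obtain ⟨C, hC, h⟩ := ent_bound hU hF hd
  refine ⟨C, hC, fun t ht => le_trans (lintegral_mono fun q => ?_) (h t ht)⟩
  have h0 := hF.nonneg t q.1 q.2
  rw [Real.enorm_eq_ofReal h0]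
  refine ENNReal.ofReal_le_ofReal ?_
  have : 0 ≤ ‖q.2‖ ^ 2 + |Real.log (F t q.1 q.2)| := by positivity
  nlinarith

lemma wk_enorm_Rr (F : ℝ → R3 → R3 → ℝ) (t : ℝ) (x v : R3) :
    ‖Rr F t x v‖ₑ ≤ collGain F t x v + collLoss F t x v := by
  refine le_trans enorm_sub_le (add_le_add ?_ ?_)
  · rw [Real.enorm_eq_ofReal ENNReal.toReal_nonneg]; exact ENNReal.ofReal_toReal_le
  · rw [Real.enorm_eq_ofReal ENNReal.toReal_nonneg]; exact ENNReal.ofReal_toReal_le

lemma wk_Rr_lt_top {U : TF} (hU : Good U) {F : ℝ → R3 → R3 → ℝ} (hF : Dens F) {T : ℝ}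
    (hd : DomOn T F U) :
    (∫⁻ p in Ioo (0:ℝ) T ×ˢ (cell ×ˢ univ), ‖Rr F p.1 p.2.1 p.2.2‖ₑ
      ∂(volume : Measure (ℝ × R3 × R3))) < ⊤ := by
  refine lt_of_le_of_lt (lintegral_mono fun p => ?_) (coll_weight_lt_top hU hF hd 0)
  simpa using wk_enorm_Rr F p.1 p.2.1 p.2.2

lemma wk_restrict3 (I : Set ℝ) : (volume : Measure (ℝ × R3 × R3)).restrict (I ×ˢ (cell ×ˢ univ)) =
    ((volume : Measure ℝ).restrict I).prod
      ((volume : Measure (R3 × R3)).restrict (cell ×ˢ univ)) := by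
  rw [Measure.volume_eq_prod, ← Measure.prod_restrict]

lemma wk_F_lt_top {U : TF} (hU : Good U) {F : ℝ → R3 → R3 → ℝ} (hF : Dens F) {T : ℝ}
    (hd : DomOn T F U) :
    (∫⁻ p in Ioo (0:ℝ) T ×ˢ (cell ×ˢ univ), ‖F p.1 p.2.1 p.2.2‖ₑ
      ∂(volume : Measure (ℝ × R3 × R3))) < ⊤ := by
  obtain ⟨C, hC, h⟩ := wk_mass hU hF hd
  have hm : Measurable (fun p : ℝ × R3 × R3 => ‖F p.1 p.2.1 p.2.2‖ₑ) := Measurable.enorm hF.meas
  rw [wk_restrict3, lintegral_prod _ hm.aemeasurable]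
  calc ∫⁻ t in Ioo (0:ℝ) T, ∫⁻ q in cell ×ˢ univ, ‖F t q.1 q.2‖ₑ ∂(volume : Measure (R3 × R3))
      ≤ ∫⁻ _ in Ioo (0:ℝ) T, C :=
        setLIntegral_mono' measurableSet_Ioo fun t ht => h t (Ioo_subset_Icc_self ht)
    _ < ⊤ := by
        rw [setLIntegral_const, Real.volume_Ioo]
        exact ENNReal.mul_lt_top hC ENNReal.ofReal_lt_top

/-! ### test functions -/

lemma wk_transportD_eq {φ : ℝ → R3 → R3 → ℝ}
    (hφ : Differentiable ℝ (fun p : ℝ × R3 × R3 => φ p.1 p.2.1 p.2.2)) (t : ℝ) (x v : R3) :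
    transportD φ t x v =
      fderiv ℝ (fun p : ℝ × R3 × R3 => φ p.1 p.2.1 p.2.2) (t, x, v) ((1:ℝ), v, (0:R3)) := by
  set Φ : ℝ × R3 × R3 → ℝ := fun p => φ p.1 p.2.1 p.2.2 with hΦ
  set L := fderiv ℝ Φ (t, x, v) with hL
  have hd : HasFDerivAt Φ L (t, x, v) := (hφ _).hasFDerivAt
  have h1 : HasDerivAt (fun s : ℝ => φ s x v) (L ((1:ℝ), (0:R3), (0:R3))) t := by
    have hc : HasDerivAt (fun s : ℝ => ((s, x, v) : ℝ × R3 × R3)) ((1:ℝ), (0:R3), (0:R3)) t :=
      (hasDerivAt_id t).prodMk (hasDerivAt_const t (x, v))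
    exact hd.comp_hasDerivAt t hc
  have h2 : HasFDerivAt (fun y : R3 => φ t y v)
      (L.comp ((0 : R3 →L[ℝ] ℝ).prod ((ContinuousLinearMap.id ℝ R3).prod (0 : R3 →L[ℝ] R3)))) x := by
    have hc : HasFDerivAt (fun y : R3 => ((t, y, v) : ℝ × R3 × R3))
        ((0 : R3 →L[ℝ] ℝ).prod ((ContinuousLinearMap.id ℝ R3).prod (0 : R3 →L[ℝ] R3))) x :=
      (hasFDerivAt_const t x).prodMk ((hasFDerivAt_id x).prodMk (hasFDerivAt_const v x))
    exact HasFDerivAt.comp x (f := fun y : R3 => ((t, y, v) : ℝ × R3 × R3)) hd hc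
  unfold transportD pderiv
  rw [h1.deriv, h2.fderiv]
  have h3 : ∑ i : Fin 3, v i * (L.comp ((0 : R3 →L[ℝ] ℝ).prod
      ((ContinuousLinearMap.id ℝ R3).prod (0 : R3 →L[ℝ] R3)))) (EuclideanSpace.single i (1:ℝ)) =
      (L.comp ((0 : R3 →L[ℝ] ℝ).prod
      ((ContinuousLinearMap.id ℝ R3).prod (0 : R3 →L[ℝ] R3)))) v := by
    have hv : v = ∑ i : Fin 3, v i • EuclideanSpace.single i (1:ℝ) := by
      ext j
      simp [Finset.sum_apply, Pi.single_apply]
    conv_rhs => rw [hv]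
    rw [map_sum]
    simp only [map_smul, smul_eq_mul]
  rw [h3]
  simp only [ContinuousLinearMap.comp_apply, ContinuousLinearMap.prod_apply,
    zero_apply, ContinuousLinearMap.id_apply]
  rw [← map_add]
  simp

lemma wk_transportD_cont {φ : ℝ → R3 → R3 → ℝ}
    (hφ : ContDiff ℝ ∞ (fun p : ℝ × R3 × R3 => φ p.1 p.2.1 p.2.2)) :
    Continuous (fun p : ℝ × R3 × R3 => transportD φ p.1 p.2.1 p.2.2) := by
  have hd := hφ.differentiable (by simp)
  have : (fun p : ℝ × R3 × R3 => transportD φ p.1 p.2.1 p.2.2) = fun p : ℝ × R3 × R3 =>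
      fderiv ℝ (fun p : ℝ × R3 × R3 => φ p.1 p.2.1 p.2.2) p ((1:ℝ), p.2.2, (0:R3)) := by
    funext p; exact wk_transportD_eq hd p.1 p.2.1 p.2.2
  rw [this]
  exact (hφ.continuous_fderiv (by simp)).clm_apply (by fun_prop)

lemma wk_hasDerivAt_char {φ : ℝ → R3 → R3 → ℝ}
    (hφ : Differentiable ℝ (fun p : ℝ × R3 × R3 => φ p.1 p.2.1 p.2.2)) (x v : R3) (s : ℝ) :
    HasDerivAt (fun r : ℝ => φ r (x + r • v) v) (transportD φ s (x + s • v) v) s := by
  rw [wk_transportD_eq hφ]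
  have hc : HasDerivAt (fun r : ℝ => ((r, x + r • v, v) : ℝ × R3 × R3)) ((1:ℝ), v, (0:R3)) s := by
    refine (hasDerivAt_id s).prodMk (HasDerivAt.prodMk ?_ (hasDerivAt_const s v))
    simpa using ((hasDerivAt_id s).smul_const v).const_add x
  exact (hφ _).hasFDerivAt.comp_hasDerivAt s hc

lemma wk_transportD_per {φ : ℝ → R3 → R3 → ℝ} (hp : PerT φ) : PerT (transportD φ) := by
  intro t v x i
  unfold transportD pderiv
  have e1 : (fun s => φ s (x + EuclideanSpace.single i 1) v) = fun s => φ s x v :=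
    funext fun s => hp s v x i
  have e2 : fderiv ℝ (fun y => φ t y v) (x + EuclideanSpace.single i 1) =
      fderiv ℝ (fun y => φ t y v) x := by
    rw [← fderiv_comp_add_right]
    congr 1
    funext y
    exact hp t v y i
  simp only [e1, e2]

lemma wk_transportD_zero {φ : ℝ → R3 → R3 → ℝ} {T R : ℝ}
    (h : ∀ t x v, (T ≤ t ∨ R ≤ ‖v‖) → φ t x v = 0) (t : ℝ) (x v : R3) (hh : T < t ∨ R ≤ ‖v‖) :
    transportD φ t x v = 0 := by
  unfold transportD pderiv
  have e2 : (fun y => φ t y v) = fun _ => 0 :=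
    funext fun y => h t y v (hh.imp le_of_lt id)
  have e1 : (fun s => φ s x v) =ᶠ[𝓝 t] fun _ => 0 := by
    rcases hh with hh | hh
    · filter_upwards [lt_mem_nhds hh] with s hs using h s x v (Or.inl hs.le)
    · exact Eventually.of_forall fun s => h s x v (Or.inr hh)
  rw [e1.deriv_eq, e2]
  simp

/-- a continuous function vanishing for large velocities is bounded on `[0,T] × cell × ℝ³` -/
lemma wk_bdd {ψ : ℝ → R3 → R3 → ℝ} (hc : Continuous (fun p : ℝ × R3 × R3 => ψ p.1 p.2.1 p.2.2))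
    {R : ℝ} (h : ∀ t x v, R ≤ ‖v‖ → ψ t x v = 0) (T : ℝ) :
    ∃ C : ℝ, ∀ t ∈ Icc (0:ℝ) T, ∀ x ∈ cell, ∀ v, ‖ψ t x v‖ ≤ C := by
  have hK : IsCompact (Icc (0:ℝ) T ×ˢ (Metric.closedBall (0:R3) 2 ×ˢ Metric.closedBall (0:R3) R)) :=
    isCompact_Icc.prod ((isCompact_closedBall _ _).prod (isCompact_closedBall _ _))
  obtain ⟨C, hC⟩ := hK.exists_bound_of_continuousOn hc.continuousOn
  refine ⟨max C 0, fun t ht x hx v => ?_⟩
  by_cases hv : R ≤ ‖v‖
  · rw [h t x v hv]; simp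
  · refine le_trans (hC (t, x, v) ⟨ht, ?_, ?_⟩) (le_max_left _ _)
    · simpa using norm_le_of_mem_cell hx
    · simpa using (not_le.1 hv).le

end Crest.Agent.R068
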